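/-
Row 269, P1 Section 8, LIBRARY (HOST-FREE, Mathlib only): mean value inequalities on discs and rectangles, row shift.   Blueprint: helper48.

LEAF PACKAGES (fill the `sorry`s IN PLACE, auxiliary lemmas above the statement with prefix `s8_`; do not change a statement without telling helper48):
  LF-S8-mean-a : `s8_polar`, `s8_ball_le_rect`, `s8_submean_rect`, `s8_norm_submean`
  LF-S8-mean-b : `s8_deriv_le_circle_im`, `s8_deriv_le_ball_im`, `s8_row_shift`

PROOFS.
* `s8_polar`: `Complex.lintegral_comp_polarCoord_symm` (or `lintegral_comp_polarCoord_symm` + `Complex.measurableEquivRealProd`) for `z ↦ indicator (ball 0 r) (F (c + z))`,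
  translation invariance of `volume` on `ℂ`, `polarCoord.target = Ioi 0 ×ˢ Ioo (-π) π`, Tonelli (`lintegral_prod`), `‖ρ e^{iθ}‖ = ρ`.
* `s8_ball_le_rect` (ANY `F`, no measurability): choose a measurable `G ≤ indicator (ball c r) F` with the same integral (`exists_measurable_le_lintegral_eq`);
  `volume` on `ℂ` is the product measure (`Complex.volume_preserving_equiv_real_prod`), Tonelli for `G`, then monotonicity of the iterated `lintegral`
  (`G ⟨x+u,y⟩ ≤ F ⟨x+u,y⟩`, and `G = 0` off the rectangle), translation `u ↦ x + u`.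
* `s8_submean_rect`: by `s8_polar` for `indicator (closedBall c r) (ofReal ∘ g)` (measurable: `g` continuous on the closed ball):
  `∫⁻_{ball} ofReal g = ∫⁻_ρ ρ ∫⁻_θ ofReal (g (c + ρ e^{iθ})) ≥ ∫⁻_ρ ρ ofReal (2π g c) = π r² ofReal (g c)`
  (`ofReal (∫ φ) ≤ ∫⁻ ofReal φ`; `circleAverage g c ρ = (2π)⁻¹ ∫_0^{2π} g (circleMap c ρ θ)`, period shift to `(-π,π)`); then `s8_ball_le_rect`.
* `s8_norm_submean`: `DiffContOnCl.circleAverage` and `norm_integral_le_integral_norm`.
* `s8_deriv_le_circle_im`: `V'(c) = (2πρ)⁻¹ ∫ V(c+ρe^{iθ}) e^{-iθ} dθ` (Cauchy formula for the derivative: `Complex.two_pi_I_inv_smul_circleIntegral_sub_sq_inv_smul_of_differentiable` /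
  `DiffContOnCl.deriv_eq_...`), `0 = ∫ V(c+ρe^{iθ}) e^{iθ} dθ` (Cauchy-Goursat `DiffContOnCl.circleIntegral_eq_zero`), conjugate the second and subtract:
  `2 i ∫ Im V e^{-iθ} dθ = 2πρ V'(c)`.
* `s8_deriv_le_ball_im`: multiply `s8_deriv_le_circle_im` (on the circle of radius `ρ < r`) by `ρ²`, integrate over `ρ ∈ (0,r)`: `‖V'(c)‖ r³/3 ≤ π⁻¹ ∫_{ball} |Im V|` (`s8_polar`).
* `s8_row_shift`: `Complex.integral_boundary_rect_eq_zero_of_differentiableOn` on `[0,2π] × [h₁,h₂]` (the function is differentiable on a neighbourhood of each point of the closed rectangle);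
  the two vertical sides cancel by periodicity.
-/
import Mathlib

set_option autoImplicit false

namespace Claimed.Agent.R269

open Complex MeasureTheory Set Metric Filter Topology
open scoped ENNReal Real

/-- polar coordinates on a disc. -/
theorem s8_polar (F : ℂ → ℝ≥0∞) (hF : Measurable F) (c : ℂ) (r : ℝ) :
    ∫⁻ z in ball c r, F z =
      ∫⁻ ρ in Ioo 0 r, ENNReal.ofReal ρ *
        ∫⁻ θ in Ioo (-π) π, F (c + (ρ : ℂ) * Complex.exp ((θ : ℂ) * I)) := by
  have h1 : ∫⁻ z in ball c r, F z = ∫⁻ z, (ball (0 : ℂ) r).indicator (fun z => F (c + z)) z := by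
    rw [← lintegral_indicator measurableSet_ball]
    rw [← lintegral_add_left_eq_self _ c]
    apply lintegral_congr
    intro z
    by_cases hz : z ∈ ball (0 : ℂ) r
    · have : c + z ∈ ball c r := by
        simpa [mem_ball, dist_eq_norm] using hz
      rw [indicator_of_mem this, indicator_of_mem hz]
    · have : c + z ∉ ball c r := by
        simpa [mem_ball, dist_eq_norm] using hz
      rw [indicator_of_notMem this, indicator_of_notMem hz]
  rw [h1, ← Complex.lintegral_comp_polarCoord_symm]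
  rw [polarCoord_target, Measure.volume_eq_prod, ← Measure.prod_restrict]
  have hmeas : Measurable (fun p : ℝ × ℝ => ENNReal.ofReal p.1 •
      (ball (0 : ℂ) r).indicator (fun z => F (c + z)) (Complex.polarCoord.symm p)) := by
    have h2 : Measurable (fun p : ℝ × ℝ => Complex.polarCoord.symm p) := by
      have : (fun p : ℝ × ℝ => Complex.polarCoord.symm p)
          = fun p : ℝ × ℝ => (p.1 : ℂ) * (Real.cos p.2 + Real.sin p.2 * I) := by
        funext p
        rw [Complex.polarCoord_symm_apply]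
      rw [this]
      fun_prop
    have h3 : Measurable ((ball (0 : ℂ) r).indicator (fun z => F (c + z))) :=
      (hF.comp (measurable_const_add c)).indicator measurableSet_ball
    exact (ENNReal.measurable_ofReal.comp measurable_fst).smul (h3.comp h2)
  rw [lintegral_prod _ hmeas.aemeasurable]
  have h4 : ∀ ρ ∈ Ioi (0 : ℝ), (∫⁻ θ in Ioo (-π) π, ENNReal.ofReal ρ •
      (ball (0 : ℂ) r).indicator (fun z => F (c + z)) (Complex.polarCoord.symm (ρ, θ)))
      = (Ioo 0 r).indicator (fun ρ => ENNReal.ofReal ρ *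
        ∫⁻ θ in Ioo (-π) π, F (c + (ρ : ℂ) * Complex.exp ((θ : ℂ) * I))) ρ := by
    intro ρ hρ
    have hρ0 : (0 : ℝ) < ρ := hρ
    have hsym : ∀ θ : ℝ, Complex.polarCoord.symm (ρ, θ) = (ρ : ℂ) * Complex.exp ((θ : ℂ) * I) := by
      intro θ
      rw [Complex.polarCoord_symm_apply, Complex.exp_mul_I]
      simp
    have hn : ∀ θ : ℝ, ‖(ρ : ℂ) * Complex.exp ((θ : ℂ) * I)‖ = ρ := by
      intro θ
      rw [norm_mul, Complex.norm_exp_ofReal_mul_I, mul_one, Complex.norm_real,
        Real.norm_of_nonneg hρ0.le]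
    by_cases hr : ρ < r
    · have hmem : ρ ∈ Ioo 0 r := ⟨hρ0, hr⟩
      rw [indicator_of_mem hmem]
      rw [← lintegral_const_mul' _ _ ENNReal.ofReal_ne_top]
      apply lintegral_congr
      intro θ
      rw [hsym, indicator_of_mem (by rw [mem_ball_zero_iff, hn]; exact hr), smul_eq_mul]
    · have hmem : ρ ∉ Ioo 0 r := fun h => hr h.2
      rw [indicator_of_notMem hmem]
      rw [lintegral_eq_zero_iff' (by
        have := hmeas.comp (measurable_prodMk_left (x := ρ))
        exact this.aemeasurable)]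
      refine Filter.Eventually.of_forall fun θ => ?_
      show ENNReal.ofReal ρ • (ball (0 : ℂ) r).indicator (fun z => F (c + z))
        (Complex.polarCoord.symm (ρ, θ)) = 0
      rw [hsym, indicator_of_notMem (by rw [mem_ball_zero_iff, hn]; exact hr), smul_zero]
  rw [setLIntegral_congr_fun measurableSet_Ioi h4]
  rw [setLIntegral_indicator measurableSet_Ioo]
  congr 2
  ext ρ
  constructor
  · intro h; exact h.1
  · intro h; exact ⟨h, h.1⟩

/-- the integral over a disc is at most the iterated integral over a rectangle containing it (no measurability needed). -/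
theorem s8_ball_le_rect (F : ℂ → ℝ≥0∞) (c : ℂ) (r x w y₁ y₂ : ℝ)
    (hsub : ∀ z ∈ ball c r, |z.re - x| ≤ w ∧ y₁ ≤ z.im ∧ z.im ≤ y₂) :
    ∫⁻ z in ball c r, F z ≤ ∫⁻ u in Icc (-w) w, ∫⁻ y in Icc y₁ y₂, F ⟨x + u, y⟩ := by
  rw [← lintegral_indicator measurableSet_ball]
  obtain ⟨G, hGm, hGle, hGeq⟩ :=
    exists_measurable_le_lintegral_eq (volume : Measure ℂ) ((ball c r).indicator F)
  rw [hGeq]
  have h1 : ∫⁻ z, G z = ∫⁻ p : ℝ × ℝ, G (Complex.measurableEquivRealProd.symm p) := by
    rw [← (Complex.volume_preserving_equiv_real_prod.symm).lintegral_comp_emb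
      Complex.measurableEquivRealProd.symm.measurableEmbedding]
  have hGm' : Measurable (fun p : ℝ × ℝ => G (Complex.measurableEquivRealProd.symm p)) :=
    hGm.comp Complex.measurableEquivRealProd.symm.measurable
  rw [h1, Measure.volume_eq_prod, lintegral_prod _ hGm'.aemeasurable]
  have h2 : ∀ a : ℝ, ∫⁻ b : ℝ, G (Complex.measurableEquivRealProd.symm (a, b))
      ≤ (Icc (x - w) (x + w)).indicator (fun a => ∫⁻ y in Icc y₁ y₂, F ⟨a, y⟩) a := by
    intro a
    have h3 : ∀ b : ℝ, G (Complex.measurableEquivRealProd.symm (a, b))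
        ≤ (ball c r).indicator F ⟨a, b⟩ := fun b => hGle _
    by_cases ha : a ∈ Icc (x - w) (x + w)
    · rw [indicator_of_mem ha, ← lintegral_indicator measurableSet_Icc]
      apply lintegral_mono
      intro b
      refine (h3 b).trans ?_
      by_cases hz : (⟨a, b⟩ : ℂ) ∈ ball c r
      · have := hsub _ hz
        have hb : b ∈ Icc y₁ y₂ := ⟨this.2.1, this.2.2⟩
        rw [indicator_of_mem hz]
        show F ⟨a, b⟩ ≤ (Icc y₁ y₂).indicator (fun y => F ⟨a, y⟩) b
        rw [indicator_of_mem hb]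
      · rw [indicator_of_notMem hz]
        exact zero_le
    · rw [indicator_of_notMem ha]
      have : ∀ b : ℝ, G (Complex.measurableEquivRealProd.symm (a, b)) = 0 := by
        intro b
        have hz : (⟨a, b⟩ : ℂ) ∉ ball c r := by
          intro hz
          have := (hsub _ hz).1
          rw [abs_le] at this
          apply ha
          constructor
          · have := this.1
            simp only at this
            linarith
          · have := this.2
            simp only at this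
            linarith
        have := h3 b
        rw [indicator_of_notMem hz] at this
        exact le_antisymm this zero_le
      rw [lintegral_congr this, lintegral_zero]
  refine (lintegral_mono h2).trans ?_
  rw [← lintegral_add_left_eq_self _ x, ← lintegral_indicator measurableSet_Icc]
  apply le_of_eq
  apply lintegral_congr
  intro u
  by_cases hu : u ∈ Icc (-w) w
  · have : x + u ∈ Icc (x - w) (x + w) := ⟨by linarith [hu.1], by linarith [hu.2]⟩
    rw [indicator_of_mem this, indicator_of_mem hu]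
  · have : x + u ∉ Icc (x - w) (x + w) := fun h => hu ⟨by linarith [h.1], by linarith [h.2]⟩
    rw [indicator_of_notMem this, indicator_of_notMem hu]

/-- `ofReal (∫ φ) ≤ ∫⁻ ofReal φ`. -/
theorem s8_ofReal_integral_le {α : Type*} [MeasurableSpace α] (μ : Measure α) (φ : α → ℝ)
    (hφ : Integrable φ μ) :
    ENNReal.ofReal (∫ a, φ a ∂μ) ≤ ∫⁻ a, ENNReal.ofReal (φ a) ∂μ := by
  have h1 : Integrable (fun a => max (φ a) 0) μ := hφ.pos_part
  have h2 : ∫ a, φ a ∂μ ≤ ∫ a, max (φ a) 0 ∂μ :=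
    integral_mono hφ h1 (fun a => le_max_left _ _)
  refine (ENNReal.ofReal_le_ofReal h2).trans ?_
  rw [ofReal_integral_eq_lintegral_ofReal h1 (Filter.Eventually.of_forall fun a => le_max_right _ _)]
  apply le_of_eq
  apply lintegral_congr
  intro a
  rcases le_total (φ a) 0 with h | h
  · rw [max_eq_right h, ENNReal.ofReal_zero, ENNReal.ofReal_of_nonpos h]
  · rw [max_eq_left h]

theorem s8_lintegral_id (r : ℝ) (hr : 0 ≤ r) :
    ∫⁻ ρ in Ioo 0 r, ENNReal.ofReal ρ = ENNReal.ofReal (r ^ 2 / 2) := by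
  have h1 : IntegrableOn (fun ρ : ℝ => ρ) (Ioo 0 r) :=
    (continuous_id.integrableOn_Icc (a := (0 : ℝ)) (b := r)).mono_set Ioo_subset_Icc_self
  rw [← ofReal_integral_eq_lintegral_ofReal h1
    ((ae_restrict_iff' measurableSet_Ioo).2 (Filter.Eventually.of_forall fun ρ hρ => hρ.1.le))]
  congr 1
  rw [← integral_Ioc_eq_integral_Ioo, ← intervalIntegral.integral_of_le hr, integral_id]
  ring

/-- the circle average as an integral over `(-π, π)`. -/
theorem s8_circleAverage_Ioo (g : ℂ → ℝ) (c : ℂ) (ρ : ℝ) :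
    ∫ θ in Ioo (-π) π, g (c + (ρ : ℂ) * Complex.exp ((θ : ℂ) * I))
      = 2 * π * Real.circleAverage g c ρ := by
  rw [Real.circleAverage_def, smul_eq_mul, ← mul_assoc,
    mul_inv_cancel₀ (by positivity : (2 * π : ℝ) ≠ 0), one_mul]
  have hper : Function.Periodic (fun θ : ℝ => g (circleMap c ρ θ)) (2 * π) := by
    intro θ
    show g (circleMap c ρ (θ + 2 * π)) = g (circleMap c ρ θ)
    rw [periodic_circleMap c ρ θ]
  have h := hper.intervalIntegral_add_eq 0 (-π)
  rw [zero_add] at h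
  rw [h, show -π + 2 * π = π by ring, intervalIntegral.integral_of_le (by linarith [Real.pi_pos]),
    integral_Ioc_eq_integral_Ioo]
  rfl

/-- circle sub-mean inequality ⇒ disc sub-mean inequality (in `lintegral` form). -/
theorem s8_submean_disc (g : ℂ → ℝ) (c : ℂ) (r : ℝ) (hr : 0 < r)
    (hc : ContinuousOn g (closedBall c r))
    (hsm : ∀ ρ ∈ Ioc 0 r, g c ≤ Real.circleAverage g c ρ) :
    ENNReal.ofReal (π * r ^ 2) * ENNReal.ofReal (g c) ≤ ∫⁻ z in ball c r, ENNReal.ofReal (g z) := by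
  classical
  set F : ℂ → ℝ≥0∞ := (closedBall c r).indicator (fun z => ENNReal.ofReal (g z)) with hFdef
  have hFm : Measurable F := by
    rw [hFdef, ← Set.piecewise_eq_indicator]
    exact ContinuousOn.measurable_piecewise (ENNReal.continuous_ofReal.comp_continuousOn hc)
      continuousOn_const measurableSet_closedBall
  have h1 : ∫⁻ z in ball c r, ENNReal.ofReal (g z) = ∫⁻ z in ball c r, F z := by
    apply setLIntegral_congr_fun measurableSet_ball
    intro z hz
    show _ = F z
    rw [hFdef, indicator_of_mem (ball_subset_closedBall hz)]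
  rw [h1, s8_polar F hFm]
  have h2 : ∀ ρ ∈ Ioo 0 r, ENNReal.ofReal ρ * ENNReal.ofReal (2 * π * g c) ≤ ENNReal.ofReal ρ *
        ∫⁻ θ in Ioo (-π) π, F (c + (ρ : ℂ) * Complex.exp ((θ : ℂ) * I)) := by
    intro ρ hρ
    gcongr
    have hmem : ∀ θ : ℝ, c + (ρ : ℂ) * Complex.exp ((θ : ℂ) * I) ∈ closedBall c r := by
      intro θ
      rw [mem_closedBall, dist_eq_norm, add_sub_cancel_left, norm_mul,
        Complex.norm_exp_ofReal_mul_I, mul_one, Complex.norm_real, Real.norm_of_nonneg hρ.1.le]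
      exact hρ.2.le
    have h3 : ∀ θ : ℝ, F (c + (ρ : ℂ) * Complex.exp ((θ : ℂ) * I))
        = ENNReal.ofReal (g (c + (ρ : ℂ) * Complex.exp ((θ : ℂ) * I))) := by
      intro θ
      rw [hFdef, indicator_of_mem (hmem θ)]
    rw [lintegral_congr h3]
    have hcont : Continuous (fun θ : ℝ => g (c + (ρ : ℂ) * Complex.exp ((θ : ℂ) * I))) := by
      apply hc.comp_continuous (by fun_prop) hmem
    have hint : IntegrableOn (fun θ : ℝ => g (c + (ρ : ℂ) * Complex.exp ((θ : ℂ) * I)))
        (Ioo (-π) π) :=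
      (hcont.integrableOn_Icc (a := -π) (b := π)).mono_set Ioo_subset_Icc_self
    refine le_trans ?_ (s8_ofReal_integral_le _ _ hint)
    rw [s8_circleAverage_Ioo]
    apply ENNReal.ofReal_le_ofReal
    have := hsm ρ ⟨hρ.1, hρ.2.le⟩
    have hpi := Real.pi_pos
    nlinarith
  refine le_trans ?_ (setLIntegral_mono' measurableSet_Ioo h2)
  rw [lintegral_mul_const' _ _ ENNReal.ofReal_ne_top, s8_lintegral_id r hr.le]
  rcases le_total (g c) 0 with h | h
  · rw [ENNReal.ofReal_of_nonpos h, mul_zero]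
    exact zero_le
  · rw [← ENNReal.ofReal_mul (by positivity), ← ENNReal.ofReal_mul (by positivity)]
    apply ENNReal.ofReal_le_ofReal
    apply le_of_eq
    ring

/-- circle sub-mean inequality ⇒ domination of the value at the centre by the integral over a rectangle containing the disc. -/
theorem s8_submean_rect (g : ℂ → ℝ) (c : ℂ) (r x w y₁ y₂ : ℝ) (hr : 0 < r)
    (hc : ContinuousOn g (closedBall c r))
    (hsm : ∀ ρ ∈ Ioc 0 r, g c ≤ Real.circleAverage g c ρ)
    (hsub : ∀ z ∈ ball c r, |z.re - x| ≤ w ∧ y₁ ≤ z.im ∧ z.im ≤ y₂) :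
    ENNReal.ofReal (g c) ≤ ENNReal.ofReal (π * r ^ 2)⁻¹ *
      ∫⁻ u in Icc (-w) w, ∫⁻ y in Icc y₁ y₂, ENNReal.ofReal (g ⟨x + u, y⟩) := by
  have h1 := s8_submean_disc g c r hr hc hsm
  have h2 := s8_ball_le_rect (fun z => ENNReal.ofReal (g z)) c r x w y₁ y₂ hsub
  have hpos : 0 < π * r ^ 2 := by positivity
  calc ENNReal.ofReal (g c)
      = ENNReal.ofReal (π * r ^ 2)⁻¹ * (ENNReal.ofReal (π * r ^ 2) * ENNReal.ofReal (g c)) := by
        rw [← mul_assoc, ← ENNReal.ofReal_mul (by positivity), inv_mul_cancel₀ hpos.ne',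
          ENNReal.ofReal_one, one_mul]
    _ ≤ _ := by
        gcongr
        exact h1.trans h2

/-- `|F|` has the sub-mean value property. -/
theorem s8_norm_submean (F : ℂ → ℂ) (c : ℂ) (ρ : ℝ) (hρ : 0 < ρ) (hF : DiffContOnCl ℂ F (ball c ρ)) :
    ‖F c‖ ≤ Real.circleAverage (fun z => ‖F z‖) c ρ := by
  have h1 : Real.circleAverage F c ρ = F c := by
    have hF' : DiffContOnCl ℂ F (ball c |ρ|) := by rwa [abs_of_pos hρ]
    exact hF'.circleAverage
  rw [← h1, Real.circleAverage_def, Real.circleAverage_def, norm_smul, smul_eq_mul,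
    Real.norm_of_nonneg (by positivity)]
  gcongr
  exact intervalIntegral.norm_integral_le_integral_norm (by positivity)

/-- interior gradient estimate on a circle: `|V'(c)| ≤ (2/ρ) · mean of |Im V|`. -/
theorem s8_deriv_le_circle_im (V : ℂ → ℂ) (c : ℂ) (ρ : ℝ) (hρ : 0 < ρ)
    (hV : DiffContOnCl ℂ V (ball c ρ)) :
    ‖deriv V c‖ ≤ 2 / ρ * Real.circleAverage (fun z => |(V z).im|) c ρ := by
  have hρc : (ρ : ℂ) ≠ 0 := by exact_mod_cast hρ.ne'
  have hpi : (π : ℂ) ≠ 0 := by exact_mod_cast Real.pi_pos.ne'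
  have hcontV : Continuous (fun θ : ℝ => V (circleMap c ρ θ)) := by
    apply hV.continuousOn_ball.comp_continuous (continuous_circleMap c ρ)
    intro θ
    exact sphere_subset_closedBall (circleMap_mem_sphere c hρ.le θ)
  have hE : ∀ θ : ℝ, Complex.exp ((θ : ℂ) * I) ≠ 0 := fun θ => Complex.exp_ne_zero _
  have hEc : ∀ θ : ℝ, (starRingEnd ℂ) (Complex.exp ((θ : ℂ) * I)) = (Complex.exp ((θ : ℂ) * I))⁻¹ := by
    intro θ
    rw [← Complex.exp_conj, ← Complex.exp_neg]
    congr 1
    simp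
  -- Cauchy formula
  have h1 : (∫ θ in (0 : ℝ)..(2 * π), (Complex.exp ((θ : ℂ) * I))⁻¹ * V (circleMap c ρ θ))
      = 2 * π * ρ * deriv V c := by
    have := hV.deriv_eq_smul_circleIntegral hρ
    rw [circleIntegral] at this
    have h2 : ∀ θ : ℝ, deriv (circleMap c ρ) θ • (1 / (circleMap c ρ θ - c) ^ 2) • V (circleMap c ρ θ)
        = (I / ρ) * ((Complex.exp ((θ : ℂ) * I))⁻¹ * V (circleMap c ρ θ)) := by
      intro θ
      rw [deriv_circleMap, smul_eq_mul, smul_eq_mul]
      simp only [circleMap, add_sub_cancel_left, zero_add]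
      have := hE θ
      field_simp
    rw [intervalIntegral.integral_congr (fun θ _ => h2 θ), intervalIntegral.integral_const_mul,
      smul_eq_mul] at this
    have hI : (I : ℂ) ≠ 0 := Complex.I_ne_zero
    have h3 : (∫ θ in (0 : ℝ)..(2 * π), (Complex.exp ((θ : ℂ) * I))⁻¹ * V (circleMap c ρ θ))
        = (ρ / I) * (I / ρ * ∫ θ in (0 : ℝ)..(2 * π),
          (Complex.exp ((θ : ℂ) * I))⁻¹ * V (circleMap c ρ θ)) := by
      rw [← mul_assoc, div_mul_div_comm, mul_comm (ρ : ℂ) I, div_self (mul_ne_zero hI hρc), one_mul]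
    rw [h3, this]
    field_simp
  -- Cauchy-Goursat
  have h2 : (∫ θ in (0 : ℝ)..(2 * π), Complex.exp ((θ : ℂ) * I) * V (circleMap c ρ θ)) = 0 := by
    have := hV.circleIntegral_eq_zero hρ.le
    rw [circleIntegral] at this
    have h2 : ∀ θ : ℝ, deriv (circleMap c ρ) θ • V (circleMap c ρ θ)
        = (ρ * I) * (Complex.exp ((θ : ℂ) * I) * V (circleMap c ρ θ)) := by
      intro θ
      rw [deriv_circleMap, smul_eq_mul]
      simp only [circleMap, zero_add]
      ring
    rw [intervalIntegral.integral_congr (fun θ _ => h2 θ), intervalIntegral.integral_const_mul] at this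
    rcases mul_eq_zero.1 this with h | h
    · exact absurd h (mul_ne_zero hρc Complex.I_ne_zero)
    · exact h
  have h3 : (∫ θ in (0 : ℝ)..(2 * π), (Complex.exp ((θ : ℂ) * I))⁻¹ *
      (starRingEnd ℂ) (V (circleMap c ρ θ))) = 0 := by
    have h4 : ∀ θ : ℝ, (Complex.exp ((θ : ℂ) * I))⁻¹ * (starRingEnd ℂ) (V (circleMap c ρ θ))
        = (starRingEnd ℂ) (Complex.exp ((θ : ℂ) * I) * V (circleMap c ρ θ)) := by
      intro θ
      rw [map_mul, hEc]
    rw [intervalIntegral.integral_congr (fun θ _ => h4 θ)]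
    rw [intervalIntegral.integral_of_le (by positivity), integral_conj,
      ← intervalIntegral.integral_of_le (by positivity), h2, map_zero]
  have hc1 : Continuous (fun θ : ℝ => (Complex.exp ((θ : ℂ) * I))⁻¹ * V (circleMap c ρ θ)) := by
    apply Continuous.mul _ hcontV
    apply Continuous.inv₀ (by fun_prop) hE
  have hc2 : Continuous (fun θ : ℝ => (Complex.exp ((θ : ℂ) * I))⁻¹ *
      (starRingEnd ℂ) (V (circleMap c ρ θ))) := by
    apply Continuous.mul _ (Complex.continuous_conj.comp hcontV)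
    apply Continuous.inv₀ (by fun_prop) hE
  have h5 : (∫ θ in (0 : ℝ)..(2 * π), (Complex.exp ((θ : ℂ) * I))⁻¹ *
      (2 * I * ((V (circleMap c ρ θ)).im : ℂ))) = 2 * π * ρ * deriv V c := by
    rw [← h1, ← sub_zero (∫ θ in (0 : ℝ)..(2 * π), (Complex.exp ((θ : ℂ) * I))⁻¹ *
      V (circleMap c ρ θ)), ← h3,
      ← intervalIntegral.integral_sub (hc1.intervalIntegrable _ _) (hc2.intervalIntegrable _ _)]
    apply intervalIntegral.integral_congr
    intro θ _
    show _ = _ - _
    rw [← mul_sub, Complex.sub_conj]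
    push_cast
    ring
  have h6 : ‖(2 * π * ρ * deriv V c : ℂ)‖ ≤ ∫ θ in (0 : ℝ)..(2 * π), 2 * |(V (circleMap c ρ θ)).im| := by
    rw [← h5]
    refine (intervalIntegral.norm_integral_le_integral_norm (by positivity)).trans ?_
    apply le_of_eq
    apply intervalIntegral.integral_congr
    intro θ _
    show ‖_‖ = _
    rw [norm_mul, norm_inv, Complex.norm_exp_ofReal_mul_I, norm_mul, norm_mul, Complex.norm_I,
      Complex.norm_real, Real.norm_eq_abs]
    simp
  rw [intervalIntegral.integral_const_mul] at h6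
  rw [Real.circleAverage_def, smul_eq_mul]
  have h7 : ‖(2 * π * ρ * deriv V c : ℂ)‖ = 2 * π * ρ * ‖deriv V c‖ := by
    rw [norm_mul, norm_mul, norm_mul, Complex.norm_real, Complex.norm_real,
      Real.norm_of_nonneg hρ.le, Real.norm_of_nonneg Real.pi_pos.le]
    simp
  rw [h7] at h6
  have hpos : 0 < 2 * π * ρ := by positivity
  calc ‖deriv V c‖ = (2 * π * ρ)⁻¹ * (2 * π * ρ * ‖deriv V c‖) := by
        field_simp
    _ ≤ (2 * π * ρ)⁻¹ * (2 * ∫ θ in (0 : ℝ)..(2 * π), |(V (circleMap c ρ θ)).im|) := by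
        gcongr
    _ = _ := by
        field_simp

theorem s8_lintegral_sq (r : ℝ) (hr : 0 ≤ r) :
    ∫⁻ ρ in Ioo 0 r, ENNReal.ofReal (ρ ^ 2) = ENNReal.ofReal (r ^ 3 / 3) := by
  have h1 : IntegrableOn (fun ρ : ℝ => ρ ^ 2) (Ioo 0 r) :=
    ((continuous_pow 2).integrableOn_Icc (a := (0 : ℝ)) (b := r)).mono_set Ioo_subset_Icc_self
  rw [← ofReal_integral_eq_lintegral_ofReal h1
    (Filter.Eventually.of_forall fun ρ => sq_nonneg ρ)]
  congr 1
  rw [← integral_Ioc_eq_integral_Ioo, ← intervalIntegral.integral_of_le hr, integral_pow]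
  norm_num

/-- interior gradient estimate on a disc: `|V'(c)| ≤ 3/(π r³) ∫_{B(c,r)} |Im V|`. -/
theorem s8_deriv_le_ball_im (V : ℂ → ℂ) (c : ℂ) (r : ℝ) (hr : 0 < r)
    (hV : DifferentiableOn ℂ V (ball c r)) :
    ENNReal.ofReal ‖deriv V c‖ ≤
      ENNReal.ofReal (3 / (π * r ^ 3)) * ∫⁻ z in ball c r, ENNReal.ofReal |(V z).im| := by
  classical
  set F : ℂ → ℝ≥0∞ := (ball c r).indicator (fun z => ENNReal.ofReal |(V z).im|) with hFdef
  have hcV : ContinuousOn (fun z => |(V z).im|) (ball c r) :=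
    (Complex.continuous_im.comp_continuousOn hV.continuousOn).abs
  have hFm : Measurable F := by
    rw [hFdef, ← Set.piecewise_eq_indicator]
    exact ContinuousOn.measurable_piecewise (ENNReal.continuous_ofReal.comp_continuousOn hcV)
      continuousOn_const measurableSet_ball
  have h1 : ∫⁻ z in ball c r, ENNReal.ofReal |(V z).im| = ∫⁻ z in ball c r, F z := by
    apply setLIntegral_congr_fun measurableSet_ball
    intro z hz
    show _ = F z
    rw [hFdef, indicator_of_mem hz]
  rw [h1, s8_polar F hFm]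
  have hpi := Real.pi_pos
  have h2 : ∀ ρ ∈ Ioo 0 r, ENNReal.ofReal (ρ ^ 2) * ENNReal.ofReal (π * ‖deriv V c‖)
      ≤ ENNReal.ofReal ρ * ∫⁻ θ in Ioo (-π) π, F (c + (ρ : ℂ) * Complex.exp ((θ : ℂ) * I)) := by
    intro ρ hρ
    have hρ0 : 0 < ρ := hρ.1
    rw [pow_two, ENNReal.ofReal_mul hρ0.le, mul_assoc]
    gcongr
    have hmem : ∀ θ : ℝ, c + (ρ : ℂ) * Complex.exp ((θ : ℂ) * I) ∈ ball c r := by
      intro θ
      rw [mem_ball, dist_eq_norm, add_sub_cancel_left, norm_mul,
        Complex.norm_exp_ofReal_mul_I, mul_one, Complex.norm_real, Real.norm_of_nonneg hρ.1.le]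
      exact hρ.2
    have h3 : ∀ θ : ℝ, F (c + (ρ : ℂ) * Complex.exp ((θ : ℂ) * I))
        = ENNReal.ofReal (|(V (c + (ρ : ℂ) * Complex.exp ((θ : ℂ) * I))).im|) := by
      intro θ
      rw [hFdef, indicator_of_mem (hmem θ)]
    rw [lintegral_congr h3]
    have hcont : Continuous (fun θ : ℝ => |(V (c + (ρ : ℂ) * Complex.exp ((θ : ℂ) * I))).im|) := by
      apply hcV.comp_continuous (by fun_prop) hmem
    have hint : IntegrableOn (fun θ : ℝ => |(V (c + (ρ : ℂ) * Complex.exp ((θ : ℂ) * I))).im|)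
        (Ioo (-π) π) :=
      (hcont.integrableOn_Icc (a := -π) (b := π)).mono_set Ioo_subset_Icc_self
    refine le_trans ?_ (s8_ofReal_integral_le _ _ hint)
    rw [s8_circleAverage_Ioo (fun z => |(V z).im|), ← ENNReal.ofReal_mul hρ0.le]
    apply ENNReal.ofReal_le_ofReal
    have hd : DiffContOnCl ℂ V (ball c ρ) := by
      apply DifferentiableOn.diffContOnCl
      rw [closure_ball c hρ0.ne']
      exact hV.mono (closedBall_subset_ball hρ.2)
    have := s8_deriv_le_circle_im V c ρ hρ0 hd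
    have h4 : ρ * ‖deriv V c‖ ≤ 2 * Real.circleAverage (fun z => |(V z).im|) c ρ := by
      calc ρ * ‖deriv V c‖ ≤ ρ * (2 / ρ * Real.circleAverage (fun z => |(V z).im|) c ρ) := by
            gcongr
        _ = _ := by field_simp
    nlinarith
  refine le_trans ?_ (mul_le_mul_right (setLIntegral_mono' measurableSet_Ioo h2) _)
  rw [lintegral_mul_const' _ _ ENNReal.ofReal_ne_top, s8_lintegral_sq r hr.le,
    ← ENNReal.ofReal_mul (by positivity), ← ENNReal.ofReal_mul (by positivity)]
  apply ENNReal.ofReal_le_ofReal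
  apply le_of_eq
  field_simp

/-- the integral of a periodic holomorphic function over a period does not depend on the row. -/
theorem s8_row_shift (g : ℂ → ℂ) (h₁ h₂ : ℝ) (h12 : h₁ ≤ h₂)
    (hd : ∀ z : ℂ, h₁ ≤ z.im → z.im ≤ h₂ → DifferentiableAt ℂ g z)
    (hper : ∀ z : ℂ, h₁ ≤ z.im → z.im ≤ h₂ → g (z + 2 * π) = g z) :
    ∫ x in (0 : ℝ)..(2 * π), g ⟨x, h₁⟩ = ∫ x in (0 : ℝ)..(2 * π), g ⟨x, h₂⟩ := by
  have H : DifferentiableOn ℂ g ((uIcc (⟨0, h₁⟩ : ℂ).re (⟨2 * π, h₂⟩ : ℂ).re) ×ℂ
      (uIcc (⟨0, h₁⟩ : ℂ).im (⟨2 * π, h₂⟩ : ℂ).im)) := by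
    intro z hz
    have hz2 : z.im ∈ uIcc h₁ h₂ := hz.2
    rw [uIcc_of_le h12] at hz2
    exact (hd z hz2.1 hz2.2).differentiableWithinAt
  have h := Complex.integral_boundary_rect_eq_zero_of_differentiableOn g ⟨0, h₁⟩ ⟨2 * π, h₂⟩ H
  simp only at h
  have h3 : (∫ y : ℝ in h₁..h₂, g (((2 * π : ℝ) : ℂ) + y * I))
      = ∫ y : ℝ in h₁..h₂, g (((0 : ℝ) : ℂ) + y * I) := by
    apply intervalIntegral.integral_congr
    intro y hy
    rw [uIcc_of_le h12] at hy
    show g (((2 * π : ℝ) : ℂ) + y * I) = g (((0 : ℝ) : ℂ) + y * I)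
    have := hper (((0 : ℝ) : ℂ) + y * I) (by simpa using hy.1) (by simpa using hy.2)
    rw [← this]
    congr 1
    push_cast
    ring
  rw [h3] at h
  have e1 : ∀ (x y : ℝ), (⟨x, y⟩ : ℂ) = (x : ℂ) + y * I := by
    intro x y
    apply Complex.ext <;> simp
  simp only [e1]
  have h4 : (∫ x : ℝ in (0 : ℝ)..(2 * π), g (x + h₁ * I)) - (∫ x : ℝ in (0 : ℝ)..(2 * π), g (x + h₂ * I)) = 0 := by
    linear_combination h
  exact sub_eq_zero.1 h4

end Claimed.Agent.R269
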