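/-
Row 269, P1 Section 8 (critical estimates at a finite shape boundary): DEFINITIONS.   Owner: helper48 (sub-captain of Section 8).

Notation of the paper: `d_k = e^{-k}` (levels `k` are REAL), depth `δ_s = H - Im s` (`Shape.s9dep`), `M = max(|f|,|q|^{1/2})`, `P = - Im V` (`Shape.s9P`),
`Δ(t) = H - h_X(t)` (`Shape.Δ`), `E` = mean over one period = integral against `s8nu0`.
The definitions of tiles, cones, `s9env`, `S9Weight`, `S9Prohibited` are in `S9/Ctx.lean` (helper149).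

DESIGN (differences to the paper, all re-derived; see the headers of the unit files):
* envelopes: abstract class `S8Env β a N` with `C_N = 1` (all envelopes used in Sections 8-11 are `s9env N₀ β a K`);
* the first-moment hypothesis (8.8) and the finite-ratio hypothesis are used in TILE / SUP form (`S8FM`, `S8Fin`): no subharmonicity of `|q|^{1/2}` is needed;
* the unweighted bootstrap (Thm 8.4, L² part) and the weighted one (Prop 8.5) are ONE abstract theorem `s8_boot` about a measure `ν` with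
  translation comparison `S8Adm` and a balance inequality between `P⁺` and `P⁻`;
* harmonic measure of the strip is replaced by the periodic half-plane Poisson kernel `s8Pois` plus an error `O(ℓ E|P|)` (maximum principle `Chn.cyl_max` of `Lib/Cyl.lean`);
* disk bound (Lemma 8.3): direct Cauchy estimate at a doubling point (no Montel, no Liouville);
* the `2+η` moment is replaced by the concentration estimate itself (`s8_conc`);
* all "sequence + diagonal" arguments of 8.4 are replaced by `S8Term` ("one term of a prohibited sequence at precision `m`").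
-/
import Claimed.Agent.R269.S9.Ctx

set_option autoImplicit false

namespace Claimed.Agent.R269

open Complex Filter Topology MeasureTheory Set
open scoped ENNReal Real

/-- normalised Lebesgue measure on one period: `E g = ∫ g ∂s8nu0`. -/
noncomputable def s8nu0 : Measure ℝ := ENNReal.ofReal (2 * π)⁻¹ • volume.restrict (Ico 0 (2 * π))

/-- P1 Definition 8.1 (envelope) with `C_N = 1`, on all real levels. -/
structure S8Env (β a : ℝ) (N : ℝ → ℝ) : Prop where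
  one_le : ∀ l, 1 ≤ N l
  back : ∀ j k, j ≤ k → N j ≤ N k * Real.exp (β * (k - j))
  fwd : ∀ j k, k ≤ j → N j ≤ N k * Real.exp (a * (j - k))

/-- a probability on the circle (written on `ℝ`, tested against `2π`-periodic functions) which is comparable with its translates by `≤ A e^{-ka}`. -/
structure S8Adm (ν : Measure ℝ) (ka : ℝ) (CT : ℝ → ℝ) : Prop where
  prob : IsProbabilityMeasure ν
  trans : ∀ A : ℝ, 0 ≤ A → ∀ h : ℝ, |h| ≤ A * Real.exp (-ka) → ∀ F : ℝ → ℝ≥0∞, Measurable F →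
    (∀ x, F (x + 2 * π) = F x) → ∫⁻ x, F (x + h) ∂ν ≤ ENNReal.ofReal (CT A) * ∫⁻ x, F x ∂ν

/-- `γ = 1/(1+a)` of (8.12). -/
noncomputable def s8gam (a : ℝ) : ℝ := 1 / (1 + a)

/-- `m = 4(2-γ)/(4-γ) < 2` of (8.13). -/
noncomputable def s8m (a : ℝ) : ℝ := 4 * (2 - s8gam a) / (4 - s8gam a)

/-- the cone exponent `β < β₁ < 1/2`. -/
noncomputable def s8b1 (β : ℝ) : ℝ := β / 2 + 1 / 4

/-- the periodic Poisson kernel of a half plane at distance `ℓ` from the boundary row (density with respect to `dθ/2π`). -/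
noncomputable def s8Pois (ℓ θ : ℝ) : ℝ := Real.sinh ℓ / (Real.cosh ℓ - Real.cos θ)

/-- the compact exhaustion `𝒦_m` of the lower half plane. -/
def s8K (m : ℕ) : Set ℂ := {S | |S.re| ≤ (m : ℝ) + 1 ∧ -((m : ℝ) + 1) ≤ S.im ∧ S.im ≤ -(1 / ((m : ℝ) + 1))}

namespace Shape

variable (Sh : Shape)

/-- the point of depth `d` over `x`. -/
noncomputable def s8pt (x d : ℝ) : ℂ := ⟨x, Sh.Hr - d⟩

/-- tile supremum `sup_{s ∈ 𝒯_A(j,x)} d_j M(s)`. -/
noncomputable def s8T (A j x : ℝ) : ℝ := sSup ((fun s => Real.exp (-j) * Sh.M s) '' Sh.s9tile A j x)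

/-- tile supremum of `d_j |f|`. -/
noncomputable def s8Tf (A j x : ℝ) : ℝ := sSup ((fun s => Real.exp (-j) * ‖Sh.f s‖) '' Sh.s9tile A j x)

/-- tile supremum of `d_j |q|^{1/2}`. -/
noncomputable def s8Tq (A j x : ℝ) : ℝ :=
  sSup ((fun s => Real.exp (-j) * Real.sqrt ‖Sh.q s‖) '' Sh.s9tile A j x)

/-- un-normalised cone cost: `b(x,k) = 1 + s8cc β₁ L k x / N(k)` is (8.10), with `c₀ = 1/20`, `δ_b = Sh.s9db`. -/
noncomputable def s8cc (β₁ L k x : ℝ) : ℝ :=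
  sSup ((fun s => Sh.s9dep s * Sh.M s * (Real.exp (-k) / Sh.s9dep s) ^ β₁) ''
    Sh.s9cone L x (Real.exp (-k) / 20) Sh.s9db)

/-- `∫ (sup_tile d_j M)² dν`. -/
noncomputable def s8T2 (ν : Measure ℝ) (A j : ℝ) : ℝ≥0∞ := ∫⁻ x, ENNReal.ofReal (Sh.s8T A j x) ^ 2 ∂ν

/-- `∫ sup_tile d_j M dν`. -/
noncomputable def s8T1 (ν : Measure ℝ) (A j : ℝ) : ℝ≥0∞ := ∫⁻ x, ENNReal.ofReal (Sh.s8T A j x) ∂ν

/-- `∫ d_j |P| dν` on the row of depth `d_j`. -/
noncomputable def s8P1 (ν : Measure ℝ) (j : ℝ) : ℝ≥0∞ :=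
  ∫⁻ x, ENNReal.ofReal (Real.exp (-j) * |Sh.s9P (Sh.s8pt x (Real.exp (-j)))|) ∂ν

/-- `∫ d_j P⁺ dν`. -/
noncomputable def s8Pp (ν : Measure ℝ) (j : ℝ) : ℝ≥0∞ :=
  ∫⁻ x, ENNReal.ofReal (Real.exp (-j) * Sh.s9P (Sh.s8pt x (Real.exp (-j)))) ∂ν

/-- `∫ d_j P⁻ dν`. -/
noncomputable def s8Pm (ν : Measure ℝ) (j : ℝ) : ℝ≥0∞ :=
  ∫⁻ x, ENNReal.ofReal (Real.exp (-j) * -Sh.s9P (Sh.s8pt x (Real.exp (-j)))) ∂ν

/-- first-moment hypothesis (8.8), in tile form, for every aperture. -/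
def S8FM (C₁ : ℝ → ℝ) (N : ℝ → ℝ) : Prop :=
  ∀ A : ℝ, 1 ≤ A → ∀ j : ℝ, Sh.s9k0 ≤ j → Sh.s8T1 s8nu0 A j ≤ ENNReal.ofReal (C₁ A * N j)

/-- finite bootstrap ratio, in sup form (no bound on `Y` is ever used). -/
def S8Fin (N : ℝ → ℝ) : Prop :=
  ∃ Y : ℝ, ∀ j : ℝ, Sh.s9k0 ≤ j → Real.exp (-j) * Sh.rowMax (Sh.Hr - Real.exp (-j)) ≤ Y * N j

/-- `G_f(j) = log max_x |f(x + i(H - e^{-j}))|`. -/
noncomputable def s8Gf (j : ℝ) : ℝ := Real.log (⨆ x : ℝ, ‖Sh.f (Sh.s8pt x (Real.exp (-j)))‖)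

/-- the mean of `log |f|` over the real period. -/
noncomputable def s8L0 : ℝ := (2 * π)⁻¹ * ∫ x in (0 : ℝ)..(2 * π), Real.log ‖Sh.f (x : ℂ)‖

end Shape

/-- "One term of a prohibited sequence at precision `m`" (P1 Definition 8.7 with all `eventually`/`→ 0` made quantitative).
`k` level, `s` ancestor distance, `ε = 1/(m+1)`. -/
structure S8Term (Sh : Shape) (cK CK Cq : ℝ) (Cco Can : ℝ → ℝ) (m : ℕ) (k s : ℝ) (ω ν : Measure ℝ) : Prop where
  k_ge : (m : ℝ) ≤ k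
  B_ge : (m : ℝ) ≤ Sh.μ k
  normal : ∀ j ≥ Sh.s9k0, Sh.μ j ≤ Sh.μ k * Real.exp (1 / ((m : ℝ) + 1) * |j - k|)
  ka_ge : (m : ℝ) ≤ k - s
  s_ge : (m : ℝ) ≤ s
  weight : S9Weight (Real.exp (-(k - s))) cK CK ω ν
  coarse : ∀ β : ℝ, 2 / ((m : ℝ) + 1) ≤ β → β < 1 / 2 → ∀ A : ℝ, 1 ≤ A → A ≤ m →
    ∀ j ∈ Icc Sh.s9k0 (k - s + 3), Sh.s9TileL2 ν A j (Cco A * Sh.μ k * Real.exp (β * (k - j)))
  anchor : ∀ β : ℝ, 2 / ((m : ℝ) + 1) ≤ β → β < 1 / 2 →
    ∫⁻ x, ENNReal.ofReal |Sh.s9P ⟨x, Sh.Hr - Real.exp (-(k - s))⟩| ∂ω ≤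
      ENNReal.ofReal (Can β * Sh.μ k ^ 2 * Real.exp (2 * β * s) / Real.exp (-(k - s)))
  qsmall : ν {x | ∃ S ∈ s8K m, 1 / ((m : ℝ) + 1) < ‖Sh.s9Q k x S‖} ≤ ENNReal.ofReal (Cq / ((m : ℝ) + 1))

end Claimed.Agent.R269
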