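/-
Row 269, P1 Section 8: WHAT SECTION 8 USES FROM SECTIONS 4-7.   Owner of the file: helper48.

Every statement here is an EXPORT of another section (WIRED: `s8i_log_deficit := s7_log_deficit`, `s8i_passage_width := Sh.s6_passage_width`, `s8i_V_deriv := Sh.V_deriv`):
* `s8i_V_deriv`        Section 5, Prop 5.6, (5.24)                (same statement as `s9i_V_deriv` of S9/Imports.lean);
* `s8i_passage_width`  Section 6.4, real no-patch transfer        (same statement as `Shape.passage_width` of Stage3.lean; helper218);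
* `s8i_log_deficit`    Section 7, Lemma 7.6 (log-deficit)         (helper146), in `lintegral` form: no integrability question.
`s8i_cone` is PROVED here from `Shape.s6_cone` (S6/Stmt.lean, helper218): target aperture `1`, `K = 1`, reference height `H`.
Also used: `s9k_eq_lift`, `s9k_tube`, `s9k_max` (S9/PassageMax.lean), `s4k_min_principle` (S4/Transfer.lean), `Lib/Cyl.lean` (sorry-free).
Section 8 must NOT import S9/Imports.lean or S9/Main.lean (they will import S8/Main.lean).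
-/
import Claimed.Agent.R269.S8.Defs
import Claimed.Agent.R269.S5.Zeros
import Claimed.Agent.R269.S6.Stmt
import Claimed.Agent.R269.S4.Transfer
import Claimed.Agent.R269.Lib.Cyl
import Claimed.Agent.R269.S7.LogDefMain
import Claimed.Agent.R269.S6.Width

set_option autoImplicit false

namespace Claimed.Agent.R269

open Complex Filter Topology MeasureTheory Set Metric
open scoped ENNReal Real

/-- IMPORT (Section 7, **Lemma 7.6, log-deficit estimate**) on a disc of radius `r`.  `f'' = q f`, `|f| ≤ e^K`: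
`r sup_{B(c,r/4)} |q|^{1/2} ≤ C (1 + average over B(c,r) of (K - log|f|))`. -/
theorem s8i_log_deficit : ∃ C : ℝ, 0 < C ∧ ∀ (f q : ℂ → ℂ) (c : ℂ) (r K : ℝ), 0 < r →
    DifferentiableOn ℂ f (ball c r) → DifferentiableOn ℂ q (ball c r) →
    (∀ z ∈ ball c r, deriv (deriv f) z = q z * f z) → (∃ z ∈ ball c r, f z ≠ 0) →
    (∀ z ∈ ball c r, ‖f z‖ ≤ Real.exp K) →
    ∀ z ∈ ball c (r / 4), ENNReal.ofReal (r * Real.sqrt ‖q z‖) ≤
      ENNReal.ofReal C * (1 + ENNReal.ofReal (π * r ^ 2)⁻¹ *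
        ∫⁻ w in ball c r, ENNReal.ofReal (K - Real.log ‖f w‖)) :=
  s7_log_deficit

namespace Shape

variable (Sh : Shape)

/-- IMPORT (Section 5, Prop 5.6, (5.24)): `V' = (W - ⟨W⟩)/120` on the shape strip. -/
theorem s8i_V_deriv : ∀ y ∈ Sh.D, HasDerivAt Sh.s9V ((Sh.W y - Sh.s9Wm) / 120) y :=
  Sh.V_deriv

/-- IMPORT (Section 6.4, "real no-patch transfer"). -/
theorem s8i_passage_width {R : Set (ℂ × ℂ)} {S : ℂ × ℂ → ℂ} (hP : Sh.IsPassage R S) (t₀ : ℝ) (y : ℂ)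
    (hy : (y, (t₀ : ℂ)) ∈ R) : ENNReal.ofReal y.im < Sh.G.hX t₀ :=
  Sh.s6_passage_width hP t₀ y hy

/-- **Theorem 6.3 (cone passage)** in the form used in Section 8: target aperture `1`, `r ≤ d`, maximal passage. -/
theorem s8i_cone (hH : Sh.H ≠ ⊤) (α δb : ℝ) (hα : 1 / 2 < α) (hα' : α < 1) (hδb : 0 < δb)
    (hδb' : δb < Sh.Hr / 2) :
    ∃ L ε₀ d₀ δs C : ℝ, 0 < L ∧ 0 < ε₀ ∧ 0 < d₀ ∧ 0 < δs ∧ 0 < C ∧
      ∀ ε d r x₀ : ℝ, 0 < ε → ε ≤ ε₀ → 0 < d → d ≤ d₀ → 0 < r → r ≤ d →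
        (∀ s ∈ Sh.s9cone L x₀ (d / 10) δb, r * Sh.M s ≤ ε * (d / Sh.s9dep s) ^ α) →
        ∀ y t : ℂ, d < Sh.s9dep y → Sh.s9dep y < δs → |y.re - x₀| < Sh.s9dep y →
          ‖t‖ < r * (Sh.s9dep y / d) ^ α →
          (y, t) ∈ Sh.s9Rmax ∧
            ‖Sh.s9Smax (y, t) - y‖ ≤
              C * (1 + ε / r * d ^ α) ^ 2 * ‖t‖ ^ 2 * Sh.s9dep y ^ (1 - 2 * α) := by
  obtain ⟨Lf, hLf, h⟩ := Sh.s6_cone hH α δb hα hα' hδb hδb'
  obtain ⟨ε₀, d₀, δs, C, hε₀, hd₀, hδs, hC, hmain⟩ := h 1 one_pos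
  refine ⟨Lf 1, ε₀, d₀, δs, C, hLf 1, hε₀, hd₀, hδs, hC, ?_⟩
  intro ε d r x₀ hε hε' hd hd' hr hr' hcone y t h1 h2 h3 h4
  refine hmain 1 ε d r x₀ Sh.Hr one_pos hε hε' hd hd' hr (by simpa using hr') (by linarith) le_rfl
    ?_ y t h1 h2 (by simpa [Shape.s9dep] using h3) h4
  intro s hs1 hs2 hs3
  exact hcone s ⟨hs1, hs2, hs3⟩

end Shape

end Claimed.Agent.R269
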