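/-
Row 269, P1 Section 8, LIBRARY (helper114): truncation of a log deficit `K - log a` (monotone convergence), zero sets of holomorphic functions are null, integrals against `s8nu0`.
Used by LibPoisB.lean, LibLogB.lean, LibLog.lean.   Sorry-free.
-/
import Claimed.Agent.R269.S8.Defs

set_option autoImplicit false

namespace Claimed.Agent.R269

open Complex MeasureTheory Set Metric Filter Topology
open scoped ENNReal Real

/-- the zeros of a holomorphic function which is not identically zero on a connected set are countable. -/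
theorem s8_zeros_countable (f : ℂ → ℂ) (S : Set ℂ) (hS : IsConnected S) (hf : AnalyticOnNhd ℂ f S)
    (z₀ : ℂ) (hz₀ : z₀ ∈ S) (hne : f z₀ ≠ 0) : {z : ℂ | z ∈ S ∧ f z = 0}.Countable := by
  have hs := hf.preimage_zero_mem_codiscreteWithin hne hz₀ hS
  have hd : DiscreteTopology ↑((f ⁻¹' {0}ᶜ)ᶜ ∩ S) := isDiscrete_iff_discreteTopology.mp
    <| isDiscrete_of_codiscreteWithin ((compl_compl (f ⁻¹' {0}ᶜ)).symm ▸ hs)
  have hc : ((f ⁻¹' {0}ᶜ)ᶜ ∩ S).Countable :=
    TopologicalSpace.separableSpace_iff_countable.1 inferInstance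
  apply hc.mono
  intro z hz
  refine ⟨?_, hz.1⟩
  intro h
  exact h hz.2

/-- on a row the zeros are a null set. -/
theorem s8_row_ae_ne (f : ℂ → ℂ) (S : Set ℂ) (hS : IsConnected S) (hf : AnalyticOnNhd ℂ f S)
    (z₀ : ℂ) (hz₀ : z₀ ∈ S) (hne : f z₀ ≠ 0) (h : ℝ) (hrow : ∀ u : ℝ, (⟨u, h⟩ : ℂ) ∈ S) :
    ∀ᵐ u ∂s8nu0, f ⟨u, h⟩ ≠ 0 := by
  have hc := s8_zeros_countable f S hS hf z₀ hz₀ hne
  have hc2 : ((fun u : ℝ => (⟨u, h⟩ : ℂ)) ⁻¹' {z : ℂ | z ∈ S ∧ f z = 0}).Countable := by
    apply hc.preimage_of_injOn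
    intro u _ v _ huv
    exact congrArg Complex.re huv
  have h1 : ∀ᵐ u : ℝ, f ⟨u, h⟩ ≠ 0 := by
    filter_upwards [hc2.ae_notMem volume] with u hu h0
    exact hu ⟨hrow u, h0⟩
  unfold s8nu0
  exact Measure.ae_smul_measure (ae_restrict_of_ae h1) _

/-- on a measurable connected set the zeros are a null set. -/
theorem s8_ae_ne (f : ℂ → ℂ) (S : Set ℂ) (hS : IsConnected S) (hf : AnalyticOnNhd ℂ f S)
    (z₀ : ℂ) (hz₀ : z₀ ∈ S) (hne : f z₀ ≠ 0) : ∀ᵐ z : ℂ, z ∈ S → f z ≠ 0 := by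
  have hc := s8_zeros_countable f S hS hf z₀ hz₀ hne
  filter_upwards [hc.ae_notMem volume] with z hz hzS h0
  exact hz ⟨hzS, h0⟩

/-- the truncated deficit is monotone in the truncation level. -/
theorem s8_trunc_step (a K : ℝ) : Monotone fun n : ℕ => K - Real.log (max a (Real.exp (K - n))) := by
  intro n m hnm
  have h1 : Real.exp (K - m) ≤ Real.exp (K - n) := by
    apply Real.exp_le_exp.2
    have : (n : ℝ) ≤ m := by exact_mod_cast hnm
    linarith
  have h2 : Real.log (max a (Real.exp (K - m))) ≤ Real.log (max a (Real.exp (K - n))) := by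
    apply Real.log_le_log (lt_of_lt_of_le (Real.exp_pos _) (le_max_right _ _))
    exact max_le_max le_rfl h1
  show K - _ ≤ K - _
  linarith

theorem s8_trunc_le_pt (a K : ℝ) (ha : 0 < a) (n : ℕ) :
    K - Real.log (max a (Real.exp (K - n))) ≤ K - Real.log a := by
  have := Real.log_le_log ha (le_max_left a (Real.exp (K - n)))
  linarith

theorem s8_trunc_eq_pt (a K : ℝ) (ha : 0 < a) :
    ∃ n : ℕ, K - Real.log (max a (Real.exp (K - n))) = K - Real.log a := by
  obtain ⟨n, hn⟩ := exists_nat_ge (K - Real.log a)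
  refine ⟨n, ?_⟩
  have : Real.exp (K - n) ≤ a := by
    rw [← Real.exp_log ha]
    apply Real.exp_le_exp.2
    linarith
  rw [max_eq_left this]

theorem s8_trunc_nonneg (a K : ℝ) (ha : a ≤ Real.exp K) (n : ℕ) :
    0 ≤ K - Real.log (max a (Real.exp (K - n))) := by
  have h1 : max a (Real.exp (K - n)) ≤ Real.exp K := by
    apply max_le ha
    apply Real.exp_le_exp.2
    have : (0 : ℝ) ≤ n := Nat.cast_nonneg n
    linarith
  have h2 := Real.log_le_log (lt_of_lt_of_le (Real.exp_pos _) (le_max_right a (Real.exp (K - n)))) h1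
  rw [Real.log_exp] at h2
  linarith

/-- monotone convergence for truncated deficits. -/
theorem s8_trunc_mono {α : Type*} [MeasurableSpace α] (μ : Measure α) (a P : α → ℝ) (K : ℝ)
    (C : ℝ≥0∞) (ham : AEMeasurable a μ) (hPm : AEMeasurable P μ) (hP0 : ∀ u, 0 ≤ P u)
    (hnull : ∀ᵐ u ∂μ, 0 < a u)
    (hn : ∀ n : ℕ, ∫⁻ u, ENNReal.ofReal (P u * (K - Real.log (max (a u) (Real.exp (K - n))))) ∂μ ≤ C) :
    ∫⁻ u, ENNReal.ofReal (P u * (K - Real.log (a u))) ∂μ ≤ C := by
  have hmeas : ∀ n : ℕ, AEMeasurable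
      (fun u => ENNReal.ofReal (P u * (K - Real.log (max (a u) (Real.exp (K - n)))))) μ := by
    intro n
    apply AEMeasurable.ennreal_ofReal
    apply hPm.mul
    apply AEMeasurable.const_sub
    apply Real.measurable_log.comp_aemeasurable
    exact ham.max aemeasurable_const
  have hmono : ∀ᵐ u ∂μ, Monotone fun n : ℕ =>
      ENNReal.ofReal (P u * (K - Real.log (max (a u) (Real.exp (K - n))))) := by
    refine Filter.Eventually.of_forall fun u n m hnm => ?_
    apply ENNReal.ofReal_le_ofReal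
    exact mul_le_mul_of_nonneg_left (s8_trunc_step (a u) K hnm) (hP0 u)
  calc ∫⁻ u, ENNReal.ofReal (P u * (K - Real.log (a u))) ∂μ
      ≤ ∫⁻ u, ⨆ n : ℕ, ENNReal.ofReal (P u * (K - Real.log (max (a u) (Real.exp (K - n))))) ∂μ := by
        apply lintegral_mono_ae
        filter_upwards [hnull] with u hu
        obtain ⟨n, hn⟩ := s8_trunc_eq_pt (a u) K hu
        rw [← hn]
        exact le_iSup (fun n : ℕ =>
          ENNReal.ofReal (P u * (K - Real.log (max (a u) (Real.exp (K - n)))))) n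
    _ = ⨆ n : ℕ, ∫⁻ u, ENNReal.ofReal (P u * (K - Real.log (max (a u) (Real.exp (K - n))))) ∂μ :=
        lintegral_iSup' hmeas hmono
    _ ≤ C := iSup_le hn

/-- the truncated deficits are below the deficit. -/
theorem s8_trunc_le {α : Type*} [MeasurableSpace α] (μ : Measure α) (a P : α → ℝ) (K : ℝ)
    (hP0 : ∀ u, 0 ≤ P u) (hnull : ∀ᵐ u ∂μ, 0 < a u) (n : ℕ) :
    ∫⁻ u, ENNReal.ofReal (P u * (K - Real.log (max (a u) (Real.exp (K - n))))) ∂μ
      ≤ ∫⁻ u, ENNReal.ofReal (P u * (K - Real.log (a u))) ∂μ := by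
  apply lintegral_mono_ae
  filter_upwards [hnull] with u hu
  apply ENNReal.ofReal_le_ofReal
  exact mul_le_mul_of_nonneg_left (s8_trunc_le_pt (a u) K hu n) (hP0 u)

/-- integrals of continuous nonnegative functions against `s8nu0`. -/
theorem s8_nu0_lintegral_cont (φ : ℝ → ℝ) (hφ : Continuous φ) (h0 : ∀ u, 0 ≤ φ u) :
    ∫⁻ u, ENNReal.ofReal (φ u) ∂s8nu0
      = ENNReal.ofReal ((2 * π)⁻¹ * ∫ u in (0 : ℝ)..(2 * π), φ u) := by
  unfold s8nu0
  rw [lintegral_smul_measure, smul_eq_mul]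
  have h1 : IntegrableOn φ (Ico 0 (2 * π)) :=
    (hφ.integrableOn_Icc (a := (0 : ℝ)) (b := 2 * π)).mono_set Ico_subset_Icc_self
  rw [← ofReal_integral_eq_lintegral_ofReal h1 (Filter.Eventually.of_forall h0),
    ← ENNReal.ofReal_mul (by positivity), integral_Ico_eq_integral_Ioc,
    ← intervalIntegral.integral_of_le (by positivity)]

end Claimed.Agent.R269
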