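/-
Row 269, P1 Section 8, LIBRARY: the horizontal mean of `log|f|` (P1 Section 7, text after Lemma 7.6: "L(h) ≥ L(0)").   Blueprint: helper48.
HOST-FREE: Mathlib and `Lib/Cyl.lean` (sorry-free).

LEAF PACKAGE LF-S8-log-b (this file).

PROOF of `s8_deficit_row`.  By the symmetry `‖f (conj z)‖ = ‖f z‖` we may assume `h ≥ 0`; `h = 0` is trivial (`f ≠ 0` on the real row, everything continuous).  Let `b = h > 0`.
For `T : ℕ` the function `u_T(z) = log max(‖f z‖, e^{-T})` is `Chn.HSub` on `Chn.cstrip b` (`Chn.hsub_logmax`, `O = {|Im z| < H}`) and periodic.  `Chn.majorant` gives `V ≥ u_T` with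
`∫_0^{2π} V(x) dx = (∫ u_T(x+ib) + ∫ u_T(x-ib))/2 = ∫ u_T(x+ib) dx` (symmetry).  Hence  `∫_0^{2π} log‖f x‖ dx ≤ ∫ u_T(x) dx ≤ ∫ V(x) dx = ∫_0^{2π} u_T(x + ib) dx`, i.e.
`∫_0^{2π} (K - u_T(x+ib)) dx ≤ 2π K - ∫_0^{2π} log‖f x‖ dx`  for all `T`.  The integrands `K - u_T(x+ib) ≥ 0` (as soon as `e^{-T} ≤ e^K`) increase to `K - log‖f(x+ib)‖` at every `x` with `f(x+ib) ≠ 0`
(all but countably many `x`: `f ≢ 0`).  Monotone convergence for `lintegral`.
-/
import Claimed.Agent.R269.S8.Defs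
import Claimed.Agent.R269.Lib.Cyl
import Claimed.Agent.R269.S8.LibTrunc

set_option autoImplicit false

namespace Claimed.Agent.R269

open Complex ComplexConjugate MeasureTheory Set Metric Filter Topology
open scoped ENNReal Real

theorem s8_ostrip_connected (H : ℝ) (hH : 0 < H) : IsConnected {z : ℂ | |z.im| < H} := by
  refine ⟨⟨0, by simpa using hH⟩, ?_⟩
  apply Convex.isPreconnected
  have h1 : Convex ℝ {z : ℂ | -H < z.im} := convex_halfSpace_im_gt (-H)
  have h2 : Convex ℝ {z : ℂ | z.im < H} := convex_halfSpace_im_lt H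
  have : {z : ℂ | |z.im| < H} = {z : ℂ | -H < z.im} ∩ {z : ℂ | z.im < H} := by
    ext z
    show |z.im| < H ↔ -H < z.im ∧ z.im < H
    exact abs_lt
  rw [this]
  exact h1.inter h2

theorem s8_ostrip_isOpen (H : ℝ) : IsOpen {z : ℂ | |z.im| < H} :=
  isOpen_lt (continuous_abs.comp Complex.continuous_im) continuous_const

/-- the mean of the log deficit over any row is at most its mean over the real row. -/
theorem s8_deficit_row (f : ℂ → ℂ) (H h K : ℝ) (hh : |h| < H)
    (hf : DifferentiableOn ℂ f {z : ℂ | |z.im| < H})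
    (hper : ∀ z : ℂ, |z.im| < H → f (z + 2 * π) = f z)
    (hsym : ∀ z : ℂ, |z.im| < H → ‖f (conj z)‖ = ‖f z‖) (hne : ∀ x : ℝ, f (x : ℂ) ≠ 0)
    (hK : ∀ x : ℝ, ‖f ⟨x, h⟩‖ ≤ Real.exp K) :
    ∫⁻ x, ENNReal.ofReal (K - Real.log ‖f ⟨x, h⟩‖) ∂s8nu0 ≤
      ENNReal.ofReal (K - (2 * π)⁻¹ * ∫ x in (0 : ℝ)..(2 * π), Real.log ‖f (x : ℂ)‖) := by
  have hH : 0 < H := lt_of_le_of_lt (abs_nonneg h) hh
  have hO := s8_ostrip_isOpen H
  have hpi : (0 : ℝ) < 2 * π := by positivity
  have hcontrow : ∀ y : ℝ, |y| < H → Continuous fun x : ℝ => ‖f ⟨x, y⟩‖ := by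
    intro y hy
    apply continuous_norm.comp
    apply hf.continuousOn.comp_continuous (Chn.cyl_cont_mk y)
    intro u
    exact hy
  have hrow0 : ∀ x : ℝ, (⟨x, 0⟩ : ℂ) = (x : ℂ) := fun x => rfl
  have hc0 : Continuous fun x : ℝ => ‖f (x : ℂ)‖ := by
    have := hcontrow 0 (by simpa using hH)
    simpa only [hrow0] using this
  have hlog0 : Continuous fun x : ℝ => Real.log ‖f (x : ℂ)‖ :=
    hc0.log (fun x => (norm_pos_iff.2 (hne x)).ne')
  set a : ℝ → ℝ := fun u => ‖f ⟨u, h⟩‖ with ha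
  have hac : Continuous a := hcontrow h hh
  have han : AnalyticOnNhd ℂ f {z : ℂ | |z.im| < H} := fun z hz => hf.analyticAt (hO.mem_nhds hz)
  have hnull : ∀ᵐ u ∂s8nu0, 0 < a u := by
    filter_upwards [s8_row_ae_ne f _ (s8_ostrip_connected H hH) han ((0 : ℝ) : ℂ)
      (by simpa using hH) (hne 0) h (fun u => hh)] with u hu
    exact norm_pos_iff.2 hu
  have hmain := s8_trunc_mono s8nu0 a (fun _ => 1) K
    (ENNReal.ofReal (K - (2 * π)⁻¹ * ∫ x in (0 : ℝ)..(2 * π), Real.log ‖f (x : ℂ)‖))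
    hac.aemeasurable aemeasurable_const (fun _ => zero_le_one) hnull ?_
  · simpa only [one_mul] using hmain
  intro n
  simp only [one_mul]
  have hun : ∀ y : ℝ, |y| < H →
      Continuous fun x : ℝ => Real.log (max ‖f ⟨x, y⟩‖ (Real.exp (K - n))) := by
    intro y hy
    apply Continuous.log ((hcontrow y hy).max continuous_const)
    intro u
    exact (lt_of_lt_of_le (Real.exp_pos _) (le_max_right _ _)).ne'
  rw [s8_nu0_lintegral_cont (fun u => K - Real.log (max (a u) (Real.exp (K - n))))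
    (continuous_const.sub (hun h hh)) (fun u => s8_trunc_nonneg (a u) K (hK u) n)]
  apply ENNReal.ofReal_le_ofReal
  rw [intervalIntegral.integral_sub (intervalIntegrable_const) ((hun h hh).intervalIntegrable _ _),
    intervalIntegral.integral_const, smul_eq_mul, sub_zero, mul_sub, ← mul_assoc,
    inv_mul_cancel₀ hpi.ne', one_mul]
  have hgoal : (∫ x in (0 : ℝ)..(2 * π), Real.log ‖f (x : ℂ)‖)
      ≤ ∫ x in (0 : ℝ)..(2 * π), Real.log (max (a x) (Real.exp (K - n))) := by
    have hstep0 : (∫ x in (0 : ℝ)..(2 * π), Real.log ‖f (x : ℂ)‖)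
        ≤ ∫ x in (0 : ℝ)..(2 * π), Real.log (max ‖f (x : ℂ)‖ (Real.exp (K - n))) := by
      apply intervalIntegral.integral_mono_on hpi.le (hlog0.intervalIntegrable _ _)
      · have := hun 0 (by simpa using hH)
        simp only [hrow0] at this
        exact this.intervalIntegrable _ _
      · intro x _
        exact Real.log_le_log (norm_pos_iff.2 (hne x)) (le_max_left _ _)
    rcases eq_or_lt_of_le (abs_nonneg h) with hb | hb
    · have h0 : h = 0 := abs_eq_zero.1 hb.symm
      have : ∀ x : ℝ, a x = ‖f (x : ℂ)‖ := by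
        intro x
        show ‖f ⟨x, h⟩‖ = _
        rw [h0, hrow0]
      simp only [this]
      exact hstep0
    · -- `b = |h| > 0`
      have hsubO : Chn.cstrip |h| ⊆ {z : ℂ | |z.im| < H} := by
        intro z hz
        have : |z.im| ≤ |h| := hz
        exact lt_of_le_of_lt this hh
      have hlm : Chn.HSub (fun z => Real.log (max ‖f z‖ (Real.exp (K - n)))) (Chn.cstrip |h|) := by
        have := Chn.hsub_logmax f (Chn.cstrip |h|) ⟨_, hO, hsubO, hf⟩ (n - K)
        simpa only [neg_sub] using this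
      obtain ⟨V, hVc, -, -, hVge, hVint⟩ := Chn.majorant |h| hb _ hlm (by
        intro z hz
        show Real.log (max ‖f (z + 2 * π)‖ _) = Real.log (max ‖f z‖ _)
        rw [hper z (hsubO hz)])
      have hrows : ∀ x : ℝ, ‖f ⟨x, |h|⟩‖ = a x ∧ ‖f ⟨x, -|h|⟩‖ = a x := by
        intro x
        have hc : ‖f ⟨x, -h⟩‖ = ‖f ⟨x, h⟩‖ := by
          have := hsym ⟨x, h⟩ hh
          rwa [show conj (⟨x, h⟩ : ℂ) = ⟨x, -h⟩ from rfl] at this
        rcases abs_cases h with ⟨h1, _⟩ | ⟨h1, _⟩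
        · rw [h1]; exact ⟨rfl, hc⟩
        · rw [h1, neg_neg]; exact ⟨hc, rfl⟩
      have e1 : (∫ x in (0 : ℝ)..(2 * π), Real.log (max ‖f ⟨x, |h|⟩‖ (Real.exp (K - n))))
          = ∫ x in (0 : ℝ)..(2 * π), Real.log (max (a x) (Real.exp (K - n))) := by
        apply intervalIntegral.integral_congr
        intro x _
        show Real.log (max ‖f ⟨x, |h|⟩‖ _) = _
        rw [(hrows x).1]
      have e2 : (∫ x in (0 : ℝ)..(2 * π), Real.log (max ‖f ⟨x, -|h|⟩‖ (Real.exp (K - n))))
          = ∫ x in (0 : ℝ)..(2 * π), Real.log (max (a x) (Real.exp (K - n))) := by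
        apply intervalIntegral.integral_congr
        intro x _
        show Real.log (max ‖f ⟨x, -|h|⟩‖ _) = _
        rw [(hrows x).2]
      rw [e1, e2, add_self_div_two] at hVint
      rw [← hVint]
      refine hstep0.trans ?_
      apply intervalIntegral.integral_mono_on hpi.le
      · have := hun 0 (by simpa using hH)
        simp only [hrow0] at this
        exact this.intervalIntegrable _ _
      · exact (hVc.comp Complex.continuous_ofReal).intervalIntegrable _ _
      · intro x _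
        exact hVge _ (Chn.cyl_mem_real hb.le x)
  have hinv : (0 : ℝ) < (2 * π)⁻¹ := by positivity
  nlinarith [mul_le_mul_of_nonneg_left hgoal hinv.le]

end Claimed.Agent.R269
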