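/-
Row 269, P1 Section 8: BASIC FACTS A (the strip, the fields `f`, `q`, `M`, row maxima, (8.2)).   Blueprint: helper48.
LEAF PACKAGE LF-S8-basic-a (this file; fill IN PLACE).   Only `Shape.lean`, `S9/Ctx.lean`, `S8/Defs.lean` are needed (read the fields of `structure Shape`).

PROOFS.
* `s8_Hr_pos`: if `G.Hs = 0` then `estrip 0 = ∅` and `noncircular` fails (`∃ c₁, ∀ s ∈ ∅, ...`); `G.Hs ≠ ⊤` by `hH` (`Sh.H = Sh.G.Hs` by definition): `ENNReal.toReal_pos`.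
* `s8_mem_D`: `estrip H = {ofReal |Im s| < H}`, `H = ofReal Hr` (`ENNReal.ofReal_toReal hH`), `ENNReal.ofReal_lt_ofReal_iff`.
* `s8_k0`: `k₀ = max 1 (1 - log(H/10))`, so `e^{-k₀} ≤ e^{-1} H/10`.   `s8_db`: `δ_b = e^{-(k₀+3)}`.
* `s8_f_diff`: `f = deriv φ`, `φ` holomorphic on the open set `D` (`DifferentiableOn.deriv`).  `s8_f_per`, `s8_f_conj`: differentiate `φ_per`, `φ_conj` (they hold on the open set `D`, which is invariant under `+2π`, `conj`;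
  for `conj`: `deriv (conj ∘ φ ∘ conj) = conj ∘ deriv φ ∘ conj`, Mathlib `deriv_conj_conj`/`HasDerivAt.conj_conj`).  `s8_f_ode` is the field `q_eq`.
* `s8_f_real`: near a real `x`, `φ = G.Θ · 0` (`φ_base`, `hstrip (G.s/2)` is an open neighbourhood since `0 < r₁ < s`), so `f x = deriv (G.Θ · 0) x`, whose real part is positive (`φ'_pos`).
* `s8_q_per`: `q(s+2π) f(s) = f''(s+2π) = f''(s) = q(s) f(s)` on `D`; `f ≢ 0`, `D` connected (convex): the holomorphic function `q(·+2π) - q` vanishes where `f ≠ 0`, a set with accumulation points (a neighbourhood of the real axis):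
  identity theorem (`AnalyticOnNhd.eqOn_zero_of_preconnected_of_eventuallyEq_zero` at a real point, where `f ≠ 0` on a neighbourhood by continuity).  `s8_q_conj`: the same with `conj (q (conj s))`.
* `s8_M_cont`: `max`, `norm`, `sqrt` of continuous functions.
* `s8_le_rowMax`: `x ↦ M ⟨x,h⟩` is continuous and `2π`-periodic, hence bounded above (`Function.Periodic` + compactness of `[0,2π]`): `le_ciSup`.
* `s8_M_low`: `M` is continuous on the compact set `[0,2π] × [-(H-δ), H-δ] ⊆ D`, and periodic.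
* `s8_subexp` (8.2): `order = limsup (growth k / k) = 1 < 1 + ε` gives `∀ᶠ k, growth k / k < 1 + ε` (`Filter.eventually_lt_of_limsup_lt`, in `EReal`), i.e. `log (rowMax ..) ≤ (1+ε) k` for `k ≥ K₁ (> 0)`, so `rowMax ≤ e^{(1+ε)k}`
  (if `rowMax ≤ 0` trivial; else `Real.le_exp_log`/`Real.log_le_iff_le_exp`).  On `[k₀, K₁]`: `s8_M_low` with `δ = e^{-K₁}` and `s8_rowMax_le`.
-/
import Claimed.Agent.R269.S8.Defs
import Claimed.Agent.R269.ShapeBasic

set_option autoImplicit false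

namespace Claimed.Agent.R269

open Complex ComplexConjugate Filter Topology MeasureTheory Set
open scoped ENNReal Real

namespace Shape

variable (Sh : Shape)

theorem s8_Hr_pos (hH : Sh.H ≠ ⊤) : 0 < Sh.Hr := Sh.sb_Hr_pos hH

theorem s8_mem_D (hH : Sh.H ≠ ⊤) (s : ℂ) : s ∈ Sh.D ↔ |s.im| < Sh.Hr := Sh.sb_mem_D_iff hH s

theorem s8_isOpen_D : IsOpen Sh.D := Sh.sb_isOpen_D

theorem s8_k0 (hH : Sh.H ≠ ⊤) : 1 ≤ Sh.s9k0 ∧ Real.exp (-Sh.s9k0) < Sh.Hr / 10 := by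
  have hHr := Sh.sb_Hr_pos hH
  refine ⟨le_max_left _ _, ?_⟩
  have h1 : 1 - Real.log (Sh.Hr / 10) ≤ Sh.s9k0 := le_max_right _ _
  have h2 : Real.exp (-Sh.s9k0) ≤ Real.exp (Real.log (Sh.Hr / 10) - 1) :=
    Real.exp_le_exp.2 (by linarith)
  have h3 : Real.exp (Real.log (Sh.Hr / 10) - 1) < Real.exp (Real.log (Sh.Hr / 10)) :=
    Real.exp_lt_exp.2 (by linarith)
  rw [Real.exp_log (by positivity)] at h3
  linarith

theorem s8_db (hH : Sh.H ≠ ⊤) : 0 < Sh.s9db ∧ Sh.s9db < Sh.Hr / 200 := by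
  have hHr := Sh.sb_Hr_pos hH
  refine ⟨Real.exp_pos _, ?_⟩
  have h1 := (Sh.s8_k0 hH).2
  have h2 : Sh.s9db = Real.exp (-Sh.s9k0) * Real.exp (-3) := by
    rw [s9db, ← Real.exp_add]
    congr 1
    ring
  have h3 : Real.exp (-3) < 1 / 20 := by
    rw [Real.exp_neg, inv_eq_one_div]
    apply one_div_lt_one_div_of_lt (by norm_num)
    have h4 : (2 : ℝ) < Real.exp 1 := by
      have := Real.add_one_lt_exp (show (1 : ℝ) ≠ 0 by norm_num)
      linarith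
    have h5 : Real.exp 3 = Real.exp 1 ^ 3 := by
      rw [← Real.exp_nat_mul]
      norm_num
    have h6 := Real.exp_one_gt_d9
    rw [h5]
    have h7 : (2.718 : ℝ) < Real.exp 1 := by linarith
    have h8 : (2.718 : ℝ) ^ 3 < Real.exp 1 ^ 3 := pow_lt_pow_left₀ h7 (by norm_num) (by norm_num)
    have h9 : (20 : ℝ) < (2.718 : ℝ) ^ 3 := by norm_num
    linarith
  rw [h2]
  have h0 : 0 < Real.exp (-Sh.s9k0) := Real.exp_pos _
  have h00 : 0 < Real.exp (-3 : ℝ) := Real.exp_pos _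
  nlinarith

theorem s8_pt_mem (hH : Sh.H ≠ ⊤) (x d : ℝ) (hd : 0 < d) (hd' : d < 2 * Sh.Hr) : Sh.s8pt x d ∈ Sh.D := by
  rw [Sh.sb_mem_D_iff hH]
  show |Sh.Hr - d| < Sh.Hr
  rw [abs_lt]
  constructor <;> linarith

theorem s8_f_diff : DifferentiableOn ℂ Sh.f Sh.D := Sh.sb_f_diff

theorem s8_f_per : ∀ s ∈ Sh.D, Sh.f (s + 2 * π) = Sh.f s := Sh.sb_f_per

theorem s8_f_conj : ∀ s ∈ Sh.D, Sh.f (conj s) = conj (Sh.f s) := Sh.sb_f_conj

theorem s8_f_ode : ∀ s ∈ Sh.D, deriv (deriv Sh.f) s = Sh.q s * Sh.f s := Sh.sb_f_ode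

theorem s8_f_real : ∀ x : ℝ, Sh.f (x : ℂ) ≠ 0 := by
  intro x h0
  have hs : 0 < Sh.G.s / 2 := by
    have := Sh.sb_Gs_pos
    linarith
  have hmem : (x : ℂ) ∈ hstrip (Sh.G.s / 2) := by
    show |(x : ℂ).im| < _
    simpa using hs
  have hev : Sh.φ =ᶠ[𝓝 (x : ℂ)] fun y => Sh.G.Θ y 0 := by
    filter_upwards [(sb_hstrip_isOpen (Sh.G.s / 2)).mem_nhds hmem] with y hy
    exact Sh.φ_base y hy
  have h1 : Sh.f x = deriv (fun y => Sh.G.Θ y 0) x := hev.deriv_eq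
  have h2 := Sh.G.φ'_pos x
  rw [← h1, h0] at h2
  simp at h2

theorem s8_q_per : ∀ s ∈ Sh.D, Sh.q (s + 2 * π) = Sh.q s := Sh.sb_q_per

theorem s8_q_conj : ∀ s ∈ Sh.D, Sh.q (conj s) = conj (Sh.q s) := Sh.sb_q_conj

theorem s8_M_nonneg (s : ℂ) : 0 ≤ Sh.M s := le_max_of_le_left (norm_nonneg _)

theorem s8_M_cont : ContinuousOn Sh.M Sh.D :=
  ContinuousOn.sup Sh.sb_f_diff.continuousOn.norm
    (Real.continuous_sqrt.comp_continuousOn Sh.q_diff.continuousOn.norm)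

theorem s8_M_per : ∀ s ∈ Sh.D, Sh.M (s + 2 * π) = Sh.M s := by
  intro s hs
  rw [M, M, Sh.sb_f_per s hs, Sh.sb_q_per s hs]

theorem s8_M_conj : ∀ s ∈ Sh.D, Sh.M (conj s) = Sh.M s := fun _ hs => Sh.sb_M_conj hs

theorem s8_le_rowMax (hH : Sh.H ≠ ⊤) (h : ℝ) (hh : |h| < Sh.Hr) (x : ℝ) :
    Sh.M (⟨x, h⟩ : ℂ) ≤ Sh.rowMax h :=
  le_ciSup (Sh.sb_bddAbove_M hH hh) x

theorem s8_rowMax_le (h B : ℝ) (hB : ∀ x : ℝ, Sh.M (⟨x, h⟩ : ℂ) ≤ B) : Sh.rowMax h ≤ B :=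
  ciSup_le hB

/-- bounds in a fixed lower region. -/
theorem s8_M_low (hH : Sh.H ≠ ⊤) (δ : ℝ) (hδ : 0 < δ) :
    ∃ M₀ : ℝ, 0 ≤ M₀ ∧ ∀ s : ℂ, |s.im| ≤ Sh.Hr - δ → Sh.M s ≤ M₀ := by
  obtain ⟨Mf, hMf⟩ := Sh.sb_bdd_f hH (show Sh.Hr - δ < Sh.Hr by linarith)
  obtain ⟨Mq, hMq⟩ := Sh.sb_bdd_q hH (show Sh.Hr - δ < Sh.Hr by linarith)
  refine ⟨max (max Mf (Real.sqrt Mq)) 0, le_max_right _ _, ?_⟩
  intro s hs
  exact (max_le_max (hMf s hs) (Real.sqrt_le_sqrt (hMq s hs))).trans (le_max_left _ _)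

/-- **(8.2)** subexponential growth of the normalised row maxima. -/
theorem s8_subexp (hH : Sh.H ≠ ⊤) (ho : Sh.order = 1) (ε : ℝ) (hε : 0 < ε) :
    ∃ C : ℝ, 0 < C ∧ ∀ k ≥ Sh.s9k0,
      Real.exp (-k) * Sh.rowMax (Sh.Hr - Real.exp (-k)) ≤ C * Real.exp (ε * k) := by
  have hlt : Filter.limsup (fun k : ℝ => ((Sh.growth k / k : ℝ) : EReal)) atTop
      < ((1 + ε : ℝ) : EReal) := by
    have : Filter.limsup (fun k : ℝ => ((Sh.growth k / k : ℝ) : EReal)) atTop = 1 := ho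
    rw [this]
    have h1 : ((1 : ℝ) : EReal) < ((1 + ε : ℝ) : EReal) := EReal.coe_lt_coe_iff.2 (by linarith)
    simpa using h1
  have hev := Filter.eventually_lt_of_limsup_lt hlt (by isBoundedDefault)
  obtain ⟨K₁, hK₁⟩ := (hev.and (eventually_ge_atTop (1 : ℝ))).exists_forall_of_atTop
  obtain ⟨M₀, hM₀, hlow⟩ := Sh.s8_M_low hH (Real.exp (-K₁)) (Real.exp_pos _)
  have hk0 := (Sh.s8_k0 hH)
  have hHr := Sh.sb_Hr_pos hH
  refine ⟨M₀ + 1, by linarith, ?_⟩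
  intro k hk
  have hk1 : 1 ≤ k := hk0.1.trans hk
  have hE : 0 < Real.exp (ε * k) := Real.exp_pos _
  have hE1 : 1 ≤ Real.exp (ε * k) := Real.one_le_exp (by positivity)
  have hdk : Real.exp (-k) ≤ 1 := Real.exp_le_one_iff.2 (by linarith)
  have hdk0 : 0 < Real.exp (-k) := Real.exp_pos _
  by_cases hkK : K₁ ≤ k
  · have h1 := (hK₁ k hkK).1
    rw [EReal.coe_lt_coe_iff, div_lt_iff₀ (by linarith)] at h1
    have hrow0 : 0 ≤ Sh.rowMax (Sh.Hr - Real.exp (-k)) :=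
      Real.iSup_nonneg fun x => Sh.s8_M_nonneg _
    have h2 : Sh.rowMax (Sh.Hr - Real.exp (-k)) ≤ Real.exp ((1 + ε) * k) := by
      rcases hrow0.eq_or_lt with h0 | h0
      · rw [← h0]
        exact (Real.exp_pos _).le
      · rw [← Real.exp_log h0]
        exact Real.exp_le_exp.2 h1.le
    calc Real.exp (-k) * Sh.rowMax (Sh.Hr - Real.exp (-k))
        ≤ Real.exp (-k) * Real.exp ((1 + ε) * k) := by gcongr
      _ = Real.exp (ε * k) := by
          rw [← Real.exp_add]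
          congr 1
          ring
      _ ≤ (M₀ + 1) * Real.exp (ε * k) := by nlinarith
  · push Not at hkK
    have h1 : Sh.rowMax (Sh.Hr - Real.exp (-k)) ≤ M₀ := by
      apply Sh.s8_rowMax_le
      intro x
      apply hlow
      show |Sh.Hr - Real.exp (-k)| ≤ _
      have h2 : Real.exp (-K₁) ≤ Real.exp (-k) := Real.exp_le_exp.2 (by linarith)
      have h3 : Real.exp (-k) ≤ Real.exp (-Sh.s9k0) := Real.exp_le_exp.2 (by linarith)
      rw [abs_of_nonneg (by linarith [hk0.2])]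
      linarith
    calc Real.exp (-k) * Sh.rowMax (Sh.Hr - Real.exp (-k)) ≤ 1 * M₀ := by
          apply mul_le_mul hdk h1 (Real.iSup_nonneg fun x => Sh.s8_M_nonneg _) (by norm_num)
      _ ≤ (M₀ + 1) * Real.exp (ε * k) := by nlinarith

end Shape

end Claimed.Agent.R269
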