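/-
Row 269, P1 Section 8: BASIC FACTS C (the measure `s8nu0`, the row means `μ`, `μ_f`, the envelopes `s9env`).   Blueprint: helper48.
LEAF PACKAGE LF-S8-basic-c (this file; fill IN PLACE).   Black boxes: `S8/BasicA.lean`.

PROOFS.
* `s8nu0 = ofReal (2π)⁻¹ • volume.restrict (Ico 0 2π)`: `lintegral_smul_measure`; total mass `ofReal (2π)⁻¹ * ofReal (2π) = 1`.
* `s8_nu0_shift`: for a measurable `2π`-periodic `F : ℝ → ℝ≥0∞`: `∫⁻_{Ico 0 2π} F (x+h) = ∫⁻_{Ico h (h+2π)} F = ∫⁻_{Ico 0 2π} F`.  First equality: translation invariance of `volume` (`lintegral_add_right_eq_self` for the indicator /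
  `MeasurePreserving.setLIntegral_comp_preimage`).  Second: `Ico 0 2π` and `Ico h (h+2π)` are fundamental domains of `AddSubgroup.zmultiples (2π)` (`isAddFundamentalDomain_Ioc'`-type lemmas are for `Ioc`: `Ico`/`Ioc` differ by a null set)
  and `IsAddFundamentalDomain.setLIntegral_eq`; or by hand: reduce to `0 ≤ h < 2π` by induction/`Int.floor`, split `[h,h+2π) = [h,2π) ∪ [2π,2π+h)` and translate the second piece by `2π`.
* `s8_nu0_integral`: `integral_smul_measure`, `intervalIntegral.integral_of_le`, `Ioc`/`Ico` a.e. equal (`integral_Ico_eq_integral_Ioc`).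
* rows: `x ↦ s8pt x d` is continuous into `D` for `0 < d < 2 Hr` (`s8_pt_mem`), so `x ↦ ‖f (s8pt x d)‖`, `‖q ..‖`, `M ..` are continuous (`s8_f_diff.continuousOn`, `q_diff`, `s8_M_cont`).  NOTE `s8pt x d = ⟨x, Hr - d⟩` definitionally.
* `s8_mu_sq`, `s8_muf_sq`: `μ k ^ 2 = e^{-2k} (2π)⁻¹ ∫_0^{2π} (..)` (`Real.sq_sqrt`, the integral is `≥ 0`), `ofReal_integral_eq_lintegral_ofReal` for the continuous nonnegative integrand.
* `s8_M2_le_mu`, `s8_mu_le_M2`: `M² = max(|f|², |q|) ≤ |f|² + |q| ≤ 2 M²`.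
* `s8_mu_cont`: `(k,x) ↦ ‖f ⟨x, Hr - e^{-k}⟩‖² + ‖q ..‖` is continuous on `Ici k₀ × ℝ`: continuity of the parametric integral (`intervalIntegral.continuousOn_...`/`continuous_parametric_intervalIntegral_of_continuous` after
  replacing `k` by `max k k₀`, which makes the integrand globally continuous).
* `s8_mu_le_rowMax`: `|f|² + |q| ≤ 2 rowMax²` (`s8_le_rowMax`).
* `s8_env_s9env`: `(K-j)₊ ≤ (K-k)₊ + (k-j)`, `(j-K)₊ ≤ (k-K)₊` for `j ≤ k`, and symmetrically.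
* `s8_fin_env`: `s8_subexp` with `ε = a`: `e^{-j} rowMax ≤ C e^{a j} ≤ C e^{a |K|} e^{a (j-K)₊} ≤ C e^{a|K|} s9env N₀ β a K j`.
-/
import Claimed.Agent.R269.S8.BasicA

set_option autoImplicit false

namespace Claimed.Agent.R269

open Complex ComplexConjugate Filter Topology MeasureTheory Set
open scoped ENNReal Real

theorem s8_nu0_prob : IsProbabilityMeasure s8nu0 := by
  constructor
  unfold s8nu0
  rw [Measure.smul_apply, Measure.restrict_apply_univ, Real.volume_Ico, smul_eq_mul,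
    ← ENNReal.ofReal_mul (by positivity), sub_zero, inv_mul_cancel₀ (by positivity), ENNReal.ofReal_one]

theorem s8_nu0_lintegral (F : ℝ → ℝ≥0∞) :
    ∫⁻ x, F x ∂s8nu0 = ENNReal.ofReal (2 * π)⁻¹ * ∫⁻ x in Ico (0 : ℝ) (2 * π), F x := by
  unfold s8nu0
  rw [lintegral_smul_measure, smul_eq_mul]

theorem s8bc_period (F : ℝ → ℝ≥0∞) (hper : ∀ x, F (x + 2 * π) = F x) (t s : ℝ) :
    ∫⁻ x in Ioc t (t + 2 * π), F x = ∫⁻ x in Ioc s (s + 2 * π), F x := by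
  have hT : (0 : ℝ) < 2 * π := by positivity
  have : VAddInvariantMeasure (AddSubgroup.zmultiples (2 * π)) ℝ volume :=
    ⟨fun c s _ => measure_preimage_add _ _ _⟩
  have hp : Function.Periodic F (2 * π) := hper
  apply IsAddFundamentalDomain.setLIntegral_eq (G := AddSubgroup.zmultiples (2 * π))
  exacts [isAddFundamentalDomain_Ioc hT t, isAddFundamentalDomain_Ioc hT s, hp.map_vadd_zmultiples]

/-- translation invariance on periodic functions. -/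
theorem s8_nu0_shift (F : ℝ → ℝ≥0∞) (hF : Measurable F) (hper : ∀ x, F (x + 2 * π) = F x) (h : ℝ) :
    ∫⁻ x, F (x + h) ∂s8nu0 = ∫⁻ x, F x ∂s8nu0 := by
  rw [s8_nu0_lintegral, s8_nu0_lintegral]
  congr 1
  rw [setLIntegral_congr (Ico_ae_eq_Ioc (μ := volume) (a := (0 : ℝ)) (b := 2 * π))]
  have h1 := (measurePreserving_add_right volume h).setLIntegral_comp_preimage
    (measurableSet_Ioc (a := h) (b := h + 2 * π)) hF
  rw [preimage_add_const_Ioc, sub_self, add_sub_cancel_left] at h1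
  rw [h1, s8bc_period F hper h 0, zero_add]
  exact (setLIntegral_congr Ico_ae_eq_Ioc).symm

theorem s8_nu0_integral (g : ℝ → ℝ) : ∫ x, g x ∂s8nu0 = (2 * π)⁻¹ * ∫ x in (0 : ℝ)..(2 * π), g x := by
  unfold s8nu0
  rw [integral_smul_measure, ENNReal.toReal_ofReal (by positivity), integral_Ico_eq_integral_Ioc,
    ← intervalIntegral.integral_of_le (by positivity), smul_eq_mul]

/-- `s8nu0` is admissible at every level, with `CT = 1`. -/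
theorem s8_nu0_adm (ka : ℝ) : S8Adm s8nu0 ka (fun _ => 1) := by
  refine ⟨s8_nu0_prob, ?_⟩
  intro A _ h _ F hF hper
  rw [s8_nu0_shift F hF hper h, ENNReal.ofReal_one, one_mul]

/-- test `trans` with `F = 1`, `h = 0`. -/
theorem S8Adm.one_le {ν : Measure ℝ} {ka : ℝ} {CT : ℝ → ℝ} (h : S8Adm ν ka CT) (A : ℝ) (hA : 0 ≤ A) :
    1 ≤ CT A := by
  have := h.prob
  have h1 := h.trans A hA 0 (by rw [abs_zero]; positivity) (fun _ => 1) measurable_const (fun _ => rfl)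
  simp only [lintegral_const, measure_univ, mul_one] at h1
  exact ENNReal.one_le_ofReal.1 h1

theorem s8_env_s9env (N₀ β a K : ℝ) (hN : 1 ≤ N₀) (hβ : 0 ≤ β) (ha : 0 ≤ a) : S8Env β a (s9env N₀ β a K) := by
  have hN0 : 0 < N₀ := by linarith
  refine ⟨fun l => ?_, fun j k hjk => ?_, fun j k hjk => ?_⟩
  · unfold s9env
    have h1 : 0 ≤ β * max (K - l) 0 + a * max (l - K) 0 := by positivity
    have h2 : 1 ≤ Real.exp (β * max (K - l) 0 + a * max (l - K) 0) := Real.one_le_exp h1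
    nlinarith
  · unfold s9env
    rw [mul_assoc, ← Real.exp_add]
    apply mul_le_mul_of_nonneg_left _ hN0.le
    apply Real.exp_le_exp.2
    have h1 : max (K - j) 0 ≤ max (K - k) 0 + (k - j) := by
      apply max_le
      · linarith [le_max_left (K - k) 0]
      · linarith [le_max_right (K - k) 0]
    have h2 : max (j - K) 0 ≤ max (k - K) 0 := max_le_max (by linarith) le_rfl
    nlinarith [mul_le_mul_of_nonneg_left h1 hβ, mul_le_mul_of_nonneg_left h2 ha]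
  · unfold s9env
    rw [mul_assoc, ← Real.exp_add]
    apply mul_le_mul_of_nonneg_left _ hN0.le
    apply Real.exp_le_exp.2
    have h1 : max (j - K) 0 ≤ max (k - K) 0 + (j - k) := by
      apply max_le
      · linarith [le_max_left (k - K) 0]
      · linarith [le_max_right (k - K) 0]
    have h2 : max (K - j) 0 ≤ max (K - k) 0 := max_le_max (by linarith) le_rfl
    nlinarith [mul_le_mul_of_nonneg_left h1 ha, mul_le_mul_of_nonneg_left h2 hβ]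

theorem s8_s9env_self (N₀ β a K : ℝ) : s9env N₀ β a K K = N₀ := by
  simp [s9env]

theorem S8Env.mono {β a β' a' : ℝ} {N : ℝ → ℝ} (h : S8Env β a N) (hβ : β ≤ β') (ha : a ≤ a') : S8Env β' a' N := by
  refine ⟨h.one_le, fun j k hjk => (h.back j k hjk).trans ?_, fun j k hjk => (h.fwd j k hjk).trans ?_⟩
  · apply mul_le_mul_of_nonneg_left _ (by linarith [h.one_le k])
    apply Real.exp_le_exp.2
    exact mul_le_mul_of_nonneg_right hβ (by linarith)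
  · apply mul_le_mul_of_nonneg_left _ (by linarith [h.one_le k])
    apply Real.exp_le_exp.2
    exact mul_le_mul_of_nonneg_right ha (by linarith)

/-- two-sided comparison of neighbouring levels. -/
theorem S8Env.near {β a : ℝ} {N : ℝ → ℝ} (h : S8Env β a N) (hβ : 0 ≤ β) (ha : 0 ≤ a) (j k : ℝ) :
    N j ≤ N k * Real.exp ((β + a) * |j - k|) := by
  rcases le_total j k with hjk | hjk
  · refine (h.back j k hjk).trans ?_
    apply mul_le_mul_of_nonneg_left _ (by linarith [h.one_le k])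
    apply Real.exp_le_exp.2
    rw [abs_of_nonpos (by linarith)]
    nlinarith
  · refine (h.fwd j k hjk).trans ?_
    apply mul_le_mul_of_nonneg_left _ (by linarith [h.one_le k])
    apply Real.exp_le_exp.2
    rw [abs_of_nonneg (by linarith)]
    nlinarith

theorem s8bc_lint_cont (g : ℝ → ℝ) (hg : Continuous g) (h0 : ∀ x, 0 ≤ g x) :
    ∫⁻ x, ENNReal.ofReal (g x) ∂s8nu0 = ENNReal.ofReal ((2 * π)⁻¹ * ∫ x in (0 : ℝ)..(2 * π), g x) := by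
  rw [s8_nu0_lintegral, ← ofReal_integral_eq_lintegral_ofReal (hg.integrableOn_Icc.mono_set Ico_subset_Icc_self)
    (ae_of_all _ h0), ← ENNReal.ofReal_mul (by positivity), integral_Ico_eq_integral_Ioc,
    ← intervalIntegral.integral_of_le (by positivity)]

theorem s8bc_cont_mk (y : ℝ) : Continuous fun x : ℝ => (⟨x, y⟩ : ℂ) := by
  simp only [Complex.mk_eq_add_mul_I]
  fun_prop

theorem s8bc_cont_mk2 {X : Type*} [TopologicalSpace X] {u v : X → ℝ} (hu : Continuous u) (hv : Continuous v) :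
    Continuous fun p : X => (⟨u p, v p⟩ : ℂ) := by
  simp only [Complex.mk_eq_add_mul_I]
  fun_prop

namespace Shape

variable (Sh : Shape)

theorem s8_row_cont_f (hH : Sh.H ≠ ⊤) (d : ℝ) (hd : 0 < d) (hd' : d < 2 * Sh.Hr) :
    Continuous fun x : ℝ => Sh.f (Sh.s8pt x d) := by
  exact Sh.s8_f_diff.continuousOn.comp_continuous (s8bc_cont_mk _) fun x => Sh.s8_pt_mem hH x d hd hd'

theorem s8_row_cont_q (hH : Sh.H ≠ ⊤) (d : ℝ) (hd : 0 < d) (hd' : d < 2 * Sh.Hr) :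
    Continuous fun x : ℝ => Sh.q (Sh.s8pt x d) := by
  exact Sh.q_diff.continuousOn.comp_continuous (s8bc_cont_mk _) fun x => Sh.s8_pt_mem hH x d hd hd'

theorem s8_row_cont_M (hH : Sh.H ≠ ⊤) (d : ℝ) (hd : 0 < d) (hd' : d < 2 * Sh.Hr) :
    Continuous fun x : ℝ => Sh.M (Sh.s8pt x d) := by
  exact Sh.s8_M_cont.comp_continuous (s8bc_cont_mk _) fun x => Sh.s8_pt_mem hH x d hd hd'

theorem s8_mu_nonneg (k : ℝ) : 0 ≤ Sh.μ k := by
  unfold μ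
  positivity

theorem s8_muf_nonneg (k : ℝ) : 0 ≤ Sh.μf k := by
  unfold μf
  positivity

theorem s8bc_depth (hH : Sh.H ≠ ⊤) (k : ℝ) (hk : Sh.s9k0 ≤ k) :
    0 < Real.exp (-k) ∧ Real.exp (-k) < 2 * Sh.Hr := by
  have h1 := (Sh.s8_k0 hH).2
  have h2 : Real.exp (-k) ≤ Real.exp (-Sh.s9k0) := Real.exp_le_exp.2 (by linarith)
  have h3 := Sh.s8_Hr_pos hH
  exact ⟨Real.exp_pos _, by linarith⟩

theorem s8bc_cont_f2 (hH : Sh.H ≠ ⊤) (k : ℝ) (hk : Sh.s9k0 ≤ k) :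
    Continuous fun x : ℝ => ‖Sh.f (⟨x, Sh.Hr - Real.exp (-k)⟩ : ℂ)‖ ^ 2 :=
  ((Sh.s8_row_cont_f hH _ (Sh.s8bc_depth hH k hk).1 (Sh.s8bc_depth hH k hk).2).norm).pow 2

theorem s8bc_cont_q1 (hH : Sh.H ≠ ⊤) (k : ℝ) (hk : Sh.s9k0 ≤ k) :
    Continuous fun x : ℝ => ‖Sh.q (⟨x, Sh.Hr - Real.exp (-k)⟩ : ℂ)‖ :=
  (Sh.s8_row_cont_q hH _ (Sh.s8bc_depth hH k hk).1 (Sh.s8bc_depth hH k hk).2).norm

theorem s8bc_cont_fq (hH : Sh.H ≠ ⊤) (k : ℝ) (hk : Sh.s9k0 ≤ k) :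
    Continuous fun x : ℝ => ‖Sh.f (⟨x, Sh.Hr - Real.exp (-k)⟩ : ℂ)‖ ^ 2 + ‖Sh.q (⟨x, Sh.Hr - Real.exp (-k)⟩ : ℂ)‖ :=
  (Sh.s8bc_cont_f2 hH k hk).add (Sh.s8bc_cont_q1 hH k hk)

theorem s8_muf_le_mu (hH : Sh.H ≠ ⊤) (k : ℝ) (hk : Sh.s9k0 ≤ k) : Sh.μf k ≤ Sh.μ k := by
  unfold μf μ
  apply mul_le_mul_of_nonneg_left _ (Real.exp_pos _).le
  apply Real.sqrt_le_sqrt
  apply mul_le_mul_of_nonneg_left _ (by positivity)
  apply intervalIntegral.integral_mono_on (by positivity)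
    ((Sh.s8bc_cont_f2 hH k hk).intervalIntegrable _ _)
    ((Sh.s8bc_cont_fq hH k hk).intervalIntegrable _ _)
  intro x _
  have := norm_nonneg (Sh.q (⟨x, Sh.Hr - Real.exp (-k)⟩ : ℂ))
  linarith

theorem s8_mu_sq (hH : Sh.H ≠ ⊤) (k : ℝ) (hk : Sh.s9k0 ≤ k) :
    ENNReal.ofReal (Sh.μ k ^ 2) = ∫⁻ x, ENNReal.ofReal (Real.exp (-k) ^ 2 *
      (‖Sh.f (Sh.s8pt x (Real.exp (-k)))‖ ^ 2 + ‖Sh.q (Sh.s8pt x (Real.exp (-k)))‖)) ∂s8nu0 := by
  have hc : Continuous fun x : ℝ => Real.exp (-k) ^ 2 * (‖Sh.f (⟨x, Sh.Hr - Real.exp (-k)⟩ : ℂ)‖ ^ 2 +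
      ‖Sh.q (⟨x, Sh.Hr - Real.exp (-k)⟩ : ℂ)‖) := continuous_const.mul (Sh.s8bc_cont_fq hH k hk)
  have e : ∀ x : ℝ, Sh.s8pt x (Real.exp (-k)) = ⟨x, Sh.Hr - Real.exp (-k)⟩ := fun _ => rfl
  simp only [e]
  rw [s8bc_lint_cont _ hc (fun x => by positivity)]
  congr 1
  unfold μ
  rw [mul_pow, Real.sq_sqrt (mul_nonneg (by positivity)
    (intervalIntegral.integral_nonneg (by positivity) fun x _ => by positivity)),
    intervalIntegral.integral_const_mul]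
  ring

theorem s8_muf_sq (hH : Sh.H ≠ ⊤) (k : ℝ) (hk : Sh.s9k0 ≤ k) :
    ENNReal.ofReal (Sh.μf k ^ 2) =
      ∫⁻ x, ENNReal.ofReal (Real.exp (-k) * ‖Sh.f (Sh.s8pt x (Real.exp (-k)))‖) ^ 2 ∂s8nu0 := by
  have hc : Continuous fun x : ℝ => Real.exp (-k) ^ 2 * ‖Sh.f (⟨x, Sh.Hr - Real.exp (-k)⟩ : ℂ)‖ ^ 2 :=
    continuous_const.mul (Sh.s8bc_cont_f2 hH k hk)
  have e : ∀ x : ℝ, ENNReal.ofReal (Real.exp (-k) * ‖Sh.f (Sh.s8pt x (Real.exp (-k)))‖) ^ 2 =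
      ENNReal.ofReal (Real.exp (-k) ^ 2 * ‖Sh.f (⟨x, Sh.Hr - Real.exp (-k)⟩ : ℂ)‖ ^ 2) := fun x => by
    rw [← ENNReal.ofReal_pow (by positivity), mul_pow]
    rfl
  simp only [e]
  rw [s8bc_lint_cont _ hc (fun x => by positivity)]
  congr 1
  unfold μf
  rw [mul_pow, Real.sq_sqrt (mul_nonneg (by positivity)
    (intervalIntegral.integral_nonneg (by positivity) fun x _ => by positivity)),
    intervalIntegral.integral_const_mul]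
  ring

theorem s8bc_M_sq_le (s : ℂ) : Sh.M s ^ 2 ≤ ‖Sh.f s‖ ^ 2 + ‖Sh.q s‖ := by
  unfold M
  have h1 := norm_nonneg (Sh.q s)
  have h2 := Real.sq_sqrt h1
  rcases max_cases ‖Sh.f s‖ (Real.sqrt ‖Sh.q s‖) with ⟨h, _⟩ | ⟨h, _⟩
  · rw [h]; linarith
  · rw [h, h2]; nlinarith [sq_nonneg ‖Sh.f s‖]

theorem s8bc_le_M_sq (s : ℂ) : ‖Sh.f s‖ ^ 2 + ‖Sh.q s‖ ≤ 2 * Sh.M s ^ 2 := by
  unfold M
  have h1 := norm_nonneg (Sh.q s)
  have h2 := Real.sq_sqrt h1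
  have h3 : ‖Sh.f s‖ ^ 2 ≤ max ‖Sh.f s‖ (Real.sqrt ‖Sh.q s‖) ^ 2 :=
    pow_le_pow_left₀ (norm_nonneg _) (le_max_left _ _) 2
  have h4 : Real.sqrt ‖Sh.q s‖ ^ 2 ≤ max ‖Sh.f s‖ (Real.sqrt ‖Sh.q s‖) ^ 2 :=
    pow_le_pow_left₀ (Real.sqrt_nonneg _) (le_max_right _ _) 2
  linarith

theorem s8_M2_le_mu (hH : Sh.H ≠ ⊤) (k : ℝ) (hk : Sh.s9k0 ≤ k) :
    ∫⁻ x, ENNReal.ofReal (Real.exp (-k) * Sh.M (Sh.s8pt x (Real.exp (-k)))) ^ 2 ∂s8nu0 ≤
      ENNReal.ofReal (Sh.μ k ^ 2) := by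
  rw [Sh.s8_mu_sq hH k hk]
  refine lintegral_mono fun x => ?_
  rw [← ENNReal.ofReal_pow (mul_nonneg (Real.exp_pos _).le (Sh.s8_M_nonneg _)), mul_pow]
  apply ENNReal.ofReal_le_ofReal
  exact mul_le_mul_of_nonneg_left (Sh.s8bc_M_sq_le _) (by positivity)

theorem s8_mu_le_M2 (hH : Sh.H ≠ ⊤) (k : ℝ) (hk : Sh.s9k0 ≤ k) :
    ENNReal.ofReal (Sh.μ k ^ 2) ≤
      2 * ∫⁻ x, ENNReal.ofReal (Real.exp (-k) * Sh.M (Sh.s8pt x (Real.exp (-k)))) ^ 2 ∂s8nu0 := by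
  rw [Sh.s8_mu_sq hH k hk, ← lintegral_const_mul' _ _ (by norm_num)]
  refine lintegral_mono fun x => ?_
  rw [← ENNReal.ofReal_pow (mul_nonneg (Real.exp_pos _).le (Sh.s8_M_nonneg _)), mul_pow,
    show (2 : ℝ≥0∞) = ENNReal.ofReal 2 by norm_num, ← ENNReal.ofReal_mul (by norm_num)]
  apply ENNReal.ofReal_le_ofReal
  have := mul_le_mul_of_nonneg_left (Sh.s8bc_le_M_sq (Sh.s8pt x (Real.exp (-k))))
    (by positivity : (0 : ℝ) ≤ Real.exp (-k) ^ 2)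
  linarith

theorem s8bc_mem2 (hH : Sh.H ≠ ⊤) (p : ℝ × ℝ) :
    (⟨p.2, Sh.Hr - Real.exp (-(max p.1 Sh.s9k0))⟩ : ℂ) ∈ Sh.D :=
  Sh.s8_pt_mem hH p.2 _ (Sh.s8bc_depth hH _ (le_max_right _ _)).1 (Sh.s8bc_depth hH _ (le_max_right _ _)).2

theorem s8bc_cont2 : Continuous fun p : ℝ × ℝ => (⟨p.2, Sh.Hr - Real.exp (-(max p.1 Sh.s9k0))⟩ : ℂ) :=
  s8bc_cont_mk2 continuous_snd (by fun_prop)

theorem s8_mu_cont (hH : Sh.H ≠ ⊤) : ContinuousOn Sh.μ (Ici Sh.s9k0) := by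
  have hf : Continuous fun p : ℝ × ℝ => Sh.f (⟨p.2, Sh.Hr - Real.exp (-(max p.1 Sh.s9k0))⟩ : ℂ) :=
    Sh.s8_f_diff.continuousOn.comp_continuous Sh.s8bc_cont2 (Sh.s8bc_mem2 hH)
  have hq : Continuous fun p : ℝ × ℝ => Sh.q (⟨p.2, Sh.Hr - Real.exp (-(max p.1 Sh.s9k0))⟩ : ℂ) :=
    Sh.q_diff.continuousOn.comp_continuous Sh.s8bc_cont2 (Sh.s8bc_mem2 hH)
  have hu : Continuous fun p : ℝ × ℝ => ‖Sh.f (⟨p.2, Sh.Hr - Real.exp (-(max p.1 Sh.s9k0))⟩ : ℂ)‖ ^ 2 +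
      ‖Sh.q (⟨p.2, Sh.Hr - Real.exp (-(max p.1 Sh.s9k0))⟩ : ℂ)‖ := (hf.norm.pow 2).add hq.norm
  have hI : Continuous fun k : ℝ => ∫ x in (0 : ℝ)..(2 * π),
      (‖Sh.f (⟨x, Sh.Hr - Real.exp (-(max k Sh.s9k0))⟩ : ℂ)‖ ^ 2 +
        ‖Sh.q (⟨x, Sh.Hr - Real.exp (-(max k Sh.s9k0))⟩ : ℂ)‖) :=
    intervalIntegral.continuous_parametric_intervalIntegral_of_continuous'
      (f := fun k x => ‖Sh.f (⟨x, Sh.Hr - Real.exp (-(max k Sh.s9k0))⟩ : ℂ)‖ ^ 2 +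
        ‖Sh.q (⟨x, Sh.Hr - Real.exp (-(max k Sh.s9k0))⟩ : ℂ)‖) hu 0 (2 * π)
  have hc : Continuous fun k : ℝ => Real.exp (-k) * Real.sqrt ((2 * π)⁻¹ * ∫ x in (0 : ℝ)..(2 * π),
      (‖Sh.f (⟨x, Sh.Hr - Real.exp (-(max k Sh.s9k0))⟩ : ℂ)‖ ^ 2 +
        ‖Sh.q (⟨x, Sh.Hr - Real.exp (-(max k Sh.s9k0))⟩ : ℂ)‖)) := by
    fun_prop
  refine hc.continuousOn.congr fun k hk => ?_
  unfold μ
  beta_reduce
  rw [max_eq_left (show Sh.s9k0 ≤ k from hk)]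

theorem s8_muf_cont (hH : Sh.H ≠ ⊤) : ContinuousOn Sh.μf (Ici Sh.s9k0) := by
  have hf : Continuous fun p : ℝ × ℝ => Sh.f (⟨p.2, Sh.Hr - Real.exp (-(max p.1 Sh.s9k0))⟩ : ℂ) :=
    Sh.s8_f_diff.continuousOn.comp_continuous Sh.s8bc_cont2 (Sh.s8bc_mem2 hH)
  have hu : Continuous fun p : ℝ × ℝ => ‖Sh.f (⟨p.2, Sh.Hr - Real.exp (-(max p.1 Sh.s9k0))⟩ : ℂ)‖ ^ 2 :=
    hf.norm.pow 2
  have hI : Continuous fun k : ℝ => ∫ x in (0 : ℝ)..(2 * π),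
      ‖Sh.f (⟨x, Sh.Hr - Real.exp (-(max k Sh.s9k0))⟩ : ℂ)‖ ^ 2 :=
    intervalIntegral.continuous_parametric_intervalIntegral_of_continuous'
      (f := fun k x => ‖Sh.f (⟨x, Sh.Hr - Real.exp (-(max k Sh.s9k0))⟩ : ℂ)‖ ^ 2) hu 0 (2 * π)
  have hc : Continuous fun k : ℝ => Real.exp (-k) * Real.sqrt ((2 * π)⁻¹ * ∫ x in (0 : ℝ)..(2 * π),
      ‖Sh.f (⟨x, Sh.Hr - Real.exp (-(max k Sh.s9k0))⟩ : ℂ)‖ ^ 2) := by
    fun_prop
  refine hc.continuousOn.congr fun k hk => ?_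
  unfold μf
  beta_reduce
  rw [max_eq_left (show Sh.s9k0 ≤ k from hk)]

theorem s8_mu_le_rowMax (hH : Sh.H ≠ ⊤) (k : ℝ) (hk : Sh.s9k0 ≤ k) :
    Sh.μ k ≤ 2 * (Real.exp (-k) * Sh.rowMax (Sh.Hr - Real.exp (-k))) := by
  obtain ⟨hd0, hd1⟩ := Sh.s8bc_depth hH k hk
  have hHr := Sh.s8_Hr_pos hH
  have hh : |Sh.Hr - Real.exp (-k)| < Sh.Hr := abs_lt.2 ⟨by linarith, by linarith⟩
  set R := Sh.rowMax (Sh.Hr - Real.exp (-k)) with hR
  have hM : ∀ x : ℝ, Sh.M (⟨x, Sh.Hr - Real.exp (-k)⟩ : ℂ) ≤ R := fun x => Sh.s8_le_rowMax hH _ hh x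
  have hR0 : 0 ≤ R := (Sh.s8_M_nonneg _).trans (hM 0)
  have hc := Sh.s8bc_cont_fq hH k hk
  have hp : (0 : ℝ) < 2 * π := by positivity
  have h1 : ∫ x in (0 : ℝ)..(2 * π), (‖Sh.f (⟨x, Sh.Hr - Real.exp (-k)⟩ : ℂ)‖ ^ 2 +
      ‖Sh.q (⟨x, Sh.Hr - Real.exp (-k)⟩ : ℂ)‖) ≤ ∫ _x in (0 : ℝ)..(2 * π), 2 * R ^ 2 := by
    apply intervalIntegral.integral_mono_on hp.le (hc.intervalIntegrable _ _) (continuous_const.intervalIntegrable _ _)
    intro x _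
    have h2 := Sh.s8bc_le_M_sq (⟨x, Sh.Hr - Real.exp (-k)⟩ : ℂ)
    have h3 : Sh.M (⟨x, Sh.Hr - Real.exp (-k)⟩ : ℂ) ^ 2 ≤ R ^ 2 := pow_le_pow_left₀ (Sh.s8_M_nonneg _) (hM x) 2
    linarith
  rw [intervalIntegral.integral_const, sub_zero, smul_eq_mul] at h1
  unfold μ
  rw [mul_left_comm]
  apply mul_le_mul_of_nonneg_left _ hd0.le
  apply Real.sqrt_le_iff.2 ⟨by positivity, ?_⟩
  calc (2 * π)⁻¹ * ∫ x in (0 : ℝ)..(2 * π), (‖Sh.f (⟨x, Sh.Hr - Real.exp (-k)⟩ : ℂ)‖ ^ 2 +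
      ‖Sh.q (⟨x, Sh.Hr - Real.exp (-k)⟩ : ℂ)‖) ≤ (2 * π)⁻¹ * (2 * π * (2 * R ^ 2)) :=
        mul_le_mul_of_nonneg_left h1 (by positivity)
    _ = 2 * R ^ 2 := by field_simp
    _ ≤ (2 * R) ^ 2 := by nlinarith [sq_nonneg R]

/-- an envelope with an exponential tail has a finite bootstrap ratio. -/
theorem s8_fin_env (hH : Sh.H ≠ ⊤) (ho : Sh.order = 1) (N₀ β a K : ℝ) (hN : 1 ≤ N₀) (hβ : 0 ≤ β)
    (ha : 0 < a) : Sh.S8Fin (s9env N₀ β a K) := by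
  obtain ⟨C, hC, hb⟩ := Sh.s8_subexp hH ho a ha
  refine ⟨C * Real.exp (a * K), fun j hj => (hb j hj).trans ?_⟩
  unfold s9env
  rw [mul_assoc]
  apply mul_le_mul_of_nonneg_left _ hC.le
  have h1 : Real.exp (a * j) ≤ Real.exp (a * K) * (1 * Real.exp (β * max (K - j) 0 + a * max (j - K) 0)) := by
    rw [one_mul, ← Real.exp_add]
    apply Real.exp_le_exp.2
    have h2 : j - K ≤ max (j - K) 0 := le_max_left _ _
    have h3 : 0 ≤ β * max (K - j) 0 := by positivity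
    nlinarith [mul_le_mul_of_nonneg_left h2 ha.le]
  refine h1.trans ?_
  apply mul_le_mul_of_nonneg_left _ (Real.exp_pos _).le
  exact mul_le_mul_of_nonneg_right hN (Real.exp_pos _).le

end Shape

end Claimed.Agent.R269
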