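/-
Row 269, P1 Section 8: TILES, API of the tile suprema `s8T`, `s8Tf`, `s8Tq` (P1 (8.8)).   Blueprint: helper48.
LEAF PACKAGE LF-S8-tile-a (this file; fill IN PLACE).   Black boxes: `S8/BasicA.lean`, `S8/BasicC.lean`.

`s9tile A k x = {s | e^{-A} e^{-k} ≤ dep s ∧ dep s ≤ e^{A} e^{-k} ∧ |Re s - x| ≤ A dep s ∧ 0 ≤ Im s}`, `dep s = Hr - Im s`.

PROOFS.
* `s8_tile_sub`: `0 ≤ Im s < Hr` (`dep s ≥ e^{-A-k} > 0`), `s8_mem_D`.   `s8_tile_compact`: closed (four closed conditions on continuous functions) and bounded (`0 ≤ Im s ≤ Hr`, `|Re s - x| ≤ A e^{A} e^{-k}`):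
  `Metric.isCompact_of_isClosed_isBounded`.
* `s8_le_T`: the image of the compact tile under the function `e^{-j} M`, continuous on `D`, is bounded above: `le_csSup`.   `s8_T_nonneg`: `Real.sSup_nonneg`.   `s8_T_le`: `Real.sSup_le`.
* `s8_T_per`: `s ↦ s + 2π` maps `tile A j x` onto `tile A j (x+2π)` and `M` is periodic on `D`: the two image sets coincide.
* `s8_T_meas`: `x ↦ T A j x` is LOWER SEMICONTINUOUS (`LowerSemicontinuous.measurable`): if `c < T A j x` there is `s` in the tile with `c < e^{-j} M s` (`exists_lt_of_lt_csSup`; if the tile is empty then `T = sSup ∅ = 0`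
  for ALL `x'` because emptiness does not depend on `x`: treat `c < 0` by `s8_T_nonneg`); `s + (x' - x) ∈ tile A j x'` and `x' ↦ M (s + (x'-x))` is continuous at `x` (`D` open).
* `s8_T_mono`: `tile A j x ⊆ tile A' j x`.   `s8_T_level`: `tile A l x ⊆ tile (A + |l-j|) j x` and `e^{-l} ≤ e^{|l-j|} e^{-j}`.
* `s8_tileL2_iff`: (⇒) `ofReal (T A j x) ≤ Z x` (if `Z x = ⊤` trivial, otherwise `s8_T_le` with `B = (Z x).toReal`), `lintegral_mono`.  (⇐) `Z = ofReal ∘ T`.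
* `s8_T_le_add`: `M ≤ |f| + |q|^{1/2}`.
* `s8_T_low`: all points of the tiles have depth `≥ e^{-A-K₁}`: `s8_M_low`; `e^{-j} ≤ 1` (`j ≥ k₀ ≥ 1`).
* `s8_T_fin`: a point `s` of `tile A j x` has depth `δ = e^{-l}`, `|l - j| ≤ A`.  If `l ≥ k₀`: `e^{-j} M s ≤ e^{A} e^{-l} rowMax(Hr - e^{-l}) ≤ e^{A} Y N l ≤ e^{A} Y e^{(β+a)A} N j` (`S8Env.near`; w.l.o.g. `Y ≥ 0`: replace `Y` by `max Y 0`).
  If `l < k₀`: `s8_M_low` with `δ = e^{-k₀}`, `N j ≥ 1`.
* `s8_T1_le`: Cauchy-Schwarz on a probability space: `(∫⁻ g)² ≤ ∫⁻ g²` (`ENNReal.lintegral_mul_le_Lp_mul_Lq` with `p = q = 2`, or `lintegral_rpow`-Jensen; `g = ofReal ∘ T` measurable).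
* `s8_mu_le_of_T2`: `s8_mu_le_M2`, `s8_pt_mem_tile`, `s8_le_T`: `ofReal (μ j ²) ≤ 2 T2 ≤ ofReal (2 b²)`.
-/
import Claimed.Agent.R269.S8.BasicC

set_option autoImplicit false

namespace Claimed.Agent.R269

open Complex ComplexConjugate Filter Topology MeasureTheory Set
open scoped ENNReal Real

namespace Shape

variable (Sh : Shape)

theorem s8_tile_sub (hH : Sh.H ≠ ⊤) (A j x : ℝ) : Sh.s9tile A j x ⊆ Sh.D := by
  intro s hs
  obtain ⟨h1, _, _, h4⟩ := hs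
  rw [Sh.s8_mem_D hH, abs_of_nonneg h4]
  have : 0 < Real.exp (-A) * Real.exp (-j) := by positivity
  have h5 : Sh.s9dep s = Sh.Hr - s.im := rfl
  linarith

theorem s8_tile_compact (A j x : ℝ) : IsCompact (Sh.s9tile A j x) := by
  have hcl : IsClosed (Sh.s9tile A j x) := by
    have h1 : Continuous fun s : ℂ => Sh.s9dep s := by
      unfold s9dep
      fun_prop
    have e : Sh.s9tile A j x = {s | Real.exp (-A) * Real.exp (-j) ≤ Sh.s9dep s} ∩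
        ({s | Sh.s9dep s ≤ Real.exp A * Real.exp (-j)} ∩
          ({s | |s.re - x| ≤ A * Sh.s9dep s} ∩ {s | 0 ≤ s.im})) := by
      ext s
      rfl
    rw [e]
    refine (isClosed_le continuous_const h1).inter ((isClosed_le h1 continuous_const).inter
      ((isClosed_le (by fun_prop) (by fun_prop)).inter (isClosed_le continuous_const (by fun_prop))))
  set R : ℝ := |A| * (Real.exp A * Real.exp (-j)) with hR
  have hK : IsCompact (Icc (x - R) (x + R) ×ℂ Icc 0 Sh.Hr) := isCompact_Icc.reProdIm isCompact_Icc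
  refine hK.of_isClosed_subset hcl ?_
  intro s hs
  obtain ⟨h1, h2, h3, h4⟩ := hs
  have h0 : 0 < Real.exp (-A) * Real.exp (-j) := by positivity
  have hd : 0 ≤ Sh.s9dep s := by linarith
  have h5 : Sh.s9dep s = Sh.Hr - s.im := rfl
  have h6 : |s.re - x| ≤ R := by
    calc |s.re - x| ≤ A * Sh.s9dep s := h3
      _ ≤ |A| * Sh.s9dep s := by gcongr; exact le_abs_self A
      _ ≤ R := by rw [hR]; gcongr
  rw [abs_le] at h6
  rw [Complex.mem_reProdIm]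
  exact ⟨⟨by linarith [h6.1], by linarith [h6.2]⟩, h4, by linarith⟩

theorem s8_pt_mem_tile (hH : Sh.H ≠ ⊤) (A j x : ℝ) (hA : 0 ≤ A) (hj : Sh.s9k0 ≤ j) :
    Sh.s8pt x (Real.exp (-j)) ∈ Sh.s9tile A j x := by
  have hd : Sh.s9dep (Sh.s8pt x (Real.exp (-j))) = Real.exp (-j) := by
    show Sh.Hr - (Sh.Hr - Real.exp (-j)) = _
    ring
  have h0 : 0 < Real.exp (-j) := Real.exp_pos _
  have hk := (Sh.s8_k0 hH).2
  have hHr := Sh.s8_Hr_pos hH
  have hjk : Real.exp (-j) ≤ Real.exp (-Sh.s9k0) := Real.exp_le_exp.2 (by linarith)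
  refine ⟨?_, ?_, ?_, ?_⟩
  · rw [hd]
    have : Real.exp (-A) ≤ 1 := Real.exp_le_one_iff.2 (by linarith)
    nlinarith
  · rw [hd]
    have : 1 ≤ Real.exp A := Real.one_le_exp hA
    nlinarith
  · rw [hd]
    show |x - x| ≤ _
    rw [sub_self, abs_zero]
    positivity
  · show 0 ≤ Sh.Hr - Real.exp (-j)
    linarith

/-! ### generic tile suprema -/

theorem s8a_bdd (hH : Sh.H ≠ ⊤) (g : ℂ → ℝ) (hg : ContinuousOn g Sh.D) (A j x : ℝ) :
    BddAbove ((fun s => Real.exp (-j) * g s) '' Sh.s9tile A j x) :=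
  ((Sh.s8_tile_compact A j x).image_of_continuousOn
    (continuousOn_const.mul (hg.mono (Sh.s8_tile_sub hH A j x)))).bddAbove

theorem s8a_le (hH : Sh.H ≠ ⊤) (g : ℂ → ℝ) (hg : ContinuousOn g Sh.D) (A j x : ℝ) (s : ℂ)
    (hs : s ∈ Sh.s9tile A j x) :
    Real.exp (-j) * g s ≤ sSup ((fun s => Real.exp (-j) * g s) '' Sh.s9tile A j x) :=
  le_csSup (Sh.s8a_bdd hH g hg A j x) ⟨s, hs, rfl⟩

theorem s8a_nonneg (g : ℂ → ℝ) (hg : ∀ s, 0 ≤ g s) (A j x : ℝ) :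
    0 ≤ sSup ((fun s => Real.exp (-j) * g s) '' Sh.s9tile A j x) := by
  apply Real.sSup_nonneg
  rintro _ ⟨s, _, rfl⟩
  exact mul_nonneg (Real.exp_pos _).le (hg s)

theorem s8a_sup_le (g : ℂ → ℝ) (A j x B : ℝ) (hB : 0 ≤ B)
    (h : ∀ s ∈ Sh.s9tile A j x, Real.exp (-j) * g s ≤ B) :
    sSup ((fun s => Real.exp (-j) * g s) '' Sh.s9tile A j x) ≤ B := by
  apply Real.sSup_le _ hB
  rintro _ ⟨s, hs, rfl⟩
  exact h s hs

theorem s8a_tile_shift (A j x t : ℝ) (s : ℂ) (hs : s ∈ Sh.s9tile A j x) :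
    s + (t : ℂ) ∈ Sh.s9tile A j (x + t) := by
  obtain ⟨h1, h2, h3, h4⟩ := hs
  have hd : Sh.s9dep (s + (t : ℂ)) = Sh.s9dep s := by
    simp [s9dep]
  refine ⟨by rw [hd]; exact h1, by rw [hd]; exact h2, ?_, by simpa using h4⟩
  rw [hd]
  have : (s + (t : ℂ)).re - (x + t) = s.re - x := by
    simp
  rw [this]
  exact h3

theorem s8a_meas (hH : Sh.H ≠ ⊤) (g : ℂ → ℝ) (hg : ContinuousOn g Sh.D) (hg0 : ∀ s, 0 ≤ g s)
    (A j : ℝ) : Measurable fun x => sSup ((fun s => Real.exp (-j) * g s) '' Sh.s9tile A j x) := by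
  apply LowerSemicontinuous.measurable
  intro x c hc
  replace hc : c < sSup ((fun s => Real.exp (-j) * g s) '' Sh.s9tile A j x) := hc
  by_cases hne : (Sh.s9tile A j x).Nonempty
  · obtain ⟨_, ⟨s, hs, rfl⟩, hcs⟩ := exists_lt_of_lt_csSup (hne.image _) hc
    have hsD : s ∈ Sh.D := Sh.s8_tile_sub hH A j x hs
    have hcont : ContinuousAt (fun x' : ℝ => Real.exp (-j) * g (s + ((x' - x : ℝ) : ℂ))) x := by
      apply ContinuousAt.mul continuousAt_const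
      have h1 : ContinuousAt g (s + ((x - x : ℝ) : ℂ)) := by
        rw [sub_self, Complex.ofReal_zero, add_zero]
        exact hg.continuousAt (Sh.s8_isOpen_D.mem_nhds hsD)
      exact ContinuousAt.comp (f := fun x' : ℝ => s + ((x' - x : ℝ) : ℂ)) h1 (by fun_prop)
    have h2 : c < Real.exp (-j) * g (s + ((x - x : ℝ) : ℂ)) := by
      rw [sub_self, Complex.ofReal_zero, add_zero]
      exact hcs
    filter_upwards [hcont.eventually (lt_mem_nhds h2)] with x' hx'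
    refine lt_of_lt_of_le hx' ?_
    apply Sh.s8a_le hH g hg
    have := Sh.s8a_tile_shift A j x (x' - x) s hs
    rwa [add_sub_cancel] at this
  · rw [not_nonempty_iff_eq_empty] at hne
    rw [hne, image_empty, Real.sSup_empty] at hc
    exact Eventually.of_forall fun x' => lt_of_lt_of_le hc (Sh.s8a_nonneg g hg0 A j x')

theorem s8a_mono (hH : Sh.H ≠ ⊤) (g : ℂ → ℝ) (hg : ContinuousOn g Sh.D) (hg0 : ∀ s, 0 ≤ g s)
    (A A' j j' x x' : ℝ) (hsub : Sh.s9tile A j x ⊆ Sh.s9tile A' j' x') :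
    sSup ((fun s => Real.exp (-j') * g s) '' Sh.s9tile A j x) ≤
      sSup ((fun s => Real.exp (-j') * g s) '' Sh.s9tile A' j' x') := by
  apply Real.sSup_le _ (Sh.s8a_nonneg g hg0 A' j' x')
  rintro _ ⟨s, hs, rfl⟩
  exact Sh.s8a_le hH g hg A' j' x' s (hsub hs)

theorem s8a_f_cont : ContinuousOn (fun s => ‖Sh.f s‖) Sh.D := Sh.s8_f_diff.continuousOn.norm

theorem s8a_q_cont : ContinuousOn (fun s => Real.sqrt ‖Sh.q s‖) Sh.D :=
  Real.continuous_sqrt.comp_continuousOn Sh.q_diff.continuousOn.norm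

theorem s8_le_T (hH : Sh.H ≠ ⊤) (A j x : ℝ) (s : ℂ) (hs : s ∈ Sh.s9tile A j x) :
    Real.exp (-j) * Sh.M s ≤ Sh.s8T A j x := Sh.s8a_le hH Sh.M Sh.s8_M_cont A j x s hs

theorem s8_le_Tf (hH : Sh.H ≠ ⊤) (A j x : ℝ) (s : ℂ) (hs : s ∈ Sh.s9tile A j x) :
    Real.exp (-j) * ‖Sh.f s‖ ≤ Sh.s8Tf A j x := Sh.s8a_le hH _ Sh.s8a_f_cont A j x s hs

theorem s8_le_Tq (hH : Sh.H ≠ ⊤) (A j x : ℝ) (s : ℂ) (hs : s ∈ Sh.s9tile A j x) :
    Real.exp (-j) * Real.sqrt ‖Sh.q s‖ ≤ Sh.s8Tq A j x := Sh.s8a_le hH _ Sh.s8a_q_cont A j x s hs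

theorem s8_T_nonneg (A j x : ℝ) : 0 ≤ Sh.s8T A j x := Sh.s8a_nonneg Sh.M Sh.s8_M_nonneg A j x

theorem s8_Tf_nonneg (A j x : ℝ) : 0 ≤ Sh.s8Tf A j x := Sh.s8a_nonneg _ (fun _ => norm_nonneg _) A j x

theorem s8_Tq_nonneg (A j x : ℝ) : 0 ≤ Sh.s8Tq A j x :=
  Sh.s8a_nonneg _ (fun _ => Real.sqrt_nonneg _) A j x

theorem s8_T_le (A j x B : ℝ) (hB : 0 ≤ B) (h : ∀ s ∈ Sh.s9tile A j x, Real.exp (-j) * Sh.M s ≤ B) :
    Sh.s8T A j x ≤ B := Sh.s8a_sup_le Sh.M A j x B hB h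

theorem s8_Tf_le (A j x B : ℝ) (hB : 0 ≤ B) (h : ∀ s ∈ Sh.s9tile A j x, Real.exp (-j) * ‖Sh.f s‖ ≤ B) :
    Sh.s8Tf A j x ≤ B := Sh.s8a_sup_le _ A j x B hB h

theorem s8_Tq_le (A j x B : ℝ) (hB : 0 ≤ B)
    (h : ∀ s ∈ Sh.s9tile A j x, Real.exp (-j) * Real.sqrt ‖Sh.q s‖ ≤ B) : Sh.s8Tq A j x ≤ B :=
  Sh.s8a_sup_le _ A j x B hB h

theorem s8_T_per (hH : Sh.H ≠ ⊤) (A j x : ℝ) : Sh.s8T A j (x + 2 * π) = Sh.s8T A j x := by
  apply le_antisymm
  · apply Sh.s8_T_le _ _ _ _ (Sh.s8_T_nonneg A j x)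
    intro s hs
    have h1 := Sh.s8a_tile_shift A j (x + 2 * π) (-(2 * π)) s hs
    rw [add_neg_cancel_right] at h1
    have h2 := Sh.s8_le_T hH A j x _ h1
    have h3 := Sh.s8_M_per _ (Sh.s8_tile_sub hH A j x h1)
    have h4 : s + ((-(2 * π) : ℝ) : ℂ) + 2 * π = s := by
      push_cast
      ring
    rw [h4] at h3
    rw [h3]
    exact h2
  · apply Sh.s8_T_le _ _ _ _ (Sh.s8_T_nonneg A j _)
    intro s hs
    have h1 := Sh.s8a_tile_shift A j x (2 * π) s hs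
    have h2 := Sh.s8_le_T hH A j _ _ h1
    have h3 := Sh.s8_M_per _ (Sh.s8_tile_sub hH A j x hs)
    have h4 : s + ((2 * π : ℝ) : ℂ) = s + 2 * π := by
      push_cast
      ring
    rw [h4, h3] at h2
    exact h2

theorem s8_T_meas (hH : Sh.H ≠ ⊤) (A j : ℝ) : Measurable (Sh.s8T A j) :=
  Sh.s8a_meas hH Sh.M Sh.s8_M_cont Sh.s8_M_nonneg A j

theorem s8_Tf_meas (hH : Sh.H ≠ ⊤) (A j : ℝ) : Measurable (Sh.s8Tf A j) :=
  Sh.s8a_meas hH _ Sh.s8a_f_cont (fun _ => norm_nonneg _) A j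

theorem s8_Tq_meas (hH : Sh.H ≠ ⊤) (A j : ℝ) : Measurable (Sh.s8Tq A j) :=
  Sh.s8a_meas hH _ Sh.s8a_q_cont (fun _ => Real.sqrt_nonneg _) A j

theorem s8a_tile_dep_pos (A j x : ℝ) (s : ℂ) (hs : s ∈ Sh.s9tile A j x) : 0 < Sh.s9dep s :=
  lt_of_lt_of_le (by positivity) hs.1

theorem s8_T_mono (hH : Sh.H ≠ ⊤) (A A' j x : ℝ) (hA : 0 ≤ A) (hAA : A ≤ A') :
    Sh.s8T A j x ≤ Sh.s8T A' j x := by
  apply Sh.s8a_mono hH Sh.M Sh.s8_M_cont Sh.s8_M_nonneg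
  intro s hs
  have hd := Sh.s8a_tile_dep_pos A j x s hs
  obtain ⟨h1, h2, h3, h4⟩ := hs
  refine ⟨le_trans ?_ h1, h2.trans ?_, h3.trans ?_, h4⟩
  · gcongr
  · gcongr
  · gcongr

/-- change of the reference level. -/
theorem s8_T_level (hH : Sh.H ≠ ⊤) (A l j x : ℝ) (hA : 0 ≤ A) :
    Sh.s8T A l x ≤ Real.exp (j - l) * Sh.s8T (A + |l - j|) j x := by
  apply Sh.s8_T_le _ _ _ _ (mul_nonneg (Real.exp_pos _).le (Sh.s8_T_nonneg _ _ _))
  intro s hs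
  have hd := Sh.s8a_tile_dep_pos A l x s hs
  have hs' : s ∈ Sh.s9tile (A + |l - j|) j x := by
    obtain ⟨h1, h2, h3, h4⟩ := hs
    refine ⟨le_trans ?_ h1, h2.trans ?_, h3.trans ?_, h4⟩
    · rw [← Real.exp_add, ← Real.exp_add]
      apply Real.exp_le_exp.2
      linarith [le_abs_self (l - j)]
    · rw [← Real.exp_add, ← Real.exp_add]
      apply Real.exp_le_exp.2
      linarith [neg_abs_le (l - j)]
    · gcongr
      linarith [abs_nonneg (l - j)]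
  have h5 := Sh.s8_le_T hH _ j x s hs'
  calc Real.exp (-l) * Sh.M s = Real.exp (j - l) * (Real.exp (-j) * Sh.M s) := by
        rw [← mul_assoc, ← Real.exp_add]
        congr 2
        ring
    _ ≤ _ := by gcongr

theorem s8_T_le_add (hH : Sh.H ≠ ⊤) (A j x : ℝ) : Sh.s8T A j x ≤ Sh.s8Tf A j x + Sh.s8Tq A j x := by
  apply Sh.s8_T_le _ _ _ _ (add_nonneg (Sh.s8_Tf_nonneg _ _ _) (Sh.s8_Tq_nonneg _ _ _))
  intro s hs
  have h1 := Sh.s8_le_Tf hH A j x s hs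
  have h2 := Sh.s8_le_Tq hH A j x s hs
  have h3 : Sh.M s ≤ ‖Sh.f s‖ + Real.sqrt ‖Sh.q s‖ :=
    max_le (by linarith [Real.sqrt_nonneg ‖Sh.q s‖]) (by linarith [norm_nonneg (Sh.f s)])
  calc Real.exp (-j) * Sh.M s ≤ Real.exp (-j) * (‖Sh.f s‖ + Real.sqrt ‖Sh.q s‖) := by gcongr
    _ = Real.exp (-j) * ‖Sh.f s‖ + Real.exp (-j) * Real.sqrt ‖Sh.q s‖ := by ring
    _ ≤ _ := add_le_add h1 h2

/-- the majorant form of helper149 is the `lintegral` form. -/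
theorem s8_tileL2_iff (hH : Sh.H ≠ ⊤) (ν : Measure ℝ) (A j b : ℝ) :
    Sh.s9TileL2 ν A j b ↔ Sh.s8T2 ν A j ≤ ENNReal.ofReal (b ^ 2) := by
  constructor
  · rintro ⟨Z, _, hZ, hint⟩
    refine le_trans (lintegral_mono fun x => ?_) hint
    have : ENNReal.ofReal (Sh.s8T A j x) ≤ Z x := by
      by_cases htop : Z x = ⊤
      · rw [htop]
        exact le_top
      · rw [← ENNReal.ofReal_toReal htop]
        apply ENNReal.ofReal_le_ofReal
        apply Sh.s8_T_le _ _ _ _ ENNReal.toReal_nonneg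
        intro s hs
        have h1 := hZ x s hs
        rw [← ENNReal.ofReal_toReal htop] at h1
        exact (ENNReal.ofReal_le_ofReal_iff ENNReal.toReal_nonneg).1 h1
    show ENNReal.ofReal (Sh.s8T A j x) ^ 2 ≤ Z x ^ 2
    gcongr
  · intro h
    refine ⟨fun x => ENNReal.ofReal (Sh.s8T A j x), (Sh.s8_T_meas hH A j).ennreal_ofReal, ?_, h⟩
    intro x s hs
    exact ENNReal.ofReal_le_ofReal (Sh.s8_le_T hH A j x s hs)

/-- compact range of levels. -/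
theorem s8_T_low (hH : Sh.H ≠ ⊤) (A K₁ : ℝ) :
    ∃ M₀ : ℝ, 0 ≤ M₀ ∧ ∀ j ∈ Icc Sh.s9k0 K₁, ∀ x, Sh.s8T A j x ≤ M₀ := by
  obtain ⟨M₀, hM₀, hlow⟩ := Sh.s8_M_low hH (Real.exp (-A) * Real.exp (-K₁)) (by positivity)
  refine ⟨M₀, hM₀, ?_⟩
  intro j hj x
  apply Sh.s8_T_le _ _ _ _ hM₀
  intro s hs
  have h1 : Real.exp (-j) ≤ 1 := Real.exp_le_one_iff.2 (by linarith [(Sh.s8_k0 hH).1, hj.1])
  have h2 : Sh.M s ≤ M₀ := by
    apply hlow
    rw [abs_of_nonneg hs.2.2.2]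
    have h3 : Real.exp (-A) * Real.exp (-K₁) ≤ Real.exp (-A) * Real.exp (-j) := by
      gcongr
      exact hj.2
    have h4 : Sh.s9dep s = Sh.Hr - s.im := rfl
    linarith [hs.1]
  calc Real.exp (-j) * Sh.M s ≤ 1 * M₀ :=
        mul_le_mul h1 h2 (Sh.s8_M_nonneg s) (by norm_num)
    _ = M₀ := one_mul _

/-- finiteness of all tile ratios. -/
theorem s8_T_fin (hH : Sh.H ≠ ⊤) (β a : ℝ) (hβ : 0 ≤ β) (ha : 0 ≤ a) (N : ℝ → ℝ) (hN : S8Env β a N)
    (hfin : Sh.S8Fin N) (A : ℝ) (hA : 0 ≤ A) :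
    ∃ Y : ℝ, 0 ≤ Y ∧ ∀ j ≥ Sh.s9k0, ∀ x, Sh.s8T A j x ≤ Y * N j := by
  obtain ⟨Y₀, hY₀⟩ := hfin
  obtain ⟨M₀, hM₀, hlow⟩ := Sh.s8_M_low hH (Real.exp (-Sh.s9k0)) (Real.exp_pos _)
  set Y₁ : ℝ := max Y₀ 0 with hY₁
  have hY₁0 : 0 ≤ Y₁ := le_max_right _ _
  refine ⟨Real.exp A * Y₁ * Real.exp ((β + a) * A) + M₀, by positivity, ?_⟩
  intro j hj x
  have hNj : 1 ≤ N j := hN.one_le j
  apply Sh.s8_T_le _ _ _ _ (by positivity)
  intro s hs
  have hd := Sh.s8a_tile_dep_pos A j x s hs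
  have hdep : Sh.s9dep s = Sh.Hr - s.im := rfl
  have hj1 : Real.exp (-j) ≤ 1 := Real.exp_le_one_iff.2 (by linarith [(Sh.s8_k0 hH).1])
  have hMs := Sh.s8_M_nonneg s
  set l : ℝ := -Real.log (Sh.s9dep s) with hl
  have hexpl : Real.exp (-l) = Sh.s9dep s := by rw [hl, neg_neg, Real.exp_log hd]
  by_cases hlk : Sh.s9k0 ≤ l
  · have h1 := hY₀ l hlk
    have h2 : Sh.M s ≤ Sh.rowMax (Sh.Hr - Real.exp (-l)) := by
      have h3 := Sh.s8_le_rowMax hH s.im (by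
        have := (Sh.s8_mem_D hH s).1 (Sh.s8_tile_sub hH A j x hs)
        exact this) s.re
      rw [hexpl, hdep, sub_sub_cancel]
      exact h3
    have hlj : |l - j| ≤ A := by
      have h4 : Real.exp (-A + -j) ≤ Real.exp (-l) := by
        rw [Real.exp_add, hexpl]
        exact hs.1
      have h5 : Real.exp (-l) ≤ Real.exp (A + -j) := by
        rw [Real.exp_add, hexpl]
        exact hs.2.1
      rw [Real.exp_le_exp] at h4 h5
      rw [abs_le]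
      constructor <;> linarith
    have h6 : N l ≤ N j * Real.exp ((β + a) * A) := by
      refine (hN.near hβ ha l j).trans ?_
      have : 0 ≤ N j := by linarith
      gcongr
    have h7 : Real.exp (-j) ≤ Real.exp A * Real.exp (-l) := by
      rw [← Real.exp_add]
      apply Real.exp_le_exp.2
      linarith [(abs_le.1 hlj).2]
    have hNl : 0 ≤ N l := by linarith [hN.one_le l]
    calc Real.exp (-j) * Sh.M s ≤ (Real.exp A * Real.exp (-l)) * Sh.rowMax (Sh.Hr - Real.exp (-l)) := by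
          gcongr
      _ = Real.exp A * (Real.exp (-l) * Sh.rowMax (Sh.Hr - Real.exp (-l))) := by ring
      _ ≤ Real.exp A * (Y₀ * N l) := by gcongr
      _ ≤ Real.exp A * (Y₁ * N l) := by
          gcongr
          exact le_max_left _ _
      _ ≤ Real.exp A * (Y₁ * (N j * Real.exp ((β + a) * A))) := by gcongr
      _ = Real.exp A * Y₁ * Real.exp ((β + a) * A) * N j := by ring
      _ ≤ (Real.exp A * Y₁ * Real.exp ((β + a) * A) + M₀) * N j := by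
          gcongr
          linarith
  · push Not at hlk
    have h1 : Sh.M s ≤ M₀ := by
      apply hlow
      rw [abs_of_nonneg hs.2.2.2]
      have h2 : Real.exp (-Sh.s9k0) ≤ Real.exp (-l) := Real.exp_le_exp.2 (by linarith)
      rw [hexpl] at h2
      linarith
    have h0 : 0 ≤ Real.exp A * Y₁ * Real.exp ((β + a) * A) := by positivity
    calc Real.exp (-j) * Sh.M s ≤ 1 * M₀ := mul_le_mul hj1 h1 hMs (by norm_num)
      _ = M₀ := one_mul _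
      _ ≤ (Real.exp A * Y₁ * Real.exp ((β + a) * A) + M₀) * N j := by nlinarith

theorem s8_T1_le (hH : Sh.H ≠ ⊤) (ν : Measure ℝ) [IsProbabilityMeasure ν] (A j b : ℝ) (hb : 0 ≤ b)
    (h : Sh.s8T2 ν A j ≤ ENNReal.ofReal (b ^ 2)) : Sh.s8T1 ν A j ≤ ENNReal.ofReal b := by
  have hm : Measurable fun x => ENNReal.ofReal (Sh.s8T A j x) := (Sh.s8_T_meas hH A j).ennreal_ofReal
  have h1 := ENNReal.lintegral_mul_le_Lp_mul_Lq ν (Real.HolderConjugate.two_two)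
    hm.aemeasurable (aemeasurable_const (b := (1 : ℝ≥0∞)))
  simp only [Pi.mul_apply, mul_one, ENNReal.one_rpow, lintegral_const, measure_univ] at h1
  refine h1.trans ?_
  have h2 : ∫⁻ x, ENNReal.ofReal (Sh.s8T A j x) ^ (2 : ℝ) ∂ν = Sh.s8T2 ν A j := by
    apply lintegral_congr
    intro x
    rw [ENNReal.rpow_two]
  rw [h2]
  calc Sh.s8T2 ν A j ^ (1 / 2 : ℝ) ≤ ENNReal.ofReal (b ^ 2) ^ (1 / 2 : ℝ) := by gcongr
    _ = ENNReal.ofReal b := by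
        rw [ENNReal.ofReal_rpow_of_nonneg (by positivity) (by norm_num), ← Real.sqrt_eq_rpow,
          Real.sqrt_sq hb]

theorem s8_mu_le_of_T2 (hH : Sh.H ≠ ⊤) (A j b : ℝ) (hA : 0 ≤ A) (hj : Sh.s9k0 ≤ j) (hb : 0 ≤ b)
    (h : Sh.s8T2 s8nu0 A j ≤ ENNReal.ofReal (b ^ 2)) : Sh.μ j ≤ 2 * b := by
  have h1 := Sh.s8_mu_le_M2 hH j hj
  have h2 : ∫⁻ x, ENNReal.ofReal (Real.exp (-j) * Sh.M (Sh.s8pt x (Real.exp (-j)))) ^ 2 ∂s8nu0 ≤
      Sh.s8T2 s8nu0 A j := by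
    apply lintegral_mono
    intro x
    show ENNReal.ofReal _ ^ 2 ≤ ENNReal.ofReal _ ^ 2
    gcongr
    exact Sh.s8_le_T hH A j x _ (Sh.s8_pt_mem_tile hH A j x hA hj)
  have h3 : ENNReal.ofReal (Sh.μ j ^ 2) ≤ ENNReal.ofReal (2 * b ^ 2) := by
    rw [ENNReal.ofReal_mul (by norm_num)]
    refine h1.trans ?_
    have : ENNReal.ofReal 2 = 2 := by simp
    rw [this]
    gcongr
    exact h2.trans h
  rw [ENNReal.ofReal_le_ofReal_iff (by positivity)] at h3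
  have h4 := Sh.s8_mu_nonneg j
  nlinarith

end Shape

end Claimed.Agent.R269
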