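/-
Row 269, P1 Section 8: TILE AVERAGING (P1 (8.9)): the box of a tile, sub-mean inequality, integration of a box against an admissible measure.   Blueprint: helper48.
LEAF PACKAGE LF-S8-tile-b (this file; fill IN PLACE).   Black boxes: `S8/BasicA.lean`, `S8/BasicC.lean`, `S8/TileA.lean`, `S8/LibMean.lean` (`s8_submean_rect`, `s8_ball_le_rect`).

The BOX of the tile `𝒯_A(j,x)`: horizontal half width `w = (A+1) e^{A} e^{-j}`, depths `δ ∈ [lo,hi]`, `lo = e^{-A} e^{-j}/2`, `hi = min (2 e^{A} e^{-j}) (3 Hr/2)`.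
For `s ∈ 𝒯_A(j,x)` of depth `δ_s` the disc `B(s, δ_s/2)` has closure in `D`, and lies in the box: `|Re z - x| ≤ A δ_s + δ_s/2 ≤ w`, depth of `z` in `[δ_s/2, 3δ_s/2] ⊆ [lo,hi]` (`e^{-A}e^{-j} ≤ δ_s ≤ min (e^{A}e^{-j}) Hr`).

PROOFS.
* `s8_ball_le_box`: `s8_ball_le_rect` with `y₁ = Hr - hi`, `y₂ = Hr - lo`, then the substitution `y = Hr - δ` in the inner integral (`δ ↦ Hr - δ` preserves `volume` and maps `Icc lo hi` onto `Icc y₁ y₂`:
  `MeasurePreserving`/`lintegral_sub_left_eq_self` for the indicator function); `s8pt (x+u) δ = ⟨x+u, Hr-δ⟩` by definition.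
* `s8_tile_rect`: the same with `s8_submean_rect` (`r = δ_s/2`, `(π r²)⁻¹ ≤ 4 e^{2A} e^{2j}/π`).
* `s8_meas_ind`: `g` continuous on the open set `D`: `ContinuousOn.measurable_piecewise`/`measurable_of_continuousOn_compl_singleton`-style: `D.indicator g` is measurable (`(hc.restrict).measurable` + `Measurable.indicator`-type glue
  `measurable_of_restrict_of_restrict_compl`).
* `s8_box_int`.  All points `s8pt (x+u) δ`, `δ ∈ [lo,hi] ⊆ (0, 2Hr)`, lie in `D`, so `F` may be replaced by the measurable function `D.indicator F`; `(x,u,δ) ↦ s8pt (x+u) δ` is continuous.  Tonelli (`lintegral_lintegral_swap`; `ν` is a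
  probability measure, restrictions of `volume` are s-finite): `∫⁻ x, Box x ∂ν = ∫⁻_u ∫⁻_δ ∫⁻ x, F (s8pt (x+u) δ) ∂ν`, and for `|u| ≤ w ≤ A₀ e^{-ka}`: `∫⁻ x, F (s8pt (x+u) δ) ∂ν ≤ ofReal (CT A₀) ∫⁻ x, F (s8pt x δ) ∂ν`
  (`S8Adm.trans` for the measurable periodic function `x ↦ D.indicator F (s8pt x δ)`).  The `u`-integral of a constant is `ofReal (2w)` times it.
-/
import Claimed.Agent.R269.S8.TileA
import Claimed.Agent.R269.S8.LibMean

set_option autoImplicit false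

namespace Claimed.Agent.R269

open Complex ComplexConjugate Filter Topology MeasureTheory Set Metric
open scoped ENNReal Real

/-- horizontal half width of the box of a tile. -/
noncomputable def s8w (A j : ℝ) : ℝ := (A + 1) * Real.exp A * Real.exp (-j)

/-- smallest depth of the box of a tile. -/
noncomputable def s8lo (A j : ℝ) : ℝ := Real.exp (-A) * Real.exp (-j) / 2

namespace Shape

variable (Sh : Shape)

/-- largest depth of the box of a tile. -/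
noncomputable def s8hi (A j : ℝ) : ℝ := min (2 * Real.exp A * Real.exp (-j)) (3 * Sh.Hr / 2)

/-- the integral of `F` over the box of the tile `𝒯_A(j,x)`. -/
noncomputable def s8Box (A j : ℝ) (F : ℂ → ℝ≥0∞) (x : ℝ) : ℝ≥0∞ :=
  ∫⁻ u in Icc (-(s8w A j)) (s8w A j), ∫⁻ δ in Icc (s8lo A j) (Sh.s8hi A j), F (Sh.s8pt (x + u) δ)

/-- the half-depth disc about a point of the tile. -/
theorem s8_tile_ball (hH : Sh.H ≠ ⊤) (A j x : ℝ) (hA : 1 ≤ A) (s : ℂ) (hs : s ∈ Sh.s9tile A j x) :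
    closedBall s (Sh.s9dep s / 2) ⊆ Sh.D ∧ 0 < Sh.s9dep s ∧
      ∀ z ∈ closedBall s (Sh.s9dep s / 2), |z.re - x| ≤ s8w A j ∧ s8lo A j ≤ Sh.s9dep z ∧
        Sh.s9dep z ≤ Sh.s8hi A j := by
  have hd := Sh.s8a_tile_dep_pos A j x s hs
  obtain ⟨h1, h2, h3, h4⟩ := hs
  have hdep : ∀ z : ℂ, Sh.s9dep z = Sh.Hr - z.im := fun _ => rfl
  have hre : ∀ z ∈ closedBall s (Sh.s9dep s / 2), |z.re - s.re| ≤ Sh.s9dep s / 2 := by
    intro z hz
    rw [mem_closedBall, dist_eq_norm] at hz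
    have := Complex.abs_re_le_norm (z - s)
    rw [Complex.sub_re] at this
    exact this.trans hz
  have him : ∀ z ∈ closedBall s (Sh.s9dep s / 2), |z.im - s.im| ≤ Sh.s9dep s / 2 := by
    intro z hz
    rw [mem_closedBall, dist_eq_norm] at hz
    have := Complex.abs_im_le_norm (z - s)
    rw [Complex.sub_im] at this
    exact this.trans hz
  have hds := hdep s
  refine ⟨?_, hd, ?_⟩
  · intro z hz
    have h5 := abs_le.1 (him z hz)
    rw [Sh.s8_mem_D hH, abs_lt]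
    constructor <;> linarith [h5.1, h5.2]
  · intro z hz
    have h5 := abs_le.1 (him z hz)
    have h6 := hre z hz
    refine ⟨?_, ?_, ?_⟩
    · have h7 : |z.re - x| ≤ |z.re - s.re| + |s.re - x| := by
        have := abs_add_le (z.re - s.re) (s.re - x)
        rwa [sub_add_sub_cancel] at this
      have h8 : (A + 1) * Sh.s9dep s ≤ (A + 1) * (Real.exp A * Real.exp (-j)) := by gcongr
      rw [s8w]
      nlinarith
    · rw [s8lo, hdep z]
      linarith [h5.2]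
    · rw [s8hi, hdep z]
      apply le_min
      · linarith [h5.1]
      · linarith [h5.1]

/-- the rectangle of `s8_ball_le_rect` in depth coordinates. -/
theorem s8b_rect_eq_box (A j x : ℝ) (F : ℂ → ℝ≥0∞) :
    ∫⁻ u in Icc (-(s8w A j)) (s8w A j), ∫⁻ y in Icc (Sh.Hr - Sh.s8hi A j) (Sh.Hr - s8lo A j),
      F ⟨x + u, y⟩ = Sh.s8Box A j F x := by
  rw [s8Box]
  congr 1
  funext u
  rw [← lintegral_indicator measurableSet_Icc, ← lintegral_indicator measurableSet_Icc,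
    ← lintegral_sub_left_eq_self _ Sh.Hr]
  apply lintegral_congr
  intro δ
  by_cases hδ : δ ∈ Icc (s8lo A j) (Sh.s8hi A j)
  · have : Sh.Hr - δ ∈ Icc (Sh.Hr - Sh.s8hi A j) (Sh.Hr - s8lo A j) :=
      ⟨by linarith [hδ.2], by linarith [hδ.1]⟩
    rw [indicator_of_mem this, indicator_of_mem hδ]
    rfl
  · have : Sh.Hr - δ ∉ Icc (Sh.Hr - Sh.s8hi A j) (Sh.Hr - s8lo A j) :=
      fun h => hδ ⟨by linarith [h.2], by linarith [h.1]⟩
    rw [indicator_of_notMem this, indicator_of_notMem hδ]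

theorem s8b_ball_sub (hH : Sh.H ≠ ⊤) (A j x : ℝ) (hA : 1 ≤ A) (s : ℂ) (hs : s ∈ Sh.s9tile A j x) :
    ∀ z ∈ ball s (Sh.s9dep s / 2), |z.re - x| ≤ s8w A j ∧ Sh.Hr - Sh.s8hi A j ≤ z.im ∧
      z.im ≤ Sh.Hr - s8lo A j := by
  intro z hz
  obtain ⟨h1, h2, h3⟩ := (Sh.s8_tile_ball hH A j x hA s hs).2.2 z (ball_subset_closedBall hz)
  have hdep : Sh.s9dep z = Sh.Hr - z.im := rfl
  exact ⟨h1, by linarith, by linarith⟩

theorem s8_ball_le_box (hH : Sh.H ≠ ⊤) (A j x : ℝ) (hA : 1 ≤ A) (F : ℂ → ℝ≥0∞) (s : ℂ)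
    (hs : s ∈ Sh.s9tile A j x) : ∫⁻ z in ball s (Sh.s9dep s / 2), F z ≤ Sh.s8Box A j F x := by
  rw [← Sh.s8b_rect_eq_box]
  exact s8_ball_le_rect F s _ x _ _ _ (Sh.s8b_ball_sub hH A j x hA s hs)

/-- sub-mean inequality on a tile. -/
theorem s8_tile_rect (hH : Sh.H ≠ ⊤) (A j x : ℝ) (hA : 1 ≤ A) (g : ℂ → ℝ) (hc : ContinuousOn g Sh.D)
    (hsm : ∀ (c : ℂ) (ρ : ℝ), 0 < ρ → closedBall c ρ ⊆ Sh.D → g c ≤ Real.circleAverage g c ρ) :
    ∀ s ∈ Sh.s9tile A j x, ENNReal.ofReal (g s) ≤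
      ENNReal.ofReal (4 * Real.exp (2 * A) * Real.exp (2 * j) / π) *
        Sh.s8Box A j (fun z => ENNReal.ofReal (g z)) x := by
  intro s hs
  obtain ⟨hsub, hd, _⟩ := Sh.s8_tile_ball hH A j x hA s hs
  have h1 := s8_submean_rect g s (Sh.s9dep s / 2) x (s8w A j) (Sh.Hr - Sh.s8hi A j)
    (Sh.Hr - s8lo A j) (by positivity) (hc.mono hsub)
    (fun ρ hρ => hsm s ρ hρ.1 ((closedBall_subset_closedBall hρ.2).trans hsub))
    (Sh.s8b_ball_sub hH A j x hA s hs)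
  rw [Sh.s8b_rect_eq_box A j x (fun z => ENNReal.ofReal (g z))] at h1
  refine h1.trans ?_
  gcongr
  have hpi := Real.pi_pos
  have h2 : Real.exp (-A) * Real.exp (-j) ≤ Sh.s9dep s := hs.1
  have h3 : 4 * Real.exp (2 * A) * Real.exp (2 * j) / π =
      (π * (Real.exp (-A) * Real.exp (-j) / 2) ^ 2)⁻¹ := by
    have e1 : Real.exp (2 * A) = (Real.exp (-A))⁻¹ ^ 2 := by
      rw [← Real.exp_neg, neg_neg, ← Real.exp_nat_mul]
      norm_num
    have e2 : Real.exp (2 * j) = (Real.exp (-j))⁻¹ ^ 2 := by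
      rw [← Real.exp_neg, neg_neg, ← Real.exp_nat_mul]
      norm_num
    rw [e1, e2]
    have := Real.exp_pos (-A)
    have := Real.exp_pos (-j)
    field_simp
    norm_num
  rw [h3]
  apply inv_anti₀ (by positivity)
  gcongr

theorem s8_meas_ind (g : ℂ → ℝ) (hc : ContinuousOn g Sh.D) :
    Measurable (Sh.D.indicator fun z => ENNReal.ofReal (g z)) := by
  classical
  rw [← Set.piecewise_eq_indicator]
  exact ContinuousOn.measurable_piecewise (ENNReal.continuous_ofReal.comp_continuousOn hc)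
    continuousOn_const Sh.s8_isOpen_D.measurableSet

theorem s8b_lo_pos (A j : ℝ) : 0 < s8lo A j := by
  rw [s8lo]
  positivity

theorem s8b_w_nonneg (A j : ℝ) (hA : 1 ≤ A) : 0 ≤ s8w A j := by
  rw [s8w]
  positivity

theorem s8b_pt_mem (hH : Sh.H ≠ ⊤) (A j x δ : ℝ) (hδ : δ ∈ Icc (s8lo A j) (Sh.s8hi A j)) :
    Sh.s8pt x δ ∈ Sh.D := by
  have hHr := Sh.s8_Hr_pos hH
  apply Sh.s8_pt_mem hH x δ (lt_of_lt_of_le (s8b_lo_pos A j) hδ.1)
  have : Sh.s8hi A j ≤ 3 * Sh.Hr / 2 := min_le_right _ _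
  linarith [hδ.2]

theorem s8b_pt_cont : Continuous fun p : ℝ × ℝ => Sh.s8pt p.1 p.2 := by
  have : (fun p : ℝ × ℝ => Sh.s8pt p.1 p.2) =
      fun p : ℝ × ℝ => (p.1 : ℂ) + ((Sh.Hr - p.2 : ℝ) : ℂ) * I := by
    funext p
    apply Complex.ext <;> simp [s8pt]
  rw [this]
  fun_prop

/-- integration of a box against an admissible measure. -/
theorem s8_box_int (hH : Sh.H ≠ ⊤) (ν : Measure ℝ) (ka : ℝ) (CT : ℝ → ℝ) (hν : S8Adm ν ka CT)
    (A j A₀ : ℝ) (hA : 1 ≤ A) (hA₀ : 0 ≤ A₀) (hw : s8w A j ≤ A₀ * Real.exp (-ka)) (F : ℂ → ℝ≥0∞)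
    (hF : Measurable (Sh.D.indicator F)) (hper : ∀ z ∈ Sh.D, F (z + 2 * π) = F z) :
    ∫⁻ x, Sh.s8Box A j F x ∂ν ≤ ENNReal.ofReal (2 * s8w A j * CT A₀) *
      ∫⁻ δ in Icc (s8lo A j) (Sh.s8hi A j), ∫⁻ x, F (Sh.s8pt x δ) ∂ν := by
  have := hν.prob
  set F' : ℂ → ℝ≥0∞ := Sh.D.indicator F with hF'
  set w := s8w A j with hwdef
  set lo := s8lo A j with hlo
  set hi := Sh.s8hi A j with hhi
  have hw0 : 0 ≤ w := s8b_w_nonneg A j hA
  have hFF : ∀ x δ, δ ∈ Icc lo hi → F (Sh.s8pt x δ) = F' (Sh.s8pt x δ) := by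
    intro x δ hδ
    rw [hF', indicator_of_mem (Sh.s8b_pt_mem hH A j x δ hδ)]
  have hbox : ∀ x, Sh.s8Box A j F x =
      ∫⁻ u in Icc (-w) w, ∫⁻ δ in Icc lo hi, F' (Sh.s8pt (x + u) δ) := by
    intro x
    rw [s8Box]
    congr 1
    funext u
    exact setLIntegral_congr_fun measurableSet_Icc (fun δ hδ => hFF (x + u) δ hδ)
  have hm3 : Measurable fun p : (ℝ × ℝ) × ℝ => F' (Sh.s8pt (p.1.1 + p.1.2) p.2) := by
    apply hF.comp
    exact (Sh.s8b_pt_cont.comp (by fun_prop : Continuous fun p : (ℝ × ℝ) × ℝ =>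
      (p.1.1 + p.1.2, p.2))).measurable
  have hm2 : Measurable fun p : ℝ × ℝ => ∫⁻ δ in Icc lo hi, F' (Sh.s8pt (p.1 + p.2) δ) :=
    hm3.lintegral_prod_right'
  have hper' : ∀ δ x, F' (Sh.s8pt (x + 2 * π) δ) = F' (Sh.s8pt x δ) := by
    intro δ x
    have e : Sh.s8pt (x + 2 * π) δ = Sh.s8pt x δ + 2 * π := by
      apply Complex.ext <;> simp [s8pt]
    rw [e, hF']
    by_cases hz : Sh.s8pt x δ ∈ Sh.D
    · rw [indicator_of_mem hz, indicator_of_mem (Sh.sb_add_two_pi_mem_D hz), hper _ hz]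
    · have hz' : Sh.s8pt x δ + 2 * π ∉ Sh.D := by
        intro h
        apply hz
        have := Sh.sb_sub_two_pi_mem_D h
        rwa [add_sub_cancel_right] at this
      rw [indicator_of_notMem hz, indicator_of_notMem hz']
  have hrow : ∀ δ, Measurable fun x : ℝ => F' (Sh.s8pt x δ) := by
    intro δ
    apply hF.comp
    exact (Sh.s8b_pt_cont.comp (by fun_prop : Continuous fun x : ℝ => (x, δ))).measurable
  calc ∫⁻ x, Sh.s8Box A j F x ∂ν
      = ∫⁻ x, (∫⁻ u in Icc (-w) w, ∫⁻ δ in Icc lo hi, F' (Sh.s8pt (x + u) δ)) ∂ν :=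
        lintegral_congr hbox
    _ = ∫⁻ u in Icc (-w) w, ∫⁻ x, (∫⁻ δ in Icc lo hi, F' (Sh.s8pt (x + u) δ)) ∂ν :=
        lintegral_lintegral_swap hm2.aemeasurable
    _ = ∫⁻ u in Icc (-w) w, ∫⁻ δ in Icc lo hi, ∫⁻ x, F' (Sh.s8pt (x + u) δ) ∂ν := by
        congr 1
        funext u
        apply lintegral_lintegral_swap
        apply Measurable.aemeasurable
        apply hF.comp
        exact (Sh.s8b_pt_cont.comp (by fun_prop : Continuous fun p : ℝ × ℝ =>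
          (p.1 + u, p.2))).measurable
    _ ≤ ∫⁻ u in Icc (-w) w, ∫⁻ δ in Icc lo hi,
          ENNReal.ofReal (CT A₀) * ∫⁻ x, F' (Sh.s8pt x δ) ∂ν := by
        apply setLIntegral_mono' measurableSet_Icc
        intro u hu
        apply lintegral_mono
        intro δ
        exact hν.trans A₀ hA₀ u ((abs_le.2 hu).trans hw) (fun x => F' (Sh.s8pt x δ)) (hrow δ)
          (hper' δ)
    _ = ENNReal.ofReal (2 * w) * ∫⁻ δ in Icc lo hi,
          ENNReal.ofReal (CT A₀) * ∫⁻ x, F' (Sh.s8pt x δ) ∂ν := by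
        rw [lintegral_const, Measure.restrict_apply MeasurableSet.univ, univ_inter, Real.volume_Icc,
          mul_comm]
        congr 2
        ring
    _ = ENNReal.ofReal (2 * w * CT A₀) * ∫⁻ δ in Icc lo hi, ∫⁻ x, F' (Sh.s8pt x δ) ∂ν := by
        rw [lintegral_const_mul' _ _ ENNReal.ofReal_ne_top, ← mul_assoc,
          ← ENNReal.ofReal_mul (by positivity)]
    _ = _ := by
        congr 1
        apply setLIntegral_congr_fun measurableSet_Icc
        intro δ hδ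
        exact lintegral_congr fun x => (hFF x δ hδ).symm

/-- the same for the uniform measure. -/
theorem s8_box_int_unif (hH : Sh.H ≠ ⊤) (A j : ℝ) (hA : 1 ≤ A) (F : ℂ → ℝ≥0∞)
    (hF : Measurable (Sh.D.indicator F)) (hper : ∀ z ∈ Sh.D, F (z + 2 * π) = F z) :
    ∫⁻ x, Sh.s8Box A j F x ∂s8nu0 ≤ ENNReal.ofReal (2 * s8w A j) *
      ∫⁻ δ in Icc (s8lo A j) (Sh.s8hi A j), ∫⁻ x, F (Sh.s8pt x δ) ∂s8nu0 := by
  have h := Sh.s8_box_int hH s8nu0 j (fun _ => 1) (s8_nu0_adm j) A j ((A + 1) * Real.exp A) hA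
    (by positivity) (le_of_eq rfl) F hF hper
  simpa using h

/-- a box integral of a function whose row integrals are `≤ B`. -/
theorem s8_box_int_le (hH : Sh.H ≠ ⊤) (ν : Measure ℝ) (ka : ℝ) (CT : ℝ → ℝ) (hν : S8Adm ν ka CT)
    (A j A₀ : ℝ) (hA : 1 ≤ A) (hA₀ : 0 ≤ A₀) (hw : s8w A j ≤ A₀ * Real.exp (-ka)) (F : ℂ → ℝ≥0∞)
    (hF : Measurable (Sh.D.indicator F)) (hper : ∀ z ∈ Sh.D, F (z + 2 * π) = F z) (B : ℝ≥0∞)
    (hB : ∀ δ ∈ Icc (s8lo A j) (Sh.s8hi A j), ∫⁻ x, F (Sh.s8pt x δ) ∂ν ≤ B) :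
    ∫⁻ x, Sh.s8Box A j F x ∂ν ≤
      ENNReal.ofReal (4 * (A + 1) * Real.exp (2 * A) * Real.exp (-(2 * j)) * CT A₀) * B := by
  have hCT : 1 ≤ CT A₀ := hν.one_le A₀ hA₀
  refine (Sh.s8_box_int hH ν ka CT hν A j A₀ hA hA₀ hw F hF hper).trans ?_
  have h1 : ∫⁻ δ in Icc (s8lo A j) (Sh.s8hi A j), ∫⁻ x, F (Sh.s8pt x δ) ∂ν ≤
      ENNReal.ofReal (2 * Real.exp A * Real.exp (-j)) * B := by
    refine (setLIntegral_mono' measurableSet_Icc hB).trans ?_
    rw [lintegral_const, Measure.restrict_apply MeasurableSet.univ, univ_inter, Real.volume_Icc,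
      mul_comm]
    gcongr
    have h2 : Sh.s8hi A j ≤ 2 * Real.exp A * Real.exp (-j) := min_le_left _ _
    linarith [s8b_lo_pos A j]
  calc ENNReal.ofReal (2 * s8w A j * CT A₀) *
        ∫⁻ δ in Icc (s8lo A j) (Sh.s8hi A j), ∫⁻ x, F (Sh.s8pt x δ) ∂ν
      ≤ ENNReal.ofReal (2 * s8w A j * CT A₀) *
          (ENNReal.ofReal (2 * Real.exp A * Real.exp (-j)) * B) := by gcongr
    _ = _ := by
        have hw0 := s8b_w_nonneg A j hA
        rw [← mul_assoc, ← ENNReal.ofReal_mul (by positivity)]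
        congr 2
        rw [s8w]
        have e1 : Real.exp (2 * A) = Real.exp A * Real.exp A := by
          rw [← Real.exp_add]
          congr 1
          ring
        have e2 : Real.exp (-(2 * j)) = Real.exp (-j) * Real.exp (-j) := by
          rw [← Real.exp_add]
          congr 1
          ring
        rw [e1, e2]
        ring

end Shape

end Claimed.Agent.R269
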