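/-
Row 269, P1 Section 8: TILE MOMENTS FROM ROW MOMENTS (P1 (8.9), (8.3), (8.7)).   Blueprint: helper48.
LEAF PACKAGES (fill IN PLACE):
  LF-S8-tile-c1 : `s8_T2_of_mu`, `s8_Tf1_of_muf`
  LF-S8-tile-c2 : `s8_Tq_le_box`, `s8_Tq1`
  LF-S8-tile-c3 : `s8_FM_of_mu`, `s8_FM_record`   (glue, short)
Black boxes: `S8/BasicA.lean`, `BasicC.lean`, `TileA.lean`, `TileB.lean`, `LibMean.lean` (`s8_norm_submean`), `LibLogB.lean` (`s8_deficit_row`), `s8i_log_deficit` (S8/Imports.lean).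

Notation: `d_j = e^{-j}`, `w, lo, hi` as in TileB.lean;  `E` = integral against `s8nu0`.

PROOFS.
* `s8_T2_of_mu`.  `g = ‖f‖² + ‖q‖` is continuous on `D` and has the circle sub-mean property (`s8_norm_submean` for the holomorphic functions `f²` and `q`; `circleAverage` is additive for continuous functions).  `M² ≤ g`.
  By `s8_tile_rect`: `ofReal (T A j x)² ≤ ofReal (4 e^{2A}/π) * Box A j (ofReal ∘ g) x`  (`T² = sup (d_j M)²`: use `s8_T_le` with `B = (rhs.toReal)^{1/2}` if the right side is finite; or: the tile is compact, the sup is attained at some `s`).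
  Rows: for `δ ∈ [lo,hi]`: if `δ ≤ e^{-k₀}` then with `l = -log δ ≥ k₀`, `|l - j| ≤ A + 1`: `E g(s8pt · δ) = μ(l)²/δ² ≤ Y² N(l)²/lo² ≤ 4 e^{2A} e^{2j} Y² e^{2(β+a)(A+1)} N(j)²` (`s8_mu_sq`, `S8Env.near`);
  if `δ > e^{-k₀}`: `g ≤ 2 M₀²` (`s8_M_low` with `δ = e^{-k₀}`; note `|Hr - δ| ≤ Hr - e^{-k₀}` because `δ ≤ 3Hr/2`, `e^{-k₀} < Hr/10`), and `1 ≤ e^{2j} N(j)²`.
  `s8_box_int_le` for `s8nu0` (`s8_nu0_adm`, `ka = j`, `A₀ = (A+1)e^{A}`, `CT = 1`) gives `T2 ≤ (4e^{2A}/π) 4 (A+1) e^{2A} e^{-2j} (4 e^{2A} e^{2(β+a)(A+1)} Y² + 2 M₀²) e^{2j} N(j)²`.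
* `s8_Tf1_of_muf`: the same with `g = ‖f‖` and `E ‖f(s8pt · δ)‖ ≤ (E ‖f‖²)^{1/2} = μ_f(l)/δ` (Cauchy-Schwarz on the probability space `s8nu0`).
* `s8_Tq_le_box` = the pointwise part of the proof of `s8_Tq1` below with a general bound `G` of `log ‖f‖` on the box (`C = 2 e^{A} C_ld max 1 (4 e^{2A}/π)`; if the right side is `⊤` nothing to prove, otherwise `s8_Tq_le` with its `toReal`).
* `s8_Tq1` (8.3).  Let `C₀` be the constant of `s8_subexp` with `ε = 1`, `M₀` that of `s8_M_low` with `δ = e^{-k₀}`, and `K_j = log (max (max C₀ M₀) 1) + 2 (j + A + 1)`.  Then `‖f z‖ ≤ e^{K_j}` at all `z ∈ D` of depth `≥ lo` and height `≥ -Hr/2`...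
  precisely at all `z` with `lo ≤ dep z ≤ hi` (depth `e^{-l}`, `k₀ ≤ l ≤ j + A + 1`: `‖f‖ ≤ rowMax ≤ C₀ e^{2l}`; depth `> e^{-k₀}`: `M₀`).
  For `s` in the tile, `r = δ_s/2`: `s8i_log_deficit` on `ball s r` (hypotheses: `s8_f_diff`, `q_diff`, `s8_f_ode` on `D ⊇ ball`; `f ≢ 0` on the ball: otherwise `f ≡ 0` on the connected `D` by the identity theorem, against `s8_f_real`) at `z = s`:
  `ofReal (r |q s|^{1/2}) ≤ C (1 + (π r²)⁻¹ ∫⁻_{ball s r} ofReal (K_j - log‖f‖)) ≤ C (1 + (4 e^{2A} e^{2j}/π) Box A j F x)`, `F z = ofReal (K_j - log ‖f z‖)` (`s8_ball_le_box`), and `d_j ≤ 2 e^{A} r`.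
  `F` is measurable (`f = deriv φ`: `measurable_deriv`) and periodic on `D`.  Rows: `E F(s8pt · δ) ≤ ofReal (K_j - L0)` by `s8_deficit_row` (`H = Hr`, `h = Hr - δ`, `‖f (conj z)‖ = ‖f z‖` from `s8_f_conj`).
  `s8_box_int_le`: `E Tq ≤ 2 e^{A} C (1 + (4e^{2A}/π) 4 (A+1) e^{2A} (K_j - L0))`, linear in `j`.   (`K_j - L0 ≥ 0` automatically; if not, `ofReal = 0`.)
* `s8_FM_of_mu`: `s8_T2_of_mu` with `Y = 1` and `s8_T1_le`.   `s8_FM_record`: `s8_T_le_add`, `s8_Tf1_of_muf` with `Y = 1`, `s8_Tq1`, `1 + j ≤ N j`.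
-/
import Claimed.Agent.R269.S8.TileB
import Claimed.Agent.R269.S8.LibLogB
import Claimed.Agent.R269.S8.Imports

set_option autoImplicit false

namespace Claimed.Agent.R269

open Complex ComplexConjugate Filter Topology MeasureTheory Set Metric
open scoped ENNReal Real

namespace Shape

variable (Sh : Shape)

/-! ### auxiliary facts -/

theorem s8c_level (A j δ : ℝ) (hδ : δ ∈ Icc (s8lo A j) (Sh.s8hi A j)) :
    0 < δ ∧ |(-Real.log δ) - j| ≤ A + 1 ∧ δ⁻¹ ≤ 2 * Real.exp A * Real.exp j := by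
  have h2 : (2 : ℝ) ≤ Real.exp 1 := by
    have := Real.add_one_le_exp (1 : ℝ)
    linarith
  have hδ0 : 0 < δ := lt_of_lt_of_le (s8b_lo_pos A j) hδ.1
  have hlo : Real.exp (-(A + 1 + j)) ≤ δ := by
    refine le_trans ?_ hδ.1
    have e : Real.exp (-(A + 1 + j)) = Real.exp (-A) * Real.exp (-j) * (Real.exp 1)⁻¹ := by
      rw [← Real.exp_neg, ← Real.exp_add, ← Real.exp_add]
      congr 1
      ring
    rw [e, s8lo, div_eq_mul_inv]
    gcongr
  have hhi : δ ≤ Real.exp (A + 1 - j) := by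
    refine hδ.2.trans ((min_le_left _ _).trans ?_)
    have e : Real.exp (A + 1 - j) = Real.exp 1 * Real.exp A * Real.exp (-j) := by
      rw [← Real.exp_add, ← Real.exp_add]
      congr 1
      ring
    rw [e]
    gcongr
  refine ⟨hδ0, ?_, ?_⟩
  · have h3 := (Real.le_log_iff_exp_le hδ0).2 hlo
    have h4 := (Real.log_le_iff_le_exp hδ0).2 hhi
    rw [abs_le]
    constructor <;> linarith
  · have e : 2 * Real.exp A * Real.exp j = (s8lo A j)⁻¹ := by
      rw [s8lo, Real.exp_neg, Real.exp_neg]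
      have := Real.exp_pos A
      have := Real.exp_pos j
      field_simp
    rw [e]
    exact inv_anti₀ (s8b_lo_pos A j) hδ.1

theorem s8c_low (hH : Sh.H ≠ ⊤) : ∃ M₀ : ℝ, 0 ≤ M₀ ∧ ∀ A j δ x : ℝ,
    δ ∈ Icc (s8lo A j) (Sh.s8hi A j) → Real.exp (-Sh.s9k0) < δ → Sh.M (Sh.s8pt x δ) ≤ M₀ := by
  obtain ⟨M₀, hM₀, hlow⟩ := Sh.s8_M_low hH (Real.exp (-Sh.s9k0)) (Real.exp_pos _)
  refine ⟨M₀, hM₀, ?_⟩
  intro A j δ x hδ hk
  apply hlow
  show |Sh.Hr - δ| ≤ _
  have h1 : δ ≤ 3 * Sh.Hr / 2 := hδ.2.trans (min_le_right _ _)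
  have h2 := (Sh.s8_k0 hH).2
  rw [abs_le]
  constructor <;> linarith

theorem s8c_ofReal_sup_le (g : ℂ → ℝ) (A j x : ℝ) (Z : ℝ≥0∞)
    (h : ∀ s ∈ Sh.s9tile A j x, ENNReal.ofReal (Real.exp (-j) * g s) ≤ Z) :
    ENNReal.ofReal (sSup ((fun s => Real.exp (-j) * g s) '' Sh.s9tile A j x)) ≤ Z := by
  by_cases htop : Z = ⊤
  · rw [htop]
    exact le_top
  · rw [← ENNReal.ofReal_toReal htop]
    apply ENNReal.ofReal_le_ofReal
    apply Sh.s8a_sup_le _ _ _ _ _ ENNReal.toReal_nonneg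
    intro s hs
    have h1 := h s hs
    rw [← ENNReal.ofReal_toReal htop] at h1
    exact (ENNReal.ofReal_le_ofReal_iff ENNReal.toReal_nonneg).1 h1

theorem s8c_ofReal_T_sq_le (A j x : ℝ) (W : ℝ≥0∞)
    (h : ∀ s ∈ Sh.s9tile A j x, ENNReal.ofReal ((Real.exp (-j) * Sh.M s) ^ 2) ≤ W) :
    ENNReal.ofReal (Sh.s8T A j x) ^ 2 ≤ W := by
  by_cases htop : W = ⊤
  · rw [htop]
    exact le_top
  · have h1 : Sh.s8T A j x ≤ Real.sqrt W.toReal := by
      apply Sh.s8_T_le _ _ _ _ (Real.sqrt_nonneg _)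
      intro s hs
      apply Real.le_sqrt_of_sq_le
      have h2 := h s hs
      rw [← ENNReal.ofReal_toReal htop] at h2
      exact (ENNReal.ofReal_le_ofReal_iff ENNReal.toReal_nonneg).1 h2
    rw [← ENNReal.ofReal_pow (Sh.s8_T_nonneg A j x), ← ENNReal.ofReal_toReal htop]
    apply ENNReal.ofReal_le_ofReal
    calc Sh.s8T A j x ^ 2 ≤ Real.sqrt W.toReal ^ 2 :=
          pow_le_pow_left₀ (Sh.s8_T_nonneg A j x) h1 2
      _ = W.toReal := Real.sq_sqrt ENNReal.toReal_nonneg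

/-- Cauchy-Schwarz on a probability space. -/
theorem s8c_cs (ν : Measure ℝ) [IsProbabilityMeasure ν] (G : ℝ → ℝ≥0∞) (hG : Measurable G) (b : ℝ)
    (hb : 0 ≤ b) (h : ∫⁻ x, G x ^ 2 ∂ν ≤ ENNReal.ofReal (b ^ 2)) : ∫⁻ x, G x ∂ν ≤ ENNReal.ofReal b := by
  have h1 := ENNReal.lintegral_mul_le_Lp_mul_Lq ν (Real.HolderConjugate.two_two)
    hG.aemeasurable (aemeasurable_const (b := (1 : ℝ≥0∞)))
  simp only [Pi.mul_apply, mul_one, ENNReal.one_rpow, lintegral_const, measure_univ] at h1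
  refine h1.trans ?_
  have h2 : ∫⁻ x, G x ^ (2 : ℝ) ∂ν = ∫⁻ x, G x ^ 2 ∂ν := by
    apply lintegral_congr
    intro x
    rw [ENNReal.rpow_two]
  rw [h2]
  calc (∫⁻ x, G x ^ 2 ∂ν) ^ (1 / 2 : ℝ) ≤ ENNReal.ofReal (b ^ 2) ^ (1 / 2 : ℝ) := by gcongr
    _ = ENNReal.ofReal b := by
        rw [ENNReal.ofReal_rpow_of_nonneg (by positivity) (by norm_num), ← Real.sqrt_eq_rpow,
          Real.sqrt_sq hb]

theorem s8c_dcc {F : ℂ → ℂ} (hF : DifferentiableOn ℂ F Sh.D) {c : ℂ} {ρ : ℝ}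
    (hsub : closedBall c ρ ⊆ Sh.D) : DiffContOnCl ℂ F (ball c ρ) :=
  hF.diffContOnCl_ball hsub

theorem s8c_ci {g : ℂ → ℝ} (hg : ContinuousOn g Sh.D) {c : ℂ} {ρ : ℝ} (hρ : 0 < ρ)
    (hsub : closedBall c ρ ⊆ Sh.D) : CircleIntegrable g c ρ :=
  (hg.mono (sphere_subset_closedBall.trans hsub)).circleIntegrable hρ.le

theorem s8c_expl {δ : ℝ} (hδ : 0 < δ) : Real.exp (-(-Real.log δ)) = δ := by
  rw [neg_neg, Real.exp_log hδ]

theorem s8c_le_level {δ : ℝ} (hδ : 0 < δ) (h : δ ≤ Real.exp (-Sh.s9k0)) : Sh.s9k0 ≤ -Real.log δ := by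
  have := (Real.log_le_iff_le_exp hδ).2 h
  linarith

theorem s8c_one_le (hH : Sh.H ≠ ⊤) {j : ℝ} (hj : Sh.s9k0 ≤ j) : 1 ≤ Real.exp j :=
  Real.one_le_exp (by linarith [(Sh.s8_k0 hH).1])

/-- **(8.9), p = 2**: quadratic tile moments from the row moments `μ`. -/
theorem s8_T2_of_mu (hH : Sh.H ≠ ⊤) (β a A : ℝ) (hβ : 0 ≤ β) (ha : 0 ≤ a) (hA : 1 ≤ A) :
    ∃ C : ℝ, 0 < C ∧ ∀ (N : ℝ → ℝ) (Y : ℝ), S8Env β a N → 0 ≤ Y → (∀ l ≥ Sh.s9k0, Sh.μ l ≤ Y * N l) →
      ∀ j ≥ Sh.s9k0, Sh.s8T2 s8nu0 A j ≤ ENNReal.ofReal ((C * (Y + 1) * N j) ^ 2) := by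
  have hprob := s8_nu0_prob
  obtain ⟨M₀, hM₀, hlow⟩ := Sh.s8c_low hH
  have hpi := Real.pi_pos
  set E₁ : ℝ := Real.exp ((β + a) * (A + 1)) with hE₁
  set a₁ : ℝ := (2 * Real.exp A * E₁) ^ 2 with ha₁
  set b₁ : ℝ := 2 * M₀ ^ 2 with hb₁
  set K₁ : ℝ := 4 * Real.exp (2 * A) / π * (4 * (A + 1) * Real.exp (2 * A)) with hK₁
  have hK₁0 : 0 ≤ K₁ := by positivity
  have ha₁0 : 0 ≤ a₁ := by positivity
  have hb₁0 : 0 ≤ b₁ := by positivity
  refine ⟨K₁ * (a₁ + b₁) + 1, by positivity, ?_⟩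
  intro N Y hN hY hμ j hj
  have hNj : 1 ≤ N j := hN.one_le j
  have hej : 1 ≤ Real.exp j := Sh.s8c_one_le hH hj
  set g : ℂ → ℝ := fun z => ‖Sh.f z‖ ^ 2 + ‖Sh.q z‖ with hg
  have hgc : ContinuousOn g Sh.D :=
    (Sh.s8_f_diff.continuousOn.norm.pow 2).add Sh.q_diff.continuousOn.norm
  have hg0 : ∀ z, 0 ≤ g z := fun z => by positivity
  have hsm : ∀ (c : ℂ) (ρ : ℝ), 0 < ρ → closedBall c ρ ⊆ Sh.D → g c ≤ Real.circleAverage g c ρ := by
    intro c ρ hρ hsub
    have h1 := s8_norm_submean (fun z => Sh.f z ^ 2) c ρ hρ (Sh.s8c_dcc (Sh.s8_f_diff.pow 2) hsub)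
    have h2 := s8_norm_submean Sh.q c ρ hρ (Sh.s8c_dcc Sh.q_diff hsub)
    have h3 : Real.circleAverage g c ρ = Real.circleAverage (fun z => ‖Sh.f z ^ 2‖) c ρ +
        Real.circleAverage (fun z => ‖Sh.q z‖) c ρ := by
      have hc1 : ContinuousOn (fun z => ‖Sh.f z ^ 2‖) Sh.D :=
        (Sh.s8_f_diff.continuousOn.pow 2).norm
      rw [← Real.circleAverage_fun_add (Sh.s8c_ci hc1 hρ hsub)
        (Sh.s8c_ci Sh.q_diff.continuousOn.norm hρ hsub)]
      congr 1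
      funext z
      rw [hg, norm_pow]
    rw [h3]
    have h4 : g c = ‖Sh.f c ^ 2‖ + ‖Sh.q c‖ := by rw [hg, norm_pow]
    rw [h4]
    exact add_le_add h1 h2
  have hMg : ∀ z, Sh.M z ^ 2 ≤ g z := by
    intro z
    rcases le_total ‖Sh.f z‖ (Real.sqrt ‖Sh.q z‖) with h | h
    · rw [M, max_eq_right h, Real.sq_sqrt (norm_nonneg _)]
      have : 0 ≤ ‖Sh.f z‖ ^ 2 := by positivity
      linarith
    · rw [M, max_eq_left h]
      have := norm_nonneg (Sh.q z)
      linarith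
  have hgM : ∀ z, g z ≤ 2 * Sh.M z ^ 2 := by
    intro z
    have h1 : ‖Sh.f z‖ ^ 2 ≤ Sh.M z ^ 2 := pow_le_pow_left₀ (norm_nonneg _) (le_max_left _ _) 2
    have h2 : ‖Sh.q z‖ ≤ Sh.M z ^ 2 := by
      calc ‖Sh.q z‖ = Real.sqrt ‖Sh.q z‖ ^ 2 := (Real.sq_sqrt (norm_nonneg _)).symm
        _ ≤ Sh.M z ^ 2 := pow_le_pow_left₀ (Real.sqrt_nonneg _) (le_max_right _ _) 2
    linarith
  set G : ℂ → ℝ≥0∞ := fun z => ENNReal.ofReal (g z) with hG
  -- pointwise bound of the tile supremum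
  have hpt : ∀ x, ENNReal.ofReal (Sh.s8T A j x) ^ 2 ≤
      ENNReal.ofReal (4 * Real.exp (2 * A) / π) * Sh.s8Box A j G x := by
    intro x
    apply Sh.s8c_ofReal_T_sq_le
    intro s hs
    have h1 := Sh.s8_tile_rect hH A j x hA g hgc hsm s hs
    calc ENNReal.ofReal ((Real.exp (-j) * Sh.M s) ^ 2)
        ≤ ENNReal.ofReal (Real.exp (-j) ^ 2 * g s) := by
          apply ENNReal.ofReal_le_ofReal
          rw [mul_pow]
          gcongr
          exact hMg s
      _ = ENNReal.ofReal (Real.exp (-j) ^ 2) * ENNReal.ofReal (g s) :=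
          ENNReal.ofReal_mul (by positivity)
      _ ≤ ENNReal.ofReal (Real.exp (-j) ^ 2) *
            (ENNReal.ofReal (4 * Real.exp (2 * A) * Real.exp (2 * j) / π) * Sh.s8Box A j G x) := by
          gcongr
      _ = _ := by
          rw [← mul_assoc, ← ENNReal.ofReal_mul (by positivity)]
          congr 2
          have e : Real.exp (-j) ^ 2 * Real.exp (2 * j) = 1 := by
            rw [← Real.exp_nat_mul, ← Real.exp_add]
            simp
          calc Real.exp (-j) ^ 2 * (4 * Real.exp (2 * A) * Real.exp (2 * j) / π)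
              = (Real.exp (-j) ^ 2 * Real.exp (2 * j)) * (4 * Real.exp (2 * A) / π) := by ring
            _ = _ := by rw [e, one_mul]
  -- rows
  set B : ℝ := (a₁ * Y ^ 2 + b₁) * (Real.exp j * N j) ^ 2 with hB
  have hrow : ∀ δ ∈ Icc (s8lo A j) (Sh.s8hi A j), ∫⁻ x, G (Sh.s8pt x δ) ∂s8nu0 ≤ ENNReal.ofReal B := by
    intro δ hδ
    obtain ⟨hδ0, hlev, hinv⟩ := Sh.s8c_level A j δ hδ
    by_cases hk : δ ≤ Real.exp (-Sh.s9k0)
    · set l : ℝ := -Real.log δ with hl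
      have hlk : Sh.s9k0 ≤ l := Sh.s8c_le_level hδ0 hk
      have h1 := Sh.s8_mu_sq hH l hlk
      rw [s8c_expl hδ0] at h1
      have h2 : ∫⁻ x, ENNReal.ofReal (δ ^ 2 * (‖Sh.f (Sh.s8pt x δ)‖ ^ 2 + ‖Sh.q (Sh.s8pt x δ)‖)) ∂s8nu0
          = ENNReal.ofReal (δ ^ 2) * ∫⁻ x, G (Sh.s8pt x δ) ∂s8nu0 := by
        rw [← lintegral_const_mul' _ _ ENNReal.ofReal_ne_top]
        apply lintegral_congr
        intro x
        rw [ENNReal.ofReal_mul (by positivity)]
      rw [h2] at h1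
      have h3 : ∫⁻ x, G (Sh.s8pt x δ) ∂s8nu0 = ENNReal.ofReal ((δ⁻¹) ^ 2 * Sh.μ l ^ 2) := by
        rw [ENNReal.ofReal_mul (by positivity), h1, ← mul_assoc, ← ENNReal.ofReal_mul (by positivity),
          ← mul_pow, inv_mul_cancel₀ hδ0.ne', one_pow, ENNReal.ofReal_one, one_mul]
      rw [h3]
      apply ENNReal.ofReal_le_ofReal
      have h4 : N l ≤ N j * E₁ := by
        refine (hN.near hβ ha l j).trans ?_
        have : 0 ≤ N j := by linarith
        rw [hE₁]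
        gcongr
      have h5 : Sh.μ l ≤ Y * (N j * E₁) := (hμ l hlk).trans (by gcongr)
      have h6 : δ⁻¹ * Sh.μ l ≤ (2 * Real.exp A * Real.exp j) * (Y * (N j * E₁)) :=
        mul_le_mul hinv h5 (Sh.s8_mu_nonneg l) (by positivity)
      have h7 : 0 ≤ δ⁻¹ * Sh.μ l := mul_nonneg (by positivity) (Sh.s8_mu_nonneg l)
      calc (δ⁻¹) ^ 2 * Sh.μ l ^ 2 = (δ⁻¹ * Sh.μ l) ^ 2 := by ring
        _ ≤ ((2 * Real.exp A * Real.exp j) * (Y * (N j * E₁))) ^ 2 := pow_le_pow_left₀ h7 h6 2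
        _ = a₁ * Y ^ 2 * (Real.exp j * N j) ^ 2 := by rw [ha₁]; ring
        _ ≤ B := by
            rw [hB]
            gcongr
            linarith
    · push Not at hk
      have h1 : ∀ x, G (Sh.s8pt x δ) ≤ ENNReal.ofReal b₁ := by
        intro x
        apply ENNReal.ofReal_le_ofReal
        refine (hgM _).trans ?_
        rw [hb₁]
        gcongr
        · exact Sh.s8_M_nonneg _
        · exact hlow A j δ x hδ hk
      refine (lintegral_mono h1).trans ?_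
      rw [lintegral_const, measure_univ, mul_one]
      apply ENNReal.ofReal_le_ofReal
      rw [hB]
      have h2 : 1 ≤ (Real.exp j * N j) ^ 2 := by
        have : 1 ≤ Real.exp j * N j := by nlinarith
        nlinarith
      have h3 : 0 ≤ a₁ * Y ^ 2 := by positivity
      nlinarith
  have hGm : Measurable (Sh.D.indicator G) := Sh.s8_meas_ind g hgc
  have hGper : ∀ z ∈ Sh.D, G (z + 2 * π) = G z := by
    intro z hz
    rw [hG, hg]
    simp only
    rw [Sh.s8_f_per z hz, Sh.s8_q_per z hz]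
  have hbox := Sh.s8_box_int_le hH s8nu0 j (fun _ => 1) (s8_nu0_adm j) A j ((A + 1) * Real.exp A) hA
    (by positivity) (le_of_eq rfl) G hGm hGper (ENNReal.ofReal B) hrow
  calc Sh.s8T2 s8nu0 A j
      ≤ ∫⁻ x, ENNReal.ofReal (4 * Real.exp (2 * A) / π) * Sh.s8Box A j G x ∂s8nu0 :=
        lintegral_mono hpt
    _ = ENNReal.ofReal (4 * Real.exp (2 * A) / π) * ∫⁻ x, Sh.s8Box A j G x ∂s8nu0 :=
        lintegral_const_mul' _ _ ENNReal.ofReal_ne_top
    _ ≤ ENNReal.ofReal (4 * Real.exp (2 * A) / π) *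
          (ENNReal.ofReal (4 * (A + 1) * Real.exp (2 * A) * Real.exp (-(2 * j)) * 1) *
            ENNReal.ofReal B) := by gcongr
    _ = ENNReal.ofReal (K₁ * (a₁ * Y ^ 2 + b₁) * N j ^ 2) := by
        rw [← ENNReal.ofReal_mul (by positivity), ← ENNReal.ofReal_mul (by positivity)]
        congr 1
        have e : Real.exp (-(2 * j)) * Real.exp j ^ 2 = 1 := by
          rw [← Real.exp_nat_mul, ← Real.exp_add]
          simp
        rw [hB, hK₁]
        calc 4 * Real.exp (2 * A) / π * (4 * (A + 1) * Real.exp (2 * A) * Real.exp (-(2 * j)) * 1 *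
              ((a₁ * Y ^ 2 + b₁) * (Real.exp j * N j) ^ 2))
            = 4 * Real.exp (2 * A) / π * (4 * (A + 1) * Real.exp (2 * A)) * (a₁ * Y ^ 2 + b₁) *
              N j ^ 2 * (Real.exp (-(2 * j)) * Real.exp j ^ 2) := by ring
          _ = _ := by rw [e, mul_one]
    _ ≤ _ := by
        apply ENNReal.ofReal_le_ofReal
        set C : ℝ := K₁ * (a₁ + b₁) + 1 with hC
        have hC1 : 1 ≤ C := by
          have : 0 ≤ K₁ * (a₁ + b₁) := by positivity
          linarith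
        have h1 : a₁ * Y ^ 2 + b₁ ≤ (a₁ + b₁) * (Y + 1) ^ 2 := by nlinarith
        have h2 : K₁ * (a₁ + b₁) ≤ C ^ 2 := by nlinarith
        calc K₁ * (a₁ * Y ^ 2 + b₁) * N j ^ 2 ≤ K₁ * ((a₁ + b₁) * (Y + 1) ^ 2) * N j ^ 2 := by gcongr
          _ = (K₁ * (a₁ + b₁)) * ((Y + 1) ^ 2 * N j ^ 2) := by ring
          _ ≤ C ^ 2 * ((Y + 1) ^ 2 * N j ^ 2) := by gcongr
          _ = _ := by ring

/-- **(8.9), p = 1, for `f`**. -/
theorem s8_Tf1_of_muf (hH : Sh.H ≠ ⊤) (β a A : ℝ) (hβ : 0 ≤ β) (ha : 0 ≤ a) (hA : 1 ≤ A) :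
    ∃ C : ℝ, 0 < C ∧ ∀ (N : ℝ → ℝ) (Y : ℝ), S8Env β a N → 0 ≤ Y → (∀ l ≥ Sh.s9k0, Sh.μf l ≤ Y * N l) →
      ∀ j ≥ Sh.s9k0, ∫⁻ x, ENNReal.ofReal (Sh.s8Tf A j x) ∂s8nu0 ≤ ENNReal.ofReal (C * (Y + 1) * N j) := by
  have hprob := s8_nu0_prob
  obtain ⟨M₀, hM₀, hlow⟩ := Sh.s8c_low hH
  have hpi := Real.pi_pos
  set E₁ : ℝ := Real.exp ((β + a) * (A + 1)) with hE₁
  set a₁ : ℝ := 2 * Real.exp A * E₁ with ha₁
  set K₁ : ℝ := 4 * Real.exp (2 * A) / π * (4 * (A + 1) * Real.exp (2 * A)) with hK₁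
  have hK₁0 : 0 ≤ K₁ := by positivity
  have ha₁0 : 0 ≤ a₁ := by positivity
  refine ⟨K₁ * (a₁ + M₀) + 1, by positivity, ?_⟩
  intro N Y hN hY hμ j hj
  have hNj : 1 ≤ N j := hN.one_le j
  have hej : 1 ≤ Real.exp j := Sh.s8c_one_le hH hj
  set g : ℂ → ℝ := fun z => ‖Sh.f z‖ with hg
  have hgc : ContinuousOn g Sh.D := Sh.s8_f_diff.continuousOn.norm
  have hsm : ∀ (c : ℂ) (ρ : ℝ), 0 < ρ → closedBall c ρ ⊆ Sh.D → g c ≤ Real.circleAverage g c ρ :=
    fun c ρ hρ hsub => s8_norm_submean Sh.f c ρ hρ (Sh.s8c_dcc Sh.s8_f_diff hsub)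
  set G : ℂ → ℝ≥0∞ := fun z => ENNReal.ofReal (g z) with hG
  have hpt : ∀ x, ENNReal.ofReal (Sh.s8Tf A j x) ≤
      ENNReal.ofReal (4 * Real.exp (2 * A) / π * Real.exp j) * Sh.s8Box A j G x := by
    intro x
    apply Sh.s8c_ofReal_sup_le
    intro s hs
    have h1 := Sh.s8_tile_rect hH A j x hA g hgc hsm s hs
    calc ENNReal.ofReal (Real.exp (-j) * ‖Sh.f s‖)
        = ENNReal.ofReal (Real.exp (-j)) * ENNReal.ofReal (g s) :=
          ENNReal.ofReal_mul (by positivity)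
      _ ≤ ENNReal.ofReal (Real.exp (-j)) *
            (ENNReal.ofReal (4 * Real.exp (2 * A) * Real.exp (2 * j) / π) * Sh.s8Box A j G x) := by
          gcongr
      _ = _ := by
          rw [← mul_assoc, ← ENNReal.ofReal_mul (by positivity)]
          congr 2
          have e : Real.exp (-j) * Real.exp (2 * j) = Real.exp j := by
            rw [← Real.exp_add]
            congr 1
            ring
          calc Real.exp (-j) * (4 * Real.exp (2 * A) * Real.exp (2 * j) / π)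
              = (4 * Real.exp (2 * A) / π) * (Real.exp (-j) * Real.exp (2 * j)) := by ring
            _ = _ := by rw [e]
  set B : ℝ := (a₁ * Y + M₀) * (Real.exp j * N j) with hB
  have hrow : ∀ δ ∈ Icc (s8lo A j) (Sh.s8hi A j), ∫⁻ x, G (Sh.s8pt x δ) ∂s8nu0 ≤ ENNReal.ofReal B := by
    intro δ hδ
    obtain ⟨hδ0, hlev, hinv⟩ := Sh.s8c_level A j δ hδ
    have hδ2 : δ < 2 * Sh.Hr := by
      have h1 : δ ≤ 3 * Sh.Hr / 2 := hδ.2.trans (min_le_right _ _)
      linarith [Sh.s8_Hr_pos hH]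
    by_cases hk : δ ≤ Real.exp (-Sh.s9k0)
    · set l : ℝ := -Real.log δ with hl
      have hlk : Sh.s9k0 ≤ l := Sh.s8c_le_level hδ0 hk
      have h1 := Sh.s8_muf_sq hH l hlk
      rw [s8c_expl hδ0] at h1
      have hm : Measurable fun x => ENNReal.ofReal (δ * ‖Sh.f (Sh.s8pt x δ)‖) :=
        (continuous_const.mul (Sh.s8_row_cont_f hH δ hδ0 hδ2).norm).measurable.ennreal_ofReal
      have h2 := s8c_cs s8nu0 _ hm (Sh.μf l) (Sh.s8_muf_nonneg l) (le_of_eq h1.symm)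
      have h3 : ∫⁻ x, ENNReal.ofReal (δ * ‖Sh.f (Sh.s8pt x δ)‖) ∂s8nu0
          = ENNReal.ofReal δ * ∫⁻ x, G (Sh.s8pt x δ) ∂s8nu0 := by
        rw [← lintegral_const_mul' _ _ ENNReal.ofReal_ne_top]
        apply lintegral_congr
        intro x
        rw [ENNReal.ofReal_mul hδ0.le]
      rw [h3] at h2
      have h4 : ∫⁻ x, G (Sh.s8pt x δ) ∂s8nu0 ≤ ENNReal.ofReal (δ⁻¹ * Sh.μf l) := by
        calc ∫⁻ x, G (Sh.s8pt x δ) ∂s8nu0
            = ENNReal.ofReal δ⁻¹ * (ENNReal.ofReal δ * ∫⁻ x, G (Sh.s8pt x δ) ∂s8nu0) := by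
              rw [← mul_assoc, ← ENNReal.ofReal_mul (by positivity), inv_mul_cancel₀ hδ0.ne',
                ENNReal.ofReal_one, one_mul]
          _ ≤ ENNReal.ofReal δ⁻¹ * ENNReal.ofReal (Sh.μf l) := by gcongr
          _ = _ := (ENNReal.ofReal_mul (by positivity)).symm
      refine h4.trans (ENNReal.ofReal_le_ofReal ?_)
      have h5 : N l ≤ N j * E₁ := by
        refine (hN.near hβ ha l j).trans ?_
        have : 0 ≤ N j := by linarith
        rw [hE₁]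
        gcongr
      have h6 : Sh.μf l ≤ Y * (N j * E₁) := (hμ l hlk).trans (by gcongr)
      calc δ⁻¹ * Sh.μf l ≤ (2 * Real.exp A * Real.exp j) * (Y * (N j * E₁)) :=
            mul_le_mul hinv h6 (Sh.s8_muf_nonneg l) (by positivity)
        _ = a₁ * Y * (Real.exp j * N j) := by rw [ha₁]; ring
        _ ≤ B := by
            rw [hB]
            gcongr
            linarith
    · push Not at hk
      have h1 : ∀ x, G (Sh.s8pt x δ) ≤ ENNReal.ofReal M₀ := by
        intro x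
        apply ENNReal.ofReal_le_ofReal
        exact (Sh.sb_norm_f_le_M _).trans (hlow A j δ x hδ hk)
      refine (lintegral_mono h1).trans ?_
      rw [lintegral_const, measure_univ, mul_one]
      apply ENNReal.ofReal_le_ofReal
      rw [hB]
      have h2 : 1 ≤ Real.exp j * N j := by nlinarith
      have h3 : 0 ≤ a₁ * Y := by positivity
      nlinarith
  have hGm : Measurable (Sh.D.indicator G) := Sh.s8_meas_ind g hgc
  have hGper : ∀ z ∈ Sh.D, G (z + 2 * π) = G z := by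
    intro z hz
    rw [hG, hg]
    simp only
    rw [Sh.s8_f_per z hz]
  have hbox := Sh.s8_box_int_le hH s8nu0 j (fun _ => 1) (s8_nu0_adm j) A j ((A + 1) * Real.exp A) hA
    (by positivity) (le_of_eq rfl) G hGm hGper (ENNReal.ofReal B) hrow
  calc ∫⁻ x, ENNReal.ofReal (Sh.s8Tf A j x) ∂s8nu0
      ≤ ∫⁻ x, ENNReal.ofReal (4 * Real.exp (2 * A) / π * Real.exp j) * Sh.s8Box A j G x ∂s8nu0 :=
        lintegral_mono hpt
    _ = ENNReal.ofReal (4 * Real.exp (2 * A) / π * Real.exp j) * ∫⁻ x, Sh.s8Box A j G x ∂s8nu0 :=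
        lintegral_const_mul' _ _ ENNReal.ofReal_ne_top
    _ ≤ ENNReal.ofReal (4 * Real.exp (2 * A) / π * Real.exp j) *
          (ENNReal.ofReal (4 * (A + 1) * Real.exp (2 * A) * Real.exp (-(2 * j)) * 1) *
            ENNReal.ofReal B) := by gcongr
    _ = ENNReal.ofReal (K₁ * (a₁ * Y + M₀) * N j) := by
        rw [← ENNReal.ofReal_mul (by positivity), ← ENNReal.ofReal_mul (by positivity)]
        congr 1
        have e : Real.exp j * Real.exp (-(2 * j)) * Real.exp j = 1 := by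
          rw [← Real.exp_add, ← Real.exp_add]
          have : j + -(2 * j) + j = 0 := by ring
          rw [this, Real.exp_zero]
        rw [hB, hK₁]
        calc 4 * Real.exp (2 * A) / π * Real.exp j *
              (4 * (A + 1) * Real.exp (2 * A) * Real.exp (-(2 * j)) * 1 *
              ((a₁ * Y + M₀) * (Real.exp j * N j)))
            = 4 * Real.exp (2 * A) / π * (4 * (A + 1) * Real.exp (2 * A)) * (a₁ * Y + M₀) *
              N j * (Real.exp j * Real.exp (-(2 * j)) * Real.exp j) := by ring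
          _ = _ := by rw [e, mul_one]
    _ ≤ _ := by
        apply ENNReal.ofReal_le_ofReal
        have h1 : a₁ * Y + M₀ ≤ (a₁ + M₀) * (Y + 1) := by nlinarith
        have h0 : 0 ≤ N j := by linarith
        calc K₁ * (a₁ * Y + M₀) * N j ≤ K₁ * ((a₁ + M₀) * (Y + 1)) * N j := by gcongr
          _ = (K₁ * (a₁ + M₀)) * (Y + 1) * N j := by ring
          _ ≤ (K₁ * (a₁ + M₀) + 1) * (Y + 1) * N j := by
              gcongr
              linarith

/-- pointwise: the tile supremum of `d_j |q|^{1/2}` is bounded by the box integral of a log deficit `G - log|f|`. -/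
theorem s8_Tq_le_box (hH : Sh.H ≠ ⊤) (A : ℝ) (hA : 1 ≤ A) :
    ∃ C : ℝ, 0 < C ∧ ∀ j G x : ℝ,
      (∀ z : ℂ, s8lo A j ≤ Sh.s9dep z → Sh.s9dep z ≤ Sh.s8hi A j → ‖Sh.f z‖ ≤ Real.exp G) →
      ENNReal.ofReal (Sh.s8Tq A j x) ≤ ENNReal.ofReal C * (1 + ENNReal.ofReal (Real.exp (2 * j)) *
        Sh.s8Box A j (fun z => ENNReal.ofReal (G - Real.log ‖Sh.f z‖)) x) := by
  obtain ⟨Cl, hCl, hld⟩ := s8i_log_deficit
  have hpi := Real.pi_pos
  set Λ : ℝ := max 1 (4 * Real.exp (2 * A) / π) with hΛ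
  have hΛ1 : 1 ≤ Λ := le_max_left _ _
  have hΛ0 : 0 < Λ := by linarith
  refine ⟨2 * Real.exp A * Cl * Λ, by positivity, ?_⟩
  intro j K x hfG
  set F : ℂ → ℝ≥0∞ := fun z => ENNReal.ofReal (K - Real.log ‖Sh.f z‖) with hF
  have hpt : ENNReal.ofReal (Sh.s8Tq A j x) ≤ ENNReal.ofReal (2 * Real.exp A * Cl) *
      (1 + ENNReal.ofReal (4 * Real.exp (2 * A) * Real.exp (2 * j) / π) * Sh.s8Box A j F x) := by
    apply Sh.s8c_ofReal_sup_le
    intro s hs
    obtain ⟨hsubD, hd, hbox⟩ := Sh.s8_tile_ball hH A j x hA s hs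
    set r : ℝ := Sh.s9dep s / 2 with hr
    have hr0 : 0 < r := by positivity
    have hballD : ball s r ⊆ Sh.D := ball_subset_closedBall.trans hsubD
    have hne : ∃ z ∈ ball s r, Sh.f z ≠ 0 := by
      by_contra hcon
      push Not at hcon
      apply Sh.sb_f_not_eventually_zero (hballD (mem_ball_self hr0))
      filter_upwards [isOpen_ball.mem_nhds (mem_ball_self hr0)] with z hz
      exact hcon z hz
    have hKb : ∀ z ∈ ball s r, ‖Sh.f z‖ ≤ Real.exp K := by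
      intro z hz
      obtain ⟨_, h2, h3⟩ := hbox z (ball_subset_closedBall hz)
      exact hfG z h2 h3
    have h1 := hld Sh.f Sh.q s r K hr0 (Sh.s8_f_diff.mono hballD) (Sh.q_diff.mono hballD)
      (fun z hz => Sh.s8_f_ode z (hballD hz)) hne hKb s (mem_ball_self (by positivity))
    have h2 : ∫⁻ w in ball s r, ENNReal.ofReal (K - Real.log ‖Sh.f w‖) ≤ Sh.s8Box A j F x :=
      Sh.s8_ball_le_box hH A j x hA F s hs
    have h3 : (π * r ^ 2)⁻¹ ≤ 4 * Real.exp (2 * A) * Real.exp (2 * j) / π := by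
      have h4 : Real.exp (-A) * Real.exp (-j) ≤ Sh.s9dep s := hs.1
      have h5 : 4 * Real.exp (2 * A) * Real.exp (2 * j) / π =
          (π * (Real.exp (-A) * Real.exp (-j) / 2) ^ 2)⁻¹ := by
        have e1 : Real.exp (2 * A) = (Real.exp (-A))⁻¹ ^ 2 := by
          rw [← Real.exp_neg, neg_neg, ← Real.exp_nat_mul]
          norm_num
        have e2 : Real.exp (2 * j) = (Real.exp (-j))⁻¹ ^ 2 := by
          rw [← Real.exp_neg, neg_neg, ← Real.exp_nat_mul]
          norm_num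
        rw [e1, e2]
        have := Real.exp_pos (-A)
        have := Real.exp_pos (-j)
        field_simp
        norm_num
      rw [h5, hr]
      apply inv_anti₀ (by positivity)
      gcongr
    have h6 : Real.exp (-j) ≤ 2 * Real.exp A * r := by
      have h4 : Real.exp (-A) * Real.exp (-j) ≤ Sh.s9dep s := hs.1
      have e : Real.exp A * (Real.exp (-A) * Real.exp (-j)) = Real.exp (-j) := by
        rw [← mul_assoc, ← Real.exp_add, add_neg_cancel, Real.exp_zero, one_mul]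
      have h7 : Real.exp A * (Real.exp (-A) * Real.exp (-j)) ≤ Real.exp A * Sh.s9dep s := by gcongr
      rw [e] at h7
      rw [hr]
      linarith
    calc ENNReal.ofReal (Real.exp (-j) * Real.sqrt ‖Sh.q s‖)
        ≤ ENNReal.ofReal (2 * Real.exp A * (r * Real.sqrt ‖Sh.q s‖)) := by
          apply ENNReal.ofReal_le_ofReal
          calc Real.exp (-j) * Real.sqrt ‖Sh.q s‖ ≤ (2 * Real.exp A * r) * Real.sqrt ‖Sh.q s‖ := by
                gcongr
            _ = _ := by ring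
      _ = ENNReal.ofReal (2 * Real.exp A) * ENNReal.ofReal (r * Real.sqrt ‖Sh.q s‖) :=
          ENNReal.ofReal_mul (by positivity)
      _ ≤ ENNReal.ofReal (2 * Real.exp A) * (ENNReal.ofReal Cl *
            (1 + ENNReal.ofReal (4 * Real.exp (2 * A) * Real.exp (2 * j) / π) * Sh.s8Box A j F x)) := by
          gcongr
          refine h1.trans ?_
          gcongr
      _ = _ := by
          rw [← mul_assoc, ← ENNReal.ofReal_mul (by positivity)]
  refine hpt.trans ?_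
  have hΛ1' : (1 : ℝ≥0∞) ≤ ENNReal.ofReal Λ := by
    rw [← ENNReal.ofReal_one]; exact ENNReal.ofReal_le_ofReal hΛ1
  have e1 : ENNReal.ofReal (4 * Real.exp (2 * A) * Real.exp (2 * j) / π) ≤
      ENNReal.ofReal Λ * ENNReal.ofReal (Real.exp (2 * j)) := by
    rw [← ENNReal.ofReal_mul hΛ0.le]
    apply ENNReal.ofReal_le_ofReal
    calc 4 * Real.exp (2 * A) * Real.exp (2 * j) / π = 4 * Real.exp (2 * A) / π * Real.exp (2 * j) := by
          ring
      _ ≤ Λ * Real.exp (2 * j) := by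
          gcongr
          exact le_max_right _ _
  set c : ℝ := 2 * Real.exp A * Cl with hc
  have hc0 : 0 ≤ c := by positivity
  set Bx : ℝ≥0∞ := Sh.s8Box A j F x with hBx
  calc ENNReal.ofReal c * (1 + ENNReal.ofReal (4 * Real.exp (2 * A) * Real.exp (2 * j) / π) * Bx)
      ≤ ENNReal.ofReal c * (ENNReal.ofReal Λ +
          ENNReal.ofReal Λ * ENNReal.ofReal (Real.exp (2 * j)) * Bx) := by
        gcongr
    _ = ENNReal.ofReal c * ENNReal.ofReal Λ * (1 + ENNReal.ofReal (Real.exp (2 * j)) * Bx) := by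
        ring
    _ = ENNReal.ofReal (c * Λ) * (1 + ENNReal.ofReal (Real.exp (2 * j)) * Bx) := by
        rw [ENNReal.ofReal_mul hc0]

/-- **(8.3)**, in tile form: `E sup_tile d_j |q|^{1/2} ≤ C (1 + j)`. -/
theorem s8_Tq1 (hH : Sh.H ≠ ⊤) (ho : Sh.order = 1) (A : ℝ) (hA : 1 ≤ A) :
    ∃ C : ℝ, 0 < C ∧ ∀ j ≥ Sh.s9k0,
      ∫⁻ x, ENNReal.ofReal (Sh.s8Tq A j x) ∂s8nu0 ≤ ENNReal.ofReal (C * (1 + j)) := by
  have hprob := s8_nu0_prob
  obtain ⟨M₀, hM₀, hlow⟩ := Sh.s8c_low hH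
  obtain ⟨C₀, hC₀, hsub⟩ := Sh.s8_subexp hH ho 1 one_pos
  obtain ⟨Cl, hCl, hld⟩ := s8i_log_deficit
  have hpi := Real.pi_pos
  have hHr := Sh.s8_Hr_pos hH
  set R₀ : ℝ := max (max C₀ M₀) 1 with hR₀
  have hR₀1 : 1 ≤ R₀ := le_max_right _ _
  have hR₀pos : 0 < R₀ := by linarith
  set K₁ : ℝ := 4 * Real.exp (2 * A) / π * (4 * (A + 1) * Real.exp (2 * A)) with hK₁
  have hK₁0 : 0 ≤ K₁ := by positivity
  set c₀ : ℝ := |Real.log R₀ + 2 * (A + 1) - Sh.s8L0| + 2 with hc₀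
  have hc₀0 : 0 ≤ c₀ := by positivity
  refine ⟨2 * Real.exp A * Cl * (1 + K₁ * c₀) + 1, by positivity, ?_⟩
  intro j hj
  have hj1 : 1 ≤ j := (Sh.s8_k0 hH).1.trans hj
  set K : ℝ := Real.log R₀ + 2 * (j + A + 1) with hK
  -- the bound of `f` in the box
  have hfK : ∀ δ ∈ Icc (s8lo A j) (Sh.s8hi A j), ∀ x : ℝ, ‖Sh.f (Sh.s8pt x δ)‖ ≤ Real.exp K := by
    intro δ hδ x
    obtain ⟨hδ0, hlev, _⟩ := Sh.s8c_level A j δ hδ
    have hexpK : Real.exp K = R₀ * Real.exp (2 * (j + A + 1)) := by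
      rw [hK, Real.exp_add, Real.exp_log hR₀pos]
    have hbig : 1 ≤ Real.exp (2 * (j + A + 1)) := Real.one_le_exp (by linarith)
    refine (Sh.sb_norm_f_le_M _).trans ?_
    by_cases hk : δ ≤ Real.exp (-Sh.s9k0)
    · set l : ℝ := -Real.log δ with hl
      have hlk : Sh.s9k0 ≤ l := Sh.s8c_le_level hδ0 hk
      have h1 := hsub l hlk
      rw [s8c_expl hδ0] at h1
      have hh : |Sh.Hr - δ| < Sh.Hr := by
        have h2 := (Sh.s8_k0 hH).2
        rw [abs_lt]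
        constructor <;> linarith
      have h2 : Sh.M (Sh.s8pt x δ) ≤ Sh.rowMax (Sh.Hr - δ) := Sh.s8_le_rowMax hH _ hh x
      have h3 : Sh.rowMax (Sh.Hr - δ) ≤ C₀ * Real.exp (2 * l) := by
        have h4 : Sh.rowMax (Sh.Hr - δ) = δ⁻¹ * (δ * Sh.rowMax (Sh.Hr - δ)) := by
          rw [← mul_assoc, inv_mul_cancel₀ hδ0.ne', one_mul]
        have h5 : δ⁻¹ = Real.exp l := by
          rw [hl, Real.exp_neg, Real.exp_log hδ0]
        rw [h4, h5]
        calc Real.exp l * (δ * Sh.rowMax (Sh.Hr - δ)) ≤ Real.exp l * (C₀ * Real.exp (1 * l)) := by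
              gcongr
          _ = C₀ * Real.exp (2 * l) := by
              rw [one_mul, two_mul, Real.exp_add]
              ring
      have h6 : l ≤ j + A + 1 := by linarith [(abs_le.1 hlev).2]
      calc Sh.M (Sh.s8pt x δ) ≤ C₀ * Real.exp (2 * l) := h2.trans h3
        _ ≤ R₀ * Real.exp (2 * (j + A + 1)) := by
            gcongr
            exact (le_max_left _ _).trans (le_max_left _ _)
        _ = _ := hexpK.symm
    · push Not at hk
      calc Sh.M (Sh.s8pt x δ) ≤ M₀ := hlow A j δ x hδ hk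
        _ ≤ R₀ := (le_max_right _ _).trans (le_max_left _ _)
        _ ≤ R₀ * Real.exp (2 * (j + A + 1)) := by nlinarith
        _ = _ := hexpK.symm
  set F : ℂ → ℝ≥0∞ := fun z => ENNReal.ofReal (K - Real.log ‖Sh.f z‖) with hF
  -- pointwise bound
  have hpt : ∀ x, ENNReal.ofReal (Sh.s8Tq A j x) ≤ ENNReal.ofReal (2 * Real.exp A * Cl) *
      (1 + ENNReal.ofReal (4 * Real.exp (2 * A) * Real.exp (2 * j) / π) * Sh.s8Box A j F x) := by
    intro x
    apply Sh.s8c_ofReal_sup_le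
    intro s hs
    obtain ⟨hsubD, hd, hbox⟩ := Sh.s8_tile_ball hH A j x hA s hs
    set r : ℝ := Sh.s9dep s / 2 with hr
    have hr0 : 0 < r := by positivity
    have hballD : ball s r ⊆ Sh.D := ball_subset_closedBall.trans hsubD
    have hne : ∃ z ∈ ball s r, Sh.f z ≠ 0 := by
      by_contra hcon
      push Not at hcon
      apply Sh.sb_f_not_eventually_zero (hballD (mem_ball_self hr0))
      filter_upwards [isOpen_ball.mem_nhds (mem_ball_self hr0)] with z hz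
      exact hcon z hz
    have hKb : ∀ z ∈ ball s r, ‖Sh.f z‖ ≤ Real.exp K := by
      intro z hz
      obtain ⟨_, h2, h3⟩ := hbox z (ball_subset_closedBall hz)
      have e : z = Sh.s8pt z.re (Sh.s9dep z) := by
        apply Complex.ext <;> simp [s8pt, s9dep]
      rw [e]
      exact hfK _ ⟨h2, h3⟩ _
    have h1 := hld Sh.f Sh.q s r K hr0 (Sh.s8_f_diff.mono hballD) (Sh.q_diff.mono hballD)
      (fun z hz => Sh.s8_f_ode z (hballD hz)) hne hKb s (mem_ball_self (by positivity))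
    have h2 : ∫⁻ w in ball s r, ENNReal.ofReal (K - Real.log ‖Sh.f w‖) ≤ Sh.s8Box A j F x :=
      Sh.s8_ball_le_box hH A j x hA F s hs
    have h3 : (π * r ^ 2)⁻¹ ≤ 4 * Real.exp (2 * A) * Real.exp (2 * j) / π := by
      have h4 : Real.exp (-A) * Real.exp (-j) ≤ Sh.s9dep s := hs.1
      have h5 : 4 * Real.exp (2 * A) * Real.exp (2 * j) / π =
          (π * (Real.exp (-A) * Real.exp (-j) / 2) ^ 2)⁻¹ := by
        have e1 : Real.exp (2 * A) = (Real.exp (-A))⁻¹ ^ 2 := by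
          rw [← Real.exp_neg, neg_neg, ← Real.exp_nat_mul]
          norm_num
        have e2 : Real.exp (2 * j) = (Real.exp (-j))⁻¹ ^ 2 := by
          rw [← Real.exp_neg, neg_neg, ← Real.exp_nat_mul]
          norm_num
        rw [e1, e2]
        have := Real.exp_pos (-A)
        have := Real.exp_pos (-j)
        field_simp
        norm_num
      rw [h5, hr]
      apply inv_anti₀ (by positivity)
      gcongr
    have h6 : Real.exp (-j) ≤ 2 * Real.exp A * r := by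
      have h4 : Real.exp (-A) * Real.exp (-j) ≤ Sh.s9dep s := hs.1
      have e : Real.exp A * (Real.exp (-A) * Real.exp (-j)) = Real.exp (-j) := by
        rw [← mul_assoc, ← Real.exp_add, add_neg_cancel, Real.exp_zero, one_mul]
      have h7 : Real.exp A * (Real.exp (-A) * Real.exp (-j)) ≤ Real.exp A * Sh.s9dep s := by gcongr
      rw [e] at h7
      rw [hr]
      linarith
    calc ENNReal.ofReal (Real.exp (-j) * Real.sqrt ‖Sh.q s‖)
        ≤ ENNReal.ofReal (2 * Real.exp A * (r * Real.sqrt ‖Sh.q s‖)) := by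
          apply ENNReal.ofReal_le_ofReal
          calc Real.exp (-j) * Real.sqrt ‖Sh.q s‖ ≤ (2 * Real.exp A * r) * Real.sqrt ‖Sh.q s‖ := by
                gcongr
            _ = _ := by ring
      _ = ENNReal.ofReal (2 * Real.exp A) * ENNReal.ofReal (r * Real.sqrt ‖Sh.q s‖) :=
          ENNReal.ofReal_mul (by positivity)
      _ ≤ ENNReal.ofReal (2 * Real.exp A) * (ENNReal.ofReal Cl *
            (1 + ENNReal.ofReal (4 * Real.exp (2 * A) * Real.exp (2 * j) / π) * Sh.s8Box A j F x)) := by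
          gcongr
          refine h1.trans ?_
          gcongr
      _ = _ := by
          rw [← mul_assoc, ← ENNReal.ofReal_mul (by positivity)]
  -- rows
  have hrow : ∀ δ ∈ Icc (s8lo A j) (Sh.s8hi A j), ∫⁻ x, F (Sh.s8pt x δ) ∂s8nu0 ≤
      ENNReal.ofReal (K - Sh.s8L0) := by
    intro δ hδ
    obtain ⟨hδ0, _, _⟩ := Sh.s8c_level A j δ hδ
    have hh : |Sh.Hr - δ| < Sh.Hr := by
      have h1 : δ ≤ 3 * Sh.Hr / 2 := hδ.2.trans (min_le_right _ _)
      rw [abs_lt]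
      constructor <;> linarith
    have hDeq := Sh.sb_D_eq hH
    exact s8_deficit_row Sh.f Sh.Hr (Sh.Hr - δ) K hh (hDeq ▸ Sh.s8_f_diff)
      (fun z hz => Sh.s8_f_per z ((Sh.s8_mem_D hH z).2 hz))
      (fun z hz => Sh.sb_norm_f_conj ((Sh.s8_mem_D hH z).2 hz)) Sh.s8_f_real (hfK δ hδ)
  have hFm : Measurable (Sh.D.indicator F) := by
    apply Measurable.indicator _ Sh.s8_isOpen_D.measurableSet
    exact (measurable_const.sub (Real.measurable_log.comp Sh.sb_measurable_f.norm)).ennreal_ofReal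
  have hFper : ∀ z ∈ Sh.D, F (z + 2 * π) = F z := by
    intro z hz
    rw [hF]
    simp only
    rw [Sh.s8_f_per z hz]
  have hbox := Sh.s8_box_int_le hH s8nu0 j (fun _ => 1) (s8_nu0_adm j) A j ((A + 1) * Real.exp A) hA
    (by positivity) (le_of_eq rfl) F hFm hFper _ hrow
  have hKL : K - Sh.s8L0 ≤ c₀ * (1 + j) := by
    have h1 : K - Sh.s8L0 = (Real.log R₀ + 2 * (A + 1) - Sh.s8L0) + 2 * j := by rw [hK]; ring
    have h2 := le_abs_self (Real.log R₀ + 2 * (A + 1) - Sh.s8L0)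
    have h3 := abs_nonneg (Real.log R₀ + 2 * (A + 1) - Sh.s8L0)
    rw [h1, hc₀]
    nlinarith
  calc ∫⁻ x, ENNReal.ofReal (Sh.s8Tq A j x) ∂s8nu0
      ≤ ∫⁻ x, ENNReal.ofReal (2 * Real.exp A * Cl) *
          (1 + ENNReal.ofReal (4 * Real.exp (2 * A) * Real.exp (2 * j) / π) * Sh.s8Box A j F x)
            ∂s8nu0 := lintegral_mono hpt
    _ = ENNReal.ofReal (2 * Real.exp A * Cl) *
          (1 + ENNReal.ofReal (4 * Real.exp (2 * A) * Real.exp (2 * j) / π) *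
            ∫⁻ x, Sh.s8Box A j F x ∂s8nu0) := by
        rw [lintegral_const_mul' _ _ ENNReal.ofReal_ne_top, lintegral_add_left measurable_const,
          lintegral_const_mul' _ _ ENNReal.ofReal_ne_top, lintegral_const, measure_univ, mul_one]
    _ ≤ ENNReal.ofReal (2 * Real.exp A * Cl) *
          (1 + ENNReal.ofReal (4 * Real.exp (2 * A) * Real.exp (2 * j) / π) *
            (ENNReal.ofReal (4 * (A + 1) * Real.exp (2 * A) * Real.exp (-(2 * j)) * 1) *
              ENNReal.ofReal (c₀ * (1 + j)))) := by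
        gcongr
        refine hbox.trans ?_
        gcongr
    _ = ENNReal.ofReal (2 * Real.exp A * Cl * (1 + K₁ * (c₀ * (1 + j)))) := by
        have hj0 : 0 ≤ 1 + j := by linarith
        rw [← ENNReal.ofReal_mul (by positivity), ← ENNReal.ofReal_mul (by positivity),
          ← ENNReal.ofReal_one, ← ENNReal.ofReal_add (by norm_num) (by positivity),
          ← ENNReal.ofReal_mul (by positivity)]
        congr 3
        have e : Real.exp (2 * j) * Real.exp (-(2 * j)) = 1 := by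
          rw [← Real.exp_add, add_neg_cancel, Real.exp_zero]
        rw [hK₁]
        calc 4 * Real.exp (2 * A) * Real.exp (2 * j) / π *
              (4 * (A + 1) * Real.exp (2 * A) * Real.exp (-(2 * j)) * 1 * (c₀ * (1 + j)))
            = 4 * Real.exp (2 * A) / π * (4 * (A + 1) * Real.exp (2 * A)) * (c₀ * (1 + j)) *
              (Real.exp (2 * j) * Real.exp (-(2 * j))) := by ring
          _ = _ := by rw [e, mul_one]
    _ ≤ _ := by
        apply ENNReal.ofReal_le_ofReal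
        have hj0 : 1 ≤ 1 + j := by linarith
        have h0 : 0 ≤ 2 * Real.exp A * Cl := by positivity
        have h1 : 1 + K₁ * (c₀ * (1 + j)) ≤ (1 + K₁ * c₀) * (1 + j) := by nlinarith
        calc 2 * Real.exp A * Cl * (1 + K₁ * (c₀ * (1 + j)))
            ≤ 2 * Real.exp A * Cl * ((1 + K₁ * c₀) * (1 + j)) := by gcongr
          _ = (2 * Real.exp A * Cl * (1 + K₁ * c₀)) * (1 + j) := by ring
          _ ≤ _ := by
              gcongr
              linarith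

/-- the first-moment hypothesis from `μ ≤ N`. -/
theorem s8_FM_of_mu (hH : Sh.H ≠ ⊤) (β a : ℝ) (hβ : 0 ≤ β) (ha : 0 ≤ a) :
    ∃ C₁ : ℝ → ℝ, ∀ N : ℝ → ℝ, S8Env β a N → (∀ l ≥ Sh.s9k0, Sh.μ l ≤ N l) → Sh.S8FM C₁ N := by
  classical
  have hprob := s8_nu0_prob
  have h := fun (A : ℝ) (hA : 1 ≤ A) => Sh.s8_T2_of_mu hH β a A hβ ha hA
  refine ⟨fun A => if hA : 1 ≤ A then (h A hA).choose * 2 else 0, ?_⟩
  intro N hN hμ A hA j hj
  obtain ⟨hC, hspec⟩ := (h A hA).choose_spec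
  have h1 := hspec N 1 hN zero_le_one (fun l hl => by rw [one_mul]; exact hμ l hl) j hj
  have hNj : 1 ≤ N j := hN.one_le j
  have h2 := Sh.s8_T1_le hH s8nu0 A j _ (by positivity) h1
  simp only [dif_pos hA]
  refine h2.trans (le_of_eq ?_)
  congr 1
  ring

/-- the first-moment hypothesis from `μ_f ≤ N` and `1 + l ≤ N l`. -/
theorem s8_FM_record (hH : Sh.H ≠ ⊤) (ho : Sh.order = 1) (β a : ℝ) (hβ : 0 ≤ β) (ha : 0 ≤ a) :
    ∃ C₁ : ℝ → ℝ, ∀ N : ℝ → ℝ, S8Env β a N → (∀ l ≥ Sh.s9k0, Sh.μf l ≤ N l) →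
      (∀ l ≥ Sh.s9k0, 1 + l ≤ N l) → Sh.S8FM C₁ N := by
  classical
  have h := fun (A : ℝ) (hA : 1 ≤ A) => Sh.s8_Tf1_of_muf hH β a A hβ ha hA
  have h' := fun (A : ℝ) (hA : 1 ≤ A) => Sh.s8_Tq1 hH ho A hA
  refine ⟨fun A => if hA : 1 ≤ A then (h A hA).choose * 2 + (h' A hA).choose else 0, ?_⟩
  intro N hN hμ hlin A hA j hj
  obtain ⟨hC, hspec⟩ := (h A hA).choose_spec
  obtain ⟨hC', hspec'⟩ := (h' A hA).choose_spec
  have h1 := hspec N 1 hN zero_le_one (fun l hl => by rw [one_mul]; exact hμ l hl) j hj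
  have h2 := hspec' j hj
  have hNj : 1 ≤ N j := hN.one_le j
  simp only [dif_pos hA]
  calc Sh.s8T1 s8nu0 A j
      ≤ ∫⁻ x, (ENNReal.ofReal (Sh.s8Tf A j x) + ENNReal.ofReal (Sh.s8Tq A j x)) ∂s8nu0 := by
        apply lintegral_mono
        intro x
        show ENNReal.ofReal (Sh.s8T A j x) ≤
          ENNReal.ofReal (Sh.s8Tf A j x) + ENNReal.ofReal (Sh.s8Tq A j x)
        rw [← ENNReal.ofReal_add (Sh.s8_Tf_nonneg A j x) (Sh.s8_Tq_nonneg A j x)]
        exact ENNReal.ofReal_le_ofReal (Sh.s8_T_le_add hH A j x)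
    _ = ∫⁻ x, ENNReal.ofReal (Sh.s8Tf A j x) ∂s8nu0 + ∫⁻ x, ENNReal.ofReal (Sh.s8Tq A j x) ∂s8nu0 :=
        lintegral_add_left (Sh.s8_Tf_meas hH A j).ennreal_ofReal _
    _ ≤ ENNReal.ofReal ((h A hA).choose * (1 + 1) * N j) +
          ENNReal.ofReal ((h' A hA).choose * (1 + j)) := add_le_add h1 h2
    _ = ENNReal.ofReal ((h A hA).choose * (1 + 1) * N j + (h' A hA).choose * (1 + j)) := by
        have hj0 : 0 ≤ 1 + j := by linarith [(Sh.s8_k0 hH).1]
        rw [ENNReal.ofReal_add (by positivity) (by positivity)]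
    _ ≤ _ := by
        apply ENNReal.ofReal_le_ofReal
        have h3 := hlin j hj
        have h4 : (h' A hA).choose * (1 + j) ≤ (h' A hA).choose * N j := by gcongr
        linarith

end Shape

end Claimed.Agent.R269
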