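/-
Row 269, P1 Section 8: THE CONE COST (P1 (8.10), (8.11)).   Blueprint: helper48.
LEAF PACKAGES (fill IN PLACE):
  LF-S8-cone-a : `s8_le_cc`, `s8_cc_nonneg`, `s8_cc_le_sum`, `s8_cs_meas`
  LF-S8-cone-b : `s8_env_sum`, `s8_cs_L2`, `s8_cs_L1`
Black boxes: `S8/BasicA.lean`, `BasicC.lean`, `TileA.lean`.

`s8cc β₁ L k x = sup {dep s · M s · (e^{-k}/dep s)^{β₁} : s ∈ s9cone L x (e^{-k}/20) δ_b}`, `δ_b = s9db = e^{-(k₀+3)}`.   The paper's `b(x,k)` is `1 + s8cc / N k`.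
We majorise the cone cost by the MEASURABLE finite sum of tile suprema  `s8cs β₁ A₁ k x = e⁴ ∑_{i < n_k} e^{-β₁ i} T_{A₁}(k+3-i, x)`, `n_k = ⌊k - k₀⌋₊ + 1`; only `s8cs` is integrated.

PROOFS.
* `s8_le_cc`: the cone is compact and contained in `D` (`0 < e^{-k}/20 ≤ dep s ≤ δ_b < Hr/200`), the function is continuous on it (`dep s > 0`: `Real.continuousAt_rpow_const`/`ContinuousOn.rpow_const`): `le_csSup`.
* `s8_cc_le_sum`: by `Real.sSup_le` it is enough to bound each `s` of the cone.  Let `δ = dep s`, `l = -log δ ∈ [k₀+3, k + log 20] ⊆ [k₀+3, k+3]` (`log 20 < 3`), `i = ⌊k + 3 - l⌋₊`, `l_i = k + 3 - i ∈ [l, l+1)`.  `i ≤ k - k₀`, so `i < n_k`.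
  `s ∈ s9tile A₁ l_i x`: `|l - l_i| ≤ 1 ≤ A₁`, `|Re s - x| ≤ L δ ≤ A₁ δ`, `Im s = Hr - δ ≥ 0`.  Hence `e^{-l_i} M s ≤ T_{A₁}(l_i,x)` and
  `δ M s (e^{-k}/δ)^{β₁} = e^{l_i - l} e^{-l_i} M s · e^{-β₁ (k - l)} ≤ e · T · e^{-β₁ (i - 3)} ≤ e⁴ e^{-β₁ i} T`  (`k - l ≥ k - l_i = i - 3`, `0 ≤ β₁ ≤ 1`).  One term of a sum of nonnegative terms.
* `s8_env_sum`: for `i < n_k`, `l_i = k+3-i`: if `i ≥ 3`: `N l_i ≤ N k e^{β (i-3)} ≤ N k e^{β i}`; if `i < 3`: `N l_i ≤ N k e^{a (3-i)} ≤ N k e^{3a}`.  So `e^{-β₁ i} N l_i ≤ e^{3a} N k θ^i`, `θ = e^{-(β₁-β)} < 1`; geometric series.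
* `s8_cs_L2` (NO Minkowski).  With `w_i = θ^i`, `S = ∑ w_i ≤ 1/(1-θ)`, `t_i = T_{A₁}(l_i,x)/N l_i`:  `cs/N k ≤ e^{4+3a} ∑ w_i t_i`, `(1 + e^{4+3a} ∑ w_i t_i)² ≤ 2 + 2 e^{8+6a} S ∑ w_i t_i²` (Cauchy-Schwarz `Finset.inner_mul_le_norm_mul_norm` /
  `Finset.sum_mul_sq_le_sq_mul_sq` with `√w_i · √w_i t_i`).  Integrate termwise (`lintegral_finset_sum`, measurability `s8_T_meas`): `∫ t_i² ≤ Y²`.  Result `≤ 2 + 2 e^{8+6a} S² Y² ≤ (C (1+Y))²`, `C = 2 e^{4+3a}/(1-θ)`.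
  All levels `l_i ≥ k₀ + 3`.
* `s8_cs_L1`: termwise, `S8FM` at the aperture `A₁`, `s8_env_sum`.
-/
import Claimed.Agent.R269.S8.TileA

set_option autoImplicit false

namespace Claimed.Agent.R269

open Complex ComplexConjugate Filter Topology MeasureTheory Set Metric
open scoped ENNReal Real

theorem s8_exp_three : (20 : ℝ) < Real.exp 3 := by
  have h5 : Real.exp 3 = Real.exp 1 ^ 3 := by
    rw [← Real.exp_nat_mul]
    norm_num
  have h6 := Real.exp_one_gt_d9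
  rw [h5]
  have h7 : (2.718 : ℝ) < Real.exp 1 := by linarith
  have h8 : (2.718 : ℝ) ^ 3 < Real.exp 1 ^ 3 := pow_lt_pow_left₀ h7 (by norm_num) (by norm_num)
  have h9 : (20 : ℝ) < (2.718 : ℝ) ^ 3 := by norm_num
  linarith

namespace Shape

variable (Sh : Shape)

/-- the measurable majorant of the cone cost. -/
noncomputable def s8cs (β₁ A₁ k x : ℝ) : ℝ :=
  Real.exp 4 * ∑ i ∈ Finset.range (⌊k - Sh.s9k0⌋₊ + 1), Real.exp (-(β₁ * i)) * Sh.s8T A₁ (k + 3 - i) x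

theorem s8_cone_sub (hH : Sh.H ≠ ⊤) (L x lo : ℝ) (hlo : 0 < lo) : Sh.s9cone L x lo Sh.s9db ⊆ Sh.D := by
  intro s hs
  obtain ⟨h1, h2, _⟩ := hs
  have hdb := Sh.s8_db hH
  have hHr := Sh.s8_Hr_pos hH
  rw [Sh.s8_mem_D hH]
  unfold s9dep at h1 h2
  rw [abs_lt]
  constructor <;> linarith

theorem s8_cone_compact (hH : Sh.H ≠ ⊤) (L x lo : ℝ) (hlo : 0 < lo) :
    IsCompact (Sh.s9cone L x lo Sh.s9db) := by
  have hdb := Sh.s8_db hH
  have hHr := Sh.s8_Hr_pos hH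
  apply Metric.isCompact_of_isClosed_isBounded
  · have hd : Continuous Sh.s9dep := by unfold s9dep; fun_prop
    have e : Sh.s9cone L x lo Sh.s9db = {s | lo ≤ Sh.s9dep s} ∩ ({s | Sh.s9dep s ≤ Sh.s9db} ∩
        {s | |s.re - x| ≤ L * Sh.s9dep s}) := by
      ext s; rfl
    rw [e]
    exact (isClosed_le continuous_const hd).inter ((isClosed_le hd continuous_const).inter
      (isClosed_le (by fun_prop) (continuous_const.mul hd)))
  · apply (Metric.isBounded_closedBall (x := (x : ℂ)) (r := |L| * Sh.s9db + Sh.Hr)).subset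
    intro s hs
    have hsD := (Sh.s8_mem_D hH s).1 (Sh.s8_cone_sub hH L x lo hlo hs)
    obtain ⟨h1, h2, h3⟩ := hs
    rw [mem_closedBall, dist_eq_norm]
    have h4 := Complex.norm_le_abs_re_add_abs_im (s - x)
    simp only [Complex.sub_re, Complex.ofReal_re, Complex.sub_im, Complex.ofReal_im, sub_zero] at h4
    have h5 : L * Sh.s9dep s ≤ |L| * Sh.s9db :=
      mul_le_mul (le_abs_self L) h2 (by linarith) (abs_nonneg L)
    linarith

theorem s8_le_cc (hH : Sh.H ≠ ⊤) (β₁ L k x : ℝ) (s : ℂ)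
    (hs : s ∈ Sh.s9cone L x (Real.exp (-k) / 20) Sh.s9db) :
    Sh.s9dep s * Sh.M s * (Real.exp (-k) / Sh.s9dep s) ^ β₁ ≤ Sh.s8cc β₁ L k x := by
  have hlo : 0 < Real.exp (-k) / 20 := by positivity
  have hK := Sh.s8_cone_compact hH L x _ hlo
  have hd : Continuous Sh.s9dep := by unfold s9dep; fun_prop
  have hc : ContinuousOn (fun s => Sh.s9dep s * Sh.M s * (Real.exp (-k) / Sh.s9dep s) ^ β₁)
      (Sh.s9cone L x (Real.exp (-k) / 20) Sh.s9db) := by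
    apply ContinuousOn.mul
    · exact hd.continuousOn.mul (Sh.s8_M_cont.mono (Sh.s8_cone_sub hH L x _ hlo))
    · apply ContinuousOn.rpow_const
      · apply ContinuousOn.div continuousOn_const hd.continuousOn
        intro z hz
        have := hz.1
        linarith
      · intro z hz
        left
        have := hz.1
        have h0 : 0 < Sh.s9dep z := by linarith
        positivity
  exact le_csSup (hK.bddAbove_image hc) ⟨s, hs, rfl⟩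

theorem s8_cc_nonneg (β₁ L k x : ℝ) : 0 ≤ Sh.s8cc β₁ L k x := by
  apply Real.sSup_nonneg
  rintro _ ⟨s, hs, rfl⟩
  have h1 := hs.1
  have h0 : 0 < Sh.s9dep s := by
    have : 0 < Real.exp (-k) / 20 := by positivity
    linarith
  have := Sh.s8_M_nonneg s
  positivity

theorem s8_cs_nonneg (β₁ A₁ k x : ℝ) : 0 ≤ Sh.s8cs β₁ A₁ k x := by
  unfold s8cs
  apply mul_nonneg (Real.exp_pos _).le
  exact Finset.sum_nonneg (fun i _ => mul_nonneg (Real.exp_pos _).le (Sh.s8_T_nonneg _ _ _))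

theorem s8_cs_meas (hH : Sh.H ≠ ⊤) (β₁ A₁ k : ℝ) : Measurable (Sh.s8cs β₁ A₁ k) := by
  unfold s8cs
  apply Measurable.const_mul
  exact Finset.measurable_fun_sum _ (fun i _ => (Sh.s8_T_meas hH _ _).const_mul _)

/-- **(K1)** the cone is covered by the tiles of the levels `k+3, k+2, …`. -/
theorem s8_cc_le_sum (hH : Sh.H ≠ ⊤) (β₁ L A₁ k x : ℝ) (hβ₁ : 0 ≤ β₁) (hβ₁' : β₁ ≤ 1) (hA₁ : 1 ≤ A₁)
    (hL : L ≤ A₁) (hk : Sh.s9k0 ≤ k) : Sh.s8cc β₁ L k x ≤ Sh.s8cs β₁ A₁ k x := by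
  apply Real.sSup_le _ (Sh.s8_cs_nonneg _ _ _ _)
  rintro _ ⟨s, hs, rfl⟩
  obtain ⟨h1, h2, h3⟩ := hs
  have hdb := Sh.s8_db hH
  have hHr := Sh.s8_Hr_pos hH
  obtain ⟨δ, hδ⟩ : ∃ δ, δ = Sh.s9dep s := ⟨_, rfl⟩
  show Sh.s9dep s * Sh.M s * (Real.exp (-k) / Sh.s9dep s) ^ β₁ ≤ _
  rw [← hδ] at h1 h2 h3 ⊢
  have hδ0 : 0 < δ := by
    have : 0 < Real.exp (-k) / 20 := by positivity
    linarith
  obtain ⟨l, hl⟩ : ∃ l, l = -Real.log δ := ⟨_, rfl⟩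
  have hδl : δ = Real.exp (-l) := by rw [hl, neg_neg, Real.exp_log hδ0]
  have hl1 : Sh.s9k0 + 3 ≤ l := by
    have : Real.log δ ≤ -(Sh.s9k0 + 3) := (Real.log_le_iff_le_exp hδ0).2 h2
    linarith
  have hl2 : l ≤ k + 3 := by
    have h4 : Real.exp (-(k + 3)) ≤ δ := by
      refine le_trans ?_ h1
      rw [neg_add, Real.exp_add, div_eq_mul_inv]
      apply mul_le_mul_of_nonneg_left _ (Real.exp_pos _).le
      rw [Real.exp_neg]
      exact inv_anti₀ (by norm_num) s8_exp_three.le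
    have : -(k + 3) ≤ Real.log δ := (Real.le_log_iff_exp_le hδ0).2 h4
    linarith
  obtain ⟨i, hi⟩ : ∃ i : ℕ, i = ⌊k + 3 - l⌋₊ := ⟨_, rfl⟩
  have hi1 : (i : ℝ) ≤ k + 3 - l := by rw [hi]; exact Nat.floor_le (by linarith)
  have hi2 : k + 3 - l < i + 1 := by rw [hi]; exact Nat.lt_floor_add_one _
  have hin : i ∈ Finset.range (⌊k - Sh.s9k0⌋₊ + 1) := by
    rw [Finset.mem_range, Nat.lt_succ_iff]
    apply Nat.le_floor
    linarith
  have htile : s ∈ Sh.s9tile A₁ (k + 3 - i) x := by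
    refine ⟨?_, ?_, ?_, ?_⟩
    · rw [← hδ, hδl, ← Real.exp_add]
      apply Real.exp_le_exp.2
      linarith
    · rw [← hδ, hδl, ← Real.exp_add]
      apply Real.exp_le_exp.2
      linarith
    · rw [← hδ]
      exact h3.trans (mul_le_mul_of_nonneg_right hL hδ0.le)
    · have : s.im = Sh.Hr - δ := by rw [hδ]; unfold s9dep; ring
      rw [this]; linarith
  have hT := Sh.s8_le_T hH A₁ (k + 3 - i) x s htile
  have hM := Sh.s8_M_nonneg s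
  have hT0 := Sh.s8_T_nonneg A₁ (k + 3 - i) x
  have e1 : (Real.exp (-k) / δ) ^ β₁ = Real.exp (-(β₁ * (k - l))) := by
    rw [hδl, ← Real.exp_sub, ← Real.exp_mul]
    congr 1; ring
  have e2 : δ = Real.exp (k + 3 - i - l) * Real.exp (-(k + 3 - i)) := by
    rw [hδl, ← Real.exp_add]; congr 1; ring
  have hterm : δ * Sh.M s * (Real.exp (-k) / δ) ^ β₁
      ≤ Real.exp 4 * (Real.exp (-(β₁ * i)) * Sh.s8T A₁ (k + 3 - i) x) := by
    rw [e1]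
    calc δ * Sh.M s * Real.exp (-(β₁ * (k - l)))
        = Real.exp (k + 3 - i - l) * Real.exp (-(β₁ * (k - l))) * (Real.exp (-(k + 3 - i)) * Sh.M s) := by
          rw [e2]; ring
      _ ≤ Real.exp (k + 3 - i - l) * Real.exp (-(β₁ * (k - l))) * Sh.s8T A₁ (k + 3 - i) x :=
          mul_le_mul_of_nonneg_left hT (by positivity)
      _ ≤ Real.exp 4 * Real.exp (-(β₁ * i)) * Sh.s8T A₁ (k + 3 - i) x := by
          apply mul_le_mul_of_nonneg_right _ hT0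
          rw [← Real.exp_add, ← Real.exp_add]
          apply Real.exp_le_exp.2
          nlinarith
      _ = _ := by ring
  refine hterm.trans ?_
  unfold s8cs
  apply mul_le_mul_of_nonneg_left _ (Real.exp_pos _).le
  exact Finset.single_le_sum (f := fun i : ℕ => Real.exp (-(β₁ * i)) * Sh.s8T A₁ (k + 3 - i) x)
    (fun i _ => mul_nonneg (Real.exp_pos _).le (Sh.s8_T_nonneg _ _ _)) hin

/-- an envelope along the levels of the cone. -/
theorem s8_env_level (β a : ℝ) (hβ : 0 ≤ β) (ha : 0 ≤ a) (N : ℝ → ℝ) (hN : S8Env β a N) (k : ℝ) (i : ℕ) :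
    N (k + 3 - i) ≤ N k * (Real.exp (3 * a) * Real.exp (β * i)) := by
  have hNk : 0 ≤ N k := zero_le_one.trans (hN.one_le k)
  have hi0 : (0 : ℝ) ≤ i := Nat.cast_nonneg i
  rw [← Real.exp_add]
  by_cases hi : (3 : ℝ) ≤ i
  · refine (hN.back (k + 3 - i) k (by linarith)).trans ?_
    apply mul_le_mul_of_nonneg_left _ hNk
    apply Real.exp_le_exp.2
    nlinarith
  · push Not at hi
    refine (hN.fwd (k + 3 - i) k (by linarith)).trans ?_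
    apply mul_le_mul_of_nonneg_left _ hNk
    apply Real.exp_le_exp.2
    nlinarith

theorem s8_theta_sum (β β₁ : ℝ) (hβ₁ : β < β₁) (n : ℕ) :
    ∑ i ∈ Finset.range n, Real.exp (-(β₁ - β)) ^ i ≤ 1 / (1 - Real.exp (-(β₁ - β))) := by
  have h1 : Real.exp (-(β₁ - β)) < 1 := Real.exp_lt_one_iff.2 (by linarith)
  have h2 := geom_sum_Ico_le_of_lt_one (m := 0) (n := n) (Real.exp_pos (-(β₁ - β))).le h1
  rw [Finset.range_eq_Ico]
  simpa using h2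

/-- the summation of an envelope along the cone. -/
theorem s8_env_sum (β a β₁ : ℝ) (hβ : 0 ≤ β) (ha : 0 ≤ a) (hβ₁ : β < β₁) (N : ℝ → ℝ) (hN : S8Env β a N)
    (k : ℝ) (n : ℕ) :
    ∑ i ∈ Finset.range n, Real.exp (-(β₁ * i)) * N (k + 3 - i) ≤
      Real.exp (3 * a) / (1 - Real.exp (-(β₁ - β))) * N k := by
  have hNk : 0 ≤ N k := zero_le_one.trans (hN.one_le k)
  calc ∑ i ∈ Finset.range n, Real.exp (-(β₁ * i)) * N (k + 3 - i)
      ≤ ∑ i ∈ Finset.range n, Real.exp (3 * a) * N k * Real.exp (-(β₁ - β)) ^ i := by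
        apply Finset.sum_le_sum
        intro i _
        calc Real.exp (-(β₁ * i)) * N (k + 3 - i)
            ≤ Real.exp (-(β₁ * i)) * (N k * (Real.exp (3 * a) * Real.exp (β * i))) :=
              mul_le_mul_of_nonneg_left (s8_env_level β a hβ ha N hN k i) (Real.exp_pos _).le
          _ = Real.exp (3 * a) * N k * (Real.exp (-(β₁ * i)) * Real.exp (β * i)) := by ring
          _ = _ := by
              rw [← Real.exp_add, ← Real.exp_nat_mul]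
              congr 2; ring
    _ = Real.exp (3 * a) * N k * ∑ i ∈ Finset.range n, Real.exp (-(β₁ - β)) ^ i := by
        rw [Finset.mul_sum]
    _ ≤ Real.exp (3 * a) * N k * (1 / (1 - Real.exp (-(β₁ - β)))) :=
        mul_le_mul_of_nonneg_left (s8_theta_sum β β₁ hβ₁ n) (by positivity)
    _ = _ := by ring

/-- the pointwise quadratic bound behind (K2). -/
theorem s8_cs_sq_le (β a β₁ A₁ : ℝ) (hβ : 0 ≤ β) (ha : 0 ≤ a) (hβ₁ : β < β₁) (N : ℝ → ℝ)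
    (hN : S8Env β a N) (k x : ℝ) :
    (1 + Sh.s8cs β₁ A₁ k x / N k) ^ 2 ≤ 2 + ∑ i ∈ Finset.range (⌊k - Sh.s9k0⌋₊ + 1),
      (2 * Real.exp (4 + 3 * a) ^ 2 * (1 / (1 - Real.exp (-(β₁ - β)))) * Real.exp (-(β₁ - β)) ^ i
        / N (k + 3 - i) ^ 2) * Sh.s8T A₁ (k + 3 - i) x ^ 2 := by
  obtain ⟨n, hn⟩ : ∃ n, n = ⌊k - Sh.s9k0⌋₊ + 1 := ⟨_, rfl⟩
  obtain ⟨θ, hθ⟩ : ∃ θ, θ = Real.exp (-(β₁ - β)) := ⟨_, rfl⟩
  obtain ⟨K, hK⟩ : ∃ K, K = Real.exp (4 + 3 * a) := ⟨_, rfl⟩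
  have hθ0 : 0 < θ := hθ ▸ Real.exp_pos _
  have hθ1 : θ < 1 := hθ ▸ Real.exp_lt_one_iff.2 (by linarith)
  have hK0 : 0 < K := hK ▸ Real.exp_pos _
  have hNpos : ∀ l, 0 < N l := fun l => zero_lt_one.trans_le (hN.one_le l)
  have hS := s8_theta_sum β β₁ hβ₁ n
  rw [← hθ] at hS
  rw [← hn, ← hθ, ← hK]
  have hT0 : ∀ i : ℕ, 0 ≤ Sh.s8T A₁ (k + 3 - i) x := fun i => Sh.s8_T_nonneg _ _ _
  -- step 1
  have h1 : Sh.s8cs β₁ A₁ k x / N k
      ≤ K * ∑ i ∈ Finset.range n, θ ^ i * (Sh.s8T A₁ (k + 3 - i) x / N (k + 3 - i)) := by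
    unfold s8cs
    rw [← hn, mul_div_assoc, Finset.sum_div, hK, Real.exp_add, mul_assoc, Finset.mul_sum (a := Real.exp (3 * a))]
    apply mul_le_mul_of_nonneg_left _ (Real.exp_pos _).le
    apply Finset.sum_le_sum
    intro i _
    have h2 := s8_env_level β a hβ ha N hN k i
    have e : θ ^ i = Real.exp (-(β₁ * i)) * Real.exp (β * i) := by
      rw [hθ, ← Real.exp_add, ← Real.exp_nat_mul]; congr 1; ring
    rw [e, div_le_iff₀ (hNpos k)]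
    have h3 : 0 < N (k + 3 - i) := hNpos _
    calc Real.exp (-(β₁ * i)) * Sh.s8T A₁ (k + 3 - i) x
        = Real.exp (-(β₁ * i)) * (Sh.s8T A₁ (k + 3 - i) x / N (k + 3 - i)) * N (k + 3 - i) := by
          field_simp
      _ ≤ Real.exp (-(β₁ * i)) * (Sh.s8T A₁ (k + 3 - i) x / N (k + 3 - i))
            * (N k * (Real.exp (3 * a) * Real.exp (β * i))) := by
          apply mul_le_mul_of_nonneg_left h2
          have := hT0 i
          positivity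
      _ = _ := by ring
  -- step 2: Cauchy-Schwarz
  have h2 : (∑ i ∈ Finset.range n, θ ^ i * (Sh.s8T A₁ (k + 3 - i) x / N (k + 3 - i))) ^ 2
      ≤ (∑ i ∈ Finset.range n, θ ^ i)
        * ∑ i ∈ Finset.range n, θ ^ i * (Sh.s8T A₁ (k + 3 - i) x / N (k + 3 - i)) ^ 2 := by
    apply Finset.sum_sq_le_sum_mul_sum_of_sq_le_mul
    · intro i _; positivity
    · intro i _; positivity
    · intro i _; apply le_of_eq; ring
  have hsum0 : 0 ≤ ∑ i ∈ Finset.range n, θ ^ i * (Sh.s8T A₁ (k + 3 - i) x / N (k + 3 - i)) :=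
    Finset.sum_nonneg (fun i _ => by have := hT0 i; have := hNpos (k + 3 - i); positivity)
  have hsum2 : 0 ≤ ∑ i ∈ Finset.range n, θ ^ i * (Sh.s8T A₁ (k + 3 - i) x / N (k + 3 - i)) ^ 2 :=
    Finset.sum_nonneg (fun i _ => by positivity)
  have hcs0 : 0 ≤ Sh.s8cs β₁ A₁ k x / N k := div_nonneg (Sh.s8_cs_nonneg _ _ _ _) (hNpos k).le
  have h3 : (Sh.s8cs β₁ A₁ k x / N k) ^ 2
      ≤ K ^ 2 * ((1 / (1 - θ)) * ∑ i ∈ Finset.range n,
        θ ^ i * (Sh.s8T A₁ (k + 3 - i) x / N (k + 3 - i)) ^ 2) := by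
    calc (Sh.s8cs β₁ A₁ k x / N k) ^ 2
        ≤ (K * ∑ i ∈ Finset.range n, θ ^ i * (Sh.s8T A₁ (k + 3 - i) x / N (k + 3 - i))) ^ 2 :=
          pow_le_pow_left₀ hcs0 h1 2
      _ = K ^ 2 * (∑ i ∈ Finset.range n, θ ^ i * (Sh.s8T A₁ (k + 3 - i) x / N (k + 3 - i))) ^ 2 := by
          ring
      _ ≤ K ^ 2 * ((∑ i ∈ Finset.range n, θ ^ i)
          * ∑ i ∈ Finset.range n, θ ^ i * (Sh.s8T A₁ (k + 3 - i) x / N (k + 3 - i)) ^ 2) :=
          mul_le_mul_of_nonneg_left h2 (by positivity)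
      _ ≤ _ := by
          apply mul_le_mul_of_nonneg_left _ (by positivity)
          exact mul_le_mul_of_nonneg_right hS hsum2
  have h4 : (1 + Sh.s8cs β₁ A₁ k x / N k) ^ 2 ≤ 2 + 2 * (Sh.s8cs β₁ A₁ k x / N k) ^ 2 := by
    nlinarith [sq_nonneg (1 - Sh.s8cs β₁ A₁ k x / N k)]
  refine h4.trans ?_
  have e : ∑ i ∈ Finset.range n, (2 * K ^ 2 * (1 / (1 - θ)) * θ ^ i / N (k + 3 - i) ^ 2)
        * Sh.s8T A₁ (k + 3 - i) x ^ 2
      = 2 * (K ^ 2 * ((1 / (1 - θ)) * ∑ i ∈ Finset.range n,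
        θ ^ i * (Sh.s8T A₁ (k + 3 - i) x / N (k + 3 - i)) ^ 2)) := by
    rw [Finset.mul_sum, Finset.mul_sum, Finset.mul_sum]
    apply Finset.sum_congr rfl
    intro i _
    have := (hNpos (k + 3 - i)).ne'
    field_simp
  rw [e]
  linarith

/-- **(K2)** second inequality of (8.11), `p = 2`, for any probability measure. -/
theorem s8_cs_L2 (hH : Sh.H ≠ ⊤) (β a β₁ A₁ : ℝ) (hβ : 0 ≤ β) (ha : 0 ≤ a) (hβ₁ : β < β₁) :
    ∃ C : ℝ, 0 < C ∧ ∀ (N : ℝ → ℝ) (ν : Measure ℝ) (Y k : ℝ), S8Env β a N → IsProbabilityMeasure ν → 0 ≤ Y →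
      Sh.s9k0 ≤ k → (∀ l ≥ Sh.s9k0, Sh.s8T2 ν A₁ l ≤ ENNReal.ofReal ((Y * N l) ^ 2)) →
      ∫⁻ x, ENNReal.ofReal (1 + Sh.s8cs β₁ A₁ k x / N k) ^ 2 ∂ν ≤ ENNReal.ofReal ((C * (1 + Y)) ^ 2) := by
  obtain ⟨θ, hθ⟩ : ∃ θ, θ = Real.exp (-(β₁ - β)) := ⟨_, rfl⟩
  obtain ⟨K, hK⟩ : ∃ K, K = Real.exp (4 + 3 * a) := ⟨_, rfl⟩
  have hθ0 : 0 < θ := hθ ▸ Real.exp_pos _
  have hθ1 : θ < 1 := hθ ▸ Real.exp_lt_one_iff.2 (by linarith)
  have hK1 : 1 ≤ K := hK ▸ Real.one_le_exp (by positivity)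
  have hS1 : 1 ≤ 1 / (1 - θ) := by
    rw [le_div_iff₀ (by linarith)]; linarith
  refine ⟨2 * K * (1 / (1 - θ)), by positivity, ?_⟩
  intro N ν Y k hN hν hY hk hT2
  have hNpos : ∀ l, 0 < N l := fun l => zero_lt_one.trans_le (hN.one_le l)
  obtain ⟨n, hn⟩ : ∃ n, n = ⌊k - Sh.s9k0⌋₊ + 1 := ⟨_, rfl⟩
  have hpt := Sh.s8_cs_sq_le β a β₁ A₁ hβ ha hβ₁ N hN k
  rw [← hθ, ← hK, ← hn] at hpt
  have hc0 : ∀ i : ℕ, 0 ≤ 2 * K ^ 2 * (1 / (1 - θ)) * θ ^ i / N (k + 3 - i) ^ 2 := by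
    intro i
    have := hNpos (k + 3 - i)
    positivity
  have hpt' : ∀ x, ENNReal.ofReal (1 + Sh.s8cs β₁ A₁ k x / N k) ^ 2 ≤ 2 + ∑ i ∈ Finset.range n,
      ENNReal.ofReal (2 * K ^ 2 * (1 / (1 - θ)) * θ ^ i / N (k + 3 - i) ^ 2)
        * ENNReal.ofReal (Sh.s8T A₁ (k + 3 - i) x) ^ 2 := by
    intro x
    have h0 : 0 ≤ 1 + Sh.s8cs β₁ A₁ k x / N k := by
      have := div_nonneg (Sh.s8_cs_nonneg β₁ A₁ k x) (hNpos k).le
      linarith
    rw [← ENNReal.ofReal_pow h0]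
    refine (ENNReal.ofReal_le_ofReal (hpt x)).trans ?_
    rw [ENNReal.ofReal_add (by norm_num) (Finset.sum_nonneg (fun i _ => mul_nonneg (hc0 i) (sq_nonneg _))),
      ENNReal.ofReal_sum_of_nonneg (fun i _ => mul_nonneg (hc0 i) (sq_nonneg _))]
    apply le_of_eq
    congr 1
    · norm_num
    · apply Finset.sum_congr rfl
      intro i _
      rw [ENNReal.ofReal_mul (hc0 i), ENNReal.ofReal_pow (Sh.s8_T_nonneg _ _ _)]
  refine (lintegral_mono hpt').trans ?_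
  have hmeas : ∀ i : ℕ, Measurable fun x => ENNReal.ofReal (Sh.s8T A₁ (k + 3 - i) x) ^ 2 :=
    fun i => ((Sh.s8_T_meas hH _ _).ennreal_ofReal).pow_const 2
  rw [lintegral_add_left measurable_const, lintegral_const, measure_univ, mul_one,
    lintegral_finsetSum _ (fun i _ => (hmeas i).const_mul _)]
  have hterm : ∀ i ∈ Finset.range n, ∫⁻ x, ENNReal.ofReal (2 * K ^ 2 * (1 / (1 - θ)) * θ ^ i / N (k + 3 - i) ^ 2)
        * ENNReal.ofReal (Sh.s8T A₁ (k + 3 - i) x) ^ 2 ∂ν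
      ≤ ENNReal.ofReal (2 * K ^ 2 * (1 / (1 - θ)) * Y ^ 2 * θ ^ i) := by
    intro i hi
    rw [lintegral_const_mul _ (hmeas i)]
    have hlev : Sh.s9k0 ≤ k + 3 - i := by
      rw [Finset.mem_range, hn, Nat.lt_succ_iff] at hi
      have h1 : (i : ℝ) ≤ ⌊k - Sh.s9k0⌋₊ := by exact_mod_cast hi
      have h2 : ((⌊k - Sh.s9k0⌋₊ : ℕ) : ℝ) ≤ k - Sh.s9k0 := Nat.floor_le (by linarith)
      linarith
    have h1 := hT2 (k + 3 - i) hlev
    unfold s8T2 at h1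
    refine (mul_le_mul_right h1 _).trans ?_
    rw [← ENNReal.ofReal_mul (hc0 i)]
    apply le_of_eq
    congr 1
    have := (hNpos (k + 3 - i)).ne'
    field_simp
  refine (add_le_add_right (Finset.sum_le_sum hterm) 2).trans ?_
  rw [← ENNReal.ofReal_sum_of_nonneg (fun i _ => by positivity)]
  have e2 : (2 : ℝ≥0∞) = ENNReal.ofReal 2 := by norm_num
  rw [e2, ← ENNReal.ofReal_add (by norm_num) (Finset.sum_nonneg (fun i _ => by positivity))]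
  apply ENNReal.ofReal_le_ofReal
  rw [← Finset.mul_sum]
  have hS := s8_theta_sum β β₁ hβ₁ n
  rw [← hθ] at hS
  obtain ⟨S₀, hS₀⟩ : ∃ S₀, S₀ = 1 / (1 - θ) := ⟨_, rfl⟩
  rw [← hS₀] at hS hS1 ⊢
  calc 2 + 2 * K ^ 2 * S₀ * Y ^ 2 * ∑ i ∈ Finset.range n, θ ^ i
      ≤ 2 + 2 * K ^ 2 * S₀ * Y ^ 2 * S₀ := by
        have : 0 ≤ 2 * K ^ 2 * S₀ * Y ^ 2 := by positivity
        linarith [mul_le_mul_of_nonneg_left hS this]
    _ ≤ (2 * K * S₀ * (1 + Y)) ^ 2 := by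
        have h1 : 1 ≤ K * S₀ := by nlinarith
        have h2 : 1 ≤ (K * S₀) ^ 2 := one_le_pow₀ h1
        have h3 : 0 ≤ (K * S₀) ^ 2 * Y := by positivity
        have h4 : 0 ≤ (K * S₀) ^ 2 * Y ^ 2 := by positivity
        nlinarith

/-- **(K3)** first inequality of (8.11). -/
theorem s8_cs_L1 (hH : Sh.H ≠ ⊤) (β a β₁ A₁ : ℝ) (C₁ : ℝ → ℝ) (hβ : 0 ≤ β) (ha : 0 ≤ a) (hβ₁ : β < β₁)
    (hA₁ : 1 ≤ A₁) :
    ∃ C : ℝ, 1 ≤ C ∧ ∀ (N : ℝ → ℝ) (k : ℝ), S8Env β a N → Sh.S8FM C₁ N → Sh.s9k0 ≤ k →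
      ∫⁻ x, ENNReal.ofReal (Sh.s8cs β₁ A₁ k x) ∂s8nu0 ≤ ENNReal.ofReal (C * N k) := by
  have hθ1 : Real.exp (-(β₁ - β)) < 1 := Real.exp_lt_one_iff.2 (by linarith)
  have hS0 : 0 < 1 - Real.exp (-(β₁ - β)) := by linarith
  refine ⟨1 + Real.exp 4 * |C₁ A₁| * (Real.exp (3 * a) / (1 - Real.exp (-(β₁ - β)))),
    by have : 0 ≤ Real.exp 4 * |C₁ A₁| * (Real.exp (3 * a) / (1 - Real.exp (-(β₁ - β)))) := by positivity
       linarith, ?_⟩
  intro N k hN hFM hk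
  have hNpos : ∀ l, 0 < N l := fun l => zero_lt_one.trans_le (hN.one_le l)
  obtain ⟨n, hn⟩ : ∃ n, n = ⌊k - Sh.s9k0⌋₊ + 1 := ⟨_, rfl⟩
  have hpt : ∀ x, ENNReal.ofReal (Sh.s8cs β₁ A₁ k x) = ∑ i ∈ Finset.range n,
      ENNReal.ofReal (Real.exp 4 * Real.exp (-(β₁ * i))) * ENNReal.ofReal (Sh.s8T A₁ (k + 3 - i) x) := by
    intro x
    unfold s8cs
    rw [← hn, Finset.mul_sum, ENNReal.ofReal_sum_of_nonneg
      (fun i _ => mul_nonneg (Real.exp_pos _).le (mul_nonneg (Real.exp_pos _).le (Sh.s8_T_nonneg _ _ _)))]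
    apply Finset.sum_congr rfl
    intro i _
    rw [← mul_assoc, ENNReal.ofReal_mul (by positivity)]
  simp only [hpt]
  have hmeas : ∀ i : ℕ, Measurable fun x => ENNReal.ofReal (Sh.s8T A₁ (k + 3 - i) x) :=
    fun i => (Sh.s8_T_meas hH _ _).ennreal_ofReal
  rw [lintegral_finsetSum _ (fun i _ => (hmeas i).const_mul _)]
  have hterm : ∀ i ∈ Finset.range n, ∫⁻ x, ENNReal.ofReal (Real.exp 4 * Real.exp (-(β₁ * i)))
        * ENNReal.ofReal (Sh.s8T A₁ (k + 3 - i) x) ∂s8nu0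
      ≤ ENNReal.ofReal (Real.exp 4 * |C₁ A₁| * (Real.exp (-(β₁ * i)) * N (k + 3 - i))) := by
    intro i hi
    rw [lintegral_const_mul _ (hmeas i)]
    have hlev : Sh.s9k0 ≤ k + 3 - i := by
      rw [Finset.mem_range, hn, Nat.lt_succ_iff] at hi
      have h1 : (i : ℝ) ≤ ⌊k - Sh.s9k0⌋₊ := by exact_mod_cast hi
      have h2 : ((⌊k - Sh.s9k0⌋₊ : ℕ) : ℝ) ≤ k - Sh.s9k0 := Nat.floor_le (by linarith)
      linarith
    have h1 := hFM A₁ hA₁ (k + 3 - i) hlev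
    unfold s8T1 at h1
    refine (mul_le_mul_right h1 _).trans ?_
    rw [← ENNReal.ofReal_mul (by positivity)]
    apply ENNReal.ofReal_le_ofReal
    have h2 : C₁ A₁ * N (k + 3 - i) ≤ |C₁ A₁| * N (k + 3 - i) :=
      mul_le_mul_of_nonneg_right (le_abs_self _) (hNpos _).le
    calc Real.exp 4 * Real.exp (-(β₁ * i)) * (C₁ A₁ * N (k + 3 - i))
        ≤ Real.exp 4 * Real.exp (-(β₁ * i)) * (|C₁ A₁| * N (k + 3 - i)) :=
          mul_le_mul_of_nonneg_left h2 (by positivity)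
      _ = _ := by ring
  refine (Finset.sum_le_sum hterm).trans ?_
  rw [← ENNReal.ofReal_sum_of_nonneg (fun i _ => by have := hNpos (k + 3 - i); positivity)]
  apply ENNReal.ofReal_le_ofReal
  rw [← Finset.mul_sum]
  have h1 := s8_env_sum β a β₁ hβ ha hβ₁ N hN k n
  have h2 : 0 ≤ Real.exp 4 * |C₁ A₁| := by positivity
  have h3 := mul_le_mul_of_nonneg_left h1 h2
  have h4 := hNpos k
  nlinarith

end Shape

end Claimed.Agent.R269
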