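/-
Row 269, P1 Section 8, LIBRARY (HOST-FREE, Mathlib only): the disk bound (P1 Lemma 8.3), a Taylor remainder, the closing of a bootstrap.   Blueprint: helper48.

LEAF PACKAGES (fill IN PLACE):
  LF-S8-disk   : `s8_disk_bound`, `s8_disk_bound_q`
  LF-S8-taylor : `s8_taylor4`, `s8_coeff2_le`
  LF-S8-close  : `s8_bootstrap_close`

PROOFS.
* `s8_disk_bound` (NOT the paper's blow-up argument: no Montel, no Liouville).  Fix `z ∈ ball c (R/2)` and `R' < R` with `‖z - c‖ < R'`.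
  `φ(w) = ‖f w‖ (R' - ‖w - c‖)` is continuous on the compact `closedBall c R'`: maximum at `z₀`.  If `φ z₀ = 0` then `f z = 0`.  Otherwise `r := R' - ‖z₀ - c‖ > 0`, `m := ‖f z₀‖ > 0`,
  and on `closedBall z₀ (r/2)` one has `R' - ‖w - c‖ ≥ r/2`, hence `‖f w‖ ≤ 2 m`.  Cauchy estimate for the second derivative
  (`Complex.norm_iteratedDeriv_le_of_forall_mem_sphere_norm_le`, `n = 2`, or twice `Complex.norm_deriv_le_of_forall_mem_sphere_norm_le` with radii `r/4`: then adapt nothing, the constant `16` below becomes `32`... use `n = 2`):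
  `‖f'' z₀‖ ≤ 2 · 2m / (r/2)² = 16 m / r²`.  On the other hand `f'' = q f = f (W - f²)/8`, so `‖f'' z₀‖ ≥ m (m² - B)/8`.  Hence `m² r² ≤ 128 + B r² ≤ 128 + B R²`, and
  `‖f z‖² (R' - ‖z - c‖)² ≤ φ(z₀)² ≤ 128 + B R²`.  Let `R' → R`: `(R - ‖z-c‖)² ≥ R²/4`.
* `s8_disk_bound_q`: `8 q = W - f²`.
* `s8_taylor4`: power series of `g` on `ball 0 r` (`DifferentiableOn.hasFPowerSeriesOnBall`), Cauchy bounds `‖a_n‖ ≤ B / r'^n` for all `r' < r`; `a₀ = 0`, `a₁ = a₃ = 0` by evenness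
  (`g(-t) = g(t)` near `0`: the odd derivatives vanish), `a₂ = g''(0)/2`; `∑_{n ≥ 4} B x^n ≤ 2 B x⁴` for `x = ‖t‖/r ≤ 1/2`.
  (Alternative: `k(t) = (g t - a₂ t²)/t⁴` has a removable singularity, maximum modulus on `‖t‖ = r'`, with `‖a₂‖ ≤ B/r'²`: gives the constant `2` at once, for all `‖t‖ < r`.)
* `s8_coeff2_le`: `Complex.borelCaratheodory_zero` for `-i g` (`Re (-i g) = Im g ≤ d`): `‖g‖ ≤ 2 d` on `‖t‖ ≤ ρ/2`; Cauchy estimate for `g''(0)` on the circle of radius `ρ/2`.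
* `s8_bootstrap_close`: `Y := max 1 (⨆ i, F i)`.  If `⨆ F ≤ 1` done.  Otherwise `(⨆ F)² ≤ C (1 + (⨆ F)^m) ≤ 2 C (⨆ F)^m`, so `(⨆ F)^(2-m) ≤ 2C`.
-/
import Mathlib

set_option autoImplicit false

namespace Claimed.Agent.R269

open Complex MeasureTheory Set Metric Filter Topology
open scoped ENNReal Real

/-- **P1 Lemma 8.3 (disk bound)** for `f`: `f'' = q f`, `W = f² + 8 q`, `|W| ≤ B` on `B(c,R)` ⇒ `|f|² ≤ 512/R² + 4B` on `B(c,R/2)`. -/
theorem s8_disk_bound (f q W : ℂ → ℂ) (c : ℂ) (R B : ℝ) (hR : 0 < R)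
    (hf : DifferentiableOn ℂ f (ball c R))
    (hode : ∀ z ∈ ball c R, deriv (deriv f) z = q z * f z)
    (hW : ∀ z ∈ ball c R, W z = f z ^ 2 + 8 * q z) (hB : ∀ z ∈ ball c R, ‖W z‖ ≤ B) :
    ∀ z ∈ ball c (R / 2), ‖f z‖ ^ 2 ≤ 512 / R ^ 2 + 4 * B := by
  intro z hz
  have hzc : ‖z - c‖ < R / 2 := by
    rw [← dist_eq_norm]
    exact hz
  have hcR : c ∈ ball c R := mem_ball_self hR
  have hB0 : 0 ≤ B := (norm_nonneg _).trans (hB c hcR)
  obtain ⟨R', hR'⟩ : ∃ R' : ℝ, R' = ‖z - c‖ + R / 2 := ⟨_, rfl⟩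
  have hR'R : R' < R := by linarith
  have hR'0 : 0 < R' := by
    have := norm_nonneg (z - c)
    linarith
  have hsub : closedBall c R' ⊆ ball c R := closedBall_subset_ball hR'R
  have hcont : ContinuousOn (fun w => ‖f w‖ * (R' - ‖w - c‖)) (closedBall c R') :=
    ((hf.continuousOn.mono hsub).norm).mul
      (continuousOn_const.sub ((continuousOn_id.sub continuousOn_const).norm))
  obtain ⟨z₀, hz₀, hmax⟩ := (isCompact_closedBall c R').exists_isMaxOn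
    ⟨c, mem_closedBall_self hR'0.le⟩ hcont
  have hz₀c : ‖z₀ - c‖ ≤ R' := by
    rw [← dist_eq_norm]
    exact hz₀
  obtain ⟨m, hm⟩ : ∃ m : ℝ, m = ‖f z₀‖ := ⟨_, rfl⟩
  obtain ⟨r, hr⟩ : ∃ r : ℝ, r = R' - ‖z₀ - c‖ := ⟨_, rfl⟩
  have hm0 : 0 ≤ m := by
    rw [hm]
    exact norm_nonneg _
  have hr0 : 0 ≤ r := by linarith
  have hrR : r ≤ R := by
    have := norm_nonneg (z₀ - c)
    linarith
  have hmaxw : ∀ w ∈ closedBall c R', ‖f w‖ * (R' - ‖w - c‖) ≤ m * r := by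
    intro w hw
    have := hmax hw
    rw [hm, hr]
    exact this
  -- the key inequality
  have key : (m * r) ^ 2 ≤ 128 + B * R ^ 2 := by
    by_cases h0 : m * r = 0
    · rw [h0, zero_pow two_ne_zero]
      positivity
    have hmpos : 0 < m := lt_of_le_of_ne hm0 fun h => h0 (by rw [← h, zero_mul])
    have hrpos : 0 < r := lt_of_le_of_ne hr0 fun h => h0 (by rw [← h, mul_zero])
    have hball : ∀ w ∈ closedBall z₀ (r / 2), w ∈ closedBall c R' ∧ ‖f w‖ ≤ 2 * m := by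
      intro w hw
      have hw1 : ‖w - z₀‖ ≤ r / 2 := by
        rw [← dist_eq_norm]
        exact hw
      have hw2 : ‖w - c‖ ≤ ‖w - z₀‖ + ‖z₀ - c‖ := by
        have e : w - c = (w - z₀) + (z₀ - c) := by ring
        rw [e]
        exact norm_add_le _ _
      have hw3 : w ∈ closedBall c R' := by
        rw [mem_closedBall, dist_eq_norm]
        linarith
      refine ⟨hw3, ?_⟩
      have h1 := hmaxw w hw3
      have h2 : r / 2 ≤ R' - ‖w - c‖ := by linarith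
      have h3 : ‖f w‖ * (r / 2) ≤ m * r :=
        (mul_le_mul_of_nonneg_left h2 (norm_nonneg _)).trans h1
      by_contra hcon
      rw [not_le] at hcon
      nlinarith
    have hd : DiffContOnCl ℂ f (ball z₀ (r / 2)) :=
      hf.diffContOnCl_ball fun w hw => hsub (hball w hw).1
    have hcau := Complex.norm_iteratedDeriv_le_of_forall_mem_sphere_norm_le 2 (by positivity) hd
      (C := 2 * m) fun w hw => (hball w (sphere_subset_closedBall hw)).2
    have e2 : iteratedDeriv 2 f z₀ = deriv (deriv f) z₀ := by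
      rw [iteratedDeriv_succ, iteratedDeriv_one]
    have hz₀R : z₀ ∈ ball c R := hsub hz₀
    rw [e2, hode z₀ hz₀R, norm_mul, ← hm] at hcau
    have hq : m ^ 2 ≤ B + 8 * ‖q z₀‖ := by
      have e3 : f z₀ ^ 2 = W z₀ - 8 * q z₀ := by
        rw [hW z₀ hz₀R]
        ring
      have h1 : ‖f z₀ ^ 2‖ ≤ ‖W z₀‖ + ‖8 * q z₀‖ := by
        rw [e3]
        exact norm_sub_le _ _
      rw [norm_pow, ← hm, norm_mul] at h1
      have h2 : ‖(8 : ℂ)‖ = 8 := by simp
      rw [h2] at h1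
      linarith [hB z₀ hz₀R]
    have hfac : ((2 : ℕ).factorial : ℝ) * (2 * m) / (r / 2) ^ 2 = 16 * m / r ^ 2 := by
      simp only [Nat.factorial]
      push_cast
      field_simp
      ring
    rw [hfac, le_div_iff₀ (by positivity)] at hcau
    -- `‖q z₀‖ * m * r ^ 2 ≤ 16 * m`
    have h4 : ‖q z₀‖ * r ^ 2 ≤ 16 := by
      by_contra hcon
      rw [not_le] at hcon
      nlinarith
    have h5 : m ^ 2 * r ^ 2 ≤ (B + 8 * ‖q z₀‖) * r ^ 2 :=
      mul_le_mul_of_nonneg_right hq (by positivity)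
    have h6 : B * r ^ 2 ≤ B * R ^ 2 :=
      mul_le_mul_of_nonneg_left (pow_le_pow_left₀ hr0 hrR 2) hB0
    calc (m * r) ^ 2 = m ^ 2 * r ^ 2 := by ring
      _ ≤ (B + 8 * ‖q z₀‖) * r ^ 2 := h5
      _ = B * r ^ 2 + 8 * (‖q z₀‖ * r ^ 2) := by ring
      _ ≤ 128 + B * R ^ 2 := by linarith
  have hzmem : z ∈ closedBall c R' := by
    rw [mem_closedBall, dist_eq_norm]
    linarith
  have h7 := hmaxw z hzmem
  have e4 : R' - ‖z - c‖ = R / 2 := by linarith
  rw [e4] at h7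
  have h8 : (‖f z‖ * (R / 2)) ^ 2 ≤ (m * r) ^ 2 :=
    pow_le_pow_left₀ (by positivity) h7 2
  have h9 : ‖f z‖ ^ 2 * R ^ 2 ≤ 512 + 4 * B * R ^ 2 := by nlinarith
  have e5 : 512 / R ^ 2 + 4 * B = (512 + 4 * B * R ^ 2) / R ^ 2 := by
    field_simp
  rw [e5, le_div_iff₀ (by positivity)]
  exact h9

/-- the disk bound for `q`. -/
theorem s8_disk_bound_q (f q W : ℂ → ℂ) (c : ℂ) (R B : ℝ) (hR : 0 < R)
    (hf : DifferentiableOn ℂ f (ball c R))
    (hode : ∀ z ∈ ball c R, deriv (deriv f) z = q z * f z)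
    (hW : ∀ z ∈ ball c R, W z = f z ^ 2 + 8 * q z) (hB : ∀ z ∈ ball c R, ‖W z‖ ≤ B) :
    ∀ z ∈ ball c (R / 2), ‖q z‖ ≤ 64 / R ^ 2 + B := by
  intro z hz
  have h1 := s8_disk_bound f q W c R B hR hf hode hW hB z hz
  have hzR : z ∈ ball c R := ball_subset_ball (by linarith) hz
  have hB0 : 0 ≤ B := (norm_nonneg _).trans (hB z hzR)
  have e : 8 * q z = W z - f z ^ 2 := by
    rw [hW z hzR]
    ring
  have h2 : ‖8 * q z‖ ≤ ‖W z‖ + ‖f z ^ 2‖ := by
    rw [e]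
    exact norm_sub_le _ _
  rw [norm_mul, norm_pow] at h2
  have h3 : ‖(8 : ℂ)‖ = 8 := by simp
  rw [h3] at h2
  have h4 := hB z hzR
  have e2 : 64 / R ^ 2 = 512 / R ^ 2 / 8 := by ring
  rw [e2]
  linarith

/-- Taylor remainder of order 4 of an even bounded holomorphic function vanishing at `0`. -/
theorem s8_taylor4 (g : ℂ → ℂ) (r B : ℝ) (hr : 0 < r) (hg : DifferentiableOn ℂ g (ball 0 r))
    (hB : ∀ t ∈ ball (0 : ℂ) r, ‖g t‖ ≤ B) (h0 : g 0 = 0) (hev : ∀ᶠ t in 𝓝 (0 : ℂ), g (-t) = g t) :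
    ∀ t : ℂ, ‖t‖ ≤ r / 2 → ‖g t - deriv (deriv g) 0 / 2 * t ^ 2‖ ≤ 2 * B * (‖t‖ / r) ^ 4 := by
  intro t ht
  have h0r : (0 : ℂ) ∈ ball (0 : ℂ) r := mem_ball_self hr
  have hB0 : 0 ≤ B := (norm_nonneg _).trans (hB 0 h0r)
  have htr : t ∈ ball (0 : ℂ) r := by
    rw [mem_ball_zero_iff]
    linarith
  -- Cauchy estimates
  have hcau : ∀ n : ℕ, ‖iteratedDeriv n g 0‖ ≤ n.factorial * B / r ^ n := by
    intro n
    have h1 : ∀ r' ∈ Ioo 0 r, ‖iteratedDeriv n g 0‖ ≤ n.factorial * B / r' ^ n := by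
      intro r' hr'
      have hd' : DiffContOnCl ℂ g (ball 0 r') :=
        hg.diffContOnCl_ball (closedBall_subset_ball hr'.2)
      exact Complex.norm_iteratedDeriv_le_of_forall_mem_sphere_norm_le n hr'.1 hd'
        fun w hw => hB w (closedBall_subset_ball hr'.2 (sphere_subset_closedBall hw))
    have h2 : Tendsto (fun r' : ℝ => (n.factorial : ℝ) * B / r' ^ n) (𝓝[<] r)
        (𝓝 ((n.factorial : ℝ) * B / r ^ n)) := by
      have h3 : ContinuousAt (fun r' : ℝ => (n.factorial : ℝ) * B / r' ^ n) r :=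
        continuousAt_const.div (continuousAt_id.pow n) (by positivity)
      exact h3.tendsto.mono_left nhdsWithin_le_nhds
    refine ge_of_tendsto h2 ?_
    filter_upwards [Ioo_mem_nhdsLT hr] with r' hr'
    exact h1 r' hr'
  -- odd derivatives vanish
  have hodd : ∀ n : ℕ, Odd n → iteratedDeriv n g 0 = 0 := by
    intro n hn
    have h1 : iteratedDeriv n (fun x => g (-x)) 0 = iteratedDeriv n g 0 :=
      Filter.EventuallyEq.iteratedDeriv_eq n hev
    rw [iteratedDeriv_comp_neg, neg_zero, hn.neg_one_pow, neg_smul, one_smul] at h1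
    have h2 : (2 : ℂ) * iteratedDeriv n g 0 = 0 := by linear_combination -h1
    exact (mul_eq_zero.1 h2).resolve_left two_ne_zero
  have hsum := Complex.hasSum_taylorSeries_on_ball hg htr
  have hsum4 := (hasSum_nat_add_iff' 4).2 hsum
  have e2 : iteratedDeriv 2 g 0 = deriv (deriv g) 0 := by
    rw [iteratedDeriv_succ, iteratedDeriv_one]
  have efin : ∑ i ∈ Finset.range 4, ((i.factorial : ℂ))⁻¹ • (t - 0) ^ i • iteratedDeriv i g 0
      = deriv (deriv g) 0 / 2 * t ^ 2 := by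
    simp only [Finset.sum_range_succ, Finset.sum_range_zero]
    rw [hodd 1 (by decide), hodd 3 (by decide), e2, iteratedDeriv_zero, h0]
    simp only [Nat.factorial, smul_eq_mul, sub_zero]
    push_cast
    ring
  rw [efin] at hsum4
  obtain ⟨x, hx⟩ : ∃ x : ℝ, x = ‖t‖ / r := ⟨_, rfl⟩
  have hx0 : 0 ≤ x := by
    rw [hx]
    positivity
  have hx1 : x ≤ 1 / 2 := by
    rw [hx, div_le_iff₀ hr]
    linarith
  have hgeo : HasSum (fun n : ℕ => B * x ^ 4 * x ^ n) (B * x ^ 4 * (1 - x)⁻¹) :=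
    (hasSum_geometric_of_lt_one hx0 (by linarith)).mul_left _
  have hterm : ∀ n : ℕ, ‖(((n + 4).factorial : ℂ))⁻¹ • (t - 0) ^ (n + 4) • iteratedDeriv (n + 4) g 0‖
      ≤ B * x ^ 4 * x ^ n := by
    intro n
    have hf0 : (0 : ℝ) < (n + 4).factorial := by exact_mod_cast Nat.factorial_pos _
    rw [norm_smul, norm_smul, norm_inv, Complex.norm_natCast, sub_zero, norm_pow]
    calc ((n + 4).factorial : ℝ)⁻¹ * (‖t‖ ^ (n + 4) * ‖iteratedDeriv (n + 4) g 0‖)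
        ≤ ((n + 4).factorial : ℝ)⁻¹ * (‖t‖ ^ (n + 4) * ((n + 4).factorial * B / r ^ (n + 4))) := by
          have := hcau (n + 4)
          gcongr
      _ = B * x ^ 4 * x ^ n := by
        rw [hx, div_pow, div_pow, pow_add r, pow_add ‖t‖]
        field_simp
  have hnorm := tsum_of_norm_bounded hgeo hterm
  rw [hsum4.tsum_eq] at hnorm
  refine hnorm.trans ?_
  rw [← hx]
  have h1x : (1 - x)⁻¹ ≤ 2 := by
    rw [inv_le_comm₀ (by linarith) (by norm_num)]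
    linarith
  calc B * x ^ 4 * (1 - x)⁻¹ ≤ B * x ^ 4 * 2 := by gcongr
    _ = 2 * B * x ^ 4 := by ring

/-- Carathéodory-type bound of the second coefficient: `g(0) = 0`, `Im g ≤ d` on `ball 0 ρ` ⇒ `|g''(0)/2| ≤ 8 d/ρ²`. -/
theorem s8_coeff2_le (g : ℂ → ℂ) (ρ d : ℝ) (hρ : 0 < ρ) (hd : 0 < d) (hg : DifferentiableOn ℂ g (ball 0 ρ))
    (h0 : g 0 = 0) (him : ∀ t ∈ ball (0 : ℂ) ρ, (g t).im ≤ d) :
    ‖deriv (deriv g) 0 / 2‖ ≤ 8 * d / ρ ^ 2 := by
  have hF : DifferentiableOn ℂ (fun t => -I * g t) (ball 0 ρ) := hg.const_mul _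
  have hbd : ∀ t ∈ sphere (0 : ℂ) (ρ / 2), ‖g t‖ ≤ 2 * d := by
    intro t ht
    have ht1 : ‖t‖ = ρ / 2 := by simpa using ht
    have ht2 : t ∈ ball (0 : ℂ) ρ := by
      rw [mem_ball_zero_iff]
      linarith
    have h1 := Complex.borelCaratheodory_zero hd hF (fun w hw => by
      show (-I * g w).re ≤ d
      have := him w hw
      simpa using this) hρ ht2 (by simp [h0])
    rw [norm_mul, norm_neg, Complex.norm_I, one_mul, ht1] at h1
    have e : 2 * d * (ρ / 2) / (ρ - ρ / 2) = 2 * d := by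
      field_simp
      ring
    rwa [e] at h1
  have hd' : DiffContOnCl ℂ g (ball 0 (ρ / 2)) :=
    hg.diffContOnCl_ball (closedBall_subset_ball (by linarith))
  have hcau := Complex.norm_iteratedDeriv_le_of_forall_mem_sphere_norm_le 2 (by positivity) hd' hbd
  have e2 : iteratedDeriv 2 g 0 = deriv (deriv g) 0 := by
    rw [iteratedDeriv_succ, iteratedDeriv_one]
  rw [e2] at hcau
  have hfac : ((2 : ℕ).factorial : ℝ) * (2 * d) / (ρ / 2) ^ 2 = 16 * d / ρ ^ 2 := by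
    simp only [Nat.factorial]
    push_cast
    field_simp
    ring
  rw [hfac] at hcau
  rw [norm_div]
  have h3 : ‖(2 : ℂ)‖ = 2 := by simp
  rw [h3, div_le_iff₀ (by norm_num)]
  calc ‖deriv (deriv g) 0‖ ≤ 16 * d / ρ ^ 2 := hcau
    _ = 8 * d / ρ ^ 2 * 2 := by ring

/-- closing a bootstrap `C_*² ≤ C (1 + C_*^m)`, `m < 2`, for a family with a finite (unknown) bound. -/
theorem s8_bootstrap_close {ι : Type*} (F : ι → ℝ) (C m : ℝ) (hC : 0 ≤ C) (hm0 : 0 ≤ m) (hm : m < 2)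
    (hF : ∀ i, 0 ≤ F i) (hbd : ∃ Y, ∀ i, F i ≤ Y)
    (hstep : ∀ Y : ℝ, 1 ≤ Y → (∀ i, F i ≤ Y) → ∀ i, F i ^ 2 ≤ C * (1 + Y ^ m)) :
    ∀ i, F i ≤ max 1 ((2 * C) ^ (1 / (2 - m))) := by
  intro i₀
  have hne : Nonempty ι := ⟨i₀⟩
  obtain ⟨Y₀, hY₀⟩ := hbd
  have hbdd : BddAbove (Set.range F) := ⟨Y₀, by
    rintro _ ⟨i, rfl⟩
    exact hY₀ i⟩
  obtain ⟨S, hS⟩ : ∃ S : ℝ, S = ⨆ i, F i := ⟨_, rfl⟩
  have hle : ∀ i, F i ≤ S := fun i => by
    rw [hS]
    exact le_ciSup hbdd i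
  by_cases hS1 : S ≤ 1
  · exact ((hle i₀).trans hS1).trans (le_max_left _ _)
  rw [not_le] at hS1
  have hS0 : 0 < S := by linarith
  have h1 := hstep S hS1.le hle
  have hK : 0 ≤ C * (1 + S ^ m) := by positivity
  have h2 : S ≤ Real.sqrt (C * (1 + S ^ m)) := by
    rw [hS]
    refine ciSup_le fun i => ?_
    rw [← hS]
    exact Real.le_sqrt_of_sq_le (h1 i)
  have h3 : S ^ 2 ≤ C * (1 + S ^ m) := by
    have := pow_le_pow_left₀ hS0.le h2 2
    rwa [Real.sq_sqrt hK] at this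
  have h4 : 1 ≤ S ^ m := Real.one_le_rpow hS1.le hm0
  have h5 : S ^ 2 ≤ 2 * C * S ^ m := by nlinarith
  have hSm : 0 < S ^ m := by positivity
  have h6 : S ^ (2 - m) ≤ 2 * C := by
    rw [Real.rpow_sub hS0, div_le_iff₀ hSm]
    have e : S ^ (2 : ℝ) = S ^ 2 := by
      rw [← Real.rpow_natCast]
      norm_num
    rw [e]
    exact h5
  have h2m : 0 < 2 - m := by linarith
  have h7 : S = (S ^ (2 - m)) ^ (1 / (2 - m)) := by
    rw [← Real.rpow_mul hS0.le, mul_one_div_cancel h2m.ne', Real.rpow_one]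
  have h8 : S ≤ (2 * C) ^ (1 / (2 - m)) := by
    calc S = (S ^ (2 - m)) ^ (1 / (2 - m)) := h7
      _ ≤ (2 * C) ^ (1 / (2 - m)) :=
        Real.rpow_le_rpow (by positivity) h6 (by positivity)
  exact ((hle i₀).trans h8).trans (le_max_right _ _)

end Claimed.Agent.R269
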