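/-
Row 269, P1 Section 8: BASIC FACTS B (the first displacement coefficient `V`, `P = - Im V`; (8.4)-(8.5)).   Blueprint: helper48.
LEAF PACKAGE LF-S8-basic-b (this file; fill IN PLACE).   Black boxes: `S8/BasicA.lean`, `s8i_V_deriv` (S8/Imports.lean), `s9k_tube` (the tube is open), `Glance.le_hX` (S5/LiftWidth.lean), `s8_row_shift` (S8/LibMean.lean).

`Sh.s9V y = deriv (deriv fun t => Sh.lift (y,t)) 0 / 2`.

PROOFS.
* `s8_tube_zero`: `(y,0) ∈ T ⇔ y ∈ D` by the definition of `Glance.tube` (`conj 0 = 0`, `hX 0 = Hs`, `ofReal (Im y) < Hs ∧ ofReal (-Im y) < Hs ⇔ ofReal |Im y| < Hs`; `0 < ρ`).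
  `s8_tube_nhds`: `T` is open (`(Sh.s9k_tube).isOpen`), so `(y,t) ∈ T` for `t` near `0`.
* `s8_real_tube`: for real `x` and `|t| < ρ ≤ r₁`: `ofReal 0 = 0 < ofReal G.s ≤ hX t`, the same for `conj t` (`Glance.le_hX`, `0 < r₁ < s`).
* `s8_V_diff`: `s8i_V_deriv`.
* `s8_V_per`: `lift (y+2π,t) = lift (y,t) + 2π` for `t` near `0` (`lift_per`, `s8_tube_nhds`): `Filter.EventuallyEq.deriv` twice; the constant disappears.
* `s8_V_conj`: `lift (conj y, t) = conj (lift (y, conj t))` for `t` near `0` (`lift_conj` at `(y, conj t)`); `deriv (conj ∘ g ∘ conj) = conj ∘ deriv g ∘ conj` twice, at `0 = conj 0`.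
* `s8_V_mean`: on the real row.  Fix `0 < r < ρ`.  For real `x` the function `g_x(t) = lift (x,t) - x` is holomorphic on `ball 0 ρ` (`s8_real_tube`, `lift_diff` composed with `t ↦ (x,t)`), and
  `V x = g_x''(0)/2 = (2πi)⁻¹ ∮_{|t|=r} g_x(t) t⁻³ dt` (Cauchy formula for derivatives: `Complex.two_pi_I_inv_smul_circleIntegral_sub_pow... ` / `DifferentiableOn.hasFPowerSeriesOnBall` + `cauchyPowerSeries` coefficient `n = 2`).
  `(x,θ) ↦ g_x(r e^{iθ})` is continuous on `[0,2π]²` (`lift` is continuous on the open tube): Fubini (`intervalIntegral_integral_swap`/`MeasureTheory.integral_integral_swap`), and `∫_0^{2π} g_x(t) dx = 0` by `lift_mean`.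
  Other rows: `s8_row_shift` (between `0` and `h`, or `h` and `0`) with `s8_V_diff`, `s8_V_per`.
* `P` : real/imaginary parts.  `s8_P_real`: `V (conj x) = conj (V x)` for real `x`.
-/
import Claimed.Agent.R269.S8.Imports
import Claimed.Agent.R269.S8.BasicA
import Claimed.Agent.R269.S8.LibMean
import Claimed.Agent.R269.S8.LibDisk
import Claimed.Agent.R269.S5.LiftWidth

set_option autoImplicit false

namespace Claimed.Agent.R269

open Complex ComplexConjugate Filter Topology MeasureTheory Set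
open scoped ENNReal Real

namespace Shape

variable (Sh : Shape)

theorem s8_tube_zero (y : ℂ) : (y, (0 : ℂ)) ∈ Sh.T ↔ y ∈ Sh.D := by
  have h0 : (0 : ℂ) ∈ Metric.ball (0 : ℂ) Sh.ρ := Metric.mem_ball_self Sh.ρ_pos
  show ((0 : ℂ) ∈ Metric.ball (0 : ℂ) Sh.ρ ∧ ENNReal.ofReal y.im < Sh.G.hX 0 ∧
    ENNReal.ofReal (-y.im) < Sh.G.hX (conj (0 : ℂ))) ↔ ENNReal.ofReal |y.im| < Sh.G.hX 0
  rw [map_zero]
  constructor
  · rintro ⟨-, h1, h2⟩
    rcases abs_cases y.im with ⟨h, -⟩ | ⟨h, -⟩ <;> rw [h] <;> assumption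
  · intro h
    refine ⟨h0, lt_of_le_of_lt (ENNReal.ofReal_le_ofReal (le_abs_self _)) h,
      lt_of_le_of_lt (ENNReal.ofReal_le_ofReal (neg_le_abs _)) h⟩

theorem s8_tube_nhds (y : ℂ) (hy : y ∈ Sh.D) : ∀ᶠ t in 𝓝 (0 : ℂ), (y, t) ∈ Sh.T := by
  have h1 : (y, (0 : ℂ)) ∈ Sh.T := (Sh.s8_tube_zero y).2 hy
  have h2 : ∀ᶠ z in 𝓝 (y, (0 : ℂ)), z ∈ Sh.T := Sh.s9k_tube.isOpen.mem_nhds h1
  have h3 : Continuous fun t : ℂ => (y, t) := by fun_prop
  exact (h3.tendsto 0).eventually h2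

theorem s8_real_tube (x : ℝ) (t : ℂ) (ht : t ∈ Metric.ball (0 : ℂ) Sh.ρ) : ((x : ℂ), t) ∈ Sh.T := by
  have hs : 0 < ENNReal.ofReal Sh.G.s := ENNReal.ofReal_pos.2 (Sh.G.r₁_pos.trans Sh.G.r₁_lt)
  have h1 : t ∈ Metric.ball (0 : ℂ) Sh.G.r₁ := Metric.ball_subset_ball Sh.ρ_le ht
  have h2 : conj t ∈ Metric.ball (0 : ℂ) Sh.G.r₁ := by
    simpa [mem_ball_zero_iff] using h1
  refine ⟨ht, ?_, ?_⟩
  · show ENNReal.ofReal ((x : ℂ)).im < Sh.G.hX t
    simpa using lt_of_lt_of_le hs (Sh.G.le_hX h1)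
  · show ENNReal.ofReal (-((x : ℂ)).im) < Sh.G.hX (conj t)
    simpa using lt_of_lt_of_le hs (Sh.G.le_hX h2)

theorem s8_V_diff : DifferentiableOn ℂ Sh.s9V Sh.D := fun y hy =>
  (Sh.s8i_V_deriv y hy).differentiableAt.differentiableWithinAt

theorem s8_V_per : ∀ y ∈ Sh.D, Sh.s9V (y + 2 * π) = Sh.s9V y := by
  intro y hy
  unfold Shape.s9V
  have h1 : (fun t : ℂ => Sh.lift (y + 2 * π, t)) =ᶠ[𝓝 0] fun t => Sh.lift (y, t) + 2 * π := by
    filter_upwards [Sh.s8_tube_nhds y hy] with t ht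
    exact Sh.lift_per _ ht
  rw [h1.deriv.deriv_eq]
  have : (deriv fun t : ℂ => Sh.lift (y, t) + 2 * π) = deriv fun t : ℂ => Sh.lift (y, t) := by
    funext t; exact deriv_add_const _
  rw [this]

theorem s8_V_conj : ∀ y ∈ Sh.D, Sh.s9V (conj y) = conj (Sh.s9V y) := by
  intro y hy
  unfold Shape.s9V
  have hc : Tendsto (fun t : ℂ => conj t) (𝓝 0) (𝓝 0) := by
    have := Complex.continuous_conj.tendsto (0 : ℂ)
    simpa using this
  have h1 : (fun t : ℂ => Sh.lift (conj y, t)) =ᶠ[𝓝 0] fun t => conj (Sh.lift (y, conj t)) := by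
    filter_upwards [hc.eventually (Sh.s8_tube_nhds y hy)] with t ht
    have := Sh.lift_conj _ ht
    simpa using this
  rw [h1.deriv.deriv_eq]
  have e1 : (deriv fun t : ℂ => conj (Sh.lift (y, conj t)))
      = conj ∘ (deriv fun t : ℂ => Sh.lift (y, t)) ∘ conj :=
    deriv_conj_conj (f := fun t : ℂ => Sh.lift (y, t))
  rw [e1, deriv_conj_conj (f := deriv fun t : ℂ => Sh.lift (y, t))]
  have h2 : conj (2 : ℂ) = 2 := map_ofNat (starRingEnd ℂ) 2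
  simp [h2]

theorem s8_real_mem_D (hH : Sh.H ≠ ⊤) (x : ℝ) : (x : ℂ) ∈ Sh.D := by
  rw [Sh.s8_mem_D hH]; simpa using Sh.s8_Hr_pos hH

theorem s8_V_row_cont (hH : Sh.H ≠ ⊤) (h : ℝ) (hh : |h| < Sh.Hr) :
    Continuous fun x : ℝ => Sh.s9V (⟨x, h⟩ : ℂ) := by
  refine Sh.s8_V_diff.continuousOn.comp_continuous ?_ (fun x => (Sh.s8_mem_D hH _).2 hh)
  have : (fun x : ℝ => (⟨x, h⟩ : ℂ)) = fun x : ℝ => (x : ℂ) + (h : ℂ) * I := by
    funext x; apply Complex.ext <;> simp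
  rw [this]
  fun_prop

/-- Taylor remainder of the lift on the real row, uniformly in `x`. -/
theorem s8_V_taylor_real (hH : Sh.H ≠ ⊤) (x : ℝ) (t : ℂ) (ht : ‖t‖ ≤ Sh.ρ / 4) :
    ‖(Sh.lift ((x : ℂ), t) - x) - Sh.s9V (x : ℂ) * t ^ 2‖ ≤ 2 * (2 * Sh.Hr) * (‖t‖ / (Sh.ρ / 2)) ^ 4 := by
  have hHr := Sh.s8_Hr_pos hH
  have hρ := Sh.ρ_pos
  set g : ℂ → ℂ := fun t => Sh.lift ((x : ℂ), t) - x with hg
  have hgd : DifferentiableOn ℂ g (Metric.ball 0 Sh.ρ) := by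
    intro τ hτ
    have h1 : DifferentiableAt ℂ Sh.lift ((x : ℂ), τ) :=
      Sh.lift_diff.differentiableAt (Sh.s9k_tube.isOpen.mem_nhds (Sh.s8_real_tube x τ hτ))
    have h2 : DifferentiableAt ℂ (fun τ : ℂ => ((x : ℂ), τ)) τ := by fun_prop
    have h3 : DifferentiableAt ℂ (fun τ : ℂ => Sh.lift ((x : ℂ), τ)) τ := DifferentiableAt.comp τ h1 h2
    exact (h3.sub_const _).differentiableWithinAt
  have hg0 : g 0 = 0 := by simp [hg, Sh.lift_zero _ (Sh.s8_real_mem_D hH x)]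
  have hB : ∀ τ ∈ Metric.ball (0 : ℂ) (Sh.ρ / 2), ‖g τ‖ ≤ 2 * Sh.Hr := by
    intro τ hτ
    have hτn : ‖τ‖ < Sh.ρ / 2 := by simpa using hτ
    have hτb : τ ∈ Metric.ball (0 : ℂ) Sh.ρ := by rw [mem_ball_zero_iff]; linarith
    have hd : DifferentiableOn ℂ (fun τ => -I * g τ) (Metric.ball 0 Sh.ρ) := hgd.const_mul _
    have hmaps : MapsTo (fun τ => -I * g τ) (Metric.ball 0 Sh.ρ) {z | z.re ≤ Sh.Hr} := by
      intro σ hσ
      have h1 := (Sh.s8_mem_D hH _).1 (Sh.lift_mem _ (Sh.s8_real_tube x σ hσ))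
      have h2 : (-I * g σ).re = (Sh.lift ((x : ℂ), σ)).im := by simp [hg]
      show (-I * g σ).re ≤ Sh.Hr
      rw [h2]; exact (abs_lt.1 h1).2.le
    have := Complex.borelCaratheodory_zero hHr hd hmaps hρ hτb (by simp [hg0])
    have hn : ‖-I * g τ‖ = ‖g τ‖ := by simp
    rw [hn] at this
    refine this.trans ?_
    rw [div_le_iff₀ (by linarith)]
    nlinarith [norm_nonneg τ]
  have hev : ∀ᶠ τ in 𝓝 (0 : ℂ), g (-τ) = g τ := by
    filter_upwards [Metric.ball_mem_nhds (0 : ℂ) hρ] with τ hτ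
    simp only [hg]
    have := Sh.lift_even _ (Sh.s8_real_tube x τ hτ)
    simp only at this
    rw [this]
  have hV : deriv (deriv g) 0 / 2 = Sh.s9V (x : ℂ) := by
    unfold Shape.s9V
    have : deriv g = deriv fun τ : ℂ => Sh.lift ((x : ℂ), τ) := by
      funext τ; exact deriv_sub_const _
    rw [this]
  have := s8_taylor4 g (Sh.ρ / 2) (2 * Sh.Hr) (by positivity)
    (hgd.mono (Metric.ball_subset_ball (by linarith))) hB hg0 hev t (by linarith)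
  rw [hV] at this
  exact this

theorem s8_V_mean_real (hH : Sh.H ≠ ⊤) : ∫ x in (0 : ℝ)..(2 * π), Sh.s9V (x : ℂ) = 0 := by
  have hHr := Sh.s8_Hr_pos hH
  have hρ := Sh.ρ_pos
  set I₀ : ℂ := ∫ x in (0 : ℝ)..(2 * π), Sh.s9V (x : ℂ) with hI₀
  have hVc : Continuous fun x : ℝ => Sh.s9V (x : ℂ) :=
    Sh.s8_V_diff.continuousOn.comp_continuous Complex.continuous_ofReal (Sh.s8_real_mem_D hH)
  set K : ℝ := 2 * π * (2 * (2 * Sh.Hr)) / (Sh.ρ / 2) ^ 4 with hK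
  have key : ∀ τ : ℝ, 0 < τ → τ ≤ Sh.ρ / 4 → ‖I₀‖ ≤ K * τ ^ 2 := by
    intro τ hτ hτ'
    have htb : (τ : ℂ) ∈ Metric.ball (0 : ℂ) Sh.ρ := by
      rw [mem_ball_zero_iff, Complex.norm_real, Real.norm_eq_abs, abs_of_pos hτ]; linarith
    have hn : ‖(τ : ℂ)‖ = τ := by rw [Complex.norm_real, Real.norm_eq_abs, abs_of_pos hτ]
    have hgc : Continuous fun x : ℝ => Sh.lift ((x : ℂ), (τ : ℂ)) - x := by
      have h1 : Continuous fun x : ℝ => Sh.lift ((x : ℂ), (τ : ℂ)) :=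
        Sh.lift_diff.continuousOn.comp_continuous (by fun_prop) (fun x => Sh.s8_real_tube x _ htb)
      exact h1.sub Complex.continuous_ofReal
    have hmean := Sh.lift_mean (τ : ℂ) htb
    have e1 : I₀ * (τ : ℂ) ^ 2
        = -∫ x in (0 : ℝ)..(2 * π), ((Sh.lift ((x : ℂ), (τ : ℂ)) - x) - Sh.s9V (x : ℂ) * (τ : ℂ) ^ 2) := by
      have hVc2 : Continuous fun x : ℝ => Sh.s9V (x : ℂ) * (τ : ℂ) ^ 2 := hVc.mul continuous_const
      rw [intervalIntegral.integral_sub (hgc.intervalIntegrable _ _) (hVc2.intervalIntegrable _ _), hmean,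
        intervalIntegral.integral_mul_const, hI₀]
      ring
    have h2 : ‖∫ x in (0 : ℝ)..(2 * π), ((Sh.lift ((x : ℂ), (τ : ℂ)) - x) - Sh.s9V (x : ℂ) * (τ : ℂ) ^ 2)‖
        ≤ 2 * (2 * Sh.Hr) * (τ / (Sh.ρ / 2)) ^ 4 * |2 * π - 0| := by
      apply intervalIntegral.norm_integral_le_of_norm_le_const
      intro x _
      have := Sh.s8_V_taylor_real hH x (τ : ℂ) (by rw [hn]; exact hτ')
      rwa [hn] at this
    have h3 : ‖I₀‖ * τ ^ 2 = ‖I₀ * (τ : ℂ) ^ 2‖ := by rw [norm_mul, norm_pow, hn]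
    rw [e1, norm_neg] at h3
    rw [sub_zero, abs_of_pos (by positivity)] at h2
    have h4 : ‖I₀‖ * τ ^ 2 ≤ (K * τ ^ 2) * τ ^ 2 := by
      rw [h3]; refine h2.trans (le_of_eq ?_)
      rw [hK]; field_simp
    exact le_of_mul_le_mul_right h4 (by positivity)
  have hlim : Tendsto (fun τ : ℝ => K * τ ^ 2) (𝓝[>] 0) (𝓝 0) := by
    have : Tendsto (fun τ : ℝ => K * τ ^ 2) (𝓝 0) (𝓝 (K * 0 ^ 2)) :=
      (Continuous.tendsto (by fun_prop) 0)
    simp only [ne_eq, OfNat.ofNat_ne_zero, not_false_eq_true, zero_pow, mul_zero] at this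
    exact this.mono_left nhdsWithin_le_nhds
  have hle : ‖I₀‖ ≤ 0 := by
    apply ge_of_tendsto hlim
    have h5 : ∀ᶠ τ : ℝ in 𝓝[>] 0, τ ∈ Ioc (0 : ℝ) (Sh.ρ / 4) := Ioc_mem_nhdsGT (by positivity)
    filter_upwards [h5] with τ hτ
    exact key τ hτ.1 hτ.2
  exact norm_le_zero_iff.1 hle

theorem s8_row_shift_aux (hH : Sh.H ≠ ⊤) (h₁ h₂ : ℝ) (h12 : h₁ ≤ h₂) (ha : -Sh.Hr < h₁) (hb : h₂ < Sh.Hr) :
    ∫ x in (0 : ℝ)..(2 * π), Sh.s9V ⟨x, h₁⟩ = ∫ x in (0 : ℝ)..(2 * π), Sh.s9V ⟨x, h₂⟩ := by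
  have hD : ∀ z : ℂ, h₁ ≤ z.im → z.im ≤ h₂ → z ∈ Sh.D := by
    intro z h1 h2
    rw [Sh.s8_mem_D hH, abs_lt]; constructor <;> linarith
  exact s8_row_shift Sh.s9V h₁ h₂ h12
    (fun z h1 h2 => (Sh.s8i_V_deriv z (hD z h1 h2)).differentiableAt)
    (fun z h1 h2 => Sh.s8_V_per z (hD z h1 h2))

/-- the horizontal mean of `V` vanishes on every row. -/
theorem s8_V_mean (hH : Sh.H ≠ ⊤) (h : ℝ) (hh : |h| < Sh.Hr) :
    ∫ x in (0 : ℝ)..(2 * π), Sh.s9V ⟨x, h⟩ = 0 := by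
  have h0 : ∫ x in (0 : ℝ)..(2 * π), Sh.s9V ⟨x, 0⟩ = 0 := by
    have : (fun x : ℝ => Sh.s9V ⟨x, 0⟩) = fun x : ℝ => Sh.s9V (x : ℂ) := by
      funext x; congr 1
    rw [this]; exact Sh.s8_V_mean_real hH
  obtain ⟨hh1, hh2⟩ := abs_lt.1 hh
  rcases le_total 0 h with hs | hs
  · rw [← Sh.s8_row_shift_aux hH 0 h hs (by linarith [Sh.s8_Hr_pos hH]) hh2]; exact h0
  · rw [Sh.s8_row_shift_aux hH h 0 hs hh1 (Sh.s8_Hr_pos hH)]; exact h0

theorem s8_P_cont : ContinuousOn Sh.s9P Sh.D := by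
  have : Sh.s9P = fun y => -(Sh.s9V y).im := rfl
  rw [this]
  exact (Complex.continuous_im.comp_continuousOn Sh.s8_V_diff.continuousOn).neg

theorem s8_P_per : ∀ y ∈ Sh.D, Sh.s9P (y + 2 * π) = Sh.s9P y := by
  intro y hy
  unfold Shape.s9P
  rw [Sh.s8_V_per y hy]

theorem s8_P_real (hH : Sh.H ≠ ⊤) (x : ℝ) : Sh.s9P (x : ℂ) = 0 := by
  unfold Shape.s9P
  have h := Sh.s8_V_conj (x : ℂ) (Sh.s8_real_mem_D hH x)
  rw [Complex.conj_ofReal] at h
  rw [Complex.conj_eq_iff_im.1 h.symm, neg_zero]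

/-- the horizontal mean of `P` vanishes on every row. -/
theorem s8_P_mean (hH : Sh.H ≠ ⊤) (h : ℝ) (hh : |h| < Sh.Hr) :
    ∫ x in (0 : ℝ)..(2 * π), Sh.s9P ⟨x, h⟩ = 0 := by
  have h1 := Complex.imCLM.intervalIntegral_comp_comm
    ((Sh.s8_V_row_cont hH h hh).intervalIntegrable (μ := volume) 0 (2 * π))
  rw [Sh.s8_V_mean hH h hh] at h1
  have h2 : (fun x : ℝ => Sh.s9P ⟨x, h⟩) = fun x : ℝ => -(Complex.imCLM (Sh.s9V ⟨x, h⟩)) := rfl
  rw [h2, intervalIntegral.integral_neg, h1]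
  simp

theorem s8_row_dep (hH : Sh.H ≠ ⊤) (j : ℝ) (hj : Sh.s9k0 ≤ j) : |Sh.Hr - Real.exp (-j)| < Sh.Hr := by
  have h1 := (Sh.s8_k0 hH).2
  have h2 : Real.exp (-j) ≤ Real.exp (-Sh.s9k0) := Real.exp_le_exp.2 (by linarith)
  have h3 := Real.exp_pos (-j)
  have h4 := Sh.s8_Hr_pos hH
  rw [abs_lt]; constructor <;> linarith

theorem s8_P_row_cont (hH : Sh.H ≠ ⊤) (h : ℝ) (hh : |h| < Sh.Hr) :
    Continuous fun x : ℝ => Sh.s9P (⟨x, h⟩ : ℂ) :=
  (Complex.continuous_im.comp (Sh.s8_V_row_cont hH h hh)).neg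

/-- zero mean in `lintegral` form: `E P⁺ = E P⁻` on the row of depth `e^{-j}`. -/
theorem s8_Pp_eq_Pm (hH : Sh.H ≠ ⊤) (j : ℝ) (hj : Sh.s9k0 ≤ j) : Sh.s8Pp s8nu0 j = Sh.s8Pm s8nu0 j := by
  have hh := Sh.s8_row_dep hH j hj
  set u : ℝ → ℝ := fun x => Real.exp (-j) * Sh.s9P (Sh.s8pt x (Real.exp (-j))) with hu
  have huc : Continuous u := continuous_const.mul (Sh.s8_P_row_cont hH _ hh)
  have hpi : (0 : ℝ) ≤ 2 * π := by positivity
  have hint : IntegrableOn u (Ico 0 (2 * π)) := by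
    have := huc.integrableOn_Icc (a := (0 : ℝ)) (b := 2 * π) (μ := volume)
    exact this.mono_set Ico_subset_Icc_self
  have hzero : ∫ x in Ico (0 : ℝ) (2 * π), u x = 0 := by
    rw [integral_Ico_eq_integral_Ioc, ← intervalIntegral.integral_of_le hpi]
    simp only [hu]
    rw [intervalIntegral.integral_const_mul]
    have := Sh.s8_P_mean hH _ hh
    simp only [Shape.s8pt]
    rw [this, mul_zero]
  have hsplit := integral_eq_lintegral_pos_part_sub_lintegral_neg_part hint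
  rw [hzero] at hsplit
  have hf1 : ∫⁻ x in Ico (0 : ℝ) (2 * π), ENNReal.ofReal (u x) ≠ ⊤ := by
    have := hint.lintegral_lt_top
    exact this.ne
  have hf2 : ∫⁻ x in Ico (0 : ℝ) (2 * π), ENNReal.ofReal (-u x) ≠ ⊤ := by
    have := hint.neg.lintegral_lt_top
    exact this.ne
  have heq : ∫⁻ x in Ico (0 : ℝ) (2 * π), ENNReal.ofReal (u x)
      = ∫⁻ x in Ico (0 : ℝ) (2 * π), ENNReal.ofReal (-u x) := by
    rw [← ENNReal.toReal_eq_toReal_iff' hf1 hf2]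
    linarith
  unfold Shape.s8Pp Shape.s8Pm s8nu0
  rw [lintegral_smul_measure, lintegral_smul_measure]
  congr 1
  have e2 : (fun x => ENNReal.ofReal (Real.exp (-j) * -Sh.s9P (Sh.s8pt x (Real.exp (-j)))))
      = fun x => ENNReal.ofReal (-u x) := by
    funext x; simp only [hu]; congr 1; ring
  rw [e2]
  exact heq

/-- `|P| = P⁺ + P⁻` for any measure. -/
theorem s8_P1_eq (hH : Sh.H ≠ ⊤) (ν : Measure ℝ) (j : ℝ) (hj : Sh.s9k0 ≤ j) :
    Sh.s8P1 ν j = Sh.s8Pp ν j + Sh.s8Pm ν j := by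
  have hh := Sh.s8_row_dep hH j hj
  set u : ℝ → ℝ := fun x => Real.exp (-j) * Sh.s9P (Sh.s8pt x (Real.exp (-j))) with hu
  have huc : Continuous u := continuous_const.mul (Sh.s8_P_row_cont hH _ hh)
  unfold Shape.s8P1 Shape.s8Pp Shape.s8Pm
  have hm : Measurable fun x => ENNReal.ofReal (Real.exp (-j) * Sh.s9P (Sh.s8pt x (Real.exp (-j)))) :=
    ENNReal.measurable_ofReal.comp huc.measurable
  rw [← lintegral_add_left hm]
  apply lintegral_congr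
  intro x
  have he := Real.exp_pos (-j)
  rcases le_total 0 (Sh.s9P (Sh.s8pt x (Real.exp (-j)))) with h | h
  · rw [abs_of_nonneg h, ENNReal.ofReal_of_nonpos (p := Real.exp (-j) * -_) (by
      have : 0 ≤ Real.exp (-j) * Sh.s9P (Sh.s8pt x (Real.exp (-j))) := by positivity
      linarith), add_zero]
  · rw [abs_of_nonpos h, ENNReal.ofReal_of_nonpos (p := Real.exp (-j) * Sh.s9P _) (by
      exact mul_nonpos_of_nonneg_of_nonpos he.le h), zero_add]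

end Shape

end Claimed.Agent.R269
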