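/-
Row 269, P1 Section 8: the width deficit `Δ(t) = H - h_X(t)` is a bounded nonnegative subharmonic function (text after (8.5)).   Blueprint: helper48.
LEAF PACKAGE LF-S8-lift-a (this file; fill IN PLACE).   Uses only fields of `Shape` (`hX_le`, `lsc_X`, `supermean_X`), `S8/BasicA.lean`, `Glance.le_hX` (S5/LiftWidth.lean).

`Sh.Δ t = Sh.Hr - (Sh.G.hX t).toReal`, `Sh.Hr = Sh.G.Hs.toReal`, `Sh.G.Hs = Sh.G.hX 0`, `Sh.H = Sh.G.Hs`.

PROOFS.  For `t ∈ ball 0 ρ`: `hX t ≤ Hs < ⊤` (`hX_le`, `hH`), so `toReal` is monotone there: `0 ≤ Δ t`.  `Δ t ≤ Hr` since `toReal ≥ 0`.  `Δ 0 = 0` by definition.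
* `s8_Δ_lt_iff`: `Δ t < d ⇔ Hr - d < (hX t).toReal ⇔ ofReal (Hr - d) < hX t` (`ENNReal.ofReal_lt_iff_lt_toReal` if `0 ≤ Hr - d`; if `Hr - d < 0` both sides are true: `0 < ofReal G.s ≤ hX t`, `ρ ≤ r₁`).
* `s8_Δ_usc`: `hX` is lower semicontinuous on the ball with values in `[0,Hs]`, `Hs < ⊤`: for `c < (hX t₀).toReal` one has `ofReal c < hX t₀`, so `ofReal c < hX t` near `t₀` in the ball, so `c < (hX t).toReal`.
* `s8_Δ_submean`: `θ ↦ hX (t₀ + r e^{iθ})` is lower semicontinuous on `ℝ` (composition with a continuous map into the ball), hence measurable; it is bounded by `Hs < ⊤`; so `θ ↦ (hX ..).toReal` is measurable and bounded, hence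
  interval integrable, and `∫_0^{2π} (hX ..).toReal = (∫⁻_{Ioc 0 2π} hX ..).toReal ≤ 2π (hX t₀).toReal` (`integral_toReal`, `supermean_X`).  Subtract from `2π Hr`.
-/
import Claimed.Agent.R269.S8.BasicA
import Claimed.Agent.R269.S5.LiftWidth

set_option autoImplicit false

namespace Claimed.Agent.R269

open Complex ComplexConjugate Filter Topology MeasureTheory Set Metric
open scoped ENNReal Real

namespace Shape

variable (Sh : Shape)

theorem s8_hX_ne_top (hH : Sh.H ≠ ⊤) (t : ℂ) (ht : t ∈ ball (0 : ℂ) Sh.ρ) : Sh.G.hX t ≠ ⊤ :=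
  ne_top_of_le_ne_top hH (Sh.hX_le t ht)

theorem s8_Δ_nonneg (hH : Sh.H ≠ ⊤) (t : ℂ) (ht : t ∈ ball (0 : ℂ) Sh.ρ) : 0 ≤ Sh.Δ t := by
  unfold Shape.Δ Shape.Hr
  have : (Sh.G.hX t).toReal ≤ Sh.G.Hs.toReal := ENNReal.toReal_mono hH (Sh.hX_le t ht)
  linarith

theorem s8_Δ_le (t : ℂ) : Sh.Δ t ≤ Sh.Hr := by
  unfold Shape.Δ
  have : 0 ≤ (Sh.G.hX t).toReal := ENNReal.toReal_nonneg
  linarith

theorem s8_Δ_zero : Sh.Δ 0 = 0 := by
  unfold Shape.Δ Shape.Hr Glance.Hs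
  ring

theorem s8_Δ_lt_iff (hH : Sh.H ≠ ⊤) (t : ℂ) (ht : t ∈ ball (0 : ℂ) Sh.ρ) (d : ℝ) :
    Sh.Δ t < d ↔ ENNReal.ofReal (Sh.Hr - d) < Sh.G.hX t := by
  have hfin := Sh.s8_hX_ne_top hH t ht
  have hpos : 0 < Sh.G.hX t := by
    have h1 : t ∈ ball (0 : ℂ) Sh.G.r₁ := ball_subset_ball Sh.ρ_le ht
    exact lt_of_lt_of_le (ENNReal.ofReal_pos.2 (Sh.G.r₁_pos.trans Sh.G.r₁_lt)) (Sh.G.le_hX h1)
  unfold Shape.Δ
  rcases le_or_gt 0 (Sh.Hr - d) with h | h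
  · rw [ENNReal.ofReal_lt_iff_lt_toReal h hfin]
    constructor <;> intro h' <;> linarith
  · rw [ENNReal.ofReal_of_nonpos h.le]
    have : 0 ≤ (Sh.G.hX t).toReal := ENNReal.toReal_nonneg
    constructor
    · intro _; exact hpos
    · intro _; linarith

theorem s8_Δ_usc (hH : Sh.H ≠ ⊤) : UpperSemicontinuousOn Sh.Δ (ball (0 : ℂ) Sh.ρ) := by
  intro t₀ ht₀ c hc
  have h1 : ENNReal.ofReal (Sh.Hr - c) < Sh.G.hX t₀ := (Sh.s8_Δ_lt_iff hH t₀ ht₀ c).1 hc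
  have h2 := Sh.lsc_X t₀ ht₀ _ h1
  filter_upwards [h2, self_mem_nhdsWithin] with t h3 h4
  exact (Sh.s8_Δ_lt_iff hH t h4 c).2 h3

theorem s8_Δ_submean (hH : Sh.H ≠ ⊤) (t₀ : ℂ) (r : ℝ) (hr : 0 < r)
    (hsub : closedBall t₀ r ⊆ ball (0 : ℂ) Sh.ρ) :
    IntervalIntegrable (fun θ : ℝ => Sh.Δ (t₀ + r * Complex.exp (θ * I))) volume 0 (2 * π) ∧
      2 * π * Sh.Δ t₀ ≤ ∫ θ in (0 : ℝ)..(2 * π), Sh.Δ (t₀ + r * Complex.exp (θ * I)) := by
  set γ : ℝ → ℂ := fun θ => t₀ + r * Complex.exp (θ * I) with hγ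
  have hγc : Continuous γ := by fun_prop
  have hγm : ∀ θ, γ θ ∈ ball (0 : ℂ) Sh.ρ := by
    intro θ
    apply hsub
    rw [mem_closedBall, dist_eq_norm]
    simp only [hγ, add_sub_cancel_left, norm_mul, Complex.norm_real, Real.norm_eq_abs,
      Complex.norm_exp_ofReal_mul_I, mul_one, abs_of_pos hr, le_refl]
  have hlsc : LowerSemicontinuous fun θ => Sh.G.hX (γ θ) := by
    intro θ c hc
    have h2 := Sh.lsc_X (γ θ) (hγm θ) c hc
    rw [isOpen_ball.nhdsWithin_eq (hγm θ)] at h2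
    exact (hγc.tendsto θ).eventually h2
  have hmeas : Measurable fun θ => Sh.G.hX (γ θ) := hlsc.measurable
  have hmeasR : Measurable fun θ => (Sh.G.hX (γ θ)).toReal := hmeas.ennreal_toReal
  have hpi : (0 : ℝ) ≤ 2 * π := by positivity
  have hbd : ∀ θ, ‖(Sh.G.hX (γ θ)).toReal‖ ≤ Sh.Hr := by
    intro θ
    rw [Real.norm_eq_abs, abs_of_nonneg ENNReal.toReal_nonneg]
    exact ENNReal.toReal_mono hH (Sh.hX_le _ (hγm θ))
  have hint : IntervalIntegrable (fun θ => (Sh.G.hX (γ θ)).toReal) volume 0 (2 * π) := by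
    rw [intervalIntegrable_iff_integrableOn_Ioc_of_le hpi]
    refine Measure.integrableOn_of_bounded (M := Sh.Hr) (by rw [Real.volume_Ioc]; exact ENNReal.ofReal_ne_top) hmeasR.aestronglyMeasurable ?_
    exact Filter.Eventually.of_forall hbd
  have hΔ : (fun θ : ℝ => Sh.Δ (γ θ)) = fun θ => Sh.Hr - (Sh.G.hX (γ θ)).toReal := rfl
  refine ⟨?_, ?_⟩
  · show IntervalIntegrable (fun θ : ℝ => Sh.Δ (γ θ)) volume 0 (2 * π)
    rw [hΔ]
    exact intervalIntegrable_const.sub hint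
  · show 2 * π * Sh.Δ t₀ ≤ ∫ θ in (0 : ℝ)..(2 * π), Sh.Δ (γ θ)
    rw [hΔ, intervalIntegral.integral_sub intervalIntegrable_const hint]
    have h1 : ∫ θ in (0 : ℝ)..(2 * π), (Sh.G.hX (γ θ)).toReal
        = (∫⁻ θ in Ioc (0 : ℝ) (2 * π), Sh.G.hX (γ θ)).toReal := by
      rw [intervalIntegral.integral_of_le hpi]
      apply integral_toReal hmeas.aemeasurable
      exact Filter.Eventually.of_forall fun θ => (Sh.s8_hX_ne_top hH _ (hγm θ)).lt_top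
    have ht₀ : t₀ ∈ ball (0 : ℂ) Sh.ρ := hsub (mem_closedBall_self hr.le)
    have h2 := Sh.supermean_X t₀ r hr hsub
    have h3 : (∫⁻ θ in Ioc (0 : ℝ) (2 * π), Sh.G.hX (γ θ)).toReal ≤ 2 * π * (Sh.G.hX t₀).toReal := by
      have h4 := ENNReal.toReal_mono (ENNReal.mul_ne_top ENNReal.ofReal_ne_top (Sh.s8_hX_ne_top hH _ ht₀)) h2
      rw [ENNReal.toReal_mul, ENNReal.toReal_ofReal hpi] at h4
      exact h4
    rw [h1]
    simp only [intervalIntegral.integral_const, sub_zero, smul_eq_mul]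
    unfold Shape.Δ
    linarith

end Shape

end Claimed.Agent.R269
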