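/-
Row 269, P1 Section 8: (8.6) the lower bound of the lift, and the Carathéodory bound of `V` used for (8.18).   Blueprint: helper48.
LEAF PACKAGE LF-S8-lift-b (this file; fill IN PLACE).   Black boxes: `S8/BasicA.lean`, `S8/BasicB.lean`, `S8/LiftA.lean`, `s8_coeff2_le` (S8/LibDisk.lean).

PROOFS.
* `s8_lower_lift` (8.6).  Fix the real `t`, put `h_t = (hX t).toReal ≤ Hr`, so `Δ t = Hr - h_t`.  The slice `{y : (y,t) ∈ T} = {-h_t < Im y < h_t}` (`conj t = t`) is open and `y ↦ lift (y,t)` is holomorphic on it.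
  If `Im y = 0`: `lift (y,t)` is real (`lift_conj` with `conj y = y`, `conj t = t`), so the left side is `0 ≥ -Δ t`.  Otherwise let `0 < η < h_t - Im y` and
  `g(w) = exp (-i (lift (w,t) - w))`, whose norm is `exp (Im (lift (w,t) - w))` (`‖exp z‖ = exp (Re z)`, `Re (-i ζ) = Im ζ`).
  On the closed strip `0 ≤ Im w ≤ h_t - η`: `g` is holomorphic in a neighbourhood, `‖g‖ ≤ e^{Hr}` (`lift_mem`: `|Im lift| < Hr`, `Im w ≥ 0`), `‖g‖ = 1` on the real row, `‖g‖ ≤ exp (Hr - h_t + η)` on the top row.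
  `PhragmenLindelof.horizontal_strip` (bounded functions satisfy its growth hypothesis): `‖g‖ ≤ exp (Δ t + η)` in the strip, i.e. `Im (lift (y,t) - y) ≤ Δ t + η`.  Let `η → 0`.
* `s8_V_bound`.  `y = s8pt x d`, `0 < d < Hr`.  For `t ∈ ball 0 ρ'`: `(y,t) ∈ T`: `ofReal (Im y) = ofReal (Hr - d) < hX t` by `s8_Δ_lt_iff`, and `ofReal (-Im y) = 0 < hX (conj t)` (`Glance.le_hX`).
  `g(t) = lift (y,t) - y` is holomorphic on `ball 0 ρ'`, `g 0 = 0` (`lift_zero`), `Im g < Hr - Im y = d` (`lift_mem`).  `s8_coeff2_le`; `deriv (deriv g) 0 = deriv (deriv fun t => lift (y,t)) 0` (`deriv_sub_const`).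
-/
import Claimed.Agent.R269.S8.BasicB
import Claimed.Agent.R269.S8.LiftA
import Claimed.Agent.R269.S8.LibDisk

set_option autoImplicit false

namespace Claimed.Agent.R269

open Complex ComplexConjugate Filter Topology MeasureTheory Set Metric
open scoped ENNReal Real

namespace Shape

variable (Sh : Shape)

/-- **(8.6)**: for real `t` and `0 ≤ Im y < h_X(t)`: `Im (y - 𝔰(y,t)) ≥ -Δ(t)`. -/
theorem s8_lower_lift (hH : Sh.H ≠ ⊤) (t : ℝ) (ht : |t| < Sh.ρ) (y : ℂ) (hy0 : 0 ≤ y.im)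
    (hy : ENNReal.ofReal y.im < Sh.G.hX (t : ℂ)) :
    -Sh.Δ (t : ℂ) ≤ (y - Sh.lift (y, (t : ℂ))).im := by
  have htb : (t : ℂ) ∈ ball (0 : ℂ) Sh.ρ := by
    rw [mem_ball_zero_iff, Complex.norm_real, Real.norm_eq_abs]; exact ht
  have hconj : conj (t : ℂ) = (t : ℂ) := Complex.conj_ofReal t
  have hfin : Sh.G.hX (t : ℂ) ≠ ⊤ := ne_top_of_le_ne_top hH (Sh.hX_le _ htb)
  set h_t : ℝ := (Sh.G.hX (t : ℂ)).toReal with hh_t
  have hXeq : Sh.G.hX (t : ℂ) = ENNReal.ofReal h_t := (ENNReal.ofReal_toReal hfin).symm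
  have hΔ : Sh.Δ (t : ℂ) = Sh.Hr - h_t := rfl
  have hΔ0 : 0 ≤ Sh.Δ (t : ℂ) := Sh.s8_Δ_nonneg hH _ htb
  have hyh : y.im < h_t := by
    rw [hXeq] at hy
    exact (ENNReal.ofReal_lt_ofReal_iff_of_nonneg hy0).1 hy
  have hht : 0 < h_t := lt_of_le_of_lt hy0 hyh
  have hT : ∀ w : ℂ, 0 ≤ w.im → w.im < h_t → (w, (t : ℂ)) ∈ Sh.T := by
    intro w h0 h1
    refine ⟨htb, ?_, ?_⟩
    · show ENNReal.ofReal w.im < Sh.G.hX (t : ℂ)
      rw [hXeq]; exact (ENNReal.ofReal_lt_ofReal_iff hht).2 h1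
    · show ENNReal.ofReal (-w.im) < Sh.G.hX (conj (t : ℂ))
      rw [hconj, hXeq, ENNReal.ofReal_of_nonpos (by linarith)]
      exact ENNReal.ofReal_pos.2 hht
  have hlim : ∀ w : ℂ, (w, (t : ℂ)) ∈ Sh.T → (Sh.lift (w, (t : ℂ))).im < Sh.Hr := by
    intro w hw
    have := (Sh.s8_mem_D hH _).1 (Sh.lift_mem _ hw)
    exact (abs_lt.1 this).2
  by_contra hcon
  push Not at hcon
  set X : ℝ := (y - Sh.lift (y, (t : ℂ))).im with hX
  set η : ℝ := min ((-Sh.Δ (t : ℂ) - X) / 2) ((h_t - y.im) / 2) with hη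
  have hη0 : 0 < η := lt_min (by linarith) (by linarith)
  have hη1 : η ≤ (-Sh.Δ (t : ℂ) - X) / 2 := min_le_left _ _
  have hη2 : η ≤ (h_t - y.im) / 2 := min_le_right _ _
  set b : ℝ := h_t - η with hb
  have hb0 : 0 < b := by rw [hb]; linarith
  have hbh : b < h_t := by rw [hb]; linarith
  set g : ℂ → ℂ := fun w => Complex.exp (-I * (Sh.lift (w, (t : ℂ)) - w)) with hg
  have hgn : ∀ w, ‖g w‖ = Real.exp ((Sh.lift (w, (t : ℂ))).im - w.im) := by
    intro w
    simp only [hg, Complex.norm_exp]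
    congr 1
    simp
  have hdiff : DiffContOnCl ℂ g (im ⁻¹' Ioo 0 b) := by
    apply DifferentiableOn.diffContOnCl
    rw [Complex.closure_preimage_im, closure_Ioo hb0.ne]
    intro w hw
    have hwT : (w, (t : ℂ)) ∈ Sh.T := hT w hw.1 (lt_of_le_of_lt hw.2 hbh)
    have h1 : DifferentiableAt ℂ Sh.lift (w, (t : ℂ)) :=
      Sh.lift_diff.differentiableAt (Sh.s9k_tube.isOpen.mem_nhds hwT)
    have h2 : DifferentiableAt ℂ (fun w : ℂ => (w, (t : ℂ))) w := by fun_prop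
    have h3 : DifferentiableAt ℂ (fun w : ℂ => Sh.lift (w, (t : ℂ))) w :=
      DifferentiableAt.comp w h1 h2
    have h4 : DifferentiableAt ℂ g w := by
      simp only [hg]
      exact ((h3.sub differentiableAt_id).const_mul _).cexp
    exact h4.differentiableWithinAt
  have hmain : ‖g y‖ ≤ Real.exp (Sh.Δ (t : ℂ) + η) := by
    apply PhragmenLindelof.horizontal_strip hdiff
    · refine ⟨0, by positivity, Sh.Hr, ?_⟩
      apply Asymptotics.IsBigO.of_bound 1
      rw [eventually_inf_principal]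
      filter_upwards with w hw
      have hwT : (w, (t : ℂ)) ∈ Sh.T := hT w hw.1.le (hw.2.trans hbh)
      rw [hgn, one_mul, Real.norm_eq_abs, abs_of_pos (Real.exp_pos _)]
      apply Real.exp_le_exp.2
      have h5 := hlim w hwT
      have h6 : 0 < w.im := hw.1
      simp
      linarith
    · intro z hz
      have hzT : (z, (t : ℂ)) ∈ Sh.T := hT z hz.ge (by rw [hz]; exact hht)
      have hzc : conj z = z := Complex.conj_eq_iff_im.2 hz
      have h5 := Sh.lift_conj _ hzT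
      simp only [hconj, hzc] at h5
      have h6 : (Sh.lift (z, (t : ℂ))).im = 0 := Complex.conj_eq_iff_im.1 h5.symm
      rw [hgn, h6, hz]
      apply Real.exp_le_exp.2
      linarith
    · intro z hz
      have hzT : (z, (t : ℂ)) ∈ Sh.T := hT z (by rw [hz]; exact hb0.le) (by rw [hz]; exact hbh)
      rw [hgn, hz]
      apply Real.exp_le_exp.2
      have h5 := hlim z hzT
      rw [hΔ, hb]; linarith
    · exact hy0
    · rw [hb]; linarith
  rw [hgn] at hmain
  have h7 := Real.exp_le_exp.1 hmain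
  have h8 : X = y.im - (Sh.lift (y, (t : ℂ))).im := by simp [hX]
  linarith

/-- if `Δ < d` on the complex disc `|t| < ρ'` then `|V| ≤ 8 d/ρ'²` at depth `d`. -/
theorem s8_V_bound (hH : Sh.H ≠ ⊤) (x d ρ' : ℝ) (hd : 0 < d) (hd' : d < Sh.Hr) (hρ' : 0 < ρ')
    (hρ'ρ : ρ' ≤ Sh.ρ) (hΔ : ∀ t ∈ ball (0 : ℂ) ρ', Sh.Δ t < d) :
    ‖Sh.s9V (Sh.s8pt x d)‖ ≤ 8 * d / ρ' ^ 2 := by
  set y := Sh.s8pt x d with hy
  have hyim : y.im = Sh.Hr - d := rfl
  have hsub : ball (0 : ℂ) ρ' ⊆ ball (0 : ℂ) Sh.ρ := ball_subset_ball hρ'ρ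
  have hT : ∀ t ∈ ball (0 : ℂ) ρ', (y, t) ∈ Sh.T := by
    intro t ht
    have htb := hsub ht
    refine ⟨htb, ?_, ?_⟩
    · show ENNReal.ofReal y.im < Sh.G.hX t
      rw [hyim]; exact (Sh.s8_Δ_lt_iff hH t htb d).1 (hΔ t ht)
    · show ENNReal.ofReal (-y.im) < Sh.G.hX (conj t)
      rw [ENNReal.ofReal_of_nonpos (by rw [hyim]; linarith)]
      have hc : conj t ∈ ball (0 : ℂ) Sh.G.r₁ := by
        have : t ∈ ball (0 : ℂ) Sh.G.r₁ := ball_subset_ball Sh.ρ_le htb
        simpa [mem_ball_zero_iff] using this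
      refine lt_of_lt_of_le ?_ (Sh.G.le_hX hc)
      exact ENNReal.ofReal_pos.2 (Sh.G.r₁_pos.trans Sh.G.r₁_lt)
  set g : ℂ → ℂ := fun t => Sh.lift (y, t) - y with hg
  have hgd : DifferentiableOn ℂ g (ball 0 ρ') := by
    intro t ht
    have h1 : DifferentiableAt ℂ Sh.lift (y, t) :=
      Sh.lift_diff.differentiableAt (Sh.s9k_tube.isOpen.mem_nhds (hT t ht))
    have h2 : DifferentiableAt ℂ (fun t : ℂ => (y, t)) t := by fun_prop
    have h3 : DifferentiableAt ℂ (fun t : ℂ => Sh.lift (y, t)) t := DifferentiableAt.comp t h1 h2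
    exact (h3.sub_const y).differentiableWithinAt
  have hyD : y ∈ Sh.D := by
    rw [Sh.s8_mem_D hH, hyim, abs_lt]; constructor <;> linarith
  have hg0 : g 0 = 0 := by simp [hg, Sh.lift_zero y hyD]
  have him : ∀ t ∈ ball (0 : ℂ) ρ', (g t).im ≤ d := by
    intro t ht
    have := (Sh.s8_mem_D hH _).1 (Sh.lift_mem _ (hT t ht))
    have h2 := (abs_lt.1 this).2
    simp only [hg, Complex.sub_im, hyim]
    linarith
  have := s8_coeff2_le g ρ' d hρ' hd hgd hg0 him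
  have e : deriv (deriv g) 0 = deriv (deriv fun t : ℂ => Sh.lift (y, t)) 0 := by
    have : deriv g = deriv fun t : ℂ => Sh.lift (y, t) := by
      funext t; simp only [hg]; exact deriv_sub_const _
    rw [this]
  rw [e] at this
  exact this

end Shape

end Claimed.Agent.R269
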