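/-
Row 269, P1 Section 8: THE ONE-SIDED ESTIMATE AT ONE POINT = the only place where the cone theorem, the passages and the no-patch theorem enter Section 8
(P1 proof of Lemma 8.2: (8.13') Taylor error, (8.14), and the inequality before (8.13)).   Blueprint: helper48.
LEAF PACKAGE LF-S8-lift-c (this file; fill IN PLACE).
Black boxes: `s8i_cone`, `s8i_passage_width` (S8/Imports.lean), `s9k_max`, `s9k_eq_lift` (S9/PassageMax.lean), `s8_lower_lift` (LiftB), `s8_Δ_lt_iff` (LiftA), `s8_tube_nhds`, `s8_tube_zero` (BasicB), `s8_taylor4` (LibDisk).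

PROOF.  Let `L ε₀ d₀ δs C₀` be given by `s8i_cone hH α δb`.  Take `ε₁ = ε₀/2`, `d₁ = min (min d₀ (δs/2)) (min 1 (Hr/2))`, `C = 2 C₀ (1+ε₀)²`.
Let `x d r` be as in the statement, `d' = d/2`, `y₀ = s8pt x d` (`s9dep y₀ = d`).  Apply `s8i_cone` with `ε = ε₀`, scale `d'`, radius `r ≤ d'`, centre `x`: its hypothesis on `s9cone L x (d'/10) δb` follows from ours because
`ε₁ (d/δ)^α = (ε₀/2) 2^α (d'/δ)^α ≤ ε₀ (d'/δ)^α`... CAREFUL: `2^α/2 ≤ 1` since `α ≤ 1`.  Its conclusion at `y = y₀` (`d' < d < δs`, `|Re y₀ - x| = 0 < d`) for all complex `‖t‖ < r ≤ r (d/d')^α`: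
   (a) `(y₀,t) ∈ Rmax`,    (b) `‖Smax (y₀,t) - y₀‖ ≤ C₀ (1 + ε₀ d'^α/r)² ‖t‖² d^{1-2α} ≤ C₀ (r + ε₀ d'^α)² d^{1-2α} ≤ C₀ (1+ε₀)² d'^{2α} d^{1-2α} ≤ C₀ (1+ε₀)² d =: B`
(`r ≤ d' ≤ d'^α` because `d' ≤ 1`, `α ≤ 1`).
`Rmax, Smax` is a passage (`s9k_max`).  FIRST CLAIM: for real `|t| < r`, `s8i_passage_width` gives `ofReal (Im y₀) < hX t`, i.e. `Δ t < d` (`s8_Δ_lt_iff`; `t ∈ ball 0 ρ` by `IsPassage.param`).
SECOND CLAIM.  `g(t) = Smax (y₀,t) - y₀` is holomorphic on `ball 0 r` (`IsPassage.diff` composed with `t ↦ (y₀,t)`; `Rmax` open), `‖g‖ ≤ B`.  Near `t = 0`: `(y₀,t) ∈ T ∩ Rmax`, so `g(t) = lift (y₀,t) - y₀` (`s9k_eq_lift`);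
hence `g 0 = 0` (`lift_zero`), `g` is even near `0` (`lift_even`; `T` is invariant: use `s8_tube_nhds` for `t` and `-t`), and `deriv (deriv g) 0 / 2 = s9V y₀` (`Filter.EventuallyEq.deriv` twice).
`s8_taylor4`: `‖g t - V(y₀) t²‖ ≤ 2 B (|t|/r)⁴` for `|t| ≤ r/2`.  For real such `t`: `(y₀,t) ∈ T` (first claim; the lower condition `ofReal (-Im y₀) = 0 < hX (conj t) = hX t`), so `g t = lift (y₀,t) - y₀` and by `s8_lower_lift`
`-Δ t ≤ -Im g(t) = -t² Im V(y₀) - Im (rem) ≤ t² P(y₀) + 2 B (|t|/r)⁴`.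
-/
import Claimed.Agent.R269.S8.LiftB

set_option autoImplicit false

namespace Claimed.Agent.R269

open Complex ComplexConjugate Filter Topology MeasureTheory Set Metric
open scoped ENNReal Real

namespace Shape

variable (Sh : Shape)

/-- **One-sided estimate at one point.**  If `r M ≤ ε₁ (d/δ)^α` on the cone over `x` (from depth `d/20` to `δb`), `r ≤ d/2`, then for real `|t| < r`: `Δ(t) < d`, and for `|t| ≤ r/2`:
`- t² P(x + i(H-d)) ≤ Δ(t) + C d (|t|/r)⁴`. -/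
theorem s8_onesided_pt (hH : Sh.H ≠ ⊤) (α δb : ℝ) (hα : 1 / 2 < α) (hα' : α < 1) (hδb : 0 < δb)
    (hδb' : δb < Sh.Hr / 2) :
    ∃ L ε₁ d₁ C : ℝ, 0 < L ∧ 0 < ε₁ ∧ 0 < d₁ ∧ 0 < C ∧
      ∀ x d r : ℝ, 0 < d → d ≤ d₁ → 0 < r → r ≤ d / 2 →
        (∀ s ∈ Sh.s9cone L x (d / 20) δb, r * Sh.M s ≤ ε₁ * (d / Sh.s9dep s) ^ α) →
        ∀ t : ℝ, |t| < r → Sh.Δ (t : ℂ) < d ∧
          (|t| ≤ r / 2 → -(t ^ 2 * Sh.s9P (Sh.s8pt x d)) ≤ Sh.Δ (t : ℂ) + C * d * (|t| / r) ^ 4) := by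
  obtain ⟨L, ε₀, d₀, δs, C₀, hL, hε₀, hd₀, hδs, hC₀, hcone⟩ := Sh.s8i_cone hH α δb hα hα' hδb hδb'
  have hHr := Sh.s8_Hr_pos hH
  refine ⟨L, ε₀ / 2, min (min d₀ (δs / 2)) (min 1 (Sh.Hr / 2)), 2 * C₀ * (1 + ε₀) ^ 2, hL, by positivity,
    by positivity, by positivity, ?_⟩
  intro x d r hd hd₁ hr hrd hfield
  have hdd₀ : d ≤ d₀ := hd₁.trans ((min_le_left _ _).trans (min_le_left _ _))
  have hdδs : d ≤ δs / 2 := hd₁.trans ((min_le_left _ _).trans (min_le_right _ _))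
  have hd1 : d ≤ 1 := hd₁.trans ((min_le_right _ _).trans (min_le_left _ _))
  have hdH : d ≤ Sh.Hr / 2 := hd₁.trans ((min_le_right _ _).trans (min_le_right _ _))
  set d' : ℝ := d / 2 with hd'
  have hd'0 : 0 < d' := by positivity
  set y₀ := Sh.s8pt x d with hy₀
  have hy₀im : y₀.im = Sh.Hr - d := rfl
  have hy₀re : y₀.re = x := rfl
  have hdep : Sh.s9dep y₀ = d := by simp [Shape.s9dep, hy₀im]
  have h2α : (2 : ℝ) ^ α ≤ 2 := by
    calc (2 : ℝ) ^ α ≤ (2 : ℝ) ^ (1 : ℝ) := Real.rpow_le_rpow_of_exponent_le (by norm_num) hα'.le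
      _ = 2 := Real.rpow_one 2
  have h2α1 : 1 ≤ (2 : ℝ) ^ α := Real.one_le_rpow (by norm_num) (by linarith)
  have hkey := hcone ε₀ d' r x hε₀ le_rfl hd'0 (by rw [hd']; linarith) hr hrd (by
    intro s hs
    have hs' : s ∈ Sh.s9cone L x (d / 20) δb := by
      refine ⟨?_, hs.2.1, hs.2.2⟩
      have := hs.1; rw [hd'] at this; linarith
    have hδ : 0 < Sh.s9dep s := by
      have := hs'.1; linarith [show 0 < d / 20 by positivity]
    refine (hfield s hs').trans ?_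
    have e : d / Sh.s9dep s = 2 * (d' / Sh.s9dep s) := by rw [hd']; ring
    rw [e, Real.mul_rpow (by norm_num) (by positivity)]
    have hp : 0 ≤ (d' / Sh.s9dep s) ^ α := by positivity
    calc ε₀ / 2 * (2 ^ α * (d' / Sh.s9dep s) ^ α) ≤ ε₀ / 2 * (2 * (d' / Sh.s9dep s) ^ α) := by gcongr
      _ = ε₀ * (d' / Sh.s9dep s) ^ α := by ring)
  set B : ℝ := C₀ * (1 + ε₀) ^ 2 * d with hB
  have hB0 : 0 < B := by positivity
  have hpt : ∀ t : ℂ, ‖t‖ < r → (y₀, t) ∈ Sh.s9Rmax ∧ ‖Sh.s9Smax (y₀, t) - y₀‖ ≤ B := by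
    intro t ht
    have hdd' : d / d' = 2 := by rw [hd']; field_simp
    obtain ⟨h1, h2⟩ := hkey y₀ t (by rw [hdep, hd']; linarith) (by rw [hdep]; linarith)
      (by rw [hdep, hy₀re]; simpa using hd) (by
        rw [hdep, hdd']
        calc ‖t‖ < r := ht
          _ = r * 1 := (mul_one r).symm
          _ ≤ r * 2 ^ α := by gcongr)
    refine ⟨h1, h2.trans ?_⟩
    rw [hdep]
    have hd'α : d' ≤ d' ^ α := by
      calc d' = d' ^ (1 : ℝ) := (Real.rpow_one _).symm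
        _ ≤ d' ^ α := Real.rpow_le_rpow_of_exponent_ge hd'0 (by rw [hd']; linarith) hα'.le
    have hd'αpos : 0 < d' ^ α := by positivity
    have s1 : (1 + ε₀ / r * d' ^ α) ^ 2 * ‖t‖ ^ 2 ≤ ((1 + ε₀) * d' ^ α) ^ 2 := by
      have e1 : (1 + ε₀ / r * d' ^ α) ^ 2 * ‖t‖ ^ 2 = ((1 + ε₀ / r * d' ^ α) * ‖t‖) ^ 2 := by ring
      rw [e1]
      apply pow_le_pow_left₀ (by positivity)
      calc (1 + ε₀ / r * d' ^ α) * ‖t‖ ≤ (1 + ε₀ / r * d' ^ α) * r := by gcongr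
        _ = r + ε₀ * d' ^ α := by field_simp
        _ ≤ d' ^ α + ε₀ * d' ^ α := by linarith
        _ = (1 + ε₀) * d' ^ α := by ring
    have s2 : (d' ^ α) ^ 2 * d ^ (1 - 2 * α) ≤ d := by
      have h3 : d' ^ α ≤ d ^ α := Real.rpow_le_rpow hd'0.le (by rw [hd']; linarith) (by linarith)
      have h4 : (d ^ α) ^ 2 * d ^ (1 - 2 * α) = d := by
        rw [← Real.rpow_natCast (d ^ α) 2, ← Real.rpow_mul hd.le, ← Real.rpow_add hd]
        have : α * ((2 : ℕ) : ℝ) + (1 - 2 * α) = 1 := by push_cast; ring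
        rw [this, Real.rpow_one]
      calc (d' ^ α) ^ 2 * d ^ (1 - 2 * α) ≤ (d ^ α) ^ 2 * d ^ (1 - 2 * α) := by gcongr
        _ = d := h4
    have hdp : 0 ≤ d ^ (1 - 2 * α) := by positivity
    calc C₀ * (1 + ε₀ / r * d' ^ α) ^ 2 * ‖t‖ ^ 2 * d ^ (1 - 2 * α)
        = C₀ * ((1 + ε₀ / r * d' ^ α) ^ 2 * ‖t‖ ^ 2) * d ^ (1 - 2 * α) := by ring
      _ ≤ C₀ * (((1 + ε₀) * d' ^ α) ^ 2) * d ^ (1 - 2 * α) := by gcongr
      _ = C₀ * (1 + ε₀) ^ 2 * ((d' ^ α) ^ 2 * d ^ (1 - 2 * α)) := by ring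
      _ ≤ C₀ * (1 + ε₀) ^ 2 * d := by gcongr
  intro t ht
  have htn : ‖(t : ℂ)‖ < r := by rw [Complex.norm_real, Real.norm_eq_abs]; exact ht
  have hRt := (hpt t htn).1
  have htb : (t : ℂ) ∈ ball (0 : ℂ) Sh.ρ := Sh.s9k_max.param _ hRt
  have hw := Sh.s8i_passage_width Sh.s9k_max t y₀ hRt
  have hΔ : Sh.Δ (t : ℂ) < d := by
    rw [Sh.s8_Δ_lt_iff hH _ htb d, ← hy₀im]; exact hw
  refine ⟨hΔ, fun ht2 => ?_⟩
  -- the Taylor remainder
  have hy₀D : y₀ ∈ Sh.D := by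
    rw [Sh.s8_mem_D hH, hy₀im, abs_lt]; constructor <;> linarith
  set g : ℂ → ℂ := fun τ => Sh.s9Smax (y₀, τ) - y₀ with hg
  have hgd : DifferentiableOn ℂ g (ball 0 r) := by
    intro τ hτ
    have hτ' : ‖τ‖ < r := by simpa using hτ
    have h1 : DifferentiableAt ℂ Sh.s9Smax (y₀, τ) :=
      Sh.s9k_max.diff.differentiableAt (Sh.s9k_max.isOpen.mem_nhds (hpt τ hτ').1)
    have h2 : DifferentiableAt ℂ (fun τ : ℂ => (y₀, τ)) τ := by fun_prop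
    have h3 : DifferentiableAt ℂ (fun τ : ℂ => Sh.s9Smax (y₀, τ)) τ := DifferentiableAt.comp τ h1 h2
    exact (h3.sub_const y₀).differentiableWithinAt
  have hgB : ∀ τ ∈ ball (0 : ℂ) r, ‖g τ‖ ≤ B := fun τ hτ => (hpt τ (by simpa using hτ)).2
  have hnear : ∀ᶠ τ in 𝓝 (0 : ℂ), (y₀, τ) ∈ Sh.T := Sh.s8_tube_nhds y₀ hy₀D
  have hgl : g =ᶠ[𝓝 0] fun τ => Sh.lift (y₀, τ) - y₀ := by
    filter_upwards [hnear] with τ hτ
    simp only [hg]
    rw [← (Sh.s9k_max_spec Sh.s9k_tube).2 hτ]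
  have hg0 : g 0 = 0 := by
    rw [hgl.eq_of_nhds]; simp [Sh.lift_zero y₀ hy₀D]
  have hneg : Tendsto (fun τ : ℂ => -τ) (𝓝 0) (𝓝 0) := by
    have : Continuous fun τ : ℂ => -τ := continuous_neg
    simpa using this.tendsto 0
  have hev : ∀ᶠ τ in 𝓝 (0 : ℂ), g (-τ) = g τ := by
    filter_upwards [hgl, hneg.eventually hgl, hnear] with τ h1 h2 h3
    rw [h1, h2]
    have := Sh.lift_even _ h3
    simp only at this
    rw [this]
  have hV : deriv (deriv g) 0 / 2 = Sh.s9V y₀ := by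
    unfold Shape.s9V
    rw [hgl.deriv.deriv_eq]
    have : (deriv fun τ : ℂ => Sh.lift (y₀, τ) - y₀) = deriv fun τ : ℂ => Sh.lift (y₀, τ) := by
      funext τ; exact deriv_sub_const _
    rw [this]
  have htay := s8_taylor4 g r B hr hgd hgB hg0 hev (t : ℂ) (by
    rw [Complex.norm_real, Real.norm_eq_abs]; exact ht2)
  rw [hV, Complex.norm_real, Real.norm_eq_abs] at htay
  -- the actual lift
  have hT : (y₀, (t : ℂ)) ∈ Sh.T := by
    refine ⟨htb, hw, ?_⟩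
    show ENNReal.ofReal (-y₀.im) < Sh.G.hX (conj (t : ℂ))
    rw [Complex.conj_ofReal, ENNReal.ofReal_of_nonpos (by rw [hy₀im]; linarith)]
    exact lt_of_le_of_lt zero_le hw
  have hgt : g (t : ℂ) = Sh.lift (y₀, (t : ℂ)) - y₀ := by
    simp only [hg]
    rw [← (Sh.s9k_max_spec Sh.s9k_tube).2 hT]
  have htρ : |t| < Sh.ρ := by
    have := htb; rwa [mem_ball_zero_iff, Complex.norm_real, Real.norm_eq_abs] at this
  have hlow := Sh.s8_lower_lift hH t htρ y₀ (by rw [hy₀im]; linarith) hw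
  have him : (y₀ - Sh.lift (y₀, (t : ℂ))).im = -(g (t : ℂ)).im := by
    rw [hgt]; simp
  rw [him] at hlow
  set rem : ℂ := g (t : ℂ) - Sh.s9V y₀ * (t : ℂ) ^ 2 with hrem
  have hgim : (g (t : ℂ)).im = t ^ 2 * (Sh.s9V y₀).im + rem.im := by
    have e : g (t : ℂ) = Sh.s9V y₀ * (t : ℂ) ^ 2 + rem := by rw [hrem]; ring
    rw [e, Complex.add_im]
    congr 1
    have : ((t : ℂ) ^ 2) = ((t ^ 2 : ℝ) : ℂ) := by push_cast; ring
    rw [this, Complex.mul_im, Complex.ofReal_re, Complex.ofReal_im]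
    ring
  have hremim : |rem.im| ≤ 2 * B * (|t| / r) ^ 4 := (Complex.abs_im_le_norm _).trans htay
  have hP : Sh.s9P y₀ = -(Sh.s9V y₀).im := rfl
  rw [hP]
  have h9 := (abs_le.1 hremim).1
  have e3 : 2 * C₀ * (1 + ε₀) ^ 2 * d * (|t| / r) ^ 4 = 2 * B * (|t| / r) ^ 4 := by rw [hB]; ring
  rw [e3]
  linarith

end Shape

end Claimed.Agent.R269
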