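/-
Row 269, P1 Section 8: **Lemma 8.2 (the one-sided estimate)**: (8.14) basic width, (8.12) real deficit, (8.13) negative part of `P`.   Blueprint: helper48.
LEAF PACKAGES (fill IN PLACE):
  LF-S8-os-a : `s8_onesided_cc`
  LF-S8-os-b : `s8_basic_width`, `s8_real_deficit`
  LF-S8-os-c : `s8_neg_pt`
  LF-S8-os-d : `s8_Pm_le`, `s8_Pm_Lp`
Black boxes: `s8_onesided_pt` (LiftC.lean), `Cone.lean`, `TileA.lean`, `BasicA/B/C.lean`, `LiftA.lean`.   Pure real-variable arguments; no complex analysis here.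

Notation `d_k = e^{-k}`, `β₁ = s8b1 β = β/2 + 1/4 ∈ [1/4,1/2)`, `γ = s8gam a = 1/(1+a) ∈ (0,1]`, `m = s8m a = 4(2-γ)/(4-γ) ∈ [4/3, 2)`.

PROOFS.
* `s8_onesided_cc`.  `s8_onesided_pt hH (1-β₁) s9db` (`s8_db`: `0 < s9db < Hr/200 < Hr/2`) gives `L ε₁ d₁ C`.  Take `c = min ε₁ (1/2)`, `k₁ = max k₀ (-log d₁)`.  Given `x k R`, put `d = d_k ≤ d₁`, `r = c d/R ≤ d/2`.
  For `s` in the cone, `δ = dep s > 0`: by `s8_le_cc`, `δ M s (d/δ)^{β₁} ≤ R`, i.e. `M s ≤ (R/d) (d/δ)^{1-β₁}` (`(d/δ)^{1-β₁} = (d/δ)/(d/δ)^{β₁}`, `Real.rpow_sub`), so `r M s ≤ c (d/δ)^{1-β₁} ≤ ε₁ (d/δ)^{1-β₁}`.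
  The conclusion is that of `s8_onesided_pt` with `|t|/r = |t| R/(c d)`.
* `s8_basic_width`.  Let `L c C k₁` be as in `s8_onesided_cc` (for `β₁ = s8b1 β`), `A₁ = max L 1`, `C₃ ≥ 1` from `s8_cs_L1`.  There is `x` with `cs β₁ A₁ k x ≤ 2 C₃ N k`: otherwise `∫⁻ ofReal cs ∂s8nu0 ≥ ofReal (2 C₃ N k) > ofReal (C₃ N k)`
  (`lintegral_mono`, `lintegral_const`, probability measure).  `cc ≤ cs` (`s8_cc_le_sum`), `R = 2 C₃ N k ≥ 1`: `Δ t < d_k` for `|t| < c d_k/(2 C₃ N k)`.  New constant `c/(4 C₃)`.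
* `s8_real_deficit`.  Let `c k₁` be as in `s8_basic_width`; `z = |t| N k/d_k ≤ c`.  If `t = 0`: `Δ 0 = 0`.  Otherwise `h = γ log (c/z) ≥ 0`, `j = k + h ≥ k₁`: `N j ≤ N k e^{a h}`, so `c d_j/N j ≥ c (d_k/N k) e^{-(1+a)h} = (d_k/N k) z = |t|`;
  hence `Δ t ≤ d_j = d_k e^{-h} = d_k (z/c)^γ`.
* `s8_neg_pt`.  Constants: `L c₁ C₁' k₁'` from `s8_onesided_cc`, `c k₁''` from `s8_real_deficit`.  Let `Nk = N k ≥ 1`, `b = 1 + R/Nk ≥ 1` (w.l.o.g. `R ≥ 0` since `cc ≥ 0`), `R' = Nk b = Nk + R ≥ max 1 cc`.  `c' = min c (c₁/2)`,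
  `z = c' b^{-4/(4-γ)}`, `t = z d_k/Nk > 0`.  Since `4/(4-γ) ≥ 1`, `z ≤ c'/b`, so `t ≤ (c₁ d_k/R')/2`; and `z ≤ c`.  Therefore
  `-t² P ≤ Δ t + C₁' d_k (z b/c₁)⁴ ≤ d_k (z/c)^γ + C₁' d_k (z b/c₁)⁴`.  Divide by `t² = z² d_k²/Nk²`:  `d_k (-P)/Nk² ≤ c^{-γ} z^{γ-2} + C₁' c₁^{-4} z² b⁴ = (c^{-γ} c'^{γ-2} + C₁' c₁^{-4} c'²) b^m`, because
  `-4(γ-2)/(4-γ) = m` and `4 - 8/(4-γ) = (8-4γ)/(4-γ) = m`.
* `s8_Pm_le`.  `A₁ = max L 1`.  Pointwise (`s8_neg_pt` with `R = cs`, `s8_cc_le_sum`): `ofReal (d_k (-P)) ≤ ofReal (C Nk²) ofReal (1 + cs/Nk)^m`.  Jensen on the probability space: `∫⁻ g^m ≤ (∫⁻ g²)^{m/2}`, `0 < m ≤ 2`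
  (`ENNReal.lintegral_mul_le_Lp_mul_Lq` with exponents `2/m` and its conjugate against the constant `1`, or `eLpNorm_le_eLpNorm_of_exponent_le`; `g = ofReal (1 + cs/Nk)` measurable by `s8_cs_meas`), then `s8_cs_L2`.
* `s8_Pm_Lp`: raise the pointwise inequality to the power `2/m`: `(b^m)^{2/m} = b²`; `s8_cs_L2`.
-/
import Claimed.Agent.R269.S8.LiftC
import Claimed.Agent.R269.S8.Cone

set_option autoImplicit false

namespace Claimed.Agent.R269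

open Complex ComplexConjugate Filter Topology MeasureTheory Set Metric
open scoped ENNReal Real

theorem s8_gam_mem (a : ℝ) (ha : 0 ≤ a) : 0 < s8gam a ∧ s8gam a ≤ 1 := by
  unfold s8gam
  constructor
  · positivity
  · rw [div_le_one (by linarith)]; linarith

theorem s8_m_mem (a : ℝ) (ha : 0 ≤ a) : 4 / 3 ≤ s8m a ∧ s8m a < 2 := by
  obtain ⟨h1, h2⟩ := s8_gam_mem a ha
  unfold s8m
  constructor
  · rw [le_div_iff₀ (by linarith)]; linarith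
  · rw [div_lt_iff₀ (by linarith)]; linarith

theorem s8_b1_mem (β : ℝ) (hβ : 0 ≤ β) (hβ' : β < 1 / 2) : β < s8b1 β ∧ 1 / 4 ≤ s8b1 β ∧ s8b1 β < 1 / 2 := by
  unfold s8b1
  refine ⟨by linarith, by linarith, by linarith⟩

theorem s8_neg_alg (γ c c' c₁ C' b z : ℝ) (hγ1 : γ ≤ 1) (hc : 0 < c) (hc' : 0 < c')
    (hc₁ : 0 < c₁) (hb : 0 < b) (hz : z = c' * b ^ (-(4 / (4 - γ)))) :
    (z / c) ^ γ / z ^ 2 + C' * (z * b / c₁) ^ 4 / z ^ 2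
      = (c ^ (-γ) * c' ^ (γ - 2) + C' / c₁ ^ 4 * c' ^ 2) * b ^ (4 * (2 - γ) / (4 - γ)) := by
  have h4 : (4 - γ) ≠ 0 := by linarith
  have hbe : 0 < b ^ (-(4 / (4 - γ))) := Real.rpow_pos_of_pos hb _
  have hz0 : 0 < z := by rw [hz]; positivity
  have e1 : (z / c) ^ γ / z ^ 2 = c ^ (-γ) * c' ^ (γ - 2) * b ^ (4 * (2 - γ) / (4 - γ)) := by
    have h1 : (z / c) ^ γ / z ^ 2 = c ^ (-γ) * z ^ (γ - 2) := by
      rw [Real.div_rpow hz0.le hc.le, Real.rpow_sub hz0, Real.rpow_neg hc.le, Real.rpow_two]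
      field_simp
    rw [h1, hz, Real.mul_rpow hc'.le hbe.le, ← Real.rpow_mul hb.le]
    have : -(4 / (4 - γ)) * (γ - 2) = 4 * (2 - γ) / (4 - γ) := by field_simp; ring
    rw [this]; ring
  have e2 : C' * (z * b / c₁) ^ 4 / z ^ 2 = C' / c₁ ^ 4 * c' ^ 2 * b ^ (4 * (2 - γ) / (4 - γ)) := by
    have h1 : C' * (z * b / c₁) ^ 4 / z ^ 2 = C' / c₁ ^ 4 * (z ^ 2 * b ^ 4) := by
      field_simp
    have h2 : z ^ 2 * b ^ 4 = c' ^ 2 * b ^ (4 * (2 - γ) / (4 - γ)) := by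
      rw [hz, mul_pow, mul_assoc]
      congr 1
      rw [← Real.rpow_natCast (b ^ (-(4 / (4 - γ)))) 2, ← Real.rpow_mul hb.le, ← Real.rpow_natCast b 4,
        ← Real.rpow_add hb]
      congr 1
      push_cast
      field_simp
      ring
    rw [h1, h2]; ring
  rw [e1, e2]; ring

theorem s8_jensen (ν : Measure ℝ) [IsProbabilityMeasure ν] (g : ℝ → ℝ≥0∞) (hg : Measurable g) (m : ℝ)
    (hm0 : 0 < m) (hm2 : m ≤ 2) :
    ∫⁻ x, g x ^ m ∂ν ≤ (∫⁻ x, g x ^ 2 ∂ν) ^ (m / 2) := by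
  have h := eLpNorm'_le_eLpNorm'_of_exponent_le hm0 hm2 ν hg.aestronglyMeasurable
  simp only [eLpNorm'_eq_lintegral_enorm, enorm_eq_self] at h
  have h2 := ENNReal.rpow_le_rpow h hm0.le
  rw [← ENNReal.rpow_mul, ← ENNReal.rpow_mul] at h2
  have e1 : 1 / m * m = 1 := by field_simp
  have e2 : 1 / 2 * m = m / 2 := by ring
  rw [e1, e2, ENNReal.rpow_one] at h2
  simpa using h2

namespace Shape

variable (Sh : Shape)

/-- the one-sided estimate at one point in terms of the cone cost: `R ≥ max 1 (cone cost)`, radius `r = c d_k/R`. -/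
theorem s8_onesided_cc (hH : Sh.H ≠ ⊤) (β₁ : ℝ) (hβ₁ : 0 < β₁) (hβ₁' : β₁ < 1 / 2) :
    ∃ L c C k₁ : ℝ, 0 < L ∧ 0 < c ∧ 0 < C ∧ Sh.s9k0 ≤ k₁ ∧
      ∀ x k R : ℝ, k₁ ≤ k → 1 ≤ R → Sh.s8cc β₁ L k x ≤ R →
        ∀ t : ℝ, |t| < c * Real.exp (-k) / R → Sh.Δ (t : ℂ) < Real.exp (-k) ∧
          (|t| ≤ c * Real.exp (-k) / R / 2 → -(t ^ 2 * Sh.s9P (Sh.s8pt x (Real.exp (-k)))) ≤
            Sh.Δ (t : ℂ) + C * Real.exp (-k) * (|t| * R / (c * Real.exp (-k))) ^ 4) := by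
  have hdb := Sh.s8_db hH
  have hHr := Sh.s8_Hr_pos hH
  obtain ⟨L, ε₁, d₁, C, hL, hε₁, hd₁, hC, hmain⟩ := Sh.s8_onesided_pt hH (1 - β₁) Sh.s9db (by linarith)
    (by linarith) hdb.1 (by linarith)
  refine ⟨L, min ε₁ (1 / 2), C, max Sh.s9k0 (-Real.log d₁), hL, lt_min hε₁ (by norm_num), hC,
    le_max_left _ _, ?_⟩
  intro x k R hk hR hcc
  obtain ⟨c, hc⟩ : ∃ c, c = min ε₁ (1 / 2) := ⟨_, rfl⟩
  rw [← hc]
  have hc0 : 0 < c := hc ▸ lt_min hε₁ (by norm_num)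
  have hc1 : c ≤ ε₁ := hc ▸ min_le_left _ _
  have hc2 : c ≤ 1 / 2 := hc ▸ min_le_right _ _
  obtain ⟨d, hd⟩ : ∃ d, d = Real.exp (-k) := ⟨_, rfl⟩
  rw [← hd]
  have hd0 : 0 < d := hd ▸ Real.exp_pos _
  have hR0 : 0 < R := by linarith
  have hdd : d ≤ d₁ := by
    have h1 : -Real.log d₁ ≤ k := (le_max_right _ _).trans hk
    rw [hd, ← Real.exp_log hd₁]
    exact Real.exp_le_exp.2 (by linarith)
  have hr0 : 0 < c * d / R := by positivity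
  have hr1 : c * d / R ≤ d / 2 := by
    rw [div_le_iff₀ hR0]
    nlinarith
  have hcone : ∀ s ∈ Sh.s9cone L x (d / 20) Sh.s9db,
      c * d / R * Sh.M s ≤ ε₁ * (d / Sh.s9dep s) ^ (1 - β₁) := by
    intro s hs
    have h1 := (Sh.s8_le_cc hH β₁ L k x s (hd ▸ hs)).trans hcc
    rw [← hd] at h1
    have hδ : 0 < Sh.s9dep s := by
      have := hs.1
      have : 0 < d / 20 := by positivity
      linarith
    obtain ⟨δ, hδd⟩ : ∃ δ, δ = Sh.s9dep s := ⟨_, rfl⟩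
    rw [← hδd] at h1 hδ ⊢
    have hq : 0 < d / δ := by positivity
    have hp : 0 < (d / δ) ^ β₁ := Real.rpow_pos_of_pos hq _
    have e : (d / δ) ^ (1 - β₁) = (d / δ) / (d / δ) ^ β₁ := by
      rw [Real.rpow_sub hq, Real.rpow_one]
    have hM := Sh.s8_M_nonneg s
    calc c * d / R * Sh.M s = c * ((d / δ) / (d / δ) ^ β₁) * ((δ * Sh.M s * (d / δ) ^ β₁) / R) := by
          field_simp
      _ ≤ c * ((d / δ) / (d / δ) ^ β₁) * 1 := by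
          apply mul_le_mul_of_nonneg_left _ (by positivity)
          rw [div_le_one hR0]; exact h1
      _ = c * (d / δ) ^ (1 - β₁) := by rw [e, mul_one]
      _ ≤ ε₁ * (d / δ) ^ (1 - β₁) := mul_le_mul_of_nonneg_right hc1 (Real.rpow_nonneg hq.le _)
  intro t ht
  obtain ⟨h1, h2⟩ := hmain x d (c * d / R) hd0 hdd hr0 hr1 hcone t ht
  refine ⟨h1, fun ht2 => ?_⟩
  have h3 := h2 ht2
  have e : |t| / (c * d / R) = |t| * R / (c * d) := by field_simp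
  rw [e] at h3
  exact h3

/-- **(8.14) basic width.** -/
theorem s8_basic_width (hH : Sh.H ≠ ⊤) (β a : ℝ) (C₁ : ℝ → ℝ) (hβ : 0 ≤ β) (hβ' : β < 1 / 2) (ha : 0 ≤ a) :
    ∃ c k₁ : ℝ, 0 < c ∧ Sh.s9k0 ≤ k₁ ∧ ∀ N : ℝ → ℝ, S8Env β a N → Sh.S8FM C₁ N → ∀ k ≥ k₁, ∀ t : ℝ,
      |t| ≤ c * Real.exp (-k) / N k → Sh.Δ (t : ℂ) ≤ Real.exp (-k) := by
  obtain ⟨hb1, hb2, hb3⟩ := s8_b1_mem β hβ hβ'
  obtain ⟨L, c₀, C, k₁, hL, hc₀, hC, hk₁, hmain⟩ := Sh.s8_onesided_cc hH (s8b1 β) (by linarith) hb3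
  obtain ⟨C₃, hC₃, hL1⟩ := Sh.s8_cs_L1 hH β a (s8b1 β) (max L 1) C₁ hβ ha hb1 (le_max_right _ _)
  refine ⟨c₀ / (4 * C₃), k₁, by positivity, hk₁, ?_⟩
  intro N hN hFM k hk t ht
  have hNk : 1 ≤ N k := hN.one_le k
  have hd0 : 0 < Real.exp (-k) := Real.exp_pos _
  have hex : ∃ x, Sh.s8cs (s8b1 β) (max L 1) k x ≤ 2 * C₃ * N k := by
    by_contra hcon
    push Not at hcon
    have h1 := hL1 N k hN hFM (hk₁.trans hk)
    have h2 : ENNReal.ofReal (2 * C₃ * N k) ≤ ∫⁻ x, ENNReal.ofReal (Sh.s8cs (s8b1 β) (max L 1) k x) ∂s8nu0 := by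
      have := s8_nu0_prob
      calc ENNReal.ofReal (2 * C₃ * N k) = ∫⁻ _, ENNReal.ofReal (2 * C₃ * N k) ∂s8nu0 := by
            rw [lintegral_const, measure_univ, mul_one]
        _ ≤ _ := lintegral_mono (fun x => ENNReal.ofReal_le_ofReal (hcon x).le)
    have h3 := h2.trans h1
    rw [ENNReal.ofReal_le_ofReal_iff (by positivity)] at h3
    nlinarith
  obtain ⟨x, hx⟩ := hex
  have hcc : Sh.s8cc (s8b1 β) L k x ≤ 2 * C₃ * N k :=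
    (Sh.s8_cc_le_sum hH (s8b1 β) L (max L 1) k x (by linarith) (by linarith) (le_max_right _ _)
      (le_max_left _ _) (hk₁.trans hk)).trans hx
  have hR : 1 ≤ 2 * C₃ * N k := by nlinarith
  refine ((hmain x k (2 * C₃ * N k) hk hR hcc t ?_).1).le
  refine lt_of_le_of_lt ht ?_
  have e1 : c₀ / (4 * C₃) * Real.exp (-k) / N k = (c₀ * Real.exp (-k) / (2 * C₃ * N k)) / 2 := by
    field_simp; ring
  rw [e1]
  have : 0 < c₀ * Real.exp (-k) / (2 * C₃ * N k) := by positivity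
  linarith

/-- **(8.12) real deficit.** -/
theorem s8_real_deficit (hH : Sh.H ≠ ⊤) (β a : ℝ) (C₁ : ℝ → ℝ) (hβ : 0 ≤ β) (hβ' : β < 1 / 2) (ha : 0 ≤ a) :
    ∃ c k₁ : ℝ, 0 < c ∧ Sh.s9k0 ≤ k₁ ∧ ∀ N : ℝ → ℝ, S8Env β a N → Sh.S8FM C₁ N → ∀ k ≥ k₁, ∀ t : ℝ,
      |t| * N k / Real.exp (-k) ≤ c →
      Sh.Δ (t : ℂ) ≤ Real.exp (-k) * (|t| * N k / (c * Real.exp (-k))) ^ s8gam a := by
  obtain ⟨c, k₁, hc, hk₁, hmain⟩ := Sh.s8_basic_width hH β a C₁ hβ hβ' ha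
  obtain ⟨hγ0, hγ1⟩ := s8_gam_mem a ha
  refine ⟨c, k₁, hc, hk₁, ?_⟩
  intro N hN hFM k hk t ht
  have hNk : 1 ≤ N k := hN.one_le k
  have hNk0 : 0 < N k := by linarith
  have hd0 : 0 < Real.exp (-k) := Real.exp_pos _
  by_cases ht0 : t = 0
  · rw [ht0]
    simp only [Complex.ofReal_zero, Sh.s8_Δ_zero]
    positivity
  · have habs : 0 < |t| := abs_pos.2 ht0
    obtain ⟨z, hz⟩ : ∃ z, z = |t| * N k / Real.exp (-k) := ⟨_, rfl⟩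
    have hz0 : 0 < z := by rw [hz]; positivity
    rw [← hz] at ht
    have e0 : |t| * N k / (c * Real.exp (-k)) = z / c := by rw [hz]; field_simp
    rw [e0]
    obtain ⟨h, hh⟩ : ∃ h, h = s8gam a * Real.log (c / z) := ⟨_, rfl⟩
    have hlog : 0 ≤ Real.log (c / z) := Real.log_nonneg (by rw [le_div_iff₀ hz0]; linarith)
    have hh0 : 0 ≤ h := by rw [hh]; positivity
    have hNj : N (k + h) ≤ N k * Real.exp (a * h) := by
      have := hN.fwd (k + h) k (by linarith)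
      simpa using this
    have hNj0 : 0 < N (k + h) := zero_lt_one.trans_le (hN.one_le _)
    have e1 : (1 + a) * h = Real.log (c / z) := by
      rw [hh]; unfold s8gam; field_simp
    have e2 : Real.exp (-((1 + a) * h)) = z / c := by
      rw [e1, ← Real.log_inv, Real.exp_log (by positivity), inv_div]
    have hkey : |t| ≤ c * Real.exp (-(k + h)) / N (k + h) := by
      rw [le_div_iff₀ hNj0]
      calc |t| * N (k + h) ≤ |t| * (N k * Real.exp (a * h)) := mul_le_mul_of_nonneg_left hNj habs.le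
        _ = z * Real.exp (-k) * Real.exp (a * h) := by rw [hz]; field_simp
        _ = c * (z / c) * Real.exp (-k) * Real.exp (a * h) := by field_simp
        _ = c * Real.exp (-(k + h)) := by
            rw [← e2, mul_assoc, mul_assoc, ← Real.exp_add, ← Real.exp_add]
            congr 2; ring
    have h1 := hmain N hN hFM (k + h) (by linarith) t hkey
    refine h1.trans (le_of_eq ?_)
    rw [neg_add, Real.exp_add]
    congr 1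
    rw [hh, Real.rpow_def_of_pos (by positivity)]
    congr 1
    have : Real.log (z / c) = -Real.log (c / z) := by
      rw [← Real.log_inv, inv_div]
    rw [this]; ring

/-- **(8.13) negative part of `P`**, pointwise; `R` = any majorant of the cone cost. -/
theorem s8_neg_pt (hH : Sh.H ≠ ⊤) (β a : ℝ) (C₁ : ℝ → ℝ) (hβ : 0 ≤ β) (hβ' : β < 1 / 2) (ha : 0 ≤ a) :
    ∃ L C k₁ : ℝ, 0 < L ∧ 0 < C ∧ Sh.s9k0 ≤ k₁ ∧ ∀ N : ℝ → ℝ, S8Env β a N → Sh.S8FM C₁ N → ∀ k ≥ k₁,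
      ∀ x R : ℝ, Sh.s8cc (s8b1 β) L k x ≤ R →
      Real.exp (-k) * -Sh.s9P (Sh.s8pt x (Real.exp (-k))) ≤ C * N k ^ 2 * (1 + R / N k) ^ s8m a := by
  obtain ⟨hb1, hb2, hb3⟩ := s8_b1_mem β hβ hβ'
  obtain ⟨hγ0, hγ1⟩ := s8_gam_mem a ha
  obtain ⟨L, c₁, C', k₁', hL, hc₁, hC', hk₁', hos⟩ := Sh.s8_onesided_cc hH (s8b1 β) (by linarith) hb3
  obtain ⟨c, k₁'', hc, hk₁'', hrd⟩ := Sh.s8_real_deficit hH β a C₁ hβ hβ' ha
  obtain ⟨γ, hγ⟩ : ∃ γ, γ = s8gam a := ⟨_, rfl⟩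
  rw [← hγ] at hγ0 hγ1 hrd
  obtain ⟨c', hc'⟩ : ∃ c', c' = min c (c₁ / 2) := ⟨_, rfl⟩
  have hc'0 : 0 < c' := hc' ▸ lt_min hc (by positivity)
  have hc'1 : c' ≤ c := hc' ▸ min_le_left _ _
  have hc'2 : c' ≤ c₁ / 2 := hc' ▸ min_le_right _ _
  refine ⟨L, c ^ (-γ) * c' ^ (γ - 2) + C' / c₁ ^ 4 * c' ^ 2, max k₁' k₁'', hL, by positivity,
    hk₁'.trans (le_max_left _ _), ?_⟩
  intro N hN hFM k hk x R hcc
  have hNk : 1 ≤ N k := hN.one_le k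
  have hNk0 : 0 < N k := by linarith
  obtain ⟨d, hd⟩ : ∃ d, d = Real.exp (-k) := ⟨_, rfl⟩
  have hd0 : 0 < d := hd ▸ Real.exp_pos _
  have hR0 : 0 ≤ R := (Sh.s8_cc_nonneg _ _ _ _).trans hcc
  obtain ⟨b, hb⟩ : ∃ b, b = 1 + R / N k := ⟨_, rfl⟩
  have hb1' : 1 ≤ b := by rw [hb]; have : 0 ≤ R / N k := by positivity
                          linarith
  have hb0 : 0 < b := by linarith
  have hR' : N k * b = N k + R := by rw [hb]; field_simp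
  obtain ⟨z, hz⟩ : ∃ z, z = c' * b ^ (-(4 / (4 - γ))) := ⟨_, rfl⟩
  have hbe : 0 < b ^ (-(4 / (4 - γ))) := Real.rpow_pos_of_pos hb0 _
  have hz0 : 0 < z := by rw [hz]; positivity
  have hbe1 : b ^ (-(4 / (4 - γ))) ≤ b⁻¹ := by
    rw [← Real.rpow_neg_one]
    apply Real.rpow_le_rpow_of_exponent_le hb1'
    have : 1 ≤ 4 / (4 - γ) := by rw [le_div_iff₀ (by linarith)]; linarith
    linarith
  have hzb : z * b ≤ c' := by
    rw [hz, mul_assoc]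
    have : b ^ (-(4 / (4 - γ))) * b ≤ 1 := by
      calc b ^ (-(4 / (4 - γ))) * b ≤ b⁻¹ * b := mul_le_mul_of_nonneg_right hbe1 hb0.le
        _ = 1 := inv_mul_cancel₀ hb0.ne'
    nlinarith
  have hzc : z ≤ c := by
    have : z ≤ z * b := by nlinarith
    linarith
  obtain ⟨t, ht⟩ : ∃ t, t = z * d / N k := ⟨_, rfl⟩
  have ht0 : 0 < t := by rw [ht]; positivity
  have habs : |t| = t := abs_of_pos ht0
  have ht2 : |t| ≤ c₁ * d / (N k * b) / 2 := by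
    rw [habs, ht, le_div_iff₀ (by norm_num), le_div_iff₀ (by positivity)]
    calc z * d / N k * 2 * (N k * b) = 2 * d * (z * b) := by field_simp
      _ ≤ 2 * d * (c₁ / 2) := mul_le_mul_of_nonneg_left (hzb.trans hc'2) (by positivity)
      _ = c₁ * d := by ring
  have ht1 : |t| < c₁ * d / (N k * b) := by
    have : 0 < c₁ * d / (N k * b) := by positivity
    linarith
  have h1 := (hos x k (N k * b) ((le_max_left _ _).trans hk) (by rw [hR']; linarith)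
    (by rw [hR']; linarith) t (hd ▸ ht1)).2 (hd ▸ ht2)
  have h2 := hrd N hN hFM k ((le_max_right _ _).trans hk) t (by
    rw [habs, ht, ← hd]
    have : z * d / N k * N k / d = z := by field_simp
    rw [this]; exact hzc)
  rw [← hd] at h1 h2 ⊢
  have e1 : |t| * (N k * b) / (c₁ * d) = z * b / c₁ := by rw [habs, ht]; field_simp
  have e2 : |t| * N k / (c * d) = z / c := by rw [habs, ht]; field_simp
  rw [e1] at h1
  rw [e2] at h2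
  obtain ⟨P, hP⟩ : ∃ P, P = Sh.s9P (Sh.s8pt x d) := ⟨_, rfl⟩
  rw [← hP] at h1 ⊢
  have h3 : -(t ^ 2 * P) ≤ d * (z / c) ^ γ + C' * d * (z * b / c₁) ^ 4 := by linarith
  have halg := s8_neg_alg γ c c' c₁ C' b z hγ1 hc hc'0 hc₁ hb0 hz
  have hm : s8m a = 4 * (2 - γ) / (4 - γ) := by rw [hγ]; rfl
  rw [hm, ← hb]
  calc d * -P = -(t ^ 2 * P) * (N k ^ 2 / (z ^ 2 * d)) := by rw [ht]; field_simp
    _ ≤ (d * (z / c) ^ γ + C' * d * (z * b / c₁) ^ 4) * (N k ^ 2 / (z ^ 2 * d)) :=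
        mul_le_mul_of_nonneg_right h3 (by positivity)
    _ = N k ^ 2 * ((z / c) ^ γ / z ^ 2 + C' * (z * b / c₁) ^ 4 / z ^ 2) := by field_simp
    _ = _ := by rw [halg]; ring

/-- common part of (S2) and (8.19). -/
theorem s8_Pm_pt (hH : Sh.H ≠ ⊤) (β a : ℝ) (C₁ : ℝ → ℝ) (hβ : 0 ≤ β) (hβ' : β < 1 / 2) (ha : 0 ≤ a) :
    ∃ A₁ C' C₂ k₁ : ℝ, 1 ≤ A₁ ∧ 0 < C' ∧ 0 < C₂ ∧ Sh.s9k0 ≤ k₁ ∧ ∀ (N : ℝ → ℝ) (ν : Measure ℝ) (Y k : ℝ),
      S8Env β a N → Sh.S8FM C₁ N → IsProbabilityMeasure ν → 0 ≤ Y → k₁ ≤ k →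
      (∀ l ≥ Sh.s9k0, Sh.s8T2 ν A₁ l ≤ ENNReal.ofReal ((Y * N l) ^ 2)) →
      ∃ g : ℝ → ℝ≥0∞, Measurable g ∧
        (∀ x, ENNReal.ofReal (Real.exp (-k) * -Sh.s9P (Sh.s8pt x (Real.exp (-k))))
          ≤ ENNReal.ofReal (C' * N k ^ 2) * g x ^ s8m a) ∧
        ∫⁻ x, g x ^ 2 ∂ν ≤ ENNReal.ofReal ((C₂ * (1 + Y)) ^ 2) := by
  obtain ⟨hb1, hb2, hb3⟩ := s8_b1_mem β hβ hβ'
  obtain ⟨hm1, hm2⟩ := s8_m_mem a ha
  obtain ⟨L, C', k₁, hL, hC', hk₁, hneg⟩ := Sh.s8_neg_pt hH β a C₁ hβ hβ' ha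
  obtain ⟨C₂, hC₂, hL2⟩ := Sh.s8_cs_L2 hH β a (s8b1 β) (max L 1) hβ ha hb1
  refine ⟨max L 1, C', C₂, k₁, le_max_right _ _, hC', hC₂, hk₁, ?_⟩
  intro N ν Y k hN hFM hν hY hk hT2
  have hNk0 : 0 < N k := zero_lt_one.trans_le (hN.one_le k)
  refine ⟨fun x => ENNReal.ofReal (1 + Sh.s8cs (s8b1 β) (max L 1) k x / N k), ?_, ?_, ?_⟩
  · exact ((measurable_const.add ((Sh.s8_cs_meas hH _ _ _).div_const _))).ennreal_ofReal
  · intro x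
    have h0 : 0 ≤ 1 + Sh.s8cs (s8b1 β) (max L 1) k x / N k := by
      have := div_nonneg (Sh.s8_cs_nonneg (s8b1 β) (max L 1) k x) hNk0.le
      linarith
    have h1 := hneg N hN hFM k hk x (Sh.s8cs (s8b1 β) (max L 1) k x)
      (Sh.s8_cc_le_sum hH (s8b1 β) L (max L 1) k x (by linarith) (by linarith) (le_max_right _ _)
        (le_max_left _ _) (hk₁.trans hk))
    rw [ENNReal.ofReal_rpow_of_nonneg h0 (by linarith), ← ENNReal.ofReal_mul (by positivity)]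
    exact ENNReal.ofReal_le_ofReal h1
  · exact hL2 N ν Y k hN hν hY (hk₁.trans hk) hT2

/-- **(S2)** the integrated negative part, for any probability measure with quadratic tile bounds at the aperture `A₁`. -/
theorem s8_Pm_le (hH : Sh.H ≠ ⊤) (β a : ℝ) (C₁ : ℝ → ℝ) (hβ : 0 ≤ β) (hβ' : β < 1 / 2) (ha : 0 ≤ a) :
    ∃ A₁ C k₁ : ℝ, 1 ≤ A₁ ∧ 0 < C ∧ Sh.s9k0 ≤ k₁ ∧ ∀ (N : ℝ → ℝ) (ν : Measure ℝ) (Y k : ℝ), S8Env β a N →
      Sh.S8FM C₁ N → IsProbabilityMeasure ν → 0 ≤ Y → k₁ ≤ k →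
      (∀ l ≥ Sh.s9k0, Sh.s8T2 ν A₁ l ≤ ENNReal.ofReal ((Y * N l) ^ 2)) →
      Sh.s8Pm ν k ≤ ENNReal.ofReal (C * N k ^ 2 * (1 + Y) ^ s8m a) := by
  obtain ⟨hm1, hm2⟩ := s8_m_mem a ha
  obtain ⟨A₁, C', C₂, k₁, hA₁, hC', hC₂, hk₁, hmain⟩ := Sh.s8_Pm_pt hH β a C₁ hβ hβ' ha
  refine ⟨A₁, C' * C₂ ^ s8m a, k₁, hA₁, by positivity, hk₁, ?_⟩
  intro N ν Y k hN hFM hν hY hk hT2
  obtain ⟨g, hg, hpt, hint⟩ := hmain N ν Y k hN hFM hν hY hk hT2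
  obtain ⟨m, hm⟩ : ∃ m, m = s8m a := ⟨_, rfl⟩
  rw [← hm] at hm1 hm2 hpt ⊢
  have hNk0 : 0 < N k := zero_lt_one.trans_le (hN.one_le k)
  unfold s8Pm
  calc ∫⁻ x, ENNReal.ofReal (Real.exp (-k) * -Sh.s9P (Sh.s8pt x (Real.exp (-k)))) ∂ν
      ≤ ∫⁻ x, ENNReal.ofReal (C' * N k ^ 2) * g x ^ m ∂ν := lintegral_mono hpt
    _ = ENNReal.ofReal (C' * N k ^ 2) * ∫⁻ x, g x ^ m ∂ν := lintegral_const_mul _ (hg.pow_const m)
    _ ≤ ENNReal.ofReal (C' * N k ^ 2) * (∫⁻ x, g x ^ 2 ∂ν) ^ (m / 2) :=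
        mul_le_mul_right (s8_jensen ν g hg m (by linarith) hm2.le) _
    _ ≤ ENNReal.ofReal (C' * N k ^ 2) * (ENNReal.ofReal ((C₂ * (1 + Y)) ^ 2)) ^ (m / 2) :=
        mul_le_mul_right (ENNReal.rpow_le_rpow hint (by linarith)) _
    _ = ENNReal.ofReal (C' * C₂ ^ m * N k ^ 2 * (1 + Y) ^ m) := by
        rw [ENNReal.ofReal_rpow_of_nonneg (by positivity) (by linarith),
          ← ENNReal.ofReal_mul (by positivity)]
        congr 1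
        have e0 : ((C₂ * (1 + Y)) ^ 2) ^ (m / 2) = C₂ ^ m * (1 + Y) ^ m := by
          rw [← Real.rpow_natCast (C₂ * (1 + Y)) 2, ← Real.rpow_mul (by positivity)]
          have : ((2 : ℕ) : ℝ) * (m / 2) = m := by push_cast; ring
          rw [this, Real.mul_rpow hC₂.le (by linarith)]
        rw [e0]
        ring

/-- **(8.19)** the `L^{2/m}` bound of the negative part (same `A₁`-type hypothesis). -/
theorem s8_Pm_Lp (hH : Sh.H ≠ ⊤) (β a : ℝ) (C₁ : ℝ → ℝ) (hβ : 0 ≤ β) (hβ' : β < 1 / 2) (ha : 0 ≤ a) :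
    ∃ A₁ C k₁ : ℝ, 1 ≤ A₁ ∧ 0 < C ∧ Sh.s9k0 ≤ k₁ ∧ ∀ (N : ℝ → ℝ) (ν : Measure ℝ) (Y k : ℝ), S8Env β a N →
      Sh.S8FM C₁ N → IsProbabilityMeasure ν → 0 ≤ Y → k₁ ≤ k →
      (∀ l ≥ Sh.s9k0, Sh.s8T2 ν A₁ l ≤ ENNReal.ofReal ((Y * N l) ^ 2)) →
      ∫⁻ x, ENNReal.ofReal (Real.exp (-k) * -Sh.s9P (Sh.s8pt x (Real.exp (-k)))) ^ (2 / s8m a) ∂ν ≤
        ENNReal.ofReal ((C * N k ^ 2) ^ (2 / s8m a) * (1 + Y) ^ 2) := by
  obtain ⟨hm1, hm2⟩ := s8_m_mem a ha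
  obtain ⟨A₁, C', C₂, k₁, hA₁, hC', hC₂, hk₁, hmain⟩ := Sh.s8_Pm_pt hH β a C₁ hβ hβ' ha
  refine ⟨A₁, C' * C₂ ^ s8m a, k₁, hA₁, by positivity, hk₁, ?_⟩
  intro N ν Y k hN hFM hν hY hk hT2
  obtain ⟨g, hg, hpt, hint⟩ := hmain N ν Y k hN hFM hν hY hk hT2
  obtain ⟨m, hm⟩ : ∃ m, m = s8m a := ⟨_, rfl⟩
  rw [← hm] at hm1 hm2 hpt ⊢
  have hm0 : 0 < m := by linarith
  have hNk0 : 0 < N k := zero_lt_one.trans_le (hN.one_le k)
  have h2m : 0 ≤ 2 / m := by positivity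
  calc ∫⁻ x, ENNReal.ofReal (Real.exp (-k) * -Sh.s9P (Sh.s8pt x (Real.exp (-k)))) ^ (2 / m) ∂ν
      ≤ ∫⁻ x, ENNReal.ofReal (C' * N k ^ 2) ^ (2 / m) * g x ^ 2 ∂ν := by
        apply lintegral_mono
        intro x
        refine (ENNReal.rpow_le_rpow (hpt x) h2m).trans (le_of_eq ?_)
        rw [ENNReal.mul_rpow_of_nonneg _ _ h2m, ← ENNReal.rpow_mul]
        have : m * (2 / m) = 2 := by field_simp
        rw [this, ENNReal.rpow_two]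
    _ = ENNReal.ofReal (C' * N k ^ 2) ^ (2 / m) * ∫⁻ x, g x ^ 2 ∂ν :=
        lintegral_const_mul _ (hg.pow_const 2)
    _ ≤ ENNReal.ofReal (C' * N k ^ 2) ^ (2 / m) * ENNReal.ofReal ((C₂ * (1 + Y)) ^ 2) :=
        mul_le_mul_right hint _
    _ = ENNReal.ofReal ((C' * C₂ ^ m * N k ^ 2) ^ (2 / m) * (1 + Y) ^ 2) := by
        rw [ENNReal.ofReal_rpow_of_nonneg (by positivity) h2m, ← ENNReal.ofReal_mul (by positivity)]
        congr 1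
        have e1 : (C' * C₂ ^ m * N k ^ 2) ^ (2 / m) = (C' * N k ^ 2) ^ (2 / m) * C₂ ^ 2 := by
          have e2 : C' * C₂ ^ m * N k ^ 2 = (C' * N k ^ 2) * C₂ ^ m := by ring
          rw [e2, Real.mul_rpow (by positivity) (by positivity), ← Real.rpow_mul hC₂.le]
          have : m * (2 / m) = 2 := by field_simp
          rw [this, Real.rpow_two]
        rw [e1]
        ring

end Shape

end Claimed.Agent.R269
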