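/-
Row 269, P1 Section 8: FROM `P` BACK TO `M` ON TILES ("interior harmonic estimates + disk bound" in the proofs of Thm 8.4, Prop 8.5, Thm 8.6).   Blueprint: helper48.
LEAF PACKAGES (fill IN PLACE):
  LF-S8-tile-d1 : `s8_T_le_boxP`
  LF-S8-tile-d2 : `s8_P_row`, `s8_tile_of_P`
Black boxes: `S8/BasicA.lean`, `BasicB.lean`, `BasicC.lean`, `TileA.lean`, `TileB.lean`, `LibMean.lean` (`s8_deriv_le_ball_im`), `LibDisk.lean` (`s8_disk_bound`, `s8_disk_bound_q`), `s8i_V_deriv`.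

PROOFS.
* `s8_T_le_boxP`.  Let `s ∈ 𝒯_A(j,x)`, `δ = dep s ∈ [e^{-A} d_j, e^{A} d_j]`, `R = r = δ/4`.  For `z ∈ ball s R`: `ball z r ⊆ ball s (δ/2) ⊆ D` (`s8_tile_ball`), `V = s9V` is holomorphic there with `V' = (W - Wm)/120`, so
  `‖W z‖ ≤ ‖Wm‖ + 120 ‖V' z‖`, `ofReal ‖V' z‖ ≤ ofReal (3/(π r³)) ∫⁻_{ball z r} ofReal |Im V| ≤ ofReal (192/(π δ³)) I`, `I := ∫⁻_{ball s (δ/2)} ofReal |P| ≤ Box A j (ofReal |P|) x` (`s8_ball_le_box`; `|Im V| = |P|`).
  If `Box = ⊤` nothing to prove.  Otherwise `B := ‖Wm‖ + 120 · 192/(π δ³) · I.toReal` bounds `‖W‖` on `ball s R`, and `s8_disk_bound`, `s8_disk_bound_q` at the centre (`W = f² + 8q` by definition, `s8_f_ode`) give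
  `M(s)² = max (‖f s‖²) ‖q s‖ ≤ 512 · 16/δ² + 4 B`.  Multiply by `d_j²`: `d_j²/δ² ≤ e^{2A}`, `d_j² ≤ 1`, `d_j²/δ³ ≤ e^{3A} e^{j}`:   `C = 8192 e^{2A} + 4 ‖Wm‖ + 4 · 120 · 192 e^{3A}/π`.
* `s8_P_row`: definition of `s8P1` at `l = -log δ` (`e^{-l} = δ`), `ENNReal.ofReal_mul`, `lintegral_const_mul'`.
* `s8_tile_of_P`.  Integrate `s8_T_le_boxP` against `ν` (probability).  `w = (A+1) e^{A} e^{-j} ≤ (A+1) e^{-ka}` since `j ≥ ka + A`.  For `δ ∈ [lo,hi]`: `l = -log δ ∈ [j - A - 1, j + A + 1]` (`log 2 < 1`), so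
  `∫⁻ ofReal |P (s8pt x δ)| ∂ν = ofReal (1/δ) P1 ν l ≤ ofReal (2 e^{A} e^{j}) ofReal Z`.  `s8_box_int_le` (`F = ofReal |P|`: `s8_meas_ind`, `s8_P_cont`, `s8_P_per`) gives
  `T2 ≤ C (1 + e^{j} · 4 (A+1) e^{2A} e^{-2j} CT(A+1) · 2 e^{A} e^{j} Z)`.
-/
import Claimed.Agent.R269.S8.TileB
import Claimed.Agent.R269.S8.BasicB
import Claimed.Agent.R269.S8.LibDisk

set_option autoImplicit false

namespace Claimed.Agent.R269

open Complex ComplexConjugate Filter Topology MeasureTheory Set Metric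
open scoped ENNReal Real

namespace Shape

variable (Sh : Shape)

/-- bound of `W` on the quarter-depth disc about a point of a tile. -/
theorem s8d_W_bound (hH : Sh.H ≠ ⊤) (A j x : ℝ) (hA : 1 ≤ A) (s : ℂ) (hs : s ∈ Sh.s9tile A j x)
    (hfin : Sh.s8Box A j (fun z => ENNReal.ofReal |Sh.s9P z|) x ≠ ⊤) :
    ∀ z ∈ ball s (Sh.s9dep s / 4), ‖Sh.W z‖ ≤ ‖Sh.s9Wm‖ + 120 * (192 / (π * Sh.s9dep s ^ 3) *
      (Sh.s8Box A j (fun z => ENNReal.ofReal |Sh.s9P z|) x).toReal) := by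
  intro z hz
  obtain ⟨hsub, hδ, -⟩ := Sh.s8_tile_ball hH A j x hA s hs
  set δ := Sh.s9dep s with hδdef
  have hzs : ball z (δ / 4) ⊆ ball s (δ / 2) := by
    intro w hw
    rw [mem_ball] at hw hz ⊢
    calc dist w s ≤ dist w z + dist z s := dist_triangle _ _ _
      _ < δ / 4 + δ / 4 := add_lt_add hw hz
      _ = δ / 2 := by ring
  have hsD : ball s (δ / 2) ⊆ Sh.D := ball_subset_closedBall.trans hsub
  have hzD : z ∈ Sh.D := hsD (hzs (mem_ball_self (by positivity)))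
  have hV : DifferentiableOn ℂ Sh.s9V (ball z (δ / 4)) := Sh.s8_V_diff.mono (hzs.trans hsD)
  have h1 := s8_deriv_le_ball_im Sh.s9V z (δ / 4) (by positivity) hV
  have h2 : ∫⁻ w in ball z (δ / 4), ENNReal.ofReal |(Sh.s9V w).im| ≤
      Sh.s8Box A j (fun z => ENNReal.ofReal |Sh.s9P z|) x := by
    calc ∫⁻ w in ball z (δ / 4), ENNReal.ofReal |(Sh.s9V w).im|
        ≤ ∫⁻ w in ball s (δ / 2), ENNReal.ofReal |(Sh.s9V w).im| := lintegral_mono_set hzs
      _ = ∫⁻ w in ball s (δ / 2), ENNReal.ofReal |Sh.s9P w| := by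
          simp only [Shape.s9P, abs_neg]
      _ ≤ _ := Sh.s8_ball_le_box hH A j x hA _ s hs
  have h3 : ‖deriv Sh.s9V z‖ ≤ 192 / (π * δ ^ 3) *
      (Sh.s8Box A j (fun z => ENNReal.ofReal |Sh.s9P z|) x).toReal := by
    have h4 : ENNReal.ofReal ‖deriv Sh.s9V z‖ ≤ ENNReal.ofReal (192 / (π * δ ^ 3) *
        (Sh.s8Box A j (fun z => ENNReal.ofReal |Sh.s9P z|) x).toReal) := by
      rw [ENNReal.ofReal_mul (by positivity), ENNReal.ofReal_toReal hfin]
      refine h1.trans ?_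
      have : 3 / (π * (δ / 4) ^ 3) = 192 / (π * δ ^ 3) := by
        field_simp
        ring
      rw [this]
      gcongr
    exact (ENNReal.ofReal_le_ofReal_iff (by positivity)).mp h4
  have h5 : deriv Sh.s9V z = (Sh.W z - Sh.s9Wm) / 120 := (Sh.s8i_V_deriv z hzD).deriv
  have h6 : Sh.W z = Sh.s9Wm + 120 * deriv Sh.s9V z := by rw [h5]; ring
  calc ‖Sh.W z‖ = ‖Sh.s9Wm + 120 * deriv Sh.s9V z‖ := by rw [h6]
    _ ≤ ‖Sh.s9Wm‖ + ‖120 * deriv Sh.s9V z‖ := norm_add_le _ _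
    _ = ‖Sh.s9Wm‖ + 120 * ‖deriv Sh.s9V z‖ := by rw [norm_mul]; norm_num
    _ ≤ _ := by gcongr

/-- the disk bound at a point of a tile. -/
theorem s8d_M_sq (hH : Sh.H ≠ ⊤) (A j x : ℝ) (hA : 1 ≤ A) (s : ℂ) (hs : s ∈ Sh.s9tile A j x) (B : ℝ)
    (hB0 : 0 ≤ B) (hB : ∀ z ∈ ball s (Sh.s9dep s / 4), ‖Sh.W z‖ ≤ B) :
    Sh.M s ^ 2 ≤ 8192 / Sh.s9dep s ^ 2 + 4 * B := by
  obtain ⟨hsub, hδ, -⟩ := Sh.s8_tile_ball hH A j x hA s hs
  set δ := Sh.s9dep s with hδdef
  have hsD : ball s (δ / 4) ⊆ Sh.D := by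
    refine (ball_subset_ball (by linarith)).trans (ball_subset_closedBall.trans hsub)
  have hf : DifferentiableOn ℂ Sh.f (ball s (δ / 4)) := Sh.s8_f_diff.mono hsD
  have hode : ∀ z ∈ ball s (δ / 4), deriv (deriv Sh.f) z = Sh.q z * Sh.f z :=
    fun z hz => Sh.s8_f_ode z (hsD hz)
  have hW : ∀ z ∈ ball s (δ / 4), Sh.W z = Sh.f z ^ 2 + 8 * Sh.q z := fun z _ => rfl
  have hmem : s ∈ ball s (δ / 4 / 2) := mem_ball_self (by positivity)
  have h1 := s8_disk_bound Sh.f Sh.q Sh.W s (δ / 4) B (by positivity) hf hode hW hB s hmem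
  have h2 := s8_disk_bound_q Sh.f Sh.q Sh.W s (δ / 4) B (by positivity) hf hode hW hB s hmem
  have e1 : 512 / (δ / 4) ^ 2 = 8192 / δ ^ 2 := by field_simp; ring
  have e2 : 64 / (δ / 4) ^ 2 = 1024 / δ ^ 2 := by field_simp; ring
  rw [e1] at h1
  rw [e2] at h2
  have hpos : 0 ≤ 1 / δ ^ 2 := by positivity
  unfold Shape.M
  rcases le_total ‖Sh.f s‖ (Real.sqrt ‖Sh.q s‖) with h | h
  · rw [max_eq_right h, Real.sq_sqrt (norm_nonneg _)]
    have : 1024 / δ ^ 2 ≤ 8192 / δ ^ 2 := by gcongr; norm_num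
    linarith
  · rw [max_eq_left h]
    exact h1

/-- pointwise: `(sup_tile d_j M)² ≤ C (1 + d_j⁻¹ ∫_box |P|)`. -/
theorem s8_T_le_boxP (hH : Sh.H ≠ ⊤) (A : ℝ) (hA : 1 ≤ A) :
    ∃ C : ℝ, 0 < C ∧ ∀ j ≥ Sh.s9k0, ∀ x : ℝ, ENNReal.ofReal (Sh.s8T A j x) ^ 2 ≤
      ENNReal.ofReal C * (1 + ENNReal.ofReal (Real.exp j) *
        Sh.s8Box A j (fun z => ENNReal.ofReal |Sh.s9P z|) x) := by
  set C : ℝ := 8192 * Real.exp (2 * A) + 4 * ‖Sh.s9Wm‖ + 92160 / π * Real.exp (3 * A) with hC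
  have hCpos : 0 < C := by positivity
  refine ⟨C, hCpos, ?_⟩
  intro j hj x
  by_cases hfin : Sh.s8Box A j (fun z => ENNReal.ofReal |Sh.s9P z|) x = ⊤
  · rw [hfin, ENNReal.mul_top (by simp [Real.exp_pos]), add_top, ENNReal.mul_top (by simp [hCpos])]
    exact le_top
  set I := (Sh.s8Box A j (fun z => ENNReal.ofReal |Sh.s9P z|) x).toReal with hI
  have hI0 : 0 ≤ I := ENNReal.toReal_nonneg
  have hk0 := (Sh.s8_k0 hH).1
  have hmain : ∀ s ∈ Sh.s9tile A j x, (Real.exp (-j) * Sh.M s) ^ 2 ≤ C * (1 + Real.exp j * I) := by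
    intro s hs
    obtain ⟨-, hδ, -⟩ := Sh.s8_tile_ball hH A j x hA s hs
    have hlow : Real.exp (-A) * Real.exp (-j) ≤ Sh.s9dep s := hs.1
    set δ := Sh.s9dep s with hδdef
    have hW := Sh.s8d_W_bound hH A j x hA s hs hfin
    have hM := Sh.s8d_M_sq hH A j x hA s hs _ (by positivity) hW
    rw [← hI, ← hδdef] at hM
    -- numerics
    have hr : Real.exp (-j) / δ ≤ Real.exp A := by
      rw [div_le_iff₀ hδ]
      calc Real.exp (-j) = Real.exp A * (Real.exp (-A) * Real.exp (-j)) := by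
            rw [← mul_assoc, ← Real.exp_add]; simp
        _ ≤ Real.exp A * δ := by gcongr
    have hr0 : 0 ≤ Real.exp (-j) / δ := by positivity
    have hr2 : (Real.exp (-j) / δ) ^ 2 ≤ Real.exp (2 * A) := by
      calc (Real.exp (-j) / δ) ^ 2 ≤ Real.exp A ^ 2 := pow_le_pow_left₀ hr0 hr 2
        _ = Real.exp (2 * A) := by rw [← Real.exp_nat_mul]; push_cast; ring_nf
    have hr3 : (Real.exp (-j) / δ) ^ 3 ≤ Real.exp (3 * A) := by
      calc (Real.exp (-j) / δ) ^ 3 ≤ Real.exp A ^ 3 := pow_le_pow_left₀ hr0 hr 3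
        _ = Real.exp (3 * A) := by rw [← Real.exp_nat_mul]; push_cast; ring_nf
    have he1 : Real.exp (-j) ^ 2 ≤ 1 := by
      apply pow_le_one₀ (Real.exp_pos _).le
      exact Real.exp_le_one_iff.mpr (by linarith)
    have hejj : Real.exp (-j) * Real.exp j = 1 := by rw [← Real.exp_add]; simp
    calc (Real.exp (-j) * Sh.M s) ^ 2 = Real.exp (-j) ^ 2 * Sh.M s ^ 2 := by ring
      _ ≤ Real.exp (-j) ^ 2 * (8192 / δ ^ 2 + 4 * (‖Sh.s9Wm‖ + 120 * (192 / (π * δ ^ 3) * I))) := by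
          gcongr
      _ = 8192 * (Real.exp (-j) / δ) ^ 2 + 4 * ‖Sh.s9Wm‖ * Real.exp (-j) ^ 2 +
            92160 / π * (Real.exp (-j) / δ) ^ 3 * ((Real.exp (-j) * Real.exp j) ^ 2 * Real.exp j * I)
              * (1 / (Real.exp (-j) * Real.exp j) ^ 3) := by
          rw [hejj]
          have hej : Real.exp (-j) ≠ 0 := (Real.exp_pos _).ne'
          have : Real.exp j = 1 / Real.exp (-j) := by
            rw [eq_div_iff hej, mul_comm]; exact hejj
          rw [this]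
          field_simp
          ring
      _ = 8192 * (Real.exp (-j) / δ) ^ 2 + 4 * ‖Sh.s9Wm‖ * Real.exp (-j) ^ 2 +
            92160 / π * (Real.exp (-j) / δ) ^ 3 * (Real.exp j * I) := by
          rw [hejj]; ring
      _ ≤ 8192 * Real.exp (2 * A) + 4 * ‖Sh.s9Wm‖ * 1 +
            92160 / π * Real.exp (3 * A) * (Real.exp j * I) := by
          gcongr
      _ ≤ C * (1 + Real.exp j * I) := by
          have hx : 0 ≤ Real.exp j * I := by positivity
          have h1 : 0 ≤ 8192 * Real.exp (2 * A) + 4 * ‖Sh.s9Wm‖ := by positivity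
          have h2 : 0 ≤ 92160 / π * Real.exp (3 * A) := by positivity
          rw [hC]
          nlinarith [mul_nonneg h1 hx]
  have hT : Sh.s8T A j x ≤ Real.sqrt (C * (1 + Real.exp j * I)) := by
    apply Sh.s8_T_le A j x _ (Real.sqrt_nonneg _)
    intro s hs
    exact Real.le_sqrt_of_sq_le (hmain s hs)
  have hT2 : Sh.s8T A j x ^ 2 ≤ C * (1 + Real.exp j * I) := by
    calc Sh.s8T A j x ^ 2 ≤ Real.sqrt (C * (1 + Real.exp j * I)) ^ 2 :=
          pow_le_pow_left₀ (Sh.s8_T_nonneg _ _ _) hT 2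
      _ = _ := Real.sq_sqrt (by positivity)
  rw [← ENNReal.ofReal_pow (Sh.s8_T_nonneg _ _ _)]
  calc ENNReal.ofReal (Sh.s8T A j x ^ 2) ≤ ENNReal.ofReal (C * (1 + Real.exp j * I)) :=
        ENNReal.ofReal_le_ofReal hT2
    _ = ENNReal.ofReal C * (1 + ENNReal.ofReal (Real.exp j) *
        Sh.s8Box A j (fun z => ENNReal.ofReal |Sh.s9P z|) x) := by
        rw [ENNReal.ofReal_mul hCpos.le, ENNReal.ofReal_add zero_le_one (by positivity),
          ENNReal.ofReal_one, ENNReal.ofReal_mul (Real.exp_pos _).le, hI, ENNReal.ofReal_toReal hfin]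

/-- the row integral of `|P|` at depth `δ` in terms of `s8P1`. -/
theorem s8_P_row (ν : Measure ℝ) (δ : ℝ) (hδ : 0 < δ) :
    ∫⁻ x, ENNReal.ofReal |Sh.s9P (Sh.s8pt x δ)| ∂ν = ENNReal.ofReal (1 / δ) * Sh.s8P1 ν (-Real.log δ) := by
  unfold Shape.s8P1
  rw [neg_neg, Real.exp_log hδ]
  simp only [ENNReal.ofReal_mul hδ.le]
  rw [lintegral_const_mul' _ _ ENNReal.ofReal_ne_top, ← mul_assoc, ← ENNReal.ofReal_mul (by positivity),
    one_div, inv_mul_cancel₀ hδ.ne', ENNReal.ofReal_one, one_mul]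

/-- **(S4)** quadratic tile moments from the first moments of `d_l |P|` on the neighbouring rows. -/
theorem s8_tile_of_P (hH : Sh.H ≠ ⊤) (A : ℝ) (hA : 1 ≤ A) :
    ∃ C : ℝ, 0 < C ∧ ∀ (ν : Measure ℝ) (ka : ℝ) (CT : ℝ → ℝ) (Z j : ℝ), S8Adm ν ka CT → 0 ≤ Z →
      Sh.s9k0 ≤ j → ka + A ≤ j →
      (∀ l ∈ Icc (j - A - 1) (j + A + 1), Sh.s8P1 ν l ≤ ENNReal.ofReal Z) →
      Sh.s8T2 ν A j ≤ ENNReal.ofReal (C * (1 + CT (A + 1) * Z)) := by
  obtain ⟨Cd, hCd, hd⟩ := Sh.s8_T_le_boxP hH A hA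
  have hA0 : 0 < A + 1 := by linarith
  have hΛ1 : 1 ≤ 8 * (A + 1) * Real.exp (3 * A) := by
    have : 1 ≤ Real.exp (3 * A) := Real.one_le_exp (by linarith)
    nlinarith
  refine ⟨Cd * (8 * (A + 1) * Real.exp (3 * A)), by positivity, ?_⟩
  intro ν ka CT Z j hν hZ hj hkaj hP
  have hprob := hν.prob
  have hCT : 1 ≤ CT (A + 1) := hν.one_le (A + 1) hA0.le
  set F : ℂ → ℝ≥0∞ := fun z => ENNReal.ofReal |Sh.s9P z| with hF
  have hFm : Measurable (Sh.D.indicator F) := Sh.s8_meas_ind (fun z => |Sh.s9P z|) Sh.s8_P_cont.abs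
  have hFper : ∀ z ∈ Sh.D, F (z + 2 * π) = F z := by
    intro z hz
    simp only [hF, Sh.s8_P_per z hz]
  have hw : s8w A j ≤ (A + 1) * Real.exp (-ka) := by
    unfold s8w
    rw [mul_assoc, ← Real.exp_add]
    gcongr
    linarith
  have hrow : ∀ δ ∈ Icc (s8lo A j) (Sh.s8hi A j), ∫⁻ x, F (Sh.s8pt x δ) ∂ν ≤
      ENNReal.ofReal (2 * Real.exp A * Real.exp j * Z) := by
    intro δ hδ
    have hlo : 0 < s8lo A j := by unfold s8lo; positivity
    have hδ0 : 0 < δ := lt_of_lt_of_le hlo hδ.1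
    have hhi : δ ≤ 2 * Real.exp A * Real.exp (-j) := hδ.2.trans (min_le_left _ _)
    have hlog2 : Real.log 2 < 1 := by
      have := Real.log_two_lt_d9
      linarith
    have hl1 : j - A - 1 ≤ -Real.log δ := by
      have : Real.log δ ≤ Real.log (2 * Real.exp A * Real.exp (-j)) := Real.log_le_log hδ0 hhi
      rw [Real.log_mul (by positivity) (by positivity), Real.log_mul (by norm_num) (by positivity),
        Real.log_exp, Real.log_exp] at this
      linarith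
    have hl2 : -Real.log δ ≤ j + A + 1 := by
      have : Real.log (s8lo A j) ≤ Real.log δ := Real.log_le_log hlo hδ.1
      unfold s8lo at this
      rw [Real.log_div (by positivity) (by norm_num), Real.log_mul (by positivity) (by positivity),
        Real.log_exp, Real.log_exp] at this
      linarith
    have h1 : ∫⁻ x, F (Sh.s8pt x δ) ∂ν = ENNReal.ofReal (1 / δ) * Sh.s8P1 ν (-Real.log δ) :=
      Sh.s8_P_row ν δ hδ0
    rw [h1]
    calc ENNReal.ofReal (1 / δ) * Sh.s8P1 ν (-Real.log δ)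
        ≤ ENNReal.ofReal (2 * Real.exp A * Real.exp j) * ENNReal.ofReal Z := by
          gcongr
          · have : 1 / δ ≤ 1 / s8lo A j := one_div_le_one_div_of_le hlo hδ.1
            refine this.trans (le_of_eq ?_)
            unfold s8lo
            rw [Real.exp_neg, Real.exp_neg]
            field_simp
          · exact hP _ ⟨hl1, hl2⟩
      _ = _ := (ENNReal.ofReal_mul (by positivity)).symm
  have hbox := Sh.s8_box_int_le hH ν ka CT hν A j (A + 1) hA hA0.le hw F hFm hFper _ hrow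
  unfold Shape.s8T2
  calc ∫⁻ x, ENNReal.ofReal (Sh.s8T A j x) ^ 2 ∂ν
      ≤ ∫⁻ x, ENNReal.ofReal Cd * (1 + ENNReal.ofReal (Real.exp j) * Sh.s8Box A j F x) ∂ν :=
        lintegral_mono (fun x => hd j hj x)
    _ = ENNReal.ofReal Cd * (1 + ENNReal.ofReal (Real.exp j) * ∫⁻ x, Sh.s8Box A j F x ∂ν) := by
        rw [lintegral_const_mul' _ _ ENNReal.ofReal_ne_top, lintegral_add_left measurable_const,
          lintegral_const_mul' _ _ ENNReal.ofReal_ne_top]
        simp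
    _ ≤ ENNReal.ofReal Cd * (1 + ENNReal.ofReal (Real.exp j) *
          (ENNReal.ofReal (4 * (A + 1) * Real.exp (2 * A) * Real.exp (-(2 * j)) * CT (A + 1)) *
            ENNReal.ofReal (2 * Real.exp A * Real.exp j * Z))) := by
        gcongr
    _ = ENNReal.ofReal (Cd * (1 + 8 * (A + 1) * Real.exp (3 * A) * (CT (A + 1) * Z))) := by
        rw [← ENNReal.ofReal_mul (by positivity), ← ENNReal.ofReal_mul (by positivity),
          ← ENNReal.ofReal_one, ← ENNReal.ofReal_add zero_le_one (by positivity),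
          ← ENNReal.ofReal_mul hCd.le]
        congr 2
        have e1 : Real.exp (3 * A) = Real.exp (2 * A) * Real.exp A := by rw [← Real.exp_add]; ring_nf
        have e2 : Real.exp j * Real.exp (-(2 * j)) * Real.exp j = 1 := by
          rw [← Real.exp_add, ← Real.exp_add]; ring_nf; simp
        rw [e1]
        calc 1 + Real.exp j * (4 * (A + 1) * Real.exp (2 * A) * Real.exp (-(2 * j)) * CT (A + 1) *
              (2 * Real.exp A * Real.exp j * Z))
            = 1 + 8 * (A + 1) * (Real.exp (2 * A) * Real.exp A) * (CT (A + 1) * Z) *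
              (Real.exp j * Real.exp (-(2 * j)) * Real.exp j) := by ring
          _ = _ := by rw [e2, mul_one]
    _ ≤ ENNReal.ofReal (Cd * (8 * (A + 1) * Real.exp (3 * A)) * (1 + CT (A + 1) * Z)) := by
        apply ENNReal.ofReal_le_ofReal
        have hx : 0 ≤ CT (A + 1) * Z := by positivity
        rw [mul_assoc Cd]
        apply mul_le_mul_of_nonneg_left _ hCd.le
        nlinarith

end Shape

end Claimed.Agent.R269
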