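/-
Row 269, P1 Section 8: **THE QUADRATIC BOOTSTRAP** in abstract form: it contains the `L²` part of Theorem 8.4 (`ν = s8nu0`, see Unif.lean) and Proposition 8.5 (`ν = K_{d_a} * ω`, see Weight.lean).   Blueprint: helper48.
LEAF PACKAGES (fill IN PLACE):
  LF-S8-boot-a : `s8_boot_step`
  LF-S8-boot-b : `s8_boot`
Black boxes: `s8_Pm_le` (OneSided.lean), `s8_tile_of_P` (TileD.lean), `s8_T_fin`, `s8_T_mono`, `s8_T_level`, `s8_T_meas` (TileA.lean), `s8_P1_eq` (BasicB.lean), `S8Env.near`, `S8Adm.one_le` (BasicC.lean), `s8_bootstrap_close` (LibDisk.lean), `s8_m_mem`.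

DATA: an envelope `N` (`S8Env β a N`, `S8FM C₁ N`, `S8Fin N`), a probability `ν` comparable with its translates by `O(e^{-ka})` (`S8Adm ν ka CT`),
  (Co) coarse bounds: `T2 ν A' j ≤ (Cc N j)²` for `k₀ ≤ j ≤ ka + 3`,
  (Ba) balance:       `∫ d_j P⁺ dν ≤ Cb (∫ d_j P⁻ dν + N(j)²)` for `j ≥ ka + 1`.
The bootstrap variable is the family of tile norms of the aperture `A₂ = max A₁ A` (`A₁` from `s8_Pm_le`); `A' = 2 A₂`.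

PROOF of `s8_boot_step`.  `A₁ C₂ k₁` from `s8_Pm_le`; `ka₀ = k₁`.  Given `A₂ ≥ A₁` let `C₄` be the constant of `s8_tile_of_P` for the aperture `A₂`.  W.l.o.g. `Cb ≥ 0`, `Cc ≥ 0` (replace by `max · 0`).  Let `Y ≥ 1` with `T2 ν A₂ l ≤ (Y N l)²` for all `l ≥ k₀`; `m = s8m a`.
 (i)   `T2 ν A₁ l ≤ T2 ν A₂ l` (`s8_T_mono`), so `Pm ν k ≤ C₂ N(k)² (1+Y)^m ≤ 4 C₂ N(k)² Y^m` for `k ≥ ka + 1 ≥ k₁`  (`(1+Y)^m ≤ (2Y)^m ≤ 4 Y^m`).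
 (ii)  `P1 ν k = Pp + Pm ≤ (Cb + 1) Pm + Cb N(k)² ≤ C₇ (1 + Y^m) N(k)²`, `C₇ = 4 (Cb+1) C₂ + Cb`, for `k ≥ ka + 1`.   [second conclusion]
 (iii) `j ≥ ka + A₂ + 2`: every `l ∈ [j-A₂-1, j+A₂+1]` is `≥ ka + 1`, and `N(l)² ≤ e^{2(β+a)(A₂+1)} N(j)²`: `s8_tile_of_P` with `Z = C₇ (1+Y^m) e^{2(β+a)(A₂+1)} N(j)²`:  `T2 ν A₂ j ≤ C₄ (1 + CT(A₂+1) Z) ≤ C₅ (1+Y^m) N(j)²`,
       `C₅ = C₄ (1 + CT(A₂+1) C₇ e^{2(β+a)(A₂+1)})`  (`N ≥ 1`, `CT ≥ 1`).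
 (iv)  `k₀ ≤ j ≤ ka + 3`: (Co) and `A₂ ≤ 2A₂`.
 (v)   `ka + 3 ≤ j ≤ ka + A₂ + 2`: `T A₂ j x ≤ e^{(ka+3)-j} T (A₂ + |j-(ka+3)|) (ka+3) x ≤ T (2A₂) (ka+3) x` (`s8_T_level`, `s8_T_mono`), so `T2 ν A₂ j ≤ (Cc N(ka+3))² ≤ (Cc e^{β A₂} N j)²` (`S8Env.back`).
 Take `C₆ = max C₅ (Cc² e^{2βA₂})`.
PROOF of `s8_boot`.  `A₂ = max A₁ A`, `F j = sqrt ((T2 ν A₂ j).toReal)/N j` on the index type `{j // k₀ ≤ j}`.  `T2 ν A₂ j ≤ (Y₀ N j)² < ⊤` by `s8_T_fin` (probability measure), so `F ≤ Y₀` and `T2 ν A₂ j ≤ ofReal ((Y N j)²) ⇔ F j ≤ Y` for `Y ≥ 0`.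
 `s8_bootstrap_close` with `C = C₆`, `m = s8m a`: `F j ≤ C' := max 1 ((2 C₆)^{1/(2-m)})`.  First conclusion: `s8_T_mono` (`A ≤ A₂`).  Second: (ii) with `Y = C'`.
-/
import Claimed.Agent.R269.S8.OneSided
import Claimed.Agent.R269.S8.TileD

set_option autoImplicit false

namespace Claimed.Agent.R269

open Complex ComplexConjugate Filter Topology MeasureTheory Set Metric
open scoped ENNReal Real

namespace Shape

variable (Sh : Shape)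

theorem s8bt_T2_mono (hH : Sh.H ≠ ⊤) (ν : Measure ℝ) (A A' j : ℝ) (hA : 0 ≤ A) (hAA : A ≤ A') :
    Sh.s8T2 ν A j ≤ Sh.s8T2 ν A' j := by
  unfold Shape.s8T2
  apply lintegral_mono
  intro x
  exact pow_le_pow_left₀ zero_le (ENNReal.ofReal_le_ofReal (Sh.s8_T_mono hH A A' j x hA hAA)) 2

theorem s8bt_T2_level (hH : Sh.H ≠ ⊤) (ν : Measure ℝ) (A j j₀ : ℝ) (hA : 0 ≤ A) (h1 : j₀ ≤ j)
    (h2 : j ≤ j₀ + A) : Sh.s8T2 ν A j ≤ Sh.s8T2 ν (2 * A) j₀ := by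
  unfold Shape.s8T2
  apply lintegral_mono
  intro x
  refine pow_le_pow_left₀ zero_le (ENNReal.ofReal_le_ofReal ?_) 2
  have h3 := Sh.s8_T_level hH A j j₀ x hA
  have h4 : A + |j - j₀| ≤ 2 * A := by
    rw [abs_of_nonneg (by linarith)]; linarith
  have h5 := Sh.s8_T_mono hH (A + |j - j₀|) (2 * A) j₀ x (by positivity) h4
  have h6 : Real.exp (j₀ - j) ≤ 1 := Real.exp_le_one_iff.mpr (by linarith)
  calc Sh.s8T A j x ≤ Real.exp (j₀ - j) * Sh.s8T (A + |j - j₀|) j₀ x := h3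
    _ ≤ 1 * Sh.s8T (2 * A) j₀ x := by
        gcongr
        exact Sh.s8_T_nonneg _ _ _
    _ = _ := one_mul _

/-- one step of the bootstrap: `C_*² ≤ C (1 + C_*^m)`. -/
theorem s8_boot_step (hH : Sh.H ≠ ⊤) (β a : ℝ) (C₁ : ℝ → ℝ) (hβ : 0 ≤ β) (hβ' : β < 1 / 2) (ha : 0 ≤ a) :
    ∃ ka₀ A₁ : ℝ, Sh.s9k0 ≤ ka₀ ∧ 1 ≤ A₁ ∧ ∀ A₂ ≥ A₁, ∀ (CT : ℝ → ℝ) (Cb Cc : ℝ), ∃ C₆ C₇ : ℝ, 0 < C₆ ∧ 0 < C₇ ∧
      ∀ (N : ℝ → ℝ) (ν : Measure ℝ) (ka Y : ℝ), S8Env β a N → ka₀ ≤ ka → S8Adm ν ka CT → Sh.S8FM C₁ N →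
        (∀ j ∈ Icc Sh.s9k0 (ka + 3), Sh.s8T2 ν (2 * A₂) j ≤ ENNReal.ofReal ((Cc * N j) ^ 2)) →
        (∀ j ≥ ka + 1, Sh.s8Pp ν j ≤ ENNReal.ofReal Cb * (Sh.s8Pm ν j + ENNReal.ofReal (N j ^ 2))) →
        1 ≤ Y → (∀ l ≥ Sh.s9k0, Sh.s8T2 ν A₂ l ≤ ENNReal.ofReal ((Y * N l) ^ 2)) →
        (∀ j ≥ Sh.s9k0, Sh.s8T2 ν A₂ j ≤ ENNReal.ofReal (C₆ * (1 + Y ^ s8m a) * N j ^ 2)) ∧
          (∀ j ≥ ka + 1, Sh.s8P1 ν j ≤ ENNReal.ofReal (C₇ * (1 + Y ^ s8m a) * N j ^ 2)) := by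
  obtain ⟨A₁, C₂, k₁, hA₁, hC₂, hk₁, hPm⟩ := Sh.s8_Pm_le hH β a C₁ hβ hβ' ha
  refine ⟨k₁, A₁, hk₁, hA₁, ?_⟩
  intro A₂ hA₂ CT Cb Cc
  have hA₂1 : 1 ≤ A₂ := hA₁.trans hA₂
  obtain ⟨C₄, hC₄, htile⟩ := Sh.s8_tile_of_P hH A₂ hA₂1
  obtain ⟨hm1, hm2⟩ := s8_m_mem a ha
  set m := s8m a with hm
  set Cb' := max Cb 0 with hCb'
  have hCb'0 : 0 ≤ Cb' := le_max_right _ _
  set C₇ := 4 * (Cb' + 1) * C₂ + Cb' with hC₇
  have hC₇0 : 0 < C₇ := by positivity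
  set E := Real.exp (2 * (β + a) * (A₂ + 1)) with hE
  have hE0 : 0 < E := Real.exp_pos _
  set C₅ := C₄ * (1 + |CT (A₂ + 1)| * C₇ * E) with hC₅
  have hC₅0 : 0 < C₅ := by positivity
  set C₆ := max C₅ (Cc ^ 2 * Real.exp (2 * β * A₂)) with hC₆
  have hC₆0 : 0 < C₆ := lt_max_of_lt_left hC₅0
  refine ⟨C₆, C₇, hC₆0, hC₇0, ?_⟩
  intro N ν ka Y hN hka hν hFM hCo hBa hY hall
  have hprob := hν.prob
  have hNpos : ∀ j, 0 < N j := fun j => lt_of_lt_of_le one_pos (hN.one_le j)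
  have hY0 : 0 ≤ Y := by linarith
  have hYm1 : 1 ≤ Y ^ m := Real.one_le_rpow hY (by linarith)
  have hYm0 : 0 < Y ^ m := by linarith
  have hkak0 : Sh.s9k0 ≤ ka := hk₁.trans hka
  -- (i)
  have hallA₁ : ∀ l ≥ Sh.s9k0, Sh.s8T2 ν A₁ l ≤ ENNReal.ofReal ((Y * N l) ^ 2) :=
    fun l hl => (Sh.s8bt_T2_mono hH ν A₁ A₂ l (by linarith) hA₂).trans (hall l hl)
  have h1Y : (1 + Y) ^ m ≤ 4 * Y ^ m := by
    calc (1 + Y) ^ m ≤ (2 * Y) ^ m := Real.rpow_le_rpow (by linarith) (by linarith) (by linarith)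
      _ = 2 ^ m * Y ^ m := Real.mul_rpow (by norm_num) hY0
      _ ≤ 2 ^ (2 : ℝ) * Y ^ m := by
          gcongr
          · norm_num
      _ = 4 * Y ^ m := by norm_num
  have hi : ∀ k ≥ ka + 1, Sh.s8Pm ν k ≤ ENNReal.ofReal (4 * C₂ * N k ^ 2 * Y ^ m) := by
    intro k hk
    refine (hPm N ν Y k hN hFM hprob hY0 (by linarith) hallA₁).trans (ENNReal.ofReal_le_ofReal ?_)
    have : 0 ≤ C₂ * N k ^ 2 := by positivity
    calc C₂ * N k ^ 2 * (1 + Y) ^ m ≤ C₂ * N k ^ 2 * (4 * Y ^ m) := by gcongr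
      _ = _ := by ring
  -- (ii)
  have hii : ∀ k ≥ ka + 1, Sh.s8P1 ν k ≤ ENNReal.ofReal (C₇ * (1 + Y ^ m) * N k ^ 2) := by
    intro k hk
    have hkk0 : Sh.s9k0 ≤ k := by linarith
    rw [Sh.s8_P1_eq hH ν k hkk0]
    have hX := hi k hk
    have hN2 : 0 ≤ N k ^ 2 := by positivity
    calc Sh.s8Pp ν k + Sh.s8Pm ν k
        ≤ ENNReal.ofReal Cb * (Sh.s8Pm ν k + ENNReal.ofReal (N k ^ 2)) + Sh.s8Pm ν k := by
          gcongr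
          exact hBa k hk
      _ ≤ ENNReal.ofReal Cb' * (ENNReal.ofReal (4 * C₂ * N k ^ 2 * Y ^ m) + ENNReal.ofReal (N k ^ 2)) +
            ENNReal.ofReal (4 * C₂ * N k ^ 2 * Y ^ m) := by
          gcongr
          exact le_max_left _ _
      _ = ENNReal.ofReal (Cb' * (4 * C₂ * N k ^ 2 * Y ^ m + N k ^ 2) + 4 * C₂ * N k ^ 2 * Y ^ m) := by
          rw [← ENNReal.ofReal_add (by positivity) hN2, ← ENNReal.ofReal_mul hCb'0,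
            ← ENNReal.ofReal_add (by positivity) (by positivity)]
      _ ≤ _ := by
          apply ENNReal.ofReal_le_ofReal
          have h1 : Cb' * (4 * C₂ * N k ^ 2 * Y ^ m + N k ^ 2) + 4 * C₂ * N k ^ 2 * Y ^ m =
              (Cb' * 4 * C₂ * Y ^ m + Cb' + 4 * C₂ * Y ^ m) * N k ^ 2 := by ring
          rw [h1]
          gcongr
          rw [hC₇]
          have h2 : 0 ≤ Cb' * C₂ := by positivity
          have h3 : 0 ≤ Cb' * Y ^ m := by positivity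
          nlinarith
  refine ⟨?_, hii⟩
  intro j hj
  have hN2 : 0 ≤ N j ^ 2 := by positivity
  have hN21 : 1 ≤ N j ^ 2 := one_le_pow₀ (hN.one_le j)
  have hfac : 1 ≤ (1 + Y ^ m) * N j ^ 2 := by nlinarith
  have hCcC₆ : Cc ^ 2 * Real.exp (2 * β * A₂) ≤ C₆ := le_max_right _ _
  have hcoarse : ∀ X : ℝ, X ≤ Cc ^ 2 * Real.exp (2 * β * A₂) * N j ^ 2 →
      X ≤ C₆ * (1 + Y ^ m) * N j ^ 2 := by
    intro X hX
    calc X ≤ Cc ^ 2 * Real.exp (2 * β * A₂) * N j ^ 2 := hX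
      _ ≤ C₆ * N j ^ 2 := by gcongr
      _ ≤ C₆ * (1 + Y ^ m) * N j ^ 2 := by
          gcongr
          nlinarith
  rcases le_total j (ka + 3) with hj3 | hj3
  · -- (iv)
    refine (Sh.s8bt_T2_mono hH ν A₂ (2 * A₂) j (by linarith) (by linarith)).trans ?_
    refine (hCo j ⟨hj, hj3⟩).trans (ENNReal.ofReal_le_ofReal (hcoarse _ ?_))
    have : 1 ≤ Real.exp (2 * β * A₂) := Real.one_le_exp (by positivity)
    rw [mul_pow]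
    have h0 : 0 ≤ Cc ^ 2 * N j ^ 2 := by positivity
    nlinarith
  rcases le_total j (ka + A₂ + 2) with hj2 | hj2
  · -- (v)
    refine (Sh.s8bt_T2_level hH ν A₂ j (ka + 3) (by linarith) hj3 (by linarith)).trans ?_
    refine (hCo (ka + 3) ⟨by linarith, le_rfl⟩).trans (ENNReal.ofReal_le_ofReal (hcoarse _ ?_))
    have hback : N (ka + 3) ≤ N j * Real.exp (β * (j - (ka + 3))) := hN.back _ _ hj3
    have hexp : Real.exp (β * (j - (ka + 3))) ≤ Real.exp (β * A₂) := by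
      apply Real.exp_le_exp.mpr
      gcongr
      linarith
    have h1 : N (ka + 3) ≤ N j * Real.exp (β * A₂) := hback.trans (by gcongr; exact (hNpos j).le)
    have h2 : N (ka + 3) ^ 2 ≤ N j ^ 2 * Real.exp (2 * β * A₂) := by
      calc N (ka + 3) ^ 2 ≤ (N j * Real.exp (β * A₂)) ^ 2 := pow_le_pow_left₀ (hNpos _).le h1 2
        _ = N j ^ 2 * Real.exp (2 * β * A₂) := by
            rw [mul_pow, ← Real.exp_nat_mul]; push_cast; ring_nf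
    calc (Cc * N (ka + 3)) ^ 2 = Cc ^ 2 * N (ka + 3) ^ 2 := by ring
      _ ≤ Cc ^ 2 * (N j ^ 2 * Real.exp (2 * β * A₂)) := by gcongr
      _ = _ := by ring
  · -- (iii)
    have hCT1 : 1 ≤ CT (A₂ + 1) := hν.one_le (A₂ + 1) (by linarith)
    have hCTabs : |CT (A₂ + 1)| = CT (A₂ + 1) := abs_of_nonneg (by linarith)
    set Z := C₇ * (1 + Y ^ m) * E * N j ^ 2 with hZ
    have hZ0 : 0 ≤ Z := by positivity
    have hrows : ∀ l ∈ Icc (j - A₂ - 1) (j + A₂ + 1), Sh.s8P1 ν l ≤ ENNReal.ofReal Z := by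
      intro l hl
      refine (hii l (by linarith [hl.1])).trans (ENNReal.ofReal_le_ofReal ?_)
      have hnear := hN.near hβ ha l j
      have habs : |l - j| ≤ A₂ + 1 := abs_le.mpr ⟨by linarith [hl.1], by linarith [hl.2]⟩
      have h1 : N l ≤ N j * Real.exp ((β + a) * (A₂ + 1)) := by
        refine hnear.trans ?_
        gcongr
        exact (hNpos j).le
      have h2 : N l ^ 2 ≤ N j ^ 2 * E := by
        calc N l ^ 2 ≤ (N j * Real.exp ((β + a) * (A₂ + 1))) ^ 2 := pow_le_pow_left₀ (hNpos _).le h1 2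
          _ = N j ^ 2 * E := by
              rw [mul_pow, ← Real.exp_nat_mul, hE]; push_cast; ring_nf
      calc C₇ * (1 + Y ^ m) * N l ^ 2 ≤ C₇ * (1 + Y ^ m) * (N j ^ 2 * E) := by gcongr
        _ = Z := by rw [hZ]; ring
    refine (htile ν ka CT Z j hν hZ0 hj (by linarith) hrows).trans (ENNReal.ofReal_le_ofReal ?_)
    have hC₅C₆ : C₅ ≤ C₆ := le_max_left _ _
    calc C₄ * (1 + CT (A₂ + 1) * Z)
        = C₄ * (1 + CT (A₂ + 1) * C₇ * E * ((1 + Y ^ m) * N j ^ 2)) := by rw [hZ]; ring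
      _ ≤ C₄ * ((1 + Y ^ m) * N j ^ 2 + CT (A₂ + 1) * C₇ * E * ((1 + Y ^ m) * N j ^ 2)) := by gcongr
      _ = C₅ * (1 + Y ^ m) * N j ^ 2 := by rw [hC₅, hCTabs]; ring
      _ ≤ C₆ * (1 + Y ^ m) * N j ^ 2 := by gcongr


/-- **the abstract quadratic bootstrap.** -/
theorem s8_boot (hH : Sh.H ≠ ⊤) (β a : ℝ) (C₁ : ℝ → ℝ) (hβ : 0 ≤ β) (hβ' : β < 1 / 2) (ha : 0 ≤ a) :
    ∃ ka₀ : ℝ, Sh.s9k0 ≤ ka₀ ∧ ∀ A ≥ (1 : ℝ), ∃ A' : ℝ, 1 ≤ A' ∧ ∀ (CT : ℝ → ℝ) (Cb Cc : ℝ), ∃ C' CP : ℝ,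
      0 < C' ∧ 0 < CP ∧
      ∀ (N : ℝ → ℝ) (ν : Measure ℝ) (ka : ℝ), S8Env β a N → ka₀ ≤ ka → S8Adm ν ka CT → Sh.S8FM C₁ N →
        Sh.S8Fin N →
        (∀ j ∈ Icc Sh.s9k0 (ka + 3), Sh.s8T2 ν A' j ≤ ENNReal.ofReal ((Cc * N j) ^ 2)) →
        (∀ j ≥ ka + 1, Sh.s8Pp ν j ≤ ENNReal.ofReal Cb * (Sh.s8Pm ν j + ENNReal.ofReal (N j ^ 2))) →
        (∀ j ≥ Sh.s9k0, Sh.s8T2 ν A j ≤ ENNReal.ofReal ((C' * N j) ^ 2)) ∧
          (∀ j ≥ ka + 1, Sh.s8P1 ν j ≤ ENNReal.ofReal (CP * N j ^ 2)) := by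
  obtain ⟨ka₀, A₁, hka₀, hA₁, hstep⟩ := Sh.s8_boot_step hH β a C₁ hβ hβ' ha
  refine ⟨ka₀, hka₀, ?_⟩
  intro A hA
  have hA₂ : (1 : ℝ) ≤ max A₁ A := le_trans hA₁ (le_max_left _ _)
  refine ⟨2 * max A₁ A, by linarith, ?_⟩
  intro CT Cb Cc
  obtain ⟨C₆, C₇, hC₆, hC₇, hs⟩ := hstep (max A₁ A) (le_max_left _ _) CT Cb Cc
  obtain ⟨hm1, hm2⟩ := s8_m_mem a ha
  have hm0 : 0 ≤ s8m a := by linarith
  have hC'1 : (1 : ℝ) ≤ max 1 ((2 * C₆) ^ (1 / (2 - s8m a))) := le_max_left _ _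
  have hC'0 : (0 : ℝ) < max 1 ((2 * C₆) ^ (1 / (2 - s8m a))) := by linarith
  refine ⟨max 1 ((2 * C₆) ^ (1 / (2 - s8m a))),
    C₇ * (1 + (max 1 ((2 * C₆) ^ (1 / (2 - s8m a)))) ^ s8m a), hC'0, by positivity, ?_⟩
  intro N ν ka hN hka hν hFM hFin hCo hBa
  have hprob := hν.prob
  obtain ⟨Y₀, hY₀, hfin⟩ := Sh.s8_T_fin hH β a hβ ha N hN hFin (max A₁ A) (by linarith)
  have hNpos : ∀ j, 0 < N j := fun j => lt_of_lt_of_le one_pos (hN.one_le j)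
  -- finiteness
  have hT2fin : ∀ j ≥ Sh.s9k0, Sh.s8T2 ν (max A₁ A) j ≤ ENNReal.ofReal ((Y₀ * N j) ^ 2) := by
    intro j hj
    unfold Shape.s8T2
    calc ∫⁻ x, ENNReal.ofReal (Sh.s8T (max A₁ A) j x) ^ 2 ∂ν
        ≤ ∫⁻ _x, ENNReal.ofReal ((Y₀ * N j) ^ 2) ∂ν := by
          apply lintegral_mono
          intro x
          show ENNReal.ofReal (Sh.s8T (max A₁ A) j x) ^ 2 ≤ ENNReal.ofReal ((Y₀ * N j) ^ 2)
          rw [← ENNReal.ofReal_pow (Sh.s8_T_nonneg _ _ _)]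
          exact ENNReal.ofReal_le_ofReal (pow_le_pow_left₀ (Sh.s8_T_nonneg _ _ _) (hfin j hj x) 2)
      _ = ENNReal.ofReal ((Y₀ * N j) ^ 2) := by simp
  have hne : ∀ j ≥ Sh.s9k0, Sh.s8T2 ν (max A₁ A) j ≠ ⊤ := fun j hj =>
    ne_top_of_le_ne_top ENNReal.ofReal_ne_top (hT2fin j hj)
  -- the bootstrap family
  let F : {j : ℝ // Sh.s9k0 ≤ j} → ℝ := fun j => Real.sqrt ((Sh.s8T2 ν (max A₁ A) j.1).toReal) / N j.1
  have key1 : ∀ (j : {j : ℝ // Sh.s9k0 ≤ j}) (Y : ℝ), 0 ≤ Y → F j ≤ Y →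
      Sh.s8T2 ν (max A₁ A) j.1 ≤ ENNReal.ofReal ((Y * N j.1) ^ 2) := by
    intro j Y hY hF
    have h1 : Real.sqrt ((Sh.s8T2 ν (max A₁ A) j.1).toReal) ≤ Y * N j.1 := (div_le_iff₀ (hNpos _)).mp hF
    have h2 : (Sh.s8T2 ν (max A₁ A) j.1).toReal ≤ (Y * N j.1) ^ 2 :=
      (Real.sqrt_le_left (by have := (hNpos j.1).le; positivity)).mp h1
    rw [← ENNReal.ofReal_toReal (hne j.1 j.2)]
    exact ENNReal.ofReal_le_ofReal h2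
  have key2 : ∀ (j : {j : ℝ // Sh.s9k0 ≤ j}) (Z : ℝ), 0 ≤ Z →
      Sh.s8T2 ν (max A₁ A) j.1 ≤ ENNReal.ofReal (Z * N j.1 ^ 2) → F j ^ 2 ≤ Z := by
    intro j Z hZ h
    have h1 : (Sh.s8T2 ν (max A₁ A) j.1).toReal ≤ Z * N j.1 ^ 2 :=
      ENNReal.toReal_le_of_le_ofReal (by positivity) h
    show (Real.sqrt ((Sh.s8T2 ν (max A₁ A) j.1).toReal) / N j.1) ^ 2 ≤ Z
    rw [div_pow, Real.sq_sqrt ENNReal.toReal_nonneg, div_le_iff₀ (pow_pos (hNpos _) 2)]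
    exact h1
  have hFnn : ∀ j, 0 ≤ F j := fun j => div_nonneg (Real.sqrt_nonneg _) (hNpos _).le
  have hFbd : ∃ Y, ∀ j, F j ≤ Y := by
    refine ⟨Y₀, fun j => ?_⟩
    have h := key2 j (Y₀ ^ 2) (by positivity) (by rw [← mul_pow]; exact hT2fin j.1 j.2)
    exact abs_le_of_sq_le_sq' h hY₀ |>.2
  have hclose := s8_bootstrap_close F C₆ (s8m a) hC₆.le hm0 hm2 hFnn hFbd (by
    intro Y hY hFY j
    have hall : ∀ l ≥ Sh.s9k0, Sh.s8T2 ν (max A₁ A) l ≤ ENNReal.ofReal ((Y * N l) ^ 2) :=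
      fun l hl => key1 ⟨l, hl⟩ Y (by linarith) (hFY ⟨l, hl⟩)
    have h := (hs N ν ka Y hN hka hν hFM hCo hBa hY hall).1 j.1 j.2
    exact key2 j _ (by positivity) h)
  have hall : ∀ l ≥ Sh.s9k0, Sh.s8T2 ν (max A₁ A) l ≤
      ENNReal.ofReal ((max 1 ((2 * C₆) ^ (1 / (2 - s8m a))) * N l) ^ 2) :=
    fun l hl => key1 ⟨l, hl⟩ _ hC'0.le (hclose ⟨l, hl⟩)
  refine ⟨?_, ?_⟩
  · intro j hj
    refine le_trans ?_ (hall j hj)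
    unfold Shape.s8T2
    apply lintegral_mono
    intro x
    have := Sh.s8_T_mono hH A (max A₁ A) j x (by linarith) (le_max_right _ _)
    exact pow_le_pow_left₀ zero_le (ENNReal.ofReal_le_ofReal this) 2
  · exact (hs N ν ka _ hN hka hν hFM hCo hBa hC'1 hall).2

end Shape

end Claimed.Agent.R269
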