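/-
Row 269, P1 Section 8: **Theorem 8.4, (8.16)** (the unweighted quadratic bootstrap, with tile versions).   Blueprint: helper48.
LEAF PACKAGE LF-S8-unif (this file; fill IN PLACE).
Black boxes: `s8_boot` (Boot.lean), `s8_nu0_adm`, `s8_nu0_prob` (BasicC.lean), `s8_Pp_eq_Pm`, `s8_P_cont`, `s8_P_per` (BasicB.lean), `s8_T_low`, `s8_mu_le_of_T2` (TileA.lean).

PROOF of `s8_boot_unif`.  `ka₀` from `s8_boot`, then `A'` for the given `A`.  Use `ν = s8nu0`, `ka = ka₀`, `CT = fun _ => 1`, `Cb = 1`, `Cc = M₀` = the constant of `s8_T_low hH A' (ka₀+3)`: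
 (Co): `T A' j x ≤ M₀ ≤ M₀ N j` pointwise, integrate over the probability measure;   (Ba): `Pp = Pm ≤ 1 * (Pm + ..)`.
This gives the tile bound for all `j ≥ k₀` and the bound of `P1` for `j ≥ ka₀ + 1`.  For `k₀ ≤ j ≤ ka₀ + 1`: `|P|` is continuous on `D` and periodic, hence bounded by some `P₀` on the compact set `[0,2π] × [0, Hr - e^{-(ka₀+1)}]` and so on all these rows;
`e^{-j} |P| ≤ P₀ ≤ P₀ N(j)²`.   `CP := max CP' P₀ (+1)`.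
`s8_mu_le`: `s8_mu_le_of_T2` with `A = 1`.
-/
import Claimed.Agent.R269.S8.Boot

set_option autoImplicit false

namespace Claimed.Agent.R269

open Complex ComplexConjugate Filter Topology MeasureTheory Set Metric
open scoped ENNReal Real

/-- an a.e. bound on `[0,2π)` bounds the integral against `s8nu0`. -/
theorem s8u_lint_le (g : ℝ → ℝ≥0∞) (B : ℝ≥0∞) (h : ∀ x ∈ Ico (0 : ℝ) (2 * π), g x ≤ B) :
    ∫⁻ x, g x ∂s8nu0 ≤ B := by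
  have := s8_nu0_prob
  have h1 : ∫⁻ x, g x ∂s8nu0 ≤ ∫⁻ _x, B ∂s8nu0 := by
    rw [s8_nu0_lintegral, s8_nu0_lintegral]
    gcongr 1
    exact setLIntegral_mono' measurableSet_Ico h
  simpa using h1

namespace Shape

variable (Sh : Shape)

/-- `|P|` is bounded on the rows of a compact range of levels, over one period. -/
theorem s8u_P_low (hH : Sh.H ≠ ⊤) (K₁ : ℝ) :
    ∃ P₀ : ℝ, 0 ≤ P₀ ∧ ∀ j ∈ Icc Sh.s9k0 K₁, ∀ x ∈ Ico (0 : ℝ) (2 * π),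
      |Sh.s9P (Sh.s8pt x (Real.exp (-j)))| ≤ P₀ := by
  have hK : IsCompact (Icc (0 : ℝ) (2 * π) ×ˢ Icc Sh.s9k0 K₁) := isCompact_Icc.prod isCompact_Icc
  have hcont : ContinuousOn (fun p : ℝ × ℝ => Sh.s9P (Sh.s8pt p.1 (Real.exp (-p.2))))
      (Icc (0 : ℝ) (2 * π) ×ˢ Icc Sh.s9k0 K₁) := by
    refine Sh.s8_P_cont.comp ?_ ?_
    · apply Continuous.continuousOn
      unfold Shape.s8pt
      exact s8bc_cont_mk2 (by fun_prop) (by fun_prop)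
    · intro p hp
      have hj : Sh.s9k0 ≤ p.2 := hp.2.1
      have h0 := Sh.s8_k0 hH
      have hpos := Sh.s8_Hr_pos hH
      refine Sh.s8_pt_mem hH _ _ (Real.exp_pos _) ?_
      have : Real.exp (-p.2) ≤ Real.exp (-Sh.s9k0) := Real.exp_le_exp.mpr (by linarith)
      linarith [h0.2]
  obtain ⟨P₀, hP₀⟩ := hK.exists_bound_of_continuousOn hcont
  refine ⟨max P₀ 0, le_max_right _ _, ?_⟩
  intro j hj x hx
  have := hP₀ (x, j) ⟨⟨hx.1, hx.2.le⟩, hj⟩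
  simp only [Real.norm_eq_abs] at this
  exact this.trans (le_max_left _ _)

/-- **Theorem 8.4, (8.16)**, with suprema on every fixed tile. -/
theorem s8_boot_unif (hH : Sh.H ≠ ⊤) (β a : ℝ) (C₁ : ℝ → ℝ) (hβ : 0 ≤ β) (hβ' : β < 1 / 2) (ha : 0 ≤ a)
    (A : ℝ) (hA : 1 ≤ A) :
    ∃ C' CP : ℝ, 0 < C' ∧ 0 < CP ∧ ∀ N : ℝ → ℝ, S8Env β a N → Sh.S8FM C₁ N → Sh.S8Fin N →
      (∀ j ≥ Sh.s9k0, Sh.s8T2 s8nu0 A j ≤ ENNReal.ofReal ((C' * N j) ^ 2)) ∧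
        (∀ j ≥ Sh.s9k0, Sh.s8P1 s8nu0 j ≤ ENNReal.ofReal (CP * N j ^ 2)) := by
  obtain ⟨ka₀, hka₀, hb⟩ := Sh.s8_boot hH β a C₁ hβ hβ' ha
  obtain ⟨A', hA', hb'⟩ := hb A hA
  obtain ⟨M₀, hM₀, hlow⟩ := Sh.s8_T_low hH A' (ka₀ + 3)
  obtain ⟨C', CP, hC', hCP, hmain⟩ := hb' (fun _ => 1) 1 M₀
  obtain ⟨P₀, hP₀, hPlow⟩ := Sh.s8u_P_low hH (ka₀ + 1)
  refine ⟨C', max CP P₀, hC', lt_max_of_lt_left hCP, ?_⟩
  intro N hN hFM hFin
  have hk0 := (Sh.s8_k0 hH).1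
  have hCo : ∀ j ∈ Icc Sh.s9k0 (ka₀ + 3), Sh.s8T2 s8nu0 A' j ≤ ENNReal.ofReal ((M₀ * N j) ^ 2) := by
    intro j hj
    unfold Shape.s8T2
    refine s8u_lint_le _ _ ?_
    intro x _
    rw [← ENNReal.ofReal_pow (Sh.s8_T_nonneg _ _ _)]
    apply ENNReal.ofReal_le_ofReal
    have h1 : Sh.s8T A' j x ≤ M₀ * N j := by
      calc Sh.s8T A' j x ≤ M₀ := hlow j hj x
        _ = M₀ * 1 := (mul_one _).symm
        _ ≤ M₀ * N j := by gcongr; exact hN.one_le j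
    exact pow_le_pow_left₀ (Sh.s8_T_nonneg _ _ _) h1 2
  have hBa : ∀ j ≥ ka₀ + 1, Sh.s8Pp s8nu0 j ≤
      ENNReal.ofReal 1 * (Sh.s8Pm s8nu0 j + ENNReal.ofReal (N j ^ 2)) := by
    intro j hj
    rw [ENNReal.ofReal_one, one_mul, Sh.s8_Pp_eq_Pm hH j (by linarith)]
    exact le_self_add
  obtain ⟨h1, h2⟩ := hmain N s8nu0 ka₀ hN le_rfl (s8_nu0_adm ka₀) hFM hFin hCo hBa
  refine ⟨h1, ?_⟩
  intro j hj
  have hN1 : 1 ≤ N j ^ 2 := one_le_pow₀ (hN.one_le j)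
  rcases le_total (ka₀ + 1) j with hj' | hj'
  · refine (h2 j hj').trans (ENNReal.ofReal_le_ofReal ?_)
    gcongr
    exact le_max_left _ _
  · unfold Shape.s8P1
    refine s8u_lint_le _ _ ?_
    intro x hx
    apply ENNReal.ofReal_le_ofReal
    have h3 := hPlow j ⟨hj, hj'⟩ x hx
    have h4 : Real.exp (-j) ≤ 1 := Real.exp_le_one_iff.mpr (by linarith)
    calc Real.exp (-j) * |Sh.s9P (Sh.s8pt x (Real.exp (-j)))| ≤ 1 * P₀ := by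
          gcongr
      _ = P₀ * 1 := by ring
      _ ≤ max CP P₀ * N j ^ 2 := by
          gcongr
          exact le_max_right _ _

/-- `μ ≤ C N`. -/
theorem s8_mu_le (hH : Sh.H ≠ ⊤) (β a : ℝ) (C₁ : ℝ → ℝ) (hβ : 0 ≤ β) (hβ' : β < 1 / 2) (ha : 0 ≤ a) :
    ∃ C : ℝ, 0 < C ∧ ∀ N : ℝ → ℝ, S8Env β a N → Sh.S8FM C₁ N → Sh.S8Fin N →
      ∀ j ≥ Sh.s9k0, Sh.μ j ≤ C * N j := by
  obtain ⟨C', CP, hC', -, h⟩ := Sh.s8_boot_unif hH β a C₁ hβ hβ' ha 1 le_rfl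
  refine ⟨2 * C', by positivity, ?_⟩
  intro N hN hFM hFin j hj
  have h1 := (h N hN hFM hFin).1 j hj
  have hN0 : 0 ≤ N j := le_trans zero_le_one (hN.one_le j)
  have := Sh.s8_mu_le_of_T2 hH 1 j (C' * N j) zero_le_one hj (by positivity) h1
  linarith

end Shape

end Claimed.Agent.R269
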