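/-
Row 269, P1 Section 8: **Theorem 8.6 (no vanishing profile at one centre), quiet-cone form (8.24)**.   Blueprint: helper48.
LEAF PACKAGES (fill IN PLACE):
  LF-S8-quiet-a : `s8_quiet_width`      (step 1: a quiet cone forces a small real width; from `s8_onesided_pt`)
  LF-S8-quiet-b : `s8_Pm_split`         (the negative part of `P` in terms of the width at ONE real parameter)
  LF-S8-quiet-c : `s8_width_lower`      (QUANTITATIVE form of "the width estimate alone contradicts B = μ(k)": no sequences)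
  LF-S8-quiet-d : `s8_no_quiet_cone`    (= `s9i_no_quiet_cone` of S9/Imports.lean verbatim; filters only here)
Black boxes: `s8_onesided_pt` (LiftC.lean), `OneSided.lean` (`s8_onesided_cc`, `s8_neg_pt`, `s8_m_mem`, `s8_b1_mem`), `Cone.lean` (`s8_cc_le_sum`, `s8_cs_L2`, `s8_cs_meas`), `Unif.lean`, `TileC.lean` (`s8_FM_of_mu`), `TileD.lean` (`s8_tile_of_P`),
`TileA.lean` (`s8_mu_le_of_T2`), `BasicB.lean` (`s8_Pp_eq_Pm`, `s8_P1_eq`), `BasicC.lean`.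

PROOFS.
* `s8_quiet_width`.  `L ε₁ d₁ C₀` from `s8_onesided_pt hH α δb`.  Apply it with centre `x`, depth `c d ≤ d₁`, radius `r = 2 T₀ d/B ≤ c d/2`.  For `s` in the cone, `δ = dep s > 0`: the hypothesis gives `M s ≤ η (B/d) (d/δ)^α`, `η = ε₁ c^α/(2T₀)`, so
  `r M s ≤ 2 T₀ η (d/δ)^α = ε₁ (c d/δ)^α` (`Real.mul_rpow`, `Real.div_rpow`).  For `|T| ≤ T₀`: `|T d/B| < r`.
* `s8_Pm_split`.  `β₁ = s8b1 β`; `L c₁ C_t k_t` from `s8_onesided_cc hH β₁`; `L' C₃ k₃` from `s8_neg_pt`; `A₁ = max (max L L') 1`; `C₅` from `s8_cs_L2` (aperture `A₁`).  Fix the data, `Nj = N j`, `d = e^{-j}`, `b(x) = 1 + cs β₁ A₁ j x/Nj ≥ 1`, `m = s8m a`,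
  `t = τ d/Nj > 0`.  POINTWISE:  `d (-P(s8pt x d)) ≤ Nj² (C₃ A^{m-2} b(x)² + w e^{j}/τ² + C_t τ² A⁴/c₁⁴)`:
    if `b(x) > A`: `s8_neg_pt` with `R = cs`: `≤ C₃ Nj² b^m = C₃ Nj² b² b^{m-2} ≤ C₃ Nj² b² A^{m-2}` (`m - 2 < 0`);
    if `b(x) ≤ A`: `cc ≤ cs ≤ A Nj =: R` (`≥ 1`), `|t| = τ d/Nj ≤ (c₁ d/R)/2` because `τ ≤ c₁/(2A)`: `s8_onesided_cc` gives `-t² P ≤ Δ t + C_t d (τ A/c₁)⁴ ≤ w + C_t d (τA/c₁)⁴`; divide by `t²` and multiply by `d`: `d/t² = Nj² e^{j}/τ²`, `d²/t² = Nj²/τ²`.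
  (the other terms are `≥ 0`; `w ≥ Δ t ≥ 0`: if you need `0 ≤ w` use `s8_Δ_nonneg`, or note that only `max` matters.)   Integrate against the probability `ν`: `∫ b² ≤ (C₅ (1+Y))²`.   `C = max (C₃ C₅²) (C_t/c₁⁴)`, and the `c₁` of the statement is `c₁/2`.
* `s8_width_lower`.  W.l.o.g. nothing: `C ≥ 1` is a hypothesis.  `C₁` from `s8_FM_of_mu hH β a`; `A₁ c₁ C₂ k₂` from `s8_Pm_split`; `C' CP` from `s8_boot_unif` (aperture `A₁`); `C₄` from `s8_tile_of_P` (aperture `1`).  Put `Λ = 8 C₄ C² e^{4(β+a)}`, `m = s8m a`, and choose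
  `A ≥ 1` with `Λ C₂ A^{m-2} (1+C')² ≤ 1/6`, then `τ = min (c₁/A) (..)` with `Λ C₂ τ² A⁴ ≤ 1/6`, then `c` with `Λ c e²/τ² ≤ 1/6`; `T₀ = e² τ`, `B₀ = max 1 (4 √C₄)` (any `B₀` with `B₀² > 8 C₄`), `k₁ = k₂ + 2`.
  Let `k ≥ k₁`, `B = μ k ≥ B₀`, `N = s9env (C B) β a k` (`S8Env`, `S8FM`, `S8Fin` by `s8_env_s9env`, `s8_FM_of_mu`, `s8_fin_env`), and suppose `Δ(T d_k/B) ≤ c d_k` for all `|T| ≤ T₀`.  For `l ∈ [k-2,k+2]`: `τ e^{-l}/N l = T d_k/B` with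
  `0 < T = τ e^{k-l} B/N l ≤ e² τ` (`N l ≥ C B ≥ B`), so `w = c d_k ≤ c e² e^{-l}`; `s8_Pm_split` (`ν = s8nu0`, `Y = C'`): `Pm s8nu0 l ≤ N(l)² ε'`, `ε' ≤ 1/(2Λ)`; `P1 = 2 Pm`; `N(l)² ≤ C² e^{4(β+a)} B²`.  `s8_tile_of_P` (`ka = k - 1`, `CT = 1`, `Z = 2 ε' C² e^{4(β+a)} B²`):
  `T2 s8nu0 1 k ≤ C₄ (1 + Z)`, `s8_mu_le_of_T2`: `B² ≤ 4 C₄ (1 + Z) ≤ 4 C₄ + B²/2`, so `B² ≤ 8 C₄ < B₀²`: contradiction.
* `s8_no_quiet_cone`.  `L ε₁ d₁` from `s8_quiet_width`.  Let `k x` be sequences as in the statement, `B_n = μ (k n)`.  Eventually `k n ≥ k₀` and `B_n > 0`, and the envelope hypothesis at `l = k n` gives `B_n ≤ C B_n`, so `C ≥ 1`.  `c T₀ B₀ k₁` from `s8_width_lower` (w.l.o.g. `c ≤ 1`...not needed).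
  Eventually: `k n ≥ k₁`, `B_n ≥ B₀`, `c e^{-k n} ≤ d₁`, `4 T₀ ≤ c B_n`, and the quiet-cone hypothesis with `c/20`, `η = ε₁ c^α/(2T₀)` holds.  `s8_quiet_width` contradicts `s8_width_lower`.
-/
import Claimed.Agent.R269.S8.Unif
import Claimed.Agent.R269.S8.TileC

set_option autoImplicit false

namespace Claimed.Agent.R269

open Complex ComplexConjugate Filter Topology MeasureTheory Set Metric
open scoped ENNReal Real

namespace Shape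

variable (Sh : Shape)

/-- step 1: a quiet cone over ONE centre forces a small width for real parameters `|t| ≤ T₀ d/B`. -/
theorem s8_quiet_width (hH : Sh.H ≠ ⊤) (α δb : ℝ) (hα : 1 / 2 < α) (hα' : α < 1) (hδb : 0 < δb)
    (hδb' : δb < Sh.Hr / 2) :
    ∃ L ε₁ d₁ : ℝ, 0 < L ∧ 0 < ε₁ ∧ 0 < d₁ ∧ ∀ x d B c T₀ : ℝ, 0 < d → 0 < B → 0 < c → 0 < T₀ → c * d ≤ d₁ →
      4 * T₀ ≤ c * B →
      (∀ s ∈ Sh.s9cone L x (c / 20 * d) δb, d * Sh.M s / B * (Sh.s9dep s / d) ^ α ≤ ε₁ * c ^ α / (2 * T₀)) →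
      ∀ T : ℝ, |T| ≤ T₀ → Sh.Δ ((T * d / B : ℝ) : ℂ) < c * d := by
  obtain ⟨L, ε₁, d₁, C₀, hL, hε₁, hd₁, -, h⟩ := Sh.s8_onesided_pt hH α δb hα hα' hδb hδb'
  refine ⟨L, ε₁, d₁, hL, hε₁, hd₁, ?_⟩
  intro x d B c T₀ hd hB hc hT₀ hcd hTB hq T hT
  have hr : 0 < 2 * T₀ * d / B := by positivity
  refine (h x (c * d) (2 * T₀ * d / B) (by positivity) hcd hr ?_ ?_ (T * d / B) ?_).1
  · rw [div_le_iff₀ hB]
    nlinarith
  · intro s hs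
    have e : c * d / 20 = c / 20 * d := by ring
    rw [e] at hs
    have h1 := hq s hs
    have hδ : 0 < Sh.s9dep s := lt_of_lt_of_le (by positivity) hs.1
    obtain ⟨u, hu⟩ : ∃ u, u = (Sh.s9dep s / d) ^ α := ⟨_, rfl⟩
    have hu0 : 0 < u := by rw [hu]; positivity
    have e2 : (c * d / Sh.s9dep s) ^ α = c ^ α / u := by
      have : c * d / Sh.s9dep s = c * (Sh.s9dep s / d)⁻¹ := by rw [inv_div]; ring
      rw [this, Real.mul_rpow hc.le (by positivity), Real.inv_rpow (by positivity), ← hu, div_eq_mul_inv]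
    rw [e2]
    rw [← hu] at h1
    rw [← mul_div_assoc, le_div_iff₀ hu0]
    rw [le_div_iff₀ (by positivity)] at h1
    calc 2 * T₀ * d / B * Sh.M s * u = d * Sh.M s / B * u * (2 * T₀) := by ring
      _ ≤ _ := h1
  · rw [abs_div, abs_mul, abs_of_pos hd, abs_of_pos hB]
    apply div_lt_div_of_pos_right _ hB
    nlinarith

set_option maxHeartbeats 1000000 in
/-- the integrated negative part of `P` in terms of the width `w ≥ Δ(τ d_j/N(j))` at one real parameter and a cutoff `A`. -/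
theorem s8_Pm_split (hH : Sh.H ≠ ⊤) (β a : ℝ) (C₁ : ℝ → ℝ) (hβ : 0 ≤ β) (hβ' : β < 1 / 2) (ha : 0 ≤ a) :
    ∃ A₁ c₁ C k₁ : ℝ, 1 ≤ A₁ ∧ 0 < c₁ ∧ 0 < C ∧ Sh.s9k0 ≤ k₁ ∧
      ∀ (N : ℝ → ℝ) (ν : Measure ℝ) (Y j A τ w : ℝ), S8Env β a N → Sh.S8FM C₁ N → IsProbabilityMeasure ν →
        0 ≤ Y → k₁ ≤ j → (∀ l ≥ Sh.s9k0, Sh.s8T2 ν A₁ l ≤ ENNReal.ofReal ((Y * N l) ^ 2)) →
        1 ≤ A → 0 < τ → τ ≤ c₁ / A → 0 ≤ w → Sh.Δ ((τ * Real.exp (-j) / N j : ℝ) : ℂ) ≤ w →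
        Sh.s8Pm ν j ≤ ENNReal.ofReal (N j ^ 2 *
          (C * A ^ (s8m a - 2) * (1 + Y) ^ 2 + w * Real.exp j / τ ^ 2 + C * τ ^ 2 * A ^ 4)) := by
  obtain ⟨hb1, hb2, hb3⟩ := s8_b1_mem β hβ hβ'
  obtain ⟨hm1, hm2⟩ := s8_m_mem a ha
  obtain ⟨L, c₀, Ct, kt, hL, hc₀, hCt, hkt, hos⟩ := Sh.s8_onesided_cc hH (s8b1 β) (by linarith) hb3
  obtain ⟨L', C₃, k₃, hL', hC₃, hk₃, hneg⟩ := Sh.s8_neg_pt hH β a C₁ hβ hβ' ha
  obtain ⟨A₁, hA₁⟩ : ∃ A₁, A₁ = max (max L L') 1 := ⟨_, rfl⟩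
  have hA₁1 : 1 ≤ A₁ := hA₁ ▸ le_max_right _ _
  have hA₁L : L ≤ A₁ := hA₁ ▸ le_max_of_le_left (le_max_left _ _)
  have hA₁L' : L' ≤ A₁ := hA₁ ▸ le_max_of_le_left (le_max_right _ _)
  obtain ⟨C₅, hC₅, hcs⟩ := Sh.s8_cs_L2 hH β a (s8b1 β) A₁ hβ ha hb1
  obtain ⟨m, hm⟩ : ∃ m, m = s8m a := ⟨_, rfl⟩
  obtain ⟨β₁, hβ₁⟩ : ∃ β₁, β₁ = s8b1 β := ⟨_, rfl⟩
  rw [← hm] at hm1 hm2 hneg ⊢
  rw [← hβ₁] at hb1 hb2 hb3 hos hneg hcs
  obtain ⟨C, hC⟩ : ∃ C, C = max (C₃ * C₅ ^ 2) (Ct / c₀ ^ 4) := ⟨_, rfl⟩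
  have hC1 : C₃ * C₅ ^ 2 ≤ C := hC ▸ le_max_left _ _
  have hC2 : Ct / c₀ ^ 4 ≤ C := hC ▸ le_max_right _ _
  have hC0 : 0 < C := lt_of_lt_of_le (by positivity) hC1
  refine ⟨A₁, c₀ / 2, C, max kt k₃, hA₁1, by positivity, hC0, le_max_of_le_left hkt, ?_⟩
  intro N ν Y j A τ w hEnv hFM hν hY hj hT2 hA hτ hτA hw hΔ
  have hjt : kt ≤ j := (le_max_left _ _).trans hj
  have hj3 : k₃ ≤ j := (le_max_right _ _).trans hj
  have hj0 : Sh.s9k0 ≤ j := hkt.trans hjt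
  have hA0 : 0 < A := by linarith
  obtain ⟨Nj, hNj⟩ : ∃ Nj, Nj = N j := ⟨_, rfl⟩
  have hNj1 : 1 ≤ Nj := hNj ▸ hEnv.one_le j
  have hNj0 : 0 < Nj := by linarith
  obtain ⟨E, hE⟩ : ∃ E, E = Real.exp j := ⟨_, rfl⟩
  have hE0 : 0 < E := hE ▸ Real.exp_pos _
  have hd : Real.exp (-j) = E⁻¹ := by rw [Real.exp_neg, hE]
  obtain ⟨K, hK⟩ : ∃ K, K = w * E / τ ^ 2 + Ct * τ ^ 2 * A ^ 4 / c₀ ^ 4 := ⟨_, rfl⟩
  have hK0 : 0 ≤ K := by rw [hK]; positivity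
  have hAm0 : 0 < A ^ (m - 2) := Real.rpow_pos_of_pos hA0 _
  have hpt : ∀ x : ℝ, Real.exp (-j) * -Sh.s9P (Sh.s8pt x (Real.exp (-j))) ≤
      Nj ^ 2 * C₃ * A ^ (m - 2) * (1 + Sh.s8cs β₁ A₁ j x / Nj) ^ 2 + Nj ^ 2 * K := by
    intro x
    obtain ⟨cs, hcsx⟩ : ∃ cs, cs = Sh.s8cs β₁ A₁ j x := ⟨_, rfl⟩
    have hcs0 : 0 ≤ cs := hcsx ▸ Sh.s8_cs_nonneg _ _ _ _
    obtain ⟨b, hb⟩ : ∃ b, b = 1 + cs / Nj := ⟨_, rfl⟩
    have hb1' : 1 ≤ b := by rw [hb]; have : 0 ≤ cs / Nj := by positivity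
                            linarith
    have hb0 : 0 < b := by linarith
    obtain ⟨p, hp⟩ : ∃ p, p = Sh.s9P (Sh.s8pt x (Real.exp (-j))) := ⟨_, rfl⟩
    rw [← hcsx, ← hb, ← hp]
    rcases lt_or_ge A b with hAb | hAb
    · have h1 := hneg N hEnv hFM j hj3 x cs
        (hcsx ▸ Sh.s8_cc_le_sum hH β₁ L' A₁ j x (by linarith) (by linarith) hA₁1 hA₁L' hj0)
      rw [← hNj, ← hb, ← hp] at h1
      have h2 : b ^ m = b ^ 2 * b ^ (m - 2) := by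
        rw [← Real.rpow_natCast, ← Real.rpow_add hb0]; congr 1; push_cast; ring
      have h3 : b ^ (m - 2) ≤ A ^ (m - 2) := Real.rpow_le_rpow_of_nonpos hA0 hAb.le (by linarith)
      calc Real.exp (-j) * -p ≤ C₃ * Nj ^ 2 * b ^ m := h1
        _ = C₃ * Nj ^ 2 * (b ^ 2 * b ^ (m - 2)) := by rw [h2]
        _ ≤ C₃ * Nj ^ 2 * (b ^ 2 * A ^ (m - 2)) := by gcongr
        _ = Nj ^ 2 * C₃ * A ^ (m - 2) * b ^ 2 := by ring
        _ ≤ _ := le_add_of_nonneg_right (by positivity)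
    · have hR1 : 1 ≤ A * Nj := by nlinarith
      have hcsR : cs ≤ A * Nj := by
        rw [hb] at hAb
        have : cs / Nj ≤ A := by linarith
        rwa [div_le_iff₀ hNj0] at this
      obtain ⟨t, ht⟩ : ∃ t, t = τ * Real.exp (-j) / Nj := ⟨_, rfl⟩
      have ht0 : 0 < t := by rw [ht]; positivity
      have hthalf : t ≤ c₀ * Real.exp (-j) / (A * Nj) / 2 := by
        rw [le_div_iff₀ hA0] at hτA
        rw [ht, hd, div_div, le_div_iff₀ (by positivity)]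
        calc τ * E⁻¹ / Nj * (A * Nj * 2) = (τ * A) * 2 * E⁻¹ := by field_simp
          _ ≤ (c₀ / 2) * 2 * E⁻¹ := by gcongr
          _ = c₀ * E⁻¹ := by ring
      have hpos : 0 < c₀ * Real.exp (-j) / (A * Nj) := by positivity
      have h1 := (hos x j (A * Nj) hjt hR1
        ((Sh.s8_cc_le_sum hH β₁ L A₁ j x (by linarith) (by linarith) hA₁1 hA₁L hj0).trans
          (hcsx ▸ hcsR)) t (by rw [abs_of_pos ht0]; linarith)).2 (by rw [abs_of_pos ht0]; exact hthalf)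
      rw [← hp, abs_of_pos ht0] at h1
      have hΔ' : Sh.Δ ((t : ℝ) : ℂ) ≤ w := by rw [ht, hNj]; exact hΔ
      have e1 : t * (A * Nj) / (c₀ * Real.exp (-j)) = τ * A / c₀ := by
        rw [ht, hd]; field_simp
      rw [e1] at h1
      have h2 : -(t ^ 2 * p) ≤ w + Ct * Real.exp (-j) * (τ * A / c₀) ^ 4 := by linarith
      calc Real.exp (-j) * -p = (Nj ^ 2 * E / τ ^ 2) * (-(t ^ 2 * p)) := by
            rw [ht, hd]; field_simp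
        _ ≤ (Nj ^ 2 * E / τ ^ 2) * (w + Ct * Real.exp (-j) * (τ * A / c₀) ^ 4) := by gcongr
        _ = Nj ^ 2 * K := by rw [hK, hd]; field_simp
        _ ≤ _ := le_add_of_nonneg_left (by positivity)
  have hmeas : Measurable fun x => ENNReal.ofReal (1 + Sh.s8cs β₁ A₁ j x / Nj) ^ 2 :=
    ((measurable_const.add ((Sh.s8_cs_meas hH _ _ _).div_const _)).ennreal_ofReal).pow_const 2
  have hint := hcs N ν Y j hEnv hν hY hj0 hT2
  rw [← hNj] at hint ⊢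
  rw [← hE]
  unfold Shape.s8Pm
  calc ∫⁻ x, ENNReal.ofReal (Real.exp (-j) * -Sh.s9P (Sh.s8pt x (Real.exp (-j)))) ∂ν
      ≤ ∫⁻ x, (ENNReal.ofReal (Nj ^ 2 * C₃ * A ^ (m - 2)) *
          ENNReal.ofReal (1 + Sh.s8cs β₁ A₁ j x / Nj) ^ 2 + ENNReal.ofReal (Nj ^ 2 * K)) ∂ν := by
        apply lintegral_mono
        intro x
        have hbx : 0 ≤ 1 + Sh.s8cs β₁ A₁ j x / Nj := by
          have := Sh.s8_cs_nonneg β₁ A₁ j x
          positivity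
        dsimp only
        rw [← ENNReal.ofReal_pow hbx, ← ENNReal.ofReal_mul (by positivity),
          ← ENNReal.ofReal_add (by positivity) (by positivity)]
        exact ENNReal.ofReal_le_ofReal (hpt x)
    _ = ENNReal.ofReal (Nj ^ 2 * C₃ * A ^ (m - 2)) *
          ∫⁻ x, ENNReal.ofReal (1 + Sh.s8cs β₁ A₁ j x / Nj) ^ 2 ∂ν + ENNReal.ofReal (Nj ^ 2 * K) := by
        rw [lintegral_add_right _ measurable_const, lintegral_const_mul _ hmeas, lintegral_const,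
          measure_univ, mul_one]
    _ ≤ ENNReal.ofReal (Nj ^ 2 * C₃ * A ^ (m - 2)) * ENNReal.ofReal ((C₅ * (1 + Y)) ^ 2) +
          ENNReal.ofReal (Nj ^ 2 * K) := by gcongr
    _ = ENNReal.ofReal (Nj ^ 2 * C₃ * A ^ (m - 2) * (C₅ * (1 + Y)) ^ 2 + Nj ^ 2 * K) := by
        rw [← ENNReal.ofReal_mul (by positivity), ← ENNReal.ofReal_add (by positivity) (by positivity)]
    _ ≤ _ := by
        apply ENNReal.ofReal_le_ofReal
        have h1 : C₃ * C₅ ^ 2 * (A ^ (m - 2) * (1 + Y) ^ 2) ≤ C * (A ^ (m - 2) * (1 + Y) ^ 2) := by gcongr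
        have h2 : Ct / c₀ ^ 4 * (τ ^ 2 * A ^ 4) ≤ C * (τ ^ 2 * A ^ 4) := by gcongr
        have h3 : Nj ^ 2 * C₃ * A ^ (m - 2) * (C₅ * (1 + Y)) ^ 2 + Nj ^ 2 * K =
            Nj ^ 2 * (C₃ * C₅ ^ 2 * (A ^ (m - 2) * (1 + Y) ^ 2) + w * E / τ ^ 2 +
              Ct / c₀ ^ 4 * (τ ^ 2 * A ^ 4)) := by rw [hK]; ring
        rw [h3]
        apply mul_le_mul_of_nonneg_left _ (by positivity)
        linarith

set_option maxHeartbeats 1000000 in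
/-- **quantitative width lower bound**: at a level `k` which is normal for the envelope `s9env (C μ(k)) β a k`, the real width deficit cannot be `≤ c d_k` on `|t| ≤ T₀ d_k/μ(k)`. -/
theorem s8_width_lower (hH : Sh.H ≠ ⊤) (ho : Sh.order = 1) (β a C : ℝ) (hβ : 0 ≤ β) (hβ' : β < 1 / 2)
    (ha : 0 < a) (hC : 1 ≤ C) :
    ∃ c T₀ B₀ k₁ : ℝ, 0 < c ∧ 0 < T₀ ∧ 0 < B₀ ∧ Sh.s9k0 ≤ k₁ ∧ ∀ k ≥ k₁, B₀ ≤ Sh.μ k →
      (∀ l ≥ Sh.s9k0, Sh.μ l ≤ s9env (C * Sh.μ k) β a k l) →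
      ∃ T : ℝ, |T| ≤ T₀ ∧ c * Real.exp (-k) < Sh.Δ ((T * Real.exp (-k) / Sh.μ k : ℝ) : ℂ) := by
  obtain ⟨C₁, hC₁⟩ := Sh.s8_FM_of_mu hH β a hβ ha.le
  obtain ⟨A₁, c₁, C₂, k₂, hA₁, hc₁, hC₂, hk₂, hsplit⟩ := Sh.s8_Pm_split hH β a C₁ hβ hβ' ha.le
  obtain ⟨C', CP, hC', -, hboot⟩ := Sh.s8_boot_unif hH β a C₁ hβ hβ' ha.le A₁ hA₁
  obtain ⟨C₄, hC₄, htile⟩ := Sh.s8_tile_of_P hH 1 le_rfl
  obtain ⟨hm1, hm2⟩ := s8_m_mem a ha.le
  obtain ⟨m, hm⟩ : ∃ m, m = s8m a := ⟨_, rfl⟩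
  rw [← hm] at hm1 hm2 hsplit
  obtain ⟨Λ, hΛ⟩ : ∃ Λ, Λ = 8 * C₄ * C ^ 2 * Real.exp (4 * (β + a)) := ⟨_, rfl⟩
  have hΛ0 : 0 < Λ := by rw [hΛ]; positivity
  obtain ⟨G, hG⟩ : ∃ G, G = 6 * Λ * C₂ * (1 + C') ^ 2 := ⟨_, rfl⟩
  have hG0 : 0 < G := by rw [hG]; positivity
  obtain ⟨A, hAdef⟩ : ∃ A, A = max 1 (G ^ (1 / (2 - m))) := ⟨_, rfl⟩
  have hA : 1 ≤ A := hAdef ▸ le_max_left _ _
  have hA0 : 0 < A := by linarith
  have hAm : A ^ (m - 2) ≤ 1 / G := by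
    have h1 : G ≤ A ^ (2 - m) := by
      calc G = (G ^ (1 / (2 - m))) ^ (2 - m) := by
            rw [← Real.rpow_mul hG0.le, one_div_mul_cancel (by linarith), Real.rpow_one]
        _ ≤ A ^ (2 - m) := Real.rpow_le_rpow (by positivity) (hAdef ▸ le_max_right _ _) (by linarith)
    have h2 : A ^ (m - 2) = (A ^ (2 - m))⁻¹ := by
      rw [← Real.rpow_neg hA0.le]; congr 1; ring
    rw [h2, one_div]
    exact inv_anti₀ hG0 h1
  obtain ⟨τ, hτdef⟩ : ∃ τ, τ = min (c₁ / A) (Real.sqrt (1 / (6 * Λ * C₂ * A ^ 4))) := ⟨_, rfl⟩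
  have hτ : 0 < τ := by
    rw [hτdef]; exact lt_min (by positivity) (Real.sqrt_pos.2 (by positivity))
  have hτ1 : τ ≤ c₁ / A := hτdef ▸ min_le_left _ _
  have hτ2 : τ ^ 2 ≤ 1 / (6 * Λ * C₂ * A ^ 4) := by
    have h1 : τ ≤ Real.sqrt (1 / (6 * Λ * C₂ * A ^ 4)) := hτdef ▸ min_le_right _ _
    calc τ ^ 2 ≤ Real.sqrt (1 / (6 * Λ * C₂ * A ^ 4)) ^ 2 := pow_le_pow_left₀ hτ.le h1 2
      _ = _ := Real.sq_sqrt (by positivity)
  obtain ⟨c, hc⟩ : ∃ c, c = τ ^ 2 / (6 * Λ * Real.exp 2) := ⟨_, rfl⟩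
  have hc0 : 0 < c := by rw [hc]; positivity
  refine ⟨c, Real.exp 2 * τ, max 1 (4 * Real.sqrt C₄), k₂ + 2, hc0, by positivity,
    lt_of_lt_of_le one_pos (le_max_left _ _), by linarith, ?_⟩
  intro k hk hB henv
  by_contra hcon
  push Not at hcon
  obtain ⟨B, hBdef⟩ : ∃ B, B = Sh.μ k := ⟨_, rfl⟩
  rw [← hBdef] at hB henv hcon
  have hB1 : 1 ≤ B := (le_max_left _ _).trans hB
  have hB0 : 0 < B := by linarith
  have hB16 : 16 * C₄ ≤ B ^ 2 := by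
    have h1 : 4 * Real.sqrt C₄ ≤ B := (le_max_right _ _).trans hB
    calc 16 * C₄ = (4 * Real.sqrt C₄) ^ 2 := by rw [mul_pow, Real.sq_sqrt hC₄.le]; norm_num
      _ ≤ B ^ 2 := pow_le_pow_left₀ (by positivity) h1 2
  have hCB : 1 ≤ C * B := by nlinarith
  have hk0 : Sh.s9k0 ≤ k := by linarith
  obtain ⟨N, hN⟩ : ∃ N, N = s9env (C * B) β a k := ⟨_, rfl⟩
  rw [← hN] at henv
  have hEnv : S8Env β a N := hN ▸ s8_env_s9env (C * B) β a k hCB hβ ha.le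
  have hFM : Sh.S8FM C₁ N := hC₁ N hEnv henv
  have hFin : Sh.S8Fin N := hN ▸ Sh.s8_fin_env hH ho (C * B) β a k hCB hβ ha
  obtain ⟨hT2, -⟩ := hboot N hEnv hFM hFin
  obtain ⟨Z, hZ⟩ : ∃ Z, Z = B ^ 2 / (8 * C₄) := ⟨_, rfl⟩
  have hZ0 : 0 ≤ Z := by rw [hZ]; positivity
  have hP1 : ∀ l ∈ Icc (k - 1 - 1) (k + 1 + 1), Sh.s8P1 s8nu0 l ≤ ENNReal.ofReal Z := by
    intro l hl
    have hl1 : k - 2 ≤ l := by linarith [hl.1]
    have hl2 : l ≤ k + 2 := by linarith [hl.2]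
    have hlk0 : Sh.s9k0 ≤ l := by linarith
    obtain ⟨e, he⟩ : ∃ e, e = β * max (k - l) 0 + a * max (l - k) 0 := ⟨_, rfl⟩
    have hNl : N l = C * B * Real.exp e := by rw [hN, he]; rfl
    have he0 : 0 ≤ e := by rw [he]; positivity
    have he2 : e ≤ 2 * (β + a) := by
      have h1 : max (k - l) 0 ≤ 2 := max_le (by linarith) (by norm_num)
      have h2 : max (l - k) 0 ≤ 2 := max_le (by linarith) (by norm_num)
      rw [he]; nlinarith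
    have hNl1 : B ≤ N l := by
      rw [hNl]
      have : 1 ≤ Real.exp e := Real.one_le_exp he0
      calc B = 1 * B * 1 := by ring
        _ ≤ C * B * Real.exp e := by gcongr
    have hNl0 : 0 < N l := by linarith
    have hNl2 : N l ^ 2 ≤ C ^ 2 * B ^ 2 * Real.exp (4 * (β + a)) := by
      rw [hNl, mul_pow, mul_pow, ← Real.exp_nat_mul]
      apply mul_le_mul_of_nonneg_left (Real.exp_le_exp.2 _) (by positivity)
      push_cast; linarith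
    have hΔ : Sh.Δ ((τ * Real.exp (-l) / N l : ℝ) : ℂ) ≤ c * Real.exp (-k) := by
      have e1 : τ * Real.exp (-l) / N l = (τ * Real.exp (k - l) * B / N l) * Real.exp (-k) / B := by
        have : Real.exp (-l) = Real.exp (k - l) * Real.exp (-k) := by
          rw [← Real.exp_add]; congr 1; ring
        rw [this]; field_simp
      rw [e1]
      apply hcon
      rw [abs_of_pos (by positivity), div_le_iff₀ hNl0]
      have h1 : Real.exp (k - l) ≤ Real.exp 2 := Real.exp_le_exp.2 (by linarith)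
      calc τ * Real.exp (k - l) * B ≤ τ * Real.exp 2 * N l := by gcongr
        _ = _ := by ring
    have hsp := hsplit N s8nu0 C' l A τ (c * Real.exp (-k)) hEnv hFM s8_nu0_prob hC'.le (by linarith) hT2
      hA hτ hτ1 (by positivity) hΔ
    have hb1 : C₂ * A ^ (m - 2) * (1 + C') ^ 2 ≤ 1 / (6 * Λ) := by
      calc C₂ * A ^ (m - 2) * (1 + C') ^ 2 ≤ C₂ * (1 / G) * (1 + C') ^ 2 := by gcongr
        _ = 1 / (6 * Λ) := by rw [hG]; field_simp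
    have hb2 : c * Real.exp (-k) * Real.exp l / τ ^ 2 ≤ 1 / (6 * Λ) := by
      have h1 : Real.exp (-k) * Real.exp l ≤ Real.exp 2 := by
        rw [← Real.exp_add]; exact Real.exp_le_exp.2 (by linarith)
      calc c * Real.exp (-k) * Real.exp l / τ ^ 2 = c * (Real.exp (-k) * Real.exp l) / τ ^ 2 := by ring
        _ ≤ c * Real.exp 2 / τ ^ 2 := by gcongr
        _ = 1 / (6 * Λ) := by rw [hc]; field_simp
    have hb3 : C₂ * τ ^ 2 * A ^ 4 ≤ 1 / (6 * Λ) := by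
      calc C₂ * τ ^ 2 * A ^ 4 ≤ C₂ * (1 / (6 * Λ * C₂ * A ^ 4)) * A ^ 4 := by gcongr
        _ = 1 / (6 * Λ) := by field_simp
    have hbr : N l ^ 2 * (C₂ * A ^ (m - 2) * (1 + C') ^ 2 + c * Real.exp (-k) * Real.exp l / τ ^ 2 +
        C₂ * τ ^ 2 * A ^ 4) ≤ Z / 2 := by
      calc N l ^ 2 * (C₂ * A ^ (m - 2) * (1 + C') ^ 2 + c * Real.exp (-k) * Real.exp l / τ ^ 2 +
            C₂ * τ ^ 2 * A ^ 4)
          ≤ (C ^ 2 * B ^ 2 * Real.exp (4 * (β + a))) * (1 / (6 * Λ) + 1 / (6 * Λ) + 1 / (6 * Λ)) := by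
            apply mul_le_mul hNl2 (by linarith) (by positivity) (by positivity)
        _ = Z / 2 := by rw [hZ, hΛ]; field_simp; ring
    rw [Sh.s8_P1_eq hH s8nu0 l hlk0, Sh.s8_Pp_eq_Pm hH l hlk0]
    calc Sh.s8Pm s8nu0 l + Sh.s8Pm s8nu0 l ≤ ENNReal.ofReal (Z / 2) + ENNReal.ofReal (Z / 2) := by
          have := hsp.trans (ENNReal.ofReal_le_ofReal hbr)
          gcongr
      _ = ENNReal.ofReal Z := by
          rw [← ENNReal.ofReal_add (by positivity) (by positivity)]; congr 1; ring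
  have h1 := htile s8nu0 (k - 1) (fun _ => 1) Z k (s8_nu0_adm _) hZ0 hk0 (by linarith) hP1
  have hb0 : 0 ≤ C₄ * (1 + 1 * Z) := by positivity
  have h2 := Sh.s8_mu_le_of_T2 hH 1 k (Real.sqrt (C₄ * (1 + 1 * Z))) zero_le_one hk0 (Real.sqrt_nonneg _)
    (by rw [Real.sq_sqrt hb0]; exact h1)
  rw [← hBdef] at h2
  have h3 : B ^ 2 ≤ 4 * (C₄ * (1 + 1 * Z)) := by
    calc B ^ 2 ≤ (2 * Real.sqrt (C₄ * (1 + 1 * Z))) ^ 2 := pow_le_pow_left₀ hB0.le h2 2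
      _ = _ := by rw [mul_pow, Real.sq_sqrt hb0]; norm_num
  have h4 : C₄ * Z = B ^ 2 / 8 := by rw [hZ]; field_simp
  nlinarith

/-- **Theorem 8.6, quiet-cone form** = `s9i_no_quiet_cone` of S9/Imports.lean, verbatim. -/
theorem s8_no_quiet_cone (hH : Sh.H ≠ ⊤) (ho : Sh.order = 1) (α β a C δb : ℝ) (hα : 1 / 2 < α)
    (hα' : α < 1) (hβ : 0 ≤ β) (hβ' : β < 1 / 2) (ha : 0 < a) (hδb : 0 < δb)
    (hδb' : δb < Sh.Hr / 2) :
    ∃ L : ℝ, 0 < L ∧ ∀ k x : ℕ → ℝ, Tendsto k atTop atTop →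
      Tendsto (fun n => Sh.μ (k n)) atTop atTop →
      (∀ᶠ n in atTop, ∀ l ≥ Sh.s9k0, Sh.μ l ≤ s9env (C * Sh.μ (k n)) β a (k n) l) →
      (∀ c > (0 : ℝ), ∀ η > (0 : ℝ), ∀ᶠ n in atTop,
        ∀ s ∈ Sh.s9cone L (x n) (c * Real.exp (-k n)) δb,
          Real.exp (-k n) * Sh.M s / Sh.μ (k n) * (Sh.s9dep s / Real.exp (-k n)) ^ α ≤ η) →
      False := by
  obtain ⟨L, ε₁, d₁, hL, hε₁, hd₁, hqw⟩ := Sh.s8_quiet_width hH α δb hα hα' hδb hδb'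
  refine ⟨L, hL, ?_⟩
  intro k x hk hB henv hquiet
  have hC : 1 ≤ C := by
    obtain ⟨n, n1, n2, n3⟩ := ((hk.eventually_ge_atTop Sh.s9k0).and
      ((hB.eventually_gt_atTop 0).and henv)).exists
    have h1 := n3 (k n) n1
    unfold s9env at h1
    simp only [sub_self, max_self, mul_zero, add_zero, Real.exp_zero, mul_one] at h1
    by_contra hcon
    push Not at hcon
    nlinarith
  obtain ⟨c, T₀, B₀, k₁, hc, hT₀, hB₀, hk₁, hwl⟩ := Sh.s8_width_lower hH ho β a C hβ hβ' ha hC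
  obtain ⟨n, n1, n2, n3, n4, n5, n6⟩ := ((hk.eventually_ge_atTop k₁).and
    ((hB.eventually_ge_atTop B₀).and ((hk.eventually_ge_atTop (Real.log (c / d₁))).and
    ((hB.eventually_ge_atTop (4 * T₀ / c)).and (henv.and
    (hquiet (c / 20) (by positivity) (ε₁ * c ^ α / (2 * T₀)) (by positivity))))))).exists
  obtain ⟨T, hT1, hT2⟩ := hwl (k n) n1 n2 n5
  have hBpos : 0 < Sh.μ (k n) := lt_of_lt_of_le hB₀ n2
  have h1 : c * Real.exp (-k n) ≤ d₁ := by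
    have : c / d₁ ≤ Real.exp (k n) := by
      rw [← Real.log_le_iff_le_exp (by positivity)]; exact n3
    rw [div_le_iff₀ hd₁] at this
    rw [Real.exp_neg, ← div_eq_mul_inv, div_le_iff₀ (Real.exp_pos _)]
    linarith
  have h2 : 4 * T₀ ≤ c * Sh.μ (k n) := by
    rw [div_le_iff₀ hc] at n4; linarith
  exact lt_irrefl _ (hT2.trans (hqw (x n) _ _ c T₀ (Real.exp_pos _) hBpos hc hT₀ h1 h2 n6 T hT1))

end Shape

end Claimed.Agent.R269
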