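-- KEEP
/-
Row 269, P1 Section 8: EXPORTS of Sections 8.1-8.3 to Section 9 (owner: helper48).
`s8_basic_width_env` = `s9i_basic_width`, `Shape.s8_weighted_bootstrap` (Weight.lean) = `s9i_weighted_bootstrap`, `Shape.s8_no_quiet_cone` (Quiet.lean) = `s9i_no_quiet_cone`  (statements of S9/Imports.lean, verbatim).
The exports of Section 8.4 (`critical_poly`, `critical_budget` from `IsEmpty (S9Prohibited Sh)`) are in the files of unit 8d (helper266).
-/
import Claimed.Agent.R269.S8.Weight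
import Claimed.Agent.R269.S8.Quiet

set_option autoImplicit false

namespace Claimed.Agent.R269

open Complex Filter Topology MeasureTheory Set
open scoped ENNReal Real

namespace Shape

variable (Sh : Shape)

/-- **(8.14) basic width** for the exponential envelopes = `s9i_basic_width` verbatim. -/
theorem s8_basic_width_env (hH : Sh.H ≠ ⊤) (ho : Sh.order = 1) (β a : ℝ) (hβ : 0 ≤ β) (hβ' : β < 1 / 2)
    (ha : 0 < a) :
    ∃ c k₁ : ℝ, 0 < c ∧ ∀ k ≥ k₁, ∀ N₀ ≥ (1 : ℝ), (∀ l ≥ Sh.s9k0, Sh.μ l ≤ s9env N₀ β a k l) →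
      ∀ t : ℝ, |t| ≤ c * Real.exp (-k) / N₀ → Sh.Δ (t : ℂ) ≤ Real.exp (-k) := by
  obtain ⟨C₁, hC₁⟩ := Sh.s8_FM_of_mu hH β a hβ ha.le
  obtain ⟨c, k₁, hc, -, h⟩ := Sh.s8_basic_width hH β a C₁ hβ hβ' ha.le
  refine ⟨c, k₁, hc, ?_⟩
  intro k hk N₀ hN₀ hμ t ht
  have hE := s8_env_s9env N₀ β a k hN₀ hβ ha.le
  exact h _ hE (hC₁ _ hE hμ) k hk t (by rwa [s8_s9env_self])

end Shape

end Claimed.Agent.R269
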