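/-
Row 269, P1 Section 8, LIBRARY: disc averages of a log deficit `K - log|f| ≥ 0` and their propagation along chains of discs (P1 (8.31)).   Blueprint: helper48.
HOST-FREE: Mathlib, `S8/LibMean.lean` (black box: `s8_polar`), `Lib/Cyl.lean` (`Chn.cyl_jensen`).

LEAF PACKAGE LF-S8-log-a (this file).

All averages are `lintegral`s of `ENNReal.ofReal (K - log ‖f z‖)`; at the zeros of `f` the integrand has the junk value `ofReal K` (`Real.log 0 = 0`): a null set.

PROOFS.
* `s8_av_le` (supermean inequality on a disc).  `s8_polar` for the measurable function `indicator (closedBall c r) (ofReal (K - log‖f ·‖))`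
  (measurable: `log ‖f‖` is measurable on the closed ball because `f` is continuous there and `Real.log`, `norm` are measurable).
  For every `ρ ∈ (0,r)`: `θ ↦ log ‖f (c + ρ e^{iθ})‖` is interval integrable (`circleIntegrable_log_norm_meromorphicOn`, `f` analytic on a neighbourhood of the circle), and
  `log ‖f c‖ ≤ circleAverage (log ‖f ·‖) c ρ` (`Chn.cyl_jensen`).  So `∫⁻_θ ofReal (K - log‖f‖) = ofReal ∫_θ (K - log ‖f‖) ≤ ofReal (2π (K - log‖f c‖))`
  (`ofReal_integral_eq_lintegral_ofReal`; by `hK` the integrand is `≥ 0` where `f ≠ 0`, i.e. a.e. on the circle: the zeros on a circle are finitely many because `f c ≠ 0`).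
  CAREFUL at zeros of `f`: there `K - Real.log 0 = K` is a junk value (a null set).
* `s8_av_step`.  The zero set of `f` in `O` is countable (`AnalyticOnNhd.eqOn_zero_of_preconnected_of_frequently_eq_zero` ⇒ zeros isolated ⇒ countable: e.g. `AnalyticOnNhd` + `Set.Countable` of a discrete
  subset of a second countable space), hence null.  For `w ∈ ball z₁ r₁` with `f w ≠ 0`:
  `ofReal (K - log‖f w‖) ≥ s8av f K w ρ ≥ ofReal ((r₂/ρ)²) * s8av f K z₂ r₂` (`s8_av_le`, `ball z₂ r₂ ⊆ ball w ρ`, `lintegral_mono_set`).  Integrate over `w ∈ ball z₁ r₁`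
  (`volume (ball z₁ r₁) = ofReal (π r₁²)`: `Complex.volume_ball`).
* `s8_av_chain_seq`: induction on `n` with `s8_av_step`, `r_i = dep_i/8`, `ρ = dep_i/2`, where `dep_i = Ht - Im (z i)`: for `w ∈ ball (z i) (dep_i/8)`: points of `ball (z (i+1)) (dep_{i+1}/8)` are within
  `dep_i/8 + dep_i/8 + (9/64) dep_i < dep_i/2` of `w` (`dep_{i+1} ≤ (9/8) dep_i`); points of `closedBall w (dep_i/2)` have depth in `[(3/8) dep_i, (13/8) dep_i]`;
  `(ρ/r₂)² = 16 (dep_i/dep_{i+1})² ≤ 16 (8/7)² < 21`.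
* `s8_av_chain`: the explicit chain: down from depth `d₀` to depth `D` in `n₀ = ⌈9 log(D/d₀)⌉₊` steps with constant ratio `(D/d₀)^{1/n₀} ≤ e^{1/9} < 9/8`, horizontally at depth `D` in `⌈8A⌉₊` equal steps `≤ D/8`,
  up from `D` to `d₁` in `n₁ = ⌈9 log(D/d₁)⌉₊` steps with constant ratio `≥ e^{-1/9} > 7/8`; start with `s8_av_le` on `ball z₀ (d₀/8)`.
  `n ≤ 9 log(D/d₀) + 9 log(D/d₁) + 8A + 3` and `log 21 < 3.05`: `21^n ≤ exp(28 (log(D/d₀) + log(D/d₁) + A + 1))`.
-/
import Claimed.Agent.R269.S8.LibMean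
import Claimed.Agent.R269.Lib.Cyl
import Claimed.Agent.R269.S8.LibTrunc

set_option autoImplicit false

namespace Claimed.Agent.R269

open Complex MeasureTheory Set Metric Filter Topology
open scoped ENNReal Real

/-- disc average of the log deficit `K - log|f|`. -/
noncomputable def s8av (f : ℂ → ℂ) (K : ℝ) (c : ℂ) (r : ℝ) : ℝ≥0∞ :=
  ENNReal.ofReal (π * r ^ 2)⁻¹ * ∫⁻ z in ball c r, ENNReal.ofReal (K - Real.log ‖f z‖)

/-- circle super-mean inequality ⇒ disc super-mean inequality (in `lintegral` form), for nonnegative continuous functions. -/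
theorem s8_supermean_disc (g : ℂ → ℝ) (c : ℂ) (r : ℝ) (hr : 0 < r)
    (hc : ContinuousOn g (closedBall c r)) (h0 : ∀ z ∈ closedBall c r, 0 ≤ g z)
    (hsm : ∀ ρ ∈ Ioc 0 r, Real.circleAverage g c ρ ≤ g c) :
    ∫⁻ z in ball c r, ENNReal.ofReal (g z) ≤ ENNReal.ofReal (π * r ^ 2) * ENNReal.ofReal (g c) := by
  classical
  set F : ℂ → ℝ≥0∞ := (closedBall c r).indicator (fun z => ENNReal.ofReal (g z)) with hFdef
  have hFm : Measurable F := by
    rw [hFdef, ← Set.piecewise_eq_indicator]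
    exact ContinuousOn.measurable_piecewise (ENNReal.continuous_ofReal.comp_continuousOn hc)
      continuousOn_const measurableSet_closedBall
  have h1 : ∫⁻ z in ball c r, ENNReal.ofReal (g z) = ∫⁻ z in ball c r, F z := by
    apply setLIntegral_congr_fun measurableSet_ball
    intro z hz
    show _ = F z
    rw [hFdef, indicator_of_mem (ball_subset_closedBall hz)]
  rw [h1, s8_polar F hFm]
  have h2 : ∀ ρ ∈ Ioo 0 r, ENNReal.ofReal ρ *
        ∫⁻ θ in Ioo (-π) π, F (c + (ρ : ℂ) * Complex.exp ((θ : ℂ) * I))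
        ≤ ENNReal.ofReal ρ * ENNReal.ofReal (2 * π * g c) := by
    intro ρ hρ
    gcongr
    have hmem : ∀ θ : ℝ, c + (ρ : ℂ) * Complex.exp ((θ : ℂ) * I) ∈ closedBall c r := by
      intro θ
      rw [mem_closedBall, dist_eq_norm, add_sub_cancel_left, norm_mul,
        Complex.norm_exp_ofReal_mul_I, mul_one, Complex.norm_real, Real.norm_of_nonneg hρ.1.le]
      exact hρ.2.le
    have h3 : ∀ θ : ℝ, F (c + (ρ : ℂ) * Complex.exp ((θ : ℂ) * I))
        = ENNReal.ofReal (g (c + (ρ : ℂ) * Complex.exp ((θ : ℂ) * I))) := by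
      intro θ
      rw [hFdef, indicator_of_mem (hmem θ)]
    rw [lintegral_congr h3]
    have hcont : Continuous (fun θ : ℝ => g (c + (ρ : ℂ) * Complex.exp ((θ : ℂ) * I))) := by
      apply hc.comp_continuous (by fun_prop) hmem
    have hint : IntegrableOn (fun θ : ℝ => g (c + (ρ : ℂ) * Complex.exp ((θ : ℂ) * I)))
        (Ioo (-π) π) :=
      (hcont.integrableOn_Icc (a := -π) (b := π)).mono_set Ioo_subset_Icc_self
    rw [← ofReal_integral_eq_lintegral_ofReal hint
      (Filter.Eventually.of_forall fun θ => h0 _ (hmem θ)), s8_circleAverage_Ioo]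
    apply ENNReal.ofReal_le_ofReal
    have := hsm ρ ⟨hρ.1, hρ.2.le⟩
    have hpi := Real.pi_pos
    nlinarith
  refine (setLIntegral_mono' measurableSet_Ioo h2).trans ?_
  rw [lintegral_mul_const' _ _ ENNReal.ofReal_ne_top, s8_lintegral_id r hr.le]
  have hgc : 0 ≤ g c := h0 c (mem_closedBall_self hr.le)
  rw [← ENNReal.ofReal_mul (by positivity), ← ENNReal.ofReal_mul (by positivity)]
  apply ENNReal.ofReal_le_ofReal
  apply le_of_eq
  ring

theorem s8_closedBall_connected (c : ℂ) (r : ℝ) (hr : 0 ≤ r) : IsConnected (closedBall c r) :=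
  ⟨⟨c, mem_closedBall_self hr⟩, (convex_closedBall c r).isPreconnected⟩

/-- `∫⁻` form of the supermean inequality for the log deficit. -/
theorem s8_av_le_aux (f : ℂ → ℂ) (K : ℝ) (c : ℂ) (r : ℝ) (hr : 0 < r) (O : Set ℂ) (hO : IsOpen O)
    (hsub : closedBall c r ⊆ O) (hf : DifferentiableOn ℂ f O) (hne : f c ≠ 0)
    (hK : ∀ z ∈ closedBall c r, ‖f z‖ ≤ Real.exp K) :
    ∫⁻ z in ball c r, ENNReal.ofReal (K - Real.log ‖f z‖)
      ≤ ENNReal.ofReal (π * r ^ 2) * ENNReal.ofReal (K - Real.log ‖f c‖) := by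
  have hcf : ContinuousOn (fun z => ‖f z‖) (closedBall c r) :=
    continuous_norm.comp_continuousOn (hf.continuousOn.mono hsub)
  have han : AnalyticOnNhd ℂ f (closedBall c r) := fun z hz => hf.analyticAt (hO.mem_nhds (hsub hz))
  have hnull : ∀ᵐ z ∂(volume.restrict (ball c r)), 0 < ‖f z‖ := by
    rw [ae_restrict_iff' measurableSet_ball]
    filter_upwards [s8_ae_ne f _ (s8_closedBall_connected c r hr.le) han c
      (mem_closedBall_self hr.le) hne] with z hz hzb
    exact norm_pos_iff.2 (hz (ball_subset_closedBall hzb))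
  have hmain := s8_trunc_mono (volume.restrict (ball c r)) (fun z => ‖f z‖) (fun _ => 1) K
    (ENNReal.ofReal (π * r ^ 2) * ENNReal.ofReal (K - Real.log ‖f c‖))
    ((hcf.mono ball_subset_closedBall).aemeasurable measurableSet_ball) aemeasurable_const
    (fun _ => zero_le_one) hnull ?_
  · simpa only [one_mul] using hmain
  intro n
  simp only [one_mul]
  have hcl : ContinuousOn (fun z => Real.log (max ‖f z‖ (Real.exp (K - n)))) (closedBall c r) := by
    apply ContinuousOn.log (hcf.sup continuousOn_const)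
    intro z _
    exact (lt_of_lt_of_le (Real.exp_pos _) (le_max_right _ _)).ne'
  have h1 := s8_supermean_disc (fun z => K - Real.log (max ‖f z‖ (Real.exp (K - n)))) c r hr
    (continuousOn_const.sub hcl) (fun z hz => s8_trunc_nonneg _ K (hK z hz) n) ?_
  · refine h1.trans ?_
    apply mul_le_mul_right
    apply ENNReal.ofReal_le_ofReal
    exact s8_trunc_le_pt _ K (norm_pos_iff.2 hne) n
  intro ρ hρ
  have hlm : Chn.HSub (fun z => Real.log (max ‖f z‖ (Real.exp (K - n)))) (closedBall c r) := by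
    have := Chn.hsub_logmax f (closedBall c r) ⟨O, hO, hsub, hf⟩ (n - K)
    simpa only [neg_sub] using this
  have h2 := hlm.mean (fun z => z) c ρ hρ.1.le (fun z _ => analyticAt_id)
    (fun z hz => closedBall_subset_closedBall hρ.2 hz)
  have hci : CircleIntegrable (fun z => Real.log (max ‖f z‖ (Real.exp (K - n)))) c ρ := by
    apply ContinuousOn.circleIntegrable hρ.1.le
    exact hcl.mono (sphere_subset_closedBall.trans (closedBall_subset_closedBall hρ.2))
  have h3 : Real.circleAverage (fun z => K - Real.log (max ‖f z‖ (Real.exp (K - n)))) c ρ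
      = K - Real.circleAverage (fun z => Real.log (max ‖f z‖ (Real.exp (K - n)))) c ρ := by
    have := Real.circleAverage_fun_sub (f₁ := fun _ => K) (circleIntegrable_const K c ρ) hci
    rw [this, Real.circleAverage_const]
  rw [h3]
  linarith

/-- supermean inequality for the log deficit. -/
theorem s8_av_le (f : ℂ → ℂ) (K : ℝ) (c : ℂ) (r : ℝ) (hr : 0 < r) (O : Set ℂ) (hO : IsOpen O)
    (hsub : closedBall c r ⊆ O) (hf : DifferentiableOn ℂ f O) (hne : f c ≠ 0)
    (hK : ∀ z ∈ closedBall c r, ‖f z‖ ≤ Real.exp K) :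
    s8av f K c r ≤ ENNReal.ofReal (K - Real.log ‖f c‖) := by
  have h1 := s8_av_le_aux f K c r hr O hO hsub hf hne hK
  have hpos : 0 < π * r ^ 2 := by positivity
  unfold s8av
  calc ENNReal.ofReal (π * r ^ 2)⁻¹ * ∫⁻ z in ball c r, ENNReal.ofReal (K - Real.log ‖f z‖)
      ≤ ENNReal.ofReal (π * r ^ 2)⁻¹ *
        (ENNReal.ofReal (π * r ^ 2) * ENNReal.ofReal (K - Real.log ‖f c‖)) := by gcongr
    _ = _ := by
        rw [← mul_assoc, ← ENNReal.ofReal_mul (by positivity), inv_mul_cancel₀ hpos.ne',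
          ENNReal.ofReal_one, one_mul]

theorem s8_volume_ball (c : ℂ) (r : ℝ) (hr : 0 ≤ r) : volume (ball c r) = ENNReal.ofReal (π * r ^ 2) := by
  rw [Complex.volume_ball, mul_comm π, ENNReal.ofReal_mul (by positivity), ENNReal.ofReal_pow hr]
  congr 1
  rw [← NNReal.coe_real_pi, ENNReal.ofReal_coe_nnreal]

theorem s8_av_mul (f : ℂ → ℂ) (K : ℝ) (c : ℂ) (r : ℝ) (hr : 0 < r) :
    ENNReal.ofReal (π * r ^ 2) * s8av f K c r = ∫⁻ z in ball c r, ENNReal.ofReal (K - Real.log ‖f z‖) := by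
  have hpos : 0 < π * r ^ 2 := by positivity
  unfold s8av
  rw [← mul_assoc, ← ENNReal.ofReal_mul hpos.le, mul_inv_cancel₀ hpos.ne', ENNReal.ofReal_one, one_mul]

/-- one step (P1 (8.31)). -/
theorem s8_av_step (f : ℂ → ℂ) (K : ℝ) (O : Set ℂ) (hO : IsOpen O) (hpc : IsPreconnected O)
    (hf : DifferentiableOn ℂ f O) (hne : ∃ z ∈ O, f z ≠ 0) (hK : ∀ z ∈ O, ‖f z‖ ≤ Real.exp K)
    (z₁ z₂ : ℂ) (r₁ r₂ ρ : ℝ) (hr₁ : 0 < r₁) (hr₂ : 0 < r₂)
    (h : ∀ w ∈ ball z₁ r₁, ball z₂ r₂ ⊆ ball w ρ ∧ closedBall w ρ ⊆ O) :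
    s8av f K z₂ r₂ ≤ ENNReal.ofReal ((ρ / r₂) ^ 2) * s8av f K z₁ r₁ := by
  obtain ⟨p, hpO, hp⟩ := hne
  have hρ : 0 < ρ := by
    have h1 := (h z₁ (mem_ball_self hr₁)).1 (mem_ball_self hr₂)
    exact lt_of_le_of_lt dist_nonneg (mem_ball.1 h1)
  have han : AnalyticOnNhd ℂ f O := fun z hz => hf.analyticAt (hO.mem_nhds hz)
  have hballO : ball z₁ r₁ ⊆ O := fun w hw => (h w hw).2 (mem_closedBall_self hρ.le)
  have hpt : ∀ w ∈ ball z₁ r₁, f w ≠ 0 →
      ENNReal.ofReal ((r₂ / ρ) ^ 2) * s8av f K z₂ r₂ ≤ ENNReal.ofReal (K - Real.log ‖f w‖) := by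
    intro w hw hfw
    have h1 := s8_av_le f K w ρ hρ O hO (h w hw).2 hf hfw (fun z hz => hK z ((h w hw).2 hz))
    refine le_trans ?_ h1
    have h2 : ∫⁻ z in ball z₂ r₂, ENNReal.ofReal (K - Real.log ‖f z‖)
        ≤ ∫⁻ z in ball w ρ, ENNReal.ofReal (K - Real.log ‖f z‖) :=
      lintegral_mono_set (h w hw).1
    rw [← s8_av_mul f K z₂ r₂ hr₂] at h2
    have h3 : (r₂ / ρ) ^ 2 = (π * ρ ^ 2)⁻¹ * (π * r₂ ^ 2) := by
      have := Real.pi_pos
      field_simp
    rw [h3, ENNReal.ofReal_mul (by positivity), mul_assoc]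
    unfold s8av at h2 ⊢
    gcongr
  have hae : ∀ᵐ w ∂(volume.restrict (ball z₁ r₁)),
      ENNReal.ofReal ((r₂ / ρ) ^ 2) * s8av f K z₂ r₂ ≤ ENNReal.ofReal (K - Real.log ‖f w‖) := by
    rw [ae_restrict_iff' measurableSet_ball]
    filter_upwards [s8_ae_ne f O ⟨⟨p, hpO⟩, hpc⟩ han p hpO hp] with w hw hwb
    exact hpt w hwb (hw (hballO hwb))
  have hint := lintegral_mono_ae hae
  rw [lintegral_const, Measure.restrict_apply_univ, s8_volume_ball z₁ r₁ hr₁.le,
    ← s8_av_mul f K z₁ r₁ hr₁, mul_comm] at hint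
  have hpos : 0 < π * r₁ ^ 2 := by positivity
  have h4 : ENNReal.ofReal ((r₂ / ρ) ^ 2) * s8av f K z₂ r₂ ≤ s8av f K z₁ r₁ := by
    rwa [ENNReal.mul_le_mul_iff_right (by simpa using hpos) ENNReal.ofReal_ne_top] at hint
  calc s8av f K z₂ r₂
      = ENNReal.ofReal ((ρ / r₂) ^ 2) * (ENNReal.ofReal ((r₂ / ρ) ^ 2) * s8av f K z₂ r₂) := by
        rw [← mul_assoc, ← ENNReal.ofReal_mul (by positivity)]
        have : (ρ / r₂) ^ 2 * (r₂ / ρ) ^ 2 = 1 := by field_simp
        rw [this, ENNReal.ofReal_one, one_mul]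
    _ ≤ _ := by gcongr

theorem s8_band_isOpen (y₁ y₂ : ℝ) : IsOpen {z : ℂ | y₁ < z.im ∧ z.im < y₂} :=
  (isOpen_lt continuous_const Complex.continuous_im).inter
    (isOpen_lt Complex.continuous_im continuous_const)

theorem s8_band_preconnected (y₁ y₂ : ℝ) : IsPreconnected {z : ℂ | y₁ < z.im ∧ z.im < y₂} := by
  apply Convex.isPreconnected
  exact (convex_halfSpace_im_gt y₁).inter (convex_halfSpace_im_lt y₂)

/-- one step of a chain of depth-sized discs. -/
theorem s8_av_chain_one (f : ℂ → ℂ) (K Ht ylow δmin : ℝ)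
    (hf : DifferentiableOn ℂ f {z : ℂ | ylow < z.im ∧ z.im < Ht - δmin})
    (hK : ∀ z : ℂ, ylow < z.im → z.im < Ht - δmin → ‖f z‖ ≤ Real.exp K)
    (hne : ∃ z : ℂ, ylow < z.im ∧ z.im < Ht - δmin ∧ f z ≠ 0) (p q : ℂ)
    (hup : δmin < 3 / 8 * (Ht - p.im)) (hδ : 0 ≤ δmin)
    (hlow : ylow < Ht - 13 / 8 * (Ht - p.im))
    (hstep : ‖q - p‖ ≤ (Ht - p.im) / 8) :
    s8av f K q ((Ht - q.im) / 8) ≤ ENNReal.ofReal 21 * s8av f K p ((Ht - p.im) / 8) := by
  set d := Ht - p.im with hd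
  set d' := Ht - q.im with hd'
  have hd0 : 0 < d := by linarith
  have him : |q.im - p.im| ≤ d / 8 := by
    have := Complex.abs_im_le_norm (q - p)
    rw [Complex.sub_im] at this
    exact this.trans hstep
  rw [abs_le] at him
  have hd1 : 7 / 8 * d ≤ d' := by rw [hd', hd] at *; linarith [him.2]
  have hd2 : d' ≤ 9 / 8 * d := by rw [hd', hd] at *; linarith [him.1]
  have hd'0 : 0 < d' := by linarith
  obtain ⟨z₀, hz1, hz2, hz3⟩ := hne
  have hstepav := s8_av_step f K {z : ℂ | ylow < z.im ∧ z.im < Ht - δmin} (s8_band_isOpen _ _)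
    (s8_band_preconnected _ _) hf ⟨z₀, ⟨hz1, hz2⟩, hz3⟩ (fun z hz => hK z hz.1 hz.2)
    p q (d / 8) (d' / 8) (d / 2) (by positivity) (by positivity) ?_
  · refine hstepav.trans ?_
    gcongr
    have h1 : d / 2 / (d' / 8) = 4 * (d / d') := by field_simp; ring
    have h2 : d / d' ≤ 8 / 7 := by
      rw [div_le_div_iff₀ hd'0 (by norm_num)]
      linarith
    have h3 : 0 ≤ d / d' := by positivity
    rw [h1]
    nlinarith
  intro w hw
  rw [mem_ball, dist_eq_norm] at hw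
  constructor
  · intro s hs
    rw [mem_ball, dist_eq_norm] at hs ⊢
    have : s - w = (s - q) + (q - p) + (p - w) := by ring
    rw [this]
    have h1 := norm_add_le ((s - q) + (q - p)) (p - w)
    have h2 := norm_add_le (s - q) (q - p)
    have h3 : ‖p - w‖ = ‖w - p‖ := norm_sub_rev _ _
    linarith
  · intro s hs
    rw [mem_closedBall, dist_eq_norm] at hs
    have h1 : |s.im - p.im| ≤ ‖s - w‖ + ‖w - p‖ := by
      have h2 := Complex.abs_im_le_norm (s - p)
      rw [Complex.sub_im] at h2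
      have h3 : s - p = (s - w) + (w - p) := by ring
      rw [h3] at h2
      exact h2.trans (norm_add_le _ _)
    rw [abs_le] at h1
    constructor
    · show ylow < s.im
      rw [hd] at *
      linarith [h1.1]
    · show s.im < Ht - δmin
      rw [hd] at *
      linarith [h1.2]

/-- a chain of depth-sized discs below the height `Ht`. -/
theorem s8_av_chain_seq (f : ℂ → ℂ) (K Ht ylow δmin : ℝ)
    (hf : DifferentiableOn ℂ f {z : ℂ | ylow < z.im ∧ z.im < Ht - δmin})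
    (hK : ∀ z : ℂ, ylow < z.im → z.im < Ht - δmin → ‖f z‖ ≤ Real.exp K)
    (hne : ∃ z : ℂ, ylow < z.im ∧ z.im < Ht - δmin ∧ f z ≠ 0) (z : ℕ → ℂ) (n : ℕ)
    (hup : ∀ i ≤ n, δmin < 3 / 8 * (Ht - (z i).im)) (hδ : 0 ≤ δmin)
    (hlow : ∀ i ≤ n, ylow < Ht - 13 / 8 * (Ht - (z i).im))
    (hstep : ∀ i < n, ‖z (i + 1) - z i‖ ≤ (Ht - (z i).im) / 8) :
    s8av f K (z n) ((Ht - (z n).im) / 8) ≤
      ENNReal.ofReal (21 ^ n) * s8av f K (z 0) ((Ht - (z 0).im) / 8) := by
  induction n with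
  | zero => simp
  | succ n ih =>
    have h1 := ih (fun i hi => hup i (by omega)) (fun i hi => hlow i (by omega))
      (fun i hi => hstep i (by omega))
    have h2 := s8_av_chain_one f K Ht ylow δmin hf hK hne (z n) (z (n + 1)) (hup n (by omega)) hδ
      (hlow n (by omega)) (hstep n (by omega))
    refine h2.trans ?_
    rw [pow_succ, mul_comm ((21 : ℝ) ^ n) 21, ENNReal.ofReal_mul (by norm_num), mul_assoc]
    gcongr

theorem s8_exp_sub_one_le (τ : ℝ) (hτ : |τ| ≤ 1 / 9) : |Real.exp τ - 1| ≤ 1 / 8 := by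
  rw [abs_le] at hτ ⊢
  have h1 : τ + 1 ≤ Real.exp τ := Real.add_one_le_exp τ
  have h2 : -τ + 1 ≤ Real.exp (-τ) := Real.add_one_le_exp (-τ)
  have h3 : Real.exp τ * Real.exp (-τ) = 1 := by rw [← Real.exp_add]; simp
  have h4 : 0 < Real.exp τ := Real.exp_pos τ
  constructor
  · linarith [hτ.1]
  · have h5 : Real.exp τ * (8 / 9) ≤ 1 := by
      rw [← h3]
      apply mul_le_mul_of_nonneg_left _ h4.le
      linarith [hτ.2]
    linarith

/-- vertical leg of a chain. -/
theorem s8_av_leg_v (f : ℂ → ℂ) (K Ht ylow δmin : ℝ)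
    (hf : DifferentiableOn ℂ f {z : ℂ | ylow < z.im ∧ z.im < Ht - δmin})
    (hK : ∀ z : ℂ, ylow < z.im → z.im < Ht - δmin → ‖f z‖ ≤ Real.exp K)
    (hne : ∃ z : ℂ, ylow < z.im ∧ z.im < Ht - δmin ∧ f z ≠ 0) (hδ : 0 ≤ δmin)
    (x d d' : ℝ) (hd : 0 < d) (hd' : 0 < d')
    (hmin : δmin < 3 / 8 * min d d') (hmax : ylow < Ht - 13 / 8 * max d d') :
    ∃ N : ℕ, (N : ℝ) ≤ 9 * |Real.log (d' / d)| + 1 ∧
      s8av f K ⟨x, Ht - d'⟩ (d' / 8) ≤ ENNReal.ofReal (21 ^ N) * s8av f K ⟨x, Ht - d⟩ (d / 8) := by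
  set L := Real.log (d' / d) with hL
  have hexpL : d * Real.exp L = d' := by
    rw [hL, Real.exp_log (by positivity)]
    field_simp
  set N := ⌈9 * |L|⌉₊ with hN
  have hN1 : 9 * |L| ≤ N := Nat.le_ceil _
  have hN2 : (N : ℝ) ≤ 9 * |L| + 1 := (Nat.ceil_lt_add_one (by positivity)).le
  set τ := L / N with hτ
  have hNτ : (N : ℝ) * τ = L := by
    by_cases h0 : (N : ℝ) = 0
    · have : |L| ≤ 0 := by rw [h0] at hN1; linarith
      have hL0 : L = 0 := abs_eq_zero.1 (le_antisymm this (abs_nonneg _))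
      rw [h0, hL0]; simp
    · rw [hτ]; field_simp
  have hτ9 : |τ| ≤ 1 / 9 := by
    by_cases h0 : (N : ℝ) = 0
    · rw [hτ, h0]; simp
    · have hNpos : (0 : ℝ) < N := lt_of_le_of_ne (Nat.cast_nonneg _) (Ne.symm h0)
      rw [hτ, abs_div, abs_of_pos hNpos, div_le_iff₀ hNpos]
      linarith
  refine ⟨N, hN2, ?_⟩
  set z : ℕ → ℂ := fun i => ⟨x, Ht - d * Real.exp (i * τ)⟩ with hz
  have hdep : ∀ i : ℕ, Ht - (z i).im = d * Real.exp (i * τ) := by
    intro i
    show Ht - (Ht - d * Real.exp (i * τ)) = _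
    ring
  have hrange : ∀ i ≤ N, min d d' ≤ d * Real.exp (i * τ) ∧ d * Real.exp (i * τ) ≤ max d d' := by
    intro i hi
    have hiN : (i : ℝ) ≤ N := by exact_mod_cast hi
    have hi0 : (0 : ℝ) ≤ i := Nat.cast_nonneg i
    have hN0 : (0 : ℝ) ≤ N := Nat.cast_nonneg N
    rcases le_total 0 τ with hs | hs
    · have h1 : 0 ≤ i * τ := mul_nonneg hi0 hs
      have h2 : i * τ ≤ L := by rw [← hNτ]; exact mul_le_mul_of_nonneg_right hiN hs
      constructor
      · refine (min_le_left _ _).trans ?_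
        have := Real.one_le_exp h1
        nlinarith
      · refine le_trans ?_ (le_max_right _ _)
        rw [← hexpL]
        exact mul_le_mul_of_nonneg_left (Real.exp_le_exp.2 h2) hd.le
    · have h1 : i * τ ≤ 0 := mul_nonpos_of_nonneg_of_nonpos hi0 hs
      have h2 : L ≤ i * τ := by rw [← hNτ]; exact mul_le_mul_of_nonpos_right hiN hs
      constructor
      · refine (min_le_right _ _).trans ?_
        rw [← hexpL]
        exact mul_le_mul_of_nonneg_left (Real.exp_le_exp.2 h2) hd.le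
      · refine le_trans ?_ (le_max_left _ _)
        have := Real.exp_le_one_iff.2 h1
        nlinarith
  have hchain := s8_av_chain_seq f K Ht ylow δmin hf hK hne z N
    (by intro i hi; rw [hdep]; linarith [(hrange i hi).1]) hδ
    (by intro i hi; rw [hdep]; linarith [(hrange i hi).2])
    (by
      intro i _
      rw [hdep]
      have h1 : z (i + 1) - z i = ((-(d * Real.exp (i * τ) * (Real.exp τ - 1)) : ℝ) : ℂ) * I := by
        apply Complex.ext
        · simp only [hz, Complex.sub_re, Complex.mul_re, Complex.ofReal_re, Complex.I_im,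
            Complex.ofReal_im, Complex.I_re]
          ring
        · simp only [hz, Complex.sub_im, Complex.mul_im, Complex.ofReal_re, Complex.I_im,
            Complex.ofReal_im, Complex.I_re]
          have : Real.exp (((i + 1 : ℕ) : ℝ) * τ) = Real.exp (i * τ) * Real.exp τ := by
            rw [← Real.exp_add]; congr 1; push_cast; ring
          rw [this]; ring
      rw [h1, norm_mul, Complex.norm_I, mul_one, Complex.norm_real, Real.norm_eq_abs, abs_neg,
        abs_mul, abs_of_pos (by positivity : 0 < d * Real.exp (i * τ))]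
      have := s8_exp_sub_one_le τ hτ9
      have hpos : 0 < d * Real.exp (i * τ) := by positivity
      nlinarith)
  have e0 : z 0 = ⟨x, Ht - d⟩ := by simp [hz]
  have eN : z N = ⟨x, Ht - d'⟩ := by
    show (⟨x, Ht - d * Real.exp (N * τ)⟩ : ℂ) = _
    rw [hNτ, hexpL]
  rw [e0, eN] at hchain
  simpa only [sub_sub_cancel] using hchain

/-- horizontal leg of a chain. -/
theorem s8_av_leg_h (f : ℂ → ℂ) (K Ht ylow δmin : ℝ)
    (hf : DifferentiableOn ℂ f {z : ℂ | ylow < z.im ∧ z.im < Ht - δmin})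
    (hK : ∀ z : ℂ, ylow < z.im → z.im < Ht - δmin → ‖f z‖ ≤ Real.exp K)
    (hne : ∃ z : ℂ, ylow < z.im ∧ z.im < Ht - δmin ∧ f z ≠ 0) (hδ : 0 ≤ δmin)
    (x x' D A : ℝ) (hD : 0 < D) (hA : 0 ≤ A) (hx : |x - x'| ≤ A * D)
    (hmin : δmin < 3 / 8 * D) (hmax : ylow < Ht - 13 / 8 * D) :
    ∃ N : ℕ, (N : ℝ) ≤ 8 * A + 1 ∧
      s8av f K ⟨x', Ht - D⟩ (D / 8) ≤ ENNReal.ofReal (21 ^ N) * s8av f K ⟨x, Ht - D⟩ (D / 8) := by
  set N := ⌈8 * A⌉₊ with hN
  have hN1 : 8 * A ≤ N := Nat.le_ceil _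
  have hN2 : (N : ℝ) ≤ 8 * A + 1 := (Nat.ceil_lt_add_one (by positivity)).le
  set τ := (x' - x) / N with hτ
  have hNτ : (N : ℝ) * τ = x' - x := by
    by_cases h0 : (N : ℝ) = 0
    · have hA0 : A = 0 := by rw [h0] at hN1; linarith
      rw [hA0, zero_mul] at hx
      have : x - x' = 0 := abs_eq_zero.1 (le_antisymm hx (abs_nonneg _))
      rw [h0]; linarith
    · rw [hτ]; field_simp
  have hτ8 : |τ| ≤ D / 8 := by
    by_cases h0 : (N : ℝ) = 0
    · rw [hτ, h0]; simp; positivity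
    · have hNpos : (0 : ℝ) < N := lt_of_le_of_ne (Nat.cast_nonneg _) (Ne.symm h0)
      rw [hτ, abs_div, abs_of_pos hNpos, div_le_iff₀ hNpos, abs_sub_comm]
      nlinarith
  refine ⟨N, hN2, ?_⟩
  set z : ℕ → ℂ := fun i => ⟨x + i * τ, Ht - D⟩ with hz
  have hdep : ∀ i : ℕ, Ht - (z i).im = D := by
    intro i
    show Ht - (Ht - D) = _
    ring
  have hchain := s8_av_chain_seq f K Ht ylow δmin hf hK hne z N
    (by intro i _; rw [hdep]; exact hmin) hδ
    (by intro i _; rw [hdep]; exact hmax)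
    (by
      intro i _
      rw [hdep]
      have h1 : z (i + 1) - z i = ((τ : ℝ) : ℂ) := by
        apply Complex.ext
        · simp only [hz, Complex.sub_re, Complex.ofReal_re]
          push_cast
          ring
        · simp [hz]
      rw [h1, Complex.norm_real, Real.norm_eq_abs]
      exact hτ8)
  have e0 : z 0 = ⟨x, Ht - D⟩ := by simp [hz]
  have eN : z N = ⟨x', Ht - D⟩ := by
    show (⟨x + N * τ, Ht - D⟩ : ℂ) = _
    rw [hNτ]
    congr 1
    ring
  rw [e0, eN] at hchain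
  simpa only [sub_sub_cancel] using hchain

theorem s8_log21 : Real.log 21 ≤ 28 / 9 := by
  have h1 : (21 : ℝ) ^ 9 ≤ Real.exp 28 := by
    have h2 : Real.exp 28 = Real.exp 1 ^ 28 := by
      rw [← Real.exp_nat_mul]; norm_num
    rw [h2]
    have h3 : (2.718 : ℝ) ≤ Real.exp 1 := by
      have := Real.exp_one_gt_d9
      linarith
    calc (21 : ℝ) ^ 9 ≤ (2.718 : ℝ) ^ 28 := by norm_num
      _ ≤ Real.exp 1 ^ 28 := pow_le_pow_left₀ (by norm_num) h3 28
  have h4 := Real.log_le_log (by positivity) h1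
  rw [Real.log_pow, Real.log_exp] at h4
  push_cast at h4
  linarith

/-- **chain estimate**: from a point `z₀` of depth `d₀` to the disc about a point `z₁` of depth `d₁`, through the depth `D ≥ d₀, d₁`, horizontal distance `≤ A D`. -/
theorem s8_av_chain (f : ℂ → ℂ) (K Ht ylow δmin : ℝ)
    (hf : DifferentiableOn ℂ f {z : ℂ | ylow < z.im ∧ z.im < Ht - δmin})
    (hK : ∀ z : ℂ, ylow < z.im → z.im < Ht - δmin → ‖f z‖ ≤ Real.exp K)
    (z₀ z₁ : ℂ) (D A : ℝ) (hne : f z₀ ≠ 0) (hA : 0 ≤ A) (hδ : 0 ≤ δmin)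
    (h0 : δmin < 3 / 8 * (Ht - z₀.im)) (h1 : δmin < 3 / 8 * (Ht - z₁.im))
    (hD0 : Ht - z₀.im ≤ D) (hD1 : Ht - z₁.im ≤ D) (hlow : ylow < Ht - 2 * D)
    (hx : |z₀.re - z₁.re| ≤ A * D) :
    s8av f K z₁ ((Ht - z₁.im) / 8) ≤
      ENNReal.ofReal (Real.exp (28 * (Real.log (D / (Ht - z₀.im)) + Real.log (D / (Ht - z₁.im)) + A + 1))) *
        ENNReal.ofReal (K - Real.log ‖f z₀‖) := by
  set d₀ := Ht - z₀.im with hd₀
  set d₁ := Ht - z₁.im with hd₁
  have hd₀pos : 0 < d₀ := by linarith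
  have hd₁pos : 0 < d₁ := by linarith
  have hDpos : 0 < D := by linarith
  have ez₀ : z₀ = ⟨z₀.re, Ht - d₀⟩ := by
    apply Complex.ext
    · rfl
    · show z₀.im = Ht - d₀
      rw [hd₀]; ring
  have ez₁ : z₁ = ⟨z₁.re, Ht - d₁⟩ := by
    apply Complex.ext
    · rfl
    · show z₁.im = Ht - d₁
      rw [hd₁]; ring
  have hne' : ∃ z : ℂ, ylow < z.im ∧ z.im < Ht - δmin ∧ f z ≠ 0 := by
    refine ⟨z₀, ?_, ?_, hne⟩
    · rw [hd₀] at *; linarith
    · rw [hd₀] at *; linarith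
  obtain ⟨N₁, hN₁, hl1⟩ := s8_av_leg_v f K Ht ylow δmin hf hK hne' hδ z₀.re d₀ D hd₀pos hDpos
    (by rw [min_eq_left hD0]; exact h0) (by rw [max_eq_right hD0]; linarith)
  obtain ⟨N₂, hN₂, hl2⟩ := s8_av_leg_h f K Ht ylow δmin hf hK hne' hδ z₀.re z₁.re D A hDpos hA hx
    (by linarith) (by linarith)
  obtain ⟨N₃, hN₃, hl3⟩ := s8_av_leg_v f K Ht ylow δmin hf hK hne' hδ z₁.re D d₁ hDpos hd₁pos
    (by rw [min_eq_right hD1]; exact h1) (by rw [max_eq_left hD1]; linarith)
  have hstart : s8av f K z₀ (d₀ / 8) ≤ ENNReal.ofReal (K - Real.log ‖f z₀‖) := by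
    have hsub : closedBall z₀ (d₀ / 8) ⊆ {z : ℂ | ylow < z.im ∧ z.im < Ht - δmin} := by
      intro s hs
      rw [mem_closedBall, dist_eq_norm] at hs
      have h2 := Complex.abs_im_le_norm (s - z₀)
      rw [Complex.sub_im, abs_le] at h2
      constructor
      · show ylow < s.im
        rw [hd₀] at *
        linarith [h2.1]
      · show s.im < Ht - δmin
        rw [hd₀] at *
        linarith [h2.2]
    exact s8_av_le f K z₀ (d₀ / 8) (by positivity) _ (s8_band_isOpen _ _) hsub hf hne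
      (fun z hz => hK z (hsub hz).1 (hsub hz).2)
  rw [← ez₀] at hl1
  rw [← ez₁] at hl3
  have hL0 : 0 ≤ Real.log (D / d₀) := Real.log_nonneg (by rw [le_div_iff₀ hd₀pos]; linarith)
  have hL1 : 0 ≤ Real.log (D / d₁) := Real.log_nonneg (by rw [le_div_iff₀ hd₁pos]; linarith)
  have hL1' : |Real.log (d₁ / D)| = Real.log (D / d₁) := by
    have : d₁ / D = (D / d₁)⁻¹ := by field_simp
    rw [this, Real.log_inv, abs_neg, abs_of_nonneg hL1]
  rw [abs_of_nonneg hL0] at hN₁
  rw [hL1'] at hN₃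
  have htot : s8av f K z₁ (d₁ / 8)
      ≤ ENNReal.ofReal (21 ^ (N₃ + N₂ + N₁)) * ENNReal.ofReal (K - Real.log ‖f z₀‖) := by
    calc s8av f K z₁ (d₁ / 8)
        ≤ ENNReal.ofReal (21 ^ N₃) * (ENNReal.ofReal (21 ^ N₂) * (ENNReal.ofReal (21 ^ N₁) *
          ENNReal.ofReal (K - Real.log ‖f z₀‖))) := by
          refine hl3.trans ?_
          gcongr
          refine hl2.trans ?_
          gcongr
          refine hl1.trans ?_
          gcongr
      _ = _ := by
          rw [pow_add, pow_add, ENNReal.ofReal_mul (by positivity), ENNReal.ofReal_mul (by positivity)]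
          ring
  refine htot.trans ?_
  gcongr
  have h21 : (21 : ℝ) ^ (N₃ + N₂ + N₁) = Real.exp (((N₃ + N₂ + N₁ : ℕ) : ℝ) * Real.log 21) := by
    rw [Real.exp_nat_mul, Real.exp_log (by norm_num)]
  rw [h21]
  apply Real.exp_le_exp.2
  have hl := s8_log21
  have hl0 : 0 ≤ Real.log 21 := Real.log_nonneg (by norm_num)
  push_cast
  have hNsum : (N₃ : ℝ) + N₂ + N₁ ≤ 9 * Real.log (D / d₀) + 9 * Real.log (D / d₁) + 8 * A + 3 := by
    linarith
  have hN0 : (0 : ℝ) ≤ (N₃ : ℝ) + N₂ + N₁ := by positivity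
  calc ((N₃ : ℝ) + N₂ + N₁) * Real.log 21 ≤ ((N₃ : ℝ) + N₂ + N₁) * (28 / 9) :=
        mul_le_mul_of_nonneg_left hl hN0
    _ ≤ (9 * Real.log (D / d₀) + 9 * Real.log (D / d₁) + 8 * A + 3) * (28 / 9) :=
        mul_le_mul_of_nonneg_right hNsum (by norm_num)
    _ ≤ _ := by nlinarith

end Claimed.Agent.R269
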