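/-
Row 269, P1 Section 8, LIBRARY: the periodic Poisson kernel of a half plane.   Blueprint: helper48.   HOST-FREE (no `Shape`): uses Mathlib and `Lib/Cyl.lean` (sorry-free; namespace `Chn`).

It replaces the harmonic measure of the periodic strip (P1 (8.20), Section 8.3, Lemma 8.11): on the strip `0 ≤ Im z ≤ h` a harmonic function vanishing on the real row is
the half-plane Poisson integral of its top-row values up to an error `≤ coth(h/2) (ℓ/h) E|top values|` at distance `ℓ` from the top row.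

LEAF PACKAGE LF-S8-pois-a (this file): kernel facts + `s8_pe_hmv`.   `s8_hp`, `s8_hp_log` are in LibPoisB.lean (LF-S8-pois-b).

PROOFS.
* `cosh ℓ - cos θ = 2 sinh²(ℓ/2) + 2 sin²(θ/2) > 0`.  `s8_pois_le`: `cos θ ≤ 1`.
* `s8_pois_ker`: `τ = s9per θ ∈ [0,π]`, `cos θ = cos τ`, `τ/π ≤ sin(τ/2) ≤ τ/2`, `ℓ ≤ sinh ℓ ≤ 1.2 ℓ`, `ℓ/2 ≤ sinh(ℓ/2) ≤ 0.53 ℓ` for `ℓ ≤ 1`:
  `ℓ/(0.57 (ℓ²+τ²)) ≤ s8Pois ℓ θ ≤ 1.2 ℓ (π²/2)/(ℓ²+τ²)`, and `(d/2)/(d²+τ²) ≤ ℓ/(ℓ²+τ²) ≤ 4 d/(d²+τ²)` for `d/2 ≤ ℓ ≤ d`.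
* `s8_pois_eq`: with `r = e^{-ℓ}`: `s8Pois ℓ θ = (1 - r²)/(1 - 2 r cos θ + r²) = poissonKernel 0 (r e^{iφ}) (e^{i(φ+θ)})` (Mathlib `Analysis/Complex/Poisson.lean`).
* `s8_pois_cos`, `s8_pois_sin` (hence `s8_pois_int`, `n = 0`): Mathlib's Poisson formula `DiffContOnCl.circleAverage_poissonKernel_smul` (name may differ: see `Mathlib/Analysis/Complex/Poisson.lean`)
  for `z ↦ z^n` on the unit disc at `w = e^{-ℓ} e^{ix}`, real and imaginary parts.  (Alternative: geometric series `s8Pois ℓ θ = ∑_{n∈ℤ} e^{-|n|ℓ} e^{inθ}`, termwise integration.)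
* `s8_pe_hmv`: for `g = cos(n·)`: `s8PE g h z = Re (e^{-nh} e^{-inz})` on `Im z ≤ h` (`n ≥ 0`), similarly `sin`: `Chn.hmv_re` + `Chn.HMV.congr`; linear combinations (`Chn.HMV.add`, `.const_mul`);
  `|s8PE g h z - s8PE g' h z| ≤ sup |g - g'|` (positivity + `s8_pois_int`); density of trigonometric polynomials: `Chn.cyl_approx`; uniform limits: `Chn.hmv_of_tendsto`.
-/
import Claimed.Agent.R269.S8.Defs
import Claimed.Agent.R269.Lib.Cyl

set_option autoImplicit false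

namespace Claimed.Agent.R269

open Complex MeasureTheory Set Metric Filter Topology
open scoped ENNReal Real

theorem s8p_den_pos (ℓ θ : ℝ) (hℓ : 0 < ℓ) : 0 < Real.cosh ℓ - Real.cos θ := by
  have h1 : 1 < Real.cosh ℓ := Real.one_lt_cosh.2 hℓ.ne'
  have h2 := Real.cos_le_one θ
  linarith

theorem s8_pois_pos (ℓ θ : ℝ) (hℓ : 0 < ℓ) : 0 < s8Pois ℓ θ := by
  exact div_pos (Real.sinh_pos_iff.2 hℓ) (s8p_den_pos ℓ θ hℓ)

theorem s8_pois_le (ℓ θ : ℝ) (hℓ : 0 < ℓ) : s8Pois ℓ θ ≤ Real.sinh ℓ / (Real.cosh ℓ - 1) := by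
  have h1 : 1 < Real.cosh ℓ := Real.one_lt_cosh.2 hℓ.ne'
  have h2 := Real.cos_le_one θ
  exact div_le_div_of_nonneg_left (Real.sinh_pos_iff.2 hℓ).le (by linarith) (by linarith)

theorem s8_pois_cont (ℓ : ℝ) (hℓ : 0 < ℓ) : Continuous (s8Pois ℓ) := by
  unfold s8Pois
  exact Continuous.div continuous_const (by fun_prop) fun θ => (s8p_den_pos ℓ θ hℓ).ne'

/-- joint continuity for `ℓ > 0`. -/
theorem s8_pois_contOn : ContinuousOn (fun p : ℝ × ℝ => s8Pois p.1 p.2) (Ioi 0 ×ˢ univ) := by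
  unfold s8Pois
  refine ContinuousOn.div (by fun_prop) (by fun_prop) fun p hp => (s8p_den_pos p.1 p.2 hp.1).ne'

theorem s8_pois_per (ℓ θ : ℝ) : s8Pois ℓ (θ + 2 * π) = s8Pois ℓ θ := by
  simp [s8Pois, Real.cos_add_two_pi]

theorem s8_pois_even (ℓ θ : ℝ) : s8Pois ℓ (-θ) = s8Pois ℓ θ := by
  simp [s8Pois, Real.cos_neg]

theorem s8p_sinh_le (x : ℝ) (h0 : 0 ≤ x) (h1 : x ≤ 1) : Real.sinh x ≤ x + x ^ 2 / 2 := by
  have e1 := Real.abs_exp_sub_one_sub_id_le (x := x) (by rw [abs_of_nonneg h0]; exact h1)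
  have e2 := (abs_le.1 e1).2
  have e3 := Real.add_one_le_exp (-x)
  rw [Real.sinh_eq]
  linarith

theorem s8p_cosh_eq (x : ℝ) : Real.cosh x - 1 = 2 * Real.sinh (x / 2) ^ 2 := by
  have h1 := Real.cosh_two_mul (x / 2)
  have h2 := Real.cosh_sq (x / 2)
  rw [show 2 * (x / 2) = x by ring] at h1
  linarith

theorem s8p_per_le (θ : ℝ) : s9per θ ≤ π := by
  unfold s9per
  have h := abs_sub_round (θ / (2 * π))
  have hp := Real.pi_pos
  have e : θ - 2 * π * round (θ / (2 * π)) = 2 * π * (θ / (2 * π) - round (θ / (2 * π))) := by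
    field_simp
  rw [e, abs_mul, abs_of_pos (by positivity : (0 : ℝ) < 2 * π)]
  nlinarith

theorem s8p_cos_per (θ : ℝ) : Real.cos (s9per θ) = Real.cos θ := by
  unfold s9per
  rw [Real.cos_abs, show θ - 2 * π * round (θ / (2 * π)) = θ - (round (θ / (2 * π)) : ℤ) * (2 * π) by ring,
    Real.cos_sub_int_mul_two_pi]

/-- comparison with the model ancestor kernel of P1 (8.22). -/
theorem s8_pois_ker (d ℓ θ : ℝ) (hd : 0 < d) (hd1 : d ≤ 1) (h1 : d / 2 ≤ ℓ) (h2 : ℓ ≤ d) :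
    1 / 2 * s9ker d θ ≤ s8Pois ℓ θ ∧ s8Pois ℓ θ ≤ 24 * s9ker d θ := by
  have hℓ : 0 < ℓ := by linarith
  unfold s9ker s8Pois
  rw [← s8p_cos_per θ]
  have hτ0 : 0 ≤ s9per θ := abs_nonneg _
  have hτπ := s8p_per_le θ
  set τ := s9per θ with hτ
  have hA : 0 < d ^ 2 + τ ^ 2 := by positivity
  have hD : 0 < Real.cosh ℓ - Real.cos τ := s8p_den_pos ℓ τ hℓ
  have hS0 : 0 < Real.sinh ℓ := Real.sinh_pos_iff.2 hℓ
  have hS1 : ℓ ≤ Real.sinh ℓ := Real.self_le_sinh_iff.2 hℓ.le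
  have hS2 : Real.sinh ℓ ≤ ℓ + ℓ ^ 2 / 2 := s8p_sinh_le ℓ hℓ.le (by linarith)
  have hH1 : ℓ / 2 ≤ Real.sinh (ℓ / 2) := Real.self_le_sinh_iff.2 (by linarith)
  have hH2 : Real.sinh (ℓ / 2) ≤ ℓ / 2 + (ℓ / 2) ^ 2 / 2 := s8p_sinh_le (ℓ / 2) (by linarith) (by linarith)
  have hC := s8p_cosh_eq ℓ
  have hc1 : 1 - τ ^ 2 / 2 ≤ Real.cos τ := Real.one_sub_sq_div_two_le_cos
  have hc2 : Real.cos τ ≤ 1 - 2 / π ^ 2 * τ ^ 2 :=
    Real.cos_le_one_sub_mul_cos_sq (by rw [abs_of_nonneg hτ0]; exact hτπ)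
  have hpi : (1 : ℝ) / 8 ≤ 2 / π ^ 2 := by
    have hp4 := Real.pi_le_four
    have hp0 := Real.pi_pos
    rw [div_le_div_iff₀ (by norm_num) (by positivity)]
    nlinarith
  constructor
  · have hH3 : Real.sinh (ℓ / 2) ≤ 5 / 8 * ℓ := by nlinarith
    have hH4 : Real.sinh (ℓ / 2) ^ 2 ≤ (5 / 8 * ℓ) ^ 2 := by
      apply pow_le_pow_left₀ (by linarith) hH3
    have hDA : Real.cosh ℓ - Real.cos τ ≤ d ^ 2 + τ ^ 2 := by
      have : ℓ ^ 2 ≤ d ^ 2 := pow_le_pow_left₀ hℓ.le h2 2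
      nlinarith [sq_nonneg τ]
    calc 1 / 2 * (d / (d ^ 2 + τ ^ 2)) = (d / 2) / (d ^ 2 + τ ^ 2) := by ring
      _ ≤ Real.sinh ℓ / (d ^ 2 + τ ^ 2) := by
        apply div_le_div_of_nonneg_right (by linarith) hA.le
      _ ≤ Real.sinh ℓ / (Real.cosh ℓ - Real.cos τ) := div_le_div_of_nonneg_left hS0.le hD hDA
  · have hS3 : Real.sinh ℓ ≤ 3 / 2 * d := by nlinarith
    have hH4 : (ℓ / 2) ^ 2 ≤ Real.sinh (ℓ / 2) ^ 2 := pow_le_pow_left₀ (by linarith) hH1 2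
    have hDA : (d ^ 2 + τ ^ 2) / 8 ≤ Real.cosh ℓ - Real.cos τ := by
      have h3 : (d / 2) ^ 2 ≤ ℓ ^ 2 := pow_le_pow_left₀ (by linarith) h1 2
      have h4 : 1 / 8 * τ ^ 2 ≤ 2 / π ^ 2 * τ ^ 2 := mul_le_mul_of_nonneg_right hpi (sq_nonneg τ)
      nlinarith
    calc Real.sinh ℓ / (Real.cosh ℓ - Real.cos τ) ≤ Real.sinh ℓ / ((d ^ 2 + τ ^ 2) / 8) :=
          div_le_div_of_nonneg_left hS0.le (by positivity) hDA
      _ ≤ (3 / 2 * d) / ((d ^ 2 + τ ^ 2) / 8) := by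
        apply div_le_div_of_nonneg_right hS3 (by positivity)
      _ = 12 * (d / (d ^ 2 + τ ^ 2)) := by field_simp; ring
      _ ≤ 24 * (d / (d ^ 2 + τ ^ 2)) := by
        have : 0 ≤ d / (d ^ 2 + τ ^ 2) := by positivity
        linarith

theorem s8p_pois_eq (ℓ x u : ℝ) (hℓ : 0 < ℓ) :
    (‖circleMap 0 1 u - 0‖ ^ 2 - ‖(Real.exp (-ℓ) : ℂ) * Complex.exp (x * I) - 0‖ ^ 2) /
      ‖(circleMap 0 1 u - 0) - ((Real.exp (-ℓ) : ℂ) * Complex.exp (x * I) - 0)‖ ^ 2 = s8Pois ℓ (x - u) := by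
  have hD := s8p_den_pos ℓ (x - u) hℓ
  have hr : 0 < Real.exp (-ℓ) := Real.exp_pos _
  have e1 : ‖circleMap 0 1 u - 0‖ = 1 := by simp [circleMap]
  have e2 : ‖(Real.exp (-ℓ) : ℂ) * Complex.exp (x * I) - 0‖ = Real.exp (-ℓ) := by
    rw [sub_zero, norm_mul, Complex.norm_exp_ofReal_mul_I, mul_one, Complex.norm_real, Real.norm_eq_abs, abs_of_pos hr]
  have e3 : ‖(circleMap 0 1 u - 0) - ((Real.exp (-ℓ) : ℂ) * Complex.exp (x * I) - 0)‖ ^ 2 =
      1 - 2 * Real.exp (-ℓ) * Real.cos (x - u) + Real.exp (-ℓ) ^ 2 := by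
    rw [Complex.sq_norm, Complex.normSq_apply]
    simp only [circleMap, sub_zero, zero_add, Complex.ofReal_one, one_mul, Complex.sub_re, Complex.sub_im, Complex.re_ofReal_mul,
      Complex.im_ofReal_mul, Complex.exp_ofReal_mul_I_re, Complex.exp_ofReal_mul_I_im]
    rw [Real.cos_sub]
    have := Real.sin_sq_add_cos_sq u
    have := Real.sin_sq_add_cos_sq x
    nlinarith
  rw [e1, e2, e3]
  unfold s8Pois
  have e4 : Real.exp ℓ = (Real.exp (-ℓ))⁻¹ := by rw [Real.exp_neg, inv_inv]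
  rw [Real.cosh_eq, e4] at hD
  rw [Real.sinh_eq, Real.cosh_eq, e4]
  generalize Real.exp (-ℓ) = r at *
  generalize Real.cos (x - u) = c at *
  have hD1 : 1 - 2 * r * c + r ^ 2 = 2 * r * ((r⁻¹ + r) / 2 - c) := by
    field_simp
    ring
  rw [hD1, div_eq_div_iff (by positivity) hD.ne']
  field_simp

theorem s8p_pois_exp (ℓ x : ℝ) (hℓ : 0 < ℓ) (n : ℕ) :
    ∫ u in (0 : ℝ)..(2 * π), (s8Pois ℓ (x - u) : ℂ) * Complex.exp (((n * u : ℝ) : ℂ) * I) =
      2 * π * (Real.exp (-(n * ℓ)) * Complex.exp (((n * x : ℝ) : ℂ) * I)) := by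
  have hr : 0 < Real.exp (-ℓ) := Real.exp_pos _
  have hw : (Real.exp (-ℓ) : ℂ) * Complex.exp (x * I) ∈ ball (0 : ℂ) 1 := by
    rw [mem_ball_zero_iff, norm_mul, Complex.norm_exp_ofReal_mul_I, mul_one, Complex.norm_real, Real.norm_eq_abs,
      abs_of_pos hr, Real.exp_lt_one_iff]
    linarith
  have hf : DiffContOnCl ℂ (fun z : ℂ => z ^ n) (ball 0 1) :=
    (differentiable_id.pow n).diffContOnCl
  have h := hf.circleAverage_poissonKernel_smul' hw
  rw [Real.circleAverage_def] at h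
  have e : ∀ u : ℝ, ((‖circleMap 0 1 u - 0‖ ^ 2 - ‖(Real.exp (-ℓ) : ℂ) * Complex.exp (x * I) - 0‖ ^ 2) /
      ‖(circleMap 0 1 u - 0) - ((Real.exp (-ℓ) : ℂ) * Complex.exp (x * I) - 0)‖ ^ 2) • (circleMap 0 1 u) ^ n =
      (s8Pois ℓ (x - u) : ℂ) * Complex.exp (((n * u : ℝ) : ℂ) * I) := by
    intro u
    rw [s8p_pois_eq ℓ x u hℓ, Complex.real_smul]
    congr 1
    simp only [circleMap, zero_add, Complex.ofReal_one, one_mul]
    rw [← Complex.exp_nat_mul]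
    push_cast
    ring_nf
  simp only [e] at h
  have hp : (2 * π : ℝ) ≠ 0 := by positivity
  have h2 : ∫ u in (0 : ℝ)..(2 * π), (s8Pois ℓ (x - u) : ℂ) * Complex.exp (((n * u : ℝ) : ℂ) * I) =
      (2 * π : ℝ) • ((Real.exp (-ℓ) : ℂ) * Complex.exp (x * I)) ^ n := by
    rw [← h, smul_smul, mul_inv_cancel₀ hp, one_smul]
  rw [h2, Complex.real_smul, mul_pow, ← Complex.exp_nat_mul, ← Complex.ofReal_pow, ← Real.exp_nat_mul]
  push_cast
  ring_nf

theorem s8p_intble (ℓ x : ℝ) (hℓ : 0 < ℓ) (n : ℕ) :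
    IntervalIntegrable (fun u : ℝ => (s8Pois ℓ (x - u) : ℂ) * Complex.exp (((n * u : ℝ) : ℂ) * I)) volume 0 (2 * π) := by
  apply Continuous.intervalIntegrable
  have := s8_pois_cont ℓ hℓ
  fun_prop

theorem s8_pois_cos (ℓ x : ℝ) (hℓ : 0 < ℓ) (n : ℕ) :
    ∫ u in (0 : ℝ)..(2 * π), s8Pois ℓ (x - u) * Real.cos (n * u) =
      2 * π * (Real.exp (-(n * ℓ)) * Real.cos (n * x)) := by
  have h := Complex.reCLM.intervalIntegral_comp_comm (s8p_intble ℓ x hℓ n)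
  rw [s8p_pois_exp ℓ x hℓ n] at h
  simp only [Complex.reCLM_apply, Complex.re_ofReal_mul, Complex.exp_ofReal_mul_I_re] at h
  rw [h]
  have : (2 * (π : ℂ) * ((Real.exp (-(n * ℓ)) : ℂ) * Complex.exp (((n * x : ℝ) : ℂ) * I))) =
      ((2 * π * Real.exp (-(n * ℓ)) : ℝ) : ℂ) * Complex.exp (((n * x : ℝ) : ℂ) * I) := by
    push_cast; ring
  rw [this, Complex.re_ofReal_mul, Complex.exp_ofReal_mul_I_re]
  ring

theorem s8_pois_sin (ℓ x : ℝ) (hℓ : 0 < ℓ) (n : ℕ) :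
    ∫ u in (0 : ℝ)..(2 * π), s8Pois ℓ (x - u) * Real.sin (n * u) =
      2 * π * (Real.exp (-(n * ℓ)) * Real.sin (n * x)) := by
  have h := Complex.imCLM.intervalIntegral_comp_comm (s8p_intble ℓ x hℓ n)
  rw [s8p_pois_exp ℓ x hℓ n] at h
  simp only [Complex.imCLM_apply, Complex.im_ofReal_mul, Complex.exp_ofReal_mul_I_im] at h
  rw [h]
  have : (2 * (π : ℂ) * ((Real.exp (-(n * ℓ)) : ℂ) * Complex.exp (((n * x : ℝ) : ℂ) * I))) =
      ((2 * π * Real.exp (-(n * ℓ)) : ℝ) : ℂ) * Complex.exp (((n * x : ℝ) : ℂ) * I) := by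
    push_cast; ring
  rw [this, Complex.im_ofReal_mul, Complex.exp_ofReal_mul_I_im]
  ring

theorem s8_pois_int (ℓ x : ℝ) (hℓ : 0 < ℓ) : ∫ u in (0 : ℝ)..(2 * π), s8Pois ℓ (x - u) = 2 * π := by
  have h := s8_pois_cos ℓ x hℓ 0
  simpa using h

/-- the periodic Poisson extension of `g` to the half plane below the row `Im z = h` (equal to `g (Re z)` on and above the row). -/
noncomputable def s8PE (g : ℝ → ℝ) (h : ℝ) (z : ℂ) : ℝ :=
  if z.im < h then (2 * π)⁻¹ * ∫ u in (0 : ℝ)..(2 * π), s8Pois (h - z.im) (z.re - u) * g u else g z.re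

theorem s8_pe_per (g : ℝ → ℝ) (hper : Function.Periodic g (2 * π)) (h : ℝ) (z : ℂ) :
    s8PE g h (z + 2 * π) = s8PE g h z := by
  unfold s8PE
  rw [Chn.cyl_re_shift, Chn.cyl_im_shift, hper z.re]
  have e : ∀ u : ℝ, s8Pois (h - z.im) (z.re + 2 * π - u) = s8Pois (h - z.im) (z.re - u) := fun u => by
    rw [show z.re + 2 * π - u = (z.re - u) + 2 * π by ring, s8_pois_per]
  simp only [e]

theorem s8p_ii (g : ℝ → ℝ) (hg : Continuous g) (ℓ x : ℝ) (hℓ : 0 < ℓ) :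
    IntervalIntegrable (fun u : ℝ => s8Pois ℓ (x - u) * g u) volume 0 (2 * π) := by
  apply Continuous.intervalIntegrable
  have := s8_pois_cont ℓ hℓ
  fun_prop

/-- bound of the extension at distance `ℓ = h - Im z` by the mean of `|g|`. -/
theorem s8_pe_abs_le (g : ℝ → ℝ) (hg : Continuous g) (h : ℝ) (z : ℂ) (hz : z.im < h) :
    |s8PE g h z| ≤ Real.sinh (h - z.im) / (Real.cosh (h - z.im) - 1) *
      ((2 * π)⁻¹ * ∫ u in (0 : ℝ)..(2 * π), |g u|) := by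
  have hℓ : 0 < h - z.im := by linarith
  have hp : (0 : ℝ) < 2 * π := by positivity
  unfold s8PE
  rw [if_pos hz, abs_mul, abs_of_pos (inv_pos.2 hp)]
  have h1 := intervalIntegral.abs_integral_le_integral_abs (f := fun u : ℝ => s8Pois (h - z.im) (z.re - u) * g u)
    (μ := volume) hp.le
  have h2 : ∫ u in (0 : ℝ)..(2 * π), |s8Pois (h - z.im) (z.re - u) * g u| ≤
      ∫ u in (0 : ℝ)..(2 * π), Real.sinh (h - z.im) / (Real.cosh (h - z.im) - 1) * |g u| := by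
    apply intervalIntegral.integral_mono_on hp.le (s8p_ii g hg _ _ hℓ).abs
    · apply Continuous.intervalIntegrable
      fun_prop
    · intro u _
      rw [abs_mul, abs_of_pos (s8_pois_pos _ _ hℓ)]
      exact mul_le_mul_of_nonneg_right (s8_pois_le _ _ hℓ) (abs_nonneg _)
  rw [intervalIntegral.integral_const_mul] at h2
  calc (2 * π)⁻¹ * |∫ u in (0 : ℝ)..(2 * π), s8Pois (h - z.im) (z.re - u) * g u|
      ≤ (2 * π)⁻¹ * (Real.sinh (h - z.im) / (Real.cosh (h - z.im) - 1) * ∫ u in (0 : ℝ)..(2 * π), |g u|) :=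
        mul_le_mul_of_nonneg_left (h1.trans h2) (inv_pos.2 hp).le
    _ = _ := by ring

/-- positivity. -/
theorem s8_pe_nonneg (g : ℝ → ℝ) (hg : Continuous g) (h0 : ∀ u, 0 ≤ g u) (h : ℝ) (z : ℂ) : 0 ≤ s8PE g h z := by
  have hp : (0 : ℝ) < 2 * π := by positivity
  unfold s8PE
  split_ifs with hz
  · have hℓ : 0 < h - z.im := by linarith
    apply mul_nonneg (inv_pos.2 hp).le
    apply intervalIntegral.integral_nonneg hp.le
    intro u _
    exact mul_nonneg (s8_pois_pos _ _ hℓ).le (h0 u)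
  · exact h0 _

theorem s8p_pe_add (f g : ℝ → ℝ) (hf : Continuous f) (hg : Continuous g) (h : ℝ) (z : ℂ) :
    s8PE (fun x => f x + g x) h z = s8PE f h z + s8PE g h z := by
  unfold s8PE
  split_ifs with hz
  · have hℓ : 0 < h - z.im := by linarith
    rw [← mul_add, ← intervalIntegral.integral_add (s8p_ii f hf _ _ hℓ) (s8p_ii g hg _ _ hℓ)]
    simp only [mul_add]
  · rfl

theorem s8p_pe_smul (a : ℝ) (f : ℝ → ℝ) (h : ℝ) (z : ℂ) :
    s8PE (fun x => a * f x) h z = a * s8PE f h z := by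
  unfold s8PE
  split_ifs with hz
  · have e : ∀ u : ℝ, s8Pois (h - z.im) (z.re - u) * (a * f u) = a * (s8Pois (h - z.im) (z.re - u) * f u) :=
      fun u => by ring
    simp only [e]
    rw [intervalIntegral.integral_const_mul]
    ring
  · rfl

theorem s8p_pe_dist (f g : ℝ → ℝ) (hf : Continuous f) (hg : Continuous g) (ε : ℝ) (hfg : ∀ x, |f x - g x| ≤ ε) (h : ℝ) (z : ℂ) :
    |s8PE f h z - s8PE g h z| ≤ ε := by
  have hp : (0 : ℝ) < 2 * π := by positivity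
  unfold s8PE
  split_ifs with hz
  · have hℓ : 0 < h - z.im := by linarith
    rw [← mul_sub, ← intervalIntegral.integral_sub (s8p_ii f hf _ _ hℓ) (s8p_ii g hg _ _ hℓ), abs_mul,
      abs_of_pos (inv_pos.2 hp)]
    have h1 := intervalIntegral.abs_integral_le_integral_abs
      (f := fun u : ℝ => s8Pois (h - z.im) (z.re - u) * f u - s8Pois (h - z.im) (z.re - u) * g u) (μ := volume) hp.le
    have h2 : ∫ u in (0 : ℝ)..(2 * π), |s8Pois (h - z.im) (z.re - u) * f u - s8Pois (h - z.im) (z.re - u) * g u| ≤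
        ∫ u in (0 : ℝ)..(2 * π), s8Pois (h - z.im) (z.re - u) * ε := by
      apply intervalIntegral.integral_mono_on hp.le ((s8p_ii f hf _ _ hℓ).sub (s8p_ii g hg _ _ hℓ)).abs
      · exact s8p_ii (fun _ => ε) continuous_const _ _ hℓ
      · intro u _
        rw [← mul_sub, abs_mul, abs_of_pos (s8_pois_pos _ _ hℓ)]
        exact mul_le_mul_of_nonneg_left (hfg u) (s8_pois_pos _ _ hℓ).le
    rw [intervalIntegral.integral_mul_const, s8_pois_int _ _ hℓ] at h2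
    calc (2 * π)⁻¹ * |∫ u in (0 : ℝ)..(2 * π), (s8Pois (h - z.im) (z.re - u) * f u - s8Pois (h - z.im) (z.re - u) * g u)|
        ≤ (2 * π)⁻¹ * (2 * π * ε) := mul_le_mul_of_nonneg_left (h1.trans h2) (inv_pos.2 hp).le
      _ = ε := by field_simp
  · exact hfg _

/-- good data -/
def S8pGood (h : ℝ) (f : ℝ → ℝ) : Prop := Continuous f ∧ Chn.HMV (s8PE f h) {z : ℂ | z.im ≤ h}

theorem S8pGood.add {h : ℝ} {f g : ℝ → ℝ} (hf : S8pGood h f) (hg : S8pGood h g) : S8pGood h fun x => f x + g x :=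
  ⟨hf.1.add hg.1, (hf.2.add hg.2).congr fun z _ => s8p_pe_add f g hf.1 hg.1 h z⟩

theorem S8pGood.const_mul {h : ℝ} {f : ℝ → ℝ} (hf : S8pGood h f) (a : ℝ) : S8pGood h fun x => a * f x :=
  ⟨continuous_const.mul hf.1, (hf.2.const_mul a).congr fun z _ => s8p_pe_smul a f h z⟩

theorem S8pGood.congr {h : ℝ} {f g : ℝ → ℝ} (hf : S8pGood h f) (hfg : ∀ x, g x = f x) : S8pGood h g := by
  obtain rfl : g = f := funext hfg
  exact hf

theorem s8p_F_re (h : ℝ) (m : ℕ) (z : ℂ) :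
    ((Real.exp (-(m * h)) : ℂ) * Complex.exp (-(I * (m * z)))).re = Real.exp (-(m * (h - z.im))) * Real.cos (m * z.re) := by
  have e : -(I * ((m : ℂ) * z)) = ((m * z.im : ℝ) : ℂ) + ((-(m * z.re) : ℝ) : ℂ) * I := by
    apply Complex.ext <;> simp
  rw [e, Complex.exp_add, ← Complex.ofReal_exp, ← mul_assoc, ← Complex.ofReal_mul, Complex.re_ofReal_mul,
    Complex.exp_ofReal_mul_I_re, Real.cos_neg, ← Real.exp_add]
  congr 2
  ring

theorem s8p_F_im (h : ℝ) (m : ℕ) (z : ℂ) :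
    ((Real.exp (-(m * h)) : ℂ) * Complex.exp (-(I * (m * z)))).im = -(Real.exp (-(m * (h - z.im))) * Real.sin (m * z.re)) := by
  have e : -(I * ((m : ℂ) * z)) = ((m * z.im : ℝ) : ℂ) + ((-(m * z.re) : ℝ) : ℂ) * I := by
    apply Complex.ext <;> simp
  rw [e, Complex.exp_add, ← Complex.ofReal_exp, ← mul_assoc, ← Complex.ofReal_mul, Complex.im_ofReal_mul,
    Complex.exp_ofReal_mul_I_im, Real.sin_neg, ← Real.exp_add, mul_neg]
  congr 3
  ring

theorem s8p_F_diff (h : ℝ) (m : ℕ) :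
    Differentiable ℂ fun z : ℂ => (Real.exp (-(m * h)) : ℂ) * Complex.exp (-(I * (m * z))) := by
  fun_prop

theorem s8p_good_cos (h : ℝ) (m : ℕ) : S8pGood h fun x => Real.cos (m * x) := by
  refine ⟨by fun_prop, ?_⟩
  refine (Chn.hmv_re _ _ (Chn.cyl_entire _ (s8p_F_diff h m) _)).congr fun z hz => ?_
  have hp : (2 * π : ℝ) ≠ 0 := by positivity
  rw [s8p_F_re]
  unfold s8PE
  split_ifs with hz'
  · rw [s8_pois_cos _ _ (by linarith), ← mul_assoc, inv_mul_cancel₀ hp, one_mul]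
  · have : z.im = h := le_antisymm hz (not_lt.1 hz')
    rw [this]
    simp

theorem s8p_good_sin (h : ℝ) (m : ℕ) : S8pGood h fun x => Real.sin (m * x) := by
  refine ⟨by fun_prop, ?_⟩
  refine ((Chn.hmv_im _ _ (Chn.cyl_entire _ (s8p_F_diff h m) _)).const_mul (-1)).congr fun z hz => ?_
  have hp : (2 * π : ℝ) ≠ 0 := by positivity
  rw [s8p_F_im]
  unfold s8PE
  split_ifs with hz'
  · rw [s8_pois_sin _ _ (by linarith), ← mul_assoc, inv_mul_cancel₀ hp, one_mul]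
    ring
  · have : z.im = h := le_antisymm hz (not_lt.1 hz')
    rw [this]
    simp

theorem s8p_good_cosZ (h : ℝ) (n : ℤ) : S8pGood h fun x => Real.cos (n * x) := by
  obtain ⟨m, rfl | rfl⟩ := n.eq_nat_or_neg
  · exact (s8p_good_cos h m).congr fun x => by simp
  · exact (s8p_good_cos h m).congr fun x => by simp

theorem s8p_good_sinZ (h : ℝ) (n : ℤ) : S8pGood h fun x => Real.sin (n * x) := by
  obtain ⟨m, rfl | rfl⟩ := n.eq_nat_or_neg
  · exact (s8p_good_sin h m).congr fun x => by simp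
  · exact ((s8p_good_sin h m).const_mul (-1)).congr fun x => by simp

theorem s8p_good_span (h : ℝ) (P : C(AddCircle (2 * π), ℂ))
    (hP : P ∈ Submodule.span ℂ (range (fourier : ℤ → C(AddCircle (2 * π), ℂ)))) :
    S8pGood h (fun x : ℝ => (P (x : AddCircle (2 * π))).re) ∧ S8pGood h fun x : ℝ => (P (x : AddCircle (2 * π))).im := by
  induction hP using Submodule.span_induction with
  | mem P hm =>
    obtain ⟨n, rfl⟩ := hm
    constructor
    · refine (s8p_good_cosZ h n).congr fun x => ?_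
      rw [Chn.cyl_fourier_apply, Complex.exp_ofReal_mul_I_re]
    · refine (s8p_good_sinZ h n).congr fun x => ?_
      rw [Chn.cyl_fourier_apply, Complex.exp_ofReal_mul_I_im]
  | zero =>
    have h0 : S8pGood h fun _ => 0 := by
      refine ((s8p_good_cos h 0).const_mul 0).congr fun x => ?_
      simp
    exact ⟨h0.congr fun x => by simp, h0.congr fun x => by simp⟩
  | add P Q _ _ hP hQ =>
    exact ⟨(hP.1.add hQ.1).congr fun x => by simp, (hP.2.add hQ.2).congr fun x => by simp⟩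
  | smul a P _ hP =>
    constructor
    · refine ((hP.1.const_mul a.re).add (hP.2.const_mul (-a.im))).congr fun x => ?_
      simp [Complex.mul_re]
      ring
    · refine ((hP.2.const_mul a.re).add (hP.1.const_mul a.im)).congr fun x => ?_
      simp [Complex.mul_im]

/-- **the Poisson extension is harmonic below the row and continuous up to it** (in the `HMV` sense of `Lib/Cyl.lean`). -/
theorem s8_pe_hmv (g : ℝ → ℝ) (hg : Continuous g) (hper : Function.Periodic g (2 * π)) (h : ℝ) :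
    Chn.HMV (s8PE g h) {z : ℂ | z.im ≤ h} := by
  have hε : ∀ k : ℕ, (0 : ℝ) < 1 / ((k : ℝ) + 1) := fun k => by positivity
  choose P hP hP' using fun k : ℕ => Chn.cyl_approx g hg hper _ (hε k)
  have hgood := fun k : ℕ => (s8p_good_span h (P k) (hP k)).1
  refine Chn.hmv_of_tendsto (fun k => (hgood k).2) ?_
  rw [Metric.tendstoUniformlyOn_iff]
  intro ε hε0
  have ht := tendsto_one_div_add_atTop_nhds_zero_nat (𝕜 := ℝ)
  filter_upwards [ht.eventually (gt_mem_nhds hε0)] with k hk z _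
  rw [Real.dist_eq, abs_sub_comm]
  exact lt_of_le_of_lt (s8p_pe_dist _ _ (hgood k).1 hg _ (hP' k) h z) hk

end Claimed.Agent.R269
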