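/-
Row 269, P1 Section 8, LIBRARY: half-plane Poisson integrals on a periodic strip with real bottom.   Blueprint: helper48.   HOST-FREE.
LEAF PACKAGE LF-S8-pois-b (this file; LibPois.lean is a black box).

Both statements are maximum principles on the periodic strip `0 ≤ Im z ≤ h`: use `Chn.cyl_max` with `b = h/2` for the shifted function `z ↦ u (z + i h/2)`
(`Chn.HMV`/`Chn.HSub` are stable under the holomorphic substitution `z ↦ z + i h/2`: unfold the definition, compose `g` with the translation).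

* `s8_hp`.  `g(u) = Im V(u + ih)` (continuous, periodic), `A = s8PE g h`, `S = coth(h/2) E|g|` (`coth(h/2) = sinh h/(cosh h - 1)`).
  `e_±(z) = ±(Im V z - A z) - S (h - Im z)/h` is `HMV` on the strip (`Chn.hmv_im`, `s8_pe_hmv`, `(h - Im z)/h = Im ((i h - z)/h)·...` is the imaginary part of an entire function), periodic,
  `= 0` on the top row, `= ∓ A(x) - S ≤ 0` on the real row (`Im V = 0` there, `s8_pe_abs_le` with `ℓ = h`).  So `e_± ≤ 0`; evaluate at `x + i(h-ℓ)`.  (`ℓ = h` included.)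
* `s8_hp_log`.  For `R > 0` let `g_R(u) = G - log max(|f(u+ih)|, e^{G-R}) ∈ [0,R]` (continuous, periodic), `A_R = s8PE g_R h`, `S_R = coth(h/2) E g_R`.
  `u(z) = log max(|f z|, e^{G-R}) - G + A_R z - S_R (h - Im z)/h` is `HSub` (`Chn.hsub_logmax` with `T = R - G`, `Chn.HSub.sub`), periodic, `= 0` on the top row and `≤ 0` on the real row.
  Hence `A_R(z) ≤ G - log|f z| + S_R ℓ/h` at `z = x + i(h-ℓ)`.  Let `R → ∞` (`R = n`): `g_R ↑ G - log|f(u+ih)|` at every `u` with `f(u+ih) ≠ 0`, i.e. for a.e. `u`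
  (`f ≢ 0` on the connected strip because `f z ≠ 0`; zeros of an analytic function are countable); monotone convergence on the left (`lintegral_iSup`/`lintegral_tendsto_of_tendsto_of_monotone`),
  `g_R ≤ G - log|f|` a.e. on the right.  For `ℓ = h` the kernel is still `s8Pois h`.
-/
import Claimed.Agent.R269.S8.LibPois
import Claimed.Agent.R269.S8.LibTrunc

set_option autoImplicit false

namespace Claimed.Agent.R269

open Complex MeasureTheory Set Metric Filter Topology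
open scoped ENNReal Real

/-- the closed strip `0 ≤ Im z ≤ h`. -/
def s8Strip (h : ℝ) : Set ℂ := {z : ℂ | 0 ≤ z.im ∧ z.im ≤ h}

/-- maximum principle on the periodic strip `0 ≤ Im z ≤ h`. -/
theorem s8_strip_max (h : ℝ) (hh : 0 < h) (u : ℂ → ℝ) (hu : Chn.HSub u (s8Strip h))
    (hper : ∀ z ∈ s8Strip h, u (z + 2 * π) = u z)
    (h1 : ∀ x : ℝ, u ⟨x, h⟩ ≤ 0) (h2 : ∀ x : ℝ, u ⟨x, 0⟩ ≤ 0) : ∀ z ∈ s8Strip h, u z ≤ 0 := by
  have hmem : ∀ w ∈ Chn.cstrip (h / 2), w + ((h / 2 : ℝ) : ℂ) * I ∈ s8Strip h := by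
    intro w hw
    have hw' : |w.im| ≤ h / 2 := hw
    rw [abs_le] at hw'
    constructor
    · simp; linarith [hw'.1]
    · simp; linarith [hw'.2]
  have hu' : Chn.HSub (fun w => u (w + ((h / 2 : ℝ) : ℂ) * I)) (Chn.cstrip (h / 2)) := by
    constructor
    · apply hu.cont.comp (by fun_prop)
      intro w hw
      exact hmem w hw
    · intro g c R hR hg hgS
      have hg' : AnalyticOnNhd ℂ (fun z => g z + ((h / 2 : ℝ) : ℂ) * I) (closedBall c R) := by
        intro z hz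
        exact (hg z hz).add analyticAt_const
      exact hu.mean (fun z => g z + ((h / 2 : ℝ) : ℂ) * I) c R hR hg' (fun z hz => hmem _ (hgS z hz))
  have hmax := Chn.cyl_max (h / 2) (by positivity) (fun w => u (w + ((h / 2 : ℝ) : ℂ) * I)) hu'
    (by
      intro w hw
      show u (w + 2 * π + ((h / 2 : ℝ) : ℂ) * I) = u (w + ((h / 2 : ℝ) : ℂ) * I)
      rw [← hper _ (hmem w hw)]
      congr 1
      ring)
    (by
      intro x
      show u ((⟨x, h / 2⟩ : ℂ) + ((h / 2 : ℝ) : ℂ) * I) ≤ 0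
      have : (⟨x, h / 2⟩ : ℂ) + ((h / 2 : ℝ) : ℂ) * I = ⟨x, h⟩ := by
        apply Complex.ext <;> simp
      rw [this]
      exact h1 x)
    (by
      intro x
      show u ((⟨x, -(h / 2)⟩ : ℂ) + ((h / 2 : ℝ) : ℂ) * I) ≤ 0
      have : (⟨x, -(h / 2)⟩ : ℂ) + ((h / 2 : ℝ) : ℂ) * I = ⟨x, 0⟩ := by
        apply Complex.ext <;> simp
      rw [this]
      exact h2 x)
  intro z hz
  have hw : z - ((h / 2 : ℝ) : ℂ) * I ∈ Chn.cstrip (h / 2) := by
    show |(z - ((h / 2 : ℝ) : ℂ) * I).im| ≤ h / 2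
    rw [abs_le]
    constructor
    · simp; linarith [hz.1]
    · simp; linarith [hz.2]
  have := hmax _ hw
  simpa using this

/-- the linear function `(h - Im z)/h`. -/
theorem s8_lin_hmv (h : ℝ) (S : Set ℂ) : Chn.HMV (fun z : ℂ => (h - z.im) / h) S := by
  have h1 := Chn.hmv_im (fun z : ℂ => ((h : ℂ) * I - z) / (h : ℂ)) S
    (Chn.cyl_entire _ (by fun_prop) S)
  apply h1.congr
  intro z _
  have : (((h : ℂ) * I - z) / (h : ℂ)).im = (h - z.im) / h := by
    rw [Complex.div_ofReal_im]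
    simp
  rw [this]

theorem s8_mk_add_period (u y : ℝ) : (⟨u + 2 * π, y⟩ : ℂ) = ⟨u, y⟩ + 2 * π := by
  apply Complex.ext <;> simp

theorem s8_cont_mk (y : ℝ) : Continuous fun x : ℝ => (⟨x, y⟩ : ℂ) := by
  have : (fun x : ℝ => (⟨x, y⟩ : ℂ)) = fun x : ℝ => (x : ℂ) + (y : ℂ) * I := by
    funext x
    apply Complex.ext <;> simp
  rw [this]
  fun_prop

/-- **(HP)** harmonic function `Im V` on the periodic strip `0 ≤ Im z ≤ h`, zero on the real row. -/
theorem s8_hp (V : ℂ → ℂ) (h : ℝ) (hh : 0 < h) (O : Set ℂ) (hO : IsOpen O)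
    (hsub : {z : ℂ | 0 ≤ z.im ∧ z.im ≤ h} ⊆ O) (hV : DifferentiableOn ℂ V O)
    (hper : ∀ z : ℂ, 0 ≤ z.im → z.im ≤ h → V (z + 2 * π) = V z) (hreal : ∀ x : ℝ, (V (x : ℂ)).im = 0)
    (x ℓ : ℝ) (hℓ : 0 < ℓ) (hℓh : ℓ ≤ h) :
    |(V ⟨x, h - ℓ⟩).im - (2 * π)⁻¹ * ∫ u in (0 : ℝ)..(2 * π), s8Pois ℓ (x - u) * (V ⟨u, h⟩).im| ≤
      Real.sinh h / (Real.cosh h - 1) * (ℓ / h) *
        ((2 * π)⁻¹ * ∫ u in (0 : ℝ)..(2 * π), |(V ⟨u, h⟩).im|) := by
  set g : ℝ → ℝ := fun u => (V ⟨u, h⟩).im with hg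
  have hgc : Continuous g := by
    apply Complex.continuous_im.comp
    apply hV.continuousOn.comp_continuous (s8_cont_mk h)
    intro u
    exact hsub ⟨hh.le, le_rfl⟩
  have hgp : Function.Periodic g (2 * π) := by
    intro u
    show (V ⟨u + 2 * π, h⟩).im = (V ⟨u, h⟩).im
    rw [s8_mk_add_period, hper _ hh.le le_rfl]
  set S : ℝ := Real.sinh h / (Real.cosh h - 1) * ((2 * π)⁻¹ * ∫ u in (0 : ℝ)..(2 * π), |g u|) with hS
  have hA : Chn.HMV (s8PE g h) (s8Strip h) :=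
    (s8_pe_hmv g hgc hgp h).mono (fun z hz => hz.2)
  have hIm : Chn.HMV (fun z => (V z).im) (s8Strip h) := Chn.hmv_im V _ ⟨O, hO, hsub, hV⟩
  have key : ∀ σ : ℝ, |σ| = 1 → ∀ z ∈ s8Strip h,
      σ * (V z).im + (-σ) * s8PE g h z + (-S) * ((h - z.im) / h) ≤ 0 := by
    intro σ hσ
    apply s8_strip_max h hh
    · exact (((hIm.const_mul σ).add (hA.const_mul (-σ))).add ((s8_lin_hmv h _).const_mul (-S))).hsub
    · intro z hz
      rw [hper z hz.1 hz.2, s8_pe_per g hgp]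
      simp
    · intro y
      have h1 : s8PE g h ⟨y, h⟩ = g y := by
        unfold s8PE
        simp
      rw [h1]
      simp only [sub_self, zero_div, mul_zero, add_zero]
      show σ * g y + -σ * g y ≤ 0
      linarith
    · intro y
      have h0 : (⟨y, 0⟩ : ℂ) = (y : ℂ) := rfl
      have h1 := s8_pe_abs_le g hgc h ⟨y, 0⟩ hh
      simp only [sub_zero] at h1
      rw [← hS] at h1
      rw [h0] at h1 ⊢
      rw [hreal y]
      simp only [Complex.ofReal_im, sub_zero, mul_zero, zero_add]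
      rw [div_self hh.ne', mul_one]
      have h2 : -σ * s8PE g h (y : ℂ) ≤ |s8PE g h (y : ℂ)| := by
        calc -σ * s8PE g h (y : ℂ) ≤ |-σ * s8PE g h (y : ℂ)| := le_abs_self _
          _ = |s8PE g h (y : ℂ)| := by rw [abs_mul, abs_neg, hσ, one_mul]
      linarith
  have hz : (⟨x, h - ℓ⟩ : ℂ) ∈ s8Strip h := ⟨by show 0 ≤ h - ℓ; linarith, by show h - ℓ ≤ h; linarith⟩
  have hAz : s8PE g h ⟨x, h - ℓ⟩ = (2 * π)⁻¹ * ∫ u in (0 : ℝ)..(2 * π), s8Pois ℓ (x - u) * g u := by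
    unfold s8PE
    have : h - ℓ < h := by linarith
    simp only [this, if_true, sub_sub_cancel]
  rw [← hAz]
  have k1 := key 1 (by simp) _ hz
  have k2 := key (-1) (by simp) _ hz
  simp only [sub_sub_cancel] at k1 k2
  have hrhs : Real.sinh h / (Real.cosh h - 1) * (ℓ / h) *
        ((2 * π)⁻¹ * ∫ u in (0 : ℝ)..(2 * π), |g u|) = S * (ℓ / h) := by
    rw [hS]; ring
  rw [hrhs, abs_le]
  constructor <;> linarith

theorem s8_strip_connected (h : ℝ) (hh : 0 ≤ h) : IsConnected (s8Strip h) := by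
  refine ⟨⟨0, by simp [s8Strip, hh]⟩, ?_⟩
  apply Convex.isPreconnected
  have h1 : Convex ℝ {z : ℂ | 0 ≤ z.im} := convex_halfSpace_im_ge 0
  have h2 : Convex ℝ {z : ℂ | z.im ≤ h} := convex_halfSpace_im_le h
  exact h1.inter h2

/-- **(HP-log)** the log deficit `G - log|f| ≥ 0` (superharmonic) on the periodic strip `0 ≤ Im z ≤ h`. -/
theorem s8_hp_log (f : ℂ → ℂ) (h G : ℝ) (hh : 0 < h) (O : Set ℂ) (hO : IsOpen O)
    (hsub : {z : ℂ | 0 ≤ z.im ∧ z.im ≤ h} ⊆ O) (hf : DifferentiableOn ℂ f O)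
    (hper : ∀ z : ℂ, 0 ≤ z.im → z.im ≤ h → f (z + 2 * π) = f z)
    (hG : ∀ z : ℂ, 0 ≤ z.im → z.im ≤ h → ‖f z‖ ≤ Real.exp G)
    (x ℓ : ℝ) (hℓ : 0 < ℓ) (hℓh : ℓ ≤ h) (hne : f ⟨x, h - ℓ⟩ ≠ 0) :
    ∫⁻ u, ENNReal.ofReal (s8Pois ℓ (x - u) * (G - Real.log ‖f ⟨u, h⟩‖)) ∂s8nu0 ≤
      ENNReal.ofReal (G - Real.log ‖f ⟨x, h - ℓ⟩‖) +
        ENNReal.ofReal (Real.sinh h / (Real.cosh h - 1) * (ℓ / h)) *
          ∫⁻ u, ENNReal.ofReal (G - Real.log ‖f ⟨u, h⟩‖) ∂s8nu0 := by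
  have hz : (⟨x, h - ℓ⟩ : ℂ) ∈ s8Strip h := ⟨by show 0 ≤ h - ℓ; linarith, by show h - ℓ ≤ h; linarith⟩
  have hrow : ∀ u : ℝ, (⟨u, h⟩ : ℂ) ∈ s8Strip h := fun u => ⟨hh.le, le_rfl⟩
  set a : ℝ → ℝ := fun u => ‖f ⟨u, h⟩‖ with ha
  set P : ℝ → ℝ := fun u => s8Pois ℓ (x - u) with hP
  have hac : Continuous a := by
    apply continuous_norm.comp
    apply hf.continuousOn.comp_continuous (s8_cont_mk h)
    intro u
    exact hsub (hrow u)
  have hPc : Continuous P := (s8_pois_cont ℓ hℓ).comp (by fun_prop)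
  have hP0 : ∀ u, 0 ≤ P u := fun u => (s8_pois_pos ℓ _ hℓ).le
  have han : AnalyticOnNhd ℂ f (s8Strip h) := fun z hz => hf.analyticAt (hO.mem_nhds (hsub hz))
  have hnull : ∀ᵐ u ∂s8nu0, 0 < a u := by
    filter_upwards [s8_row_ae_ne f (s8Strip h) (s8_strip_connected h hh.le) han _ hz hne h hrow]
      with u hu
    exact norm_pos_iff.2 hu
  have hcoth : 0 ≤ Real.sinh h / (Real.cosh h - 1) := by
    apply div_nonneg (Real.sinh_nonneg_iff.2 hh.le)
    linarith [Real.one_le_cosh h]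
  apply s8_trunc_mono s8nu0 a P G _ hac.aemeasurable hPc.aemeasurable hP0 hnull
  intro n
  set g : ℝ → ℝ := fun u => G - Real.log (max (a u) (Real.exp (G - n))) with hg
  have hgc : Continuous g := by
    apply continuous_const.sub
    apply Continuous.log (hac.max continuous_const)
    intro u
    exact (lt_of_lt_of_le (Real.exp_pos _) (le_max_right _ _)).ne'
  have hg0 : ∀ u, 0 ≤ g u := fun u => s8_trunc_nonneg (a u) G (hG _ hh.le le_rfl) n
  have hgp : Function.Periodic g (2 * π) := by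
    intro u
    show G - Real.log (max ‖f ⟨u + 2 * π, h⟩‖ _) = G - Real.log (max ‖f ⟨u, h⟩‖ _)
    rw [s8_mk_add_period, hper _ hh.le le_rfl]
  set E : ℝ := (2 * π)⁻¹ * ∫ u in (0 : ℝ)..(2 * π), g u with hE
  have hE0 : 0 ≤ E := by
    apply mul_nonneg (by positivity)
    exact intervalIntegral.integral_nonneg (by positivity) (fun u _ => hg0 u)
  set S : ℝ := Real.sinh h / (Real.cosh h - 1) * E with hS
  have hA : Chn.HMV (s8PE g h) (s8Strip h) :=
    (s8_pe_hmv g hgc hgp h).mono (fun z hz => hz.2)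
  have hlm : Chn.HSub (fun z => Real.log (max ‖f z‖ (Real.exp (G - n)))) (s8Strip h) := by
    have := Chn.hsub_logmax f (s8Strip h) ⟨O, hO, hsub, hf⟩ (n - G)
    simpa only [neg_sub] using this
  have key : ∀ z ∈ s8Strip h, Real.log (max ‖f z‖ (Real.exp (G - n)))
      - (G + ((-1) * s8PE g h z + S * ((h - z.im) / h))) ≤ 0 := by
    apply s8_strip_max h hh
    · exact hlm.sub ((Chn.hmv_const G _).add ((hA.const_mul (-1)).add ((s8_lin_hmv h _).const_mul S)))
    · intro z hz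
      rw [hper z hz.1 hz.2, s8_pe_per g hgp]
      simp
    · intro y
      have h1 : s8PE g h ⟨y, h⟩ = g y := by
        unfold s8PE
        simp
      rw [h1]
      simp only [sub_self, zero_div, mul_zero, add_zero]
      show Real.log (max (a y) (Real.exp (G - n)))
        - (G + -1 * (G - Real.log (max (a y) (Real.exp (G - n))))) ≤ 0
      linarith
    · intro y
      have h1 := s8_pe_abs_le g hgc h ⟨y, 0⟩ hh
      simp only [sub_zero] at h1
      have h2 : (∫ u in (0 : ℝ)..(2 * π), |g u|) = ∫ u in (0 : ℝ)..(2 * π), g u := by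
        apply intervalIntegral.integral_congr
        intro u _
        exact abs_of_nonneg (hg0 u)
      rw [h2, ← hE, ← hS] at h1
      have h3 := s8_trunc_nonneg ‖f ⟨y, 0⟩‖ G (hG _ le_rfl hh.le) n
      simp only [sub_zero]
      rw [div_self hh.ne', mul_one]
      have h4 := le_abs_self (s8PE g h ⟨y, 0⟩)
      linarith
  have hAz : s8PE g h ⟨x, h - ℓ⟩ = (2 * π)⁻¹ * ∫ u in (0 : ℝ)..(2 * π), P u * g u := by
    unfold s8PE
    have : h - ℓ < h := by linarith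
    simp only [this, if_true, sub_sub_cancel]
    rfl
  have k1 := key _ hz
  simp only [sub_sub_cancel] at k1
  have k2 : Real.log ‖f ⟨x, h - ℓ⟩‖ ≤ Real.log (max ‖f ⟨x, h - ℓ⟩‖ (Real.exp (G - n))) :=
    Real.log_le_log (norm_pos_iff.2 hne) (le_max_left _ _)
  have k3 : s8PE g h ⟨x, h - ℓ⟩ ≤ (G - Real.log ‖f ⟨x, h - ℓ⟩‖) + S * (ℓ / h) := by linarith
  have e1 : ∫⁻ u, ENNReal.ofReal (P u * (G - Real.log (max (a u) (Real.exp (G - n))))) ∂s8nu0
      = ENNReal.ofReal (s8PE g h ⟨x, h - ℓ⟩) := by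
    rw [hAz]
    exact s8_nu0_lintegral_cont (fun u => P u * g u) (hPc.mul hgc) (fun u => mul_nonneg (hP0 u) (hg0 u))
  rw [e1]
  refine (ENNReal.ofReal_le_ofReal k3).trans (ENNReal.ofReal_add_le.trans ?_)
  gcongr
  have e2 : S * (ℓ / h) = Real.sinh h / (Real.cosh h - 1) * (ℓ / h) * E := by
    rw [hS]; ring
  rw [e2, ENNReal.ofReal_mul (by positivity)]
  gcongr
  rw [hE, ← s8_nu0_lintegral_cont g hgc hg0]
  have := s8_trunc_le s8nu0 a (fun _ => 1) G (fun _ => zero_le_one) hnull n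
  simpa only [one_mul] using this

end Claimed.Agent.R269
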