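/-
Row 269, P1 Section 8: the balance inequality between `P⁺` and `P⁻` under the periodic Poisson kernel (common input of `s8_rowset` (Conc.lean) and `s8_weight_bal` (Weight.lean)).
Author: helper150.   From `s8_hp` (LibPoisB.lean) for `V = s9V` on the strip `0 ≤ Im z ≤ Hr - e^{-j}`, in `lintegral` form, normalised by `d_j = e^{-j}`.
-/
import Claimed.Agent.R269.S8.BasicB
import Claimed.Agent.R269.S8.BasicC
import Claimed.Agent.R269.S8.LibPoisB

set_option autoImplicit false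

namespace Claimed.Agent.R269

open Complex ComplexConjugate Filter Topology MeasureTheory Set Metric
open scoped ENNReal Real

/-- `coth(h/2) ℓ/h ≤ C_H ℓ` for `h ∈ [H₀/2, H₀]`. -/
theorem s8hb_coth (H₀ h ℓ : ℝ) (hH₀ : 0 < H₀) (h1 : H₀ / 2 ≤ h) (h2 : h ≤ H₀) (hℓ : 0 ≤ ℓ) :
    Real.sinh h / (Real.cosh h - 1) * (ℓ / h) ≤ 8 * Real.cosh (H₀ / 2) / H₀ ^ 2 * ℓ := by
  have hh : 0 < h := by linarith
  have hs : h / 2 ≤ Real.sinh (h / 2) := Real.self_le_sinh_iff.2 (by linarith)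
  have hs0 : 0 < Real.sinh (h / 2) := by linarith
  have hc : Real.cosh (h / 2) ≤ Real.cosh (H₀ / 2) := by
    rw [Real.cosh_le_cosh, abs_of_pos (by linarith), abs_of_pos (by linarith)]
    linarith
  have hc0 : 0 < Real.cosh (h / 2) := Real.cosh_pos _
  have e1 : Real.cosh h - 1 = 2 * Real.sinh (h / 2) ^ 2 := s8p_cosh_eq h
  have e2 : Real.sinh h = 2 * Real.sinh (h / 2) * Real.cosh (h / 2) := by
    rw [← Real.sinh_two_mul]
    congr 1
    ring
  have e3 : Real.sinh h / (Real.cosh h - 1) = Real.cosh (h / 2) / Real.sinh (h / 2) := by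
    rw [e1, e2]
    field_simp
  rw [e3]
  have h3 : Real.cosh (h / 2) / Real.sinh (h / 2) ≤ Real.cosh (H₀ / 2) / (H₀ / 4) :=
    div_le_div₀ (Real.cosh_pos _).le hc (by positivity) (by linarith)
  have h4 : ℓ / h ≤ ℓ / (H₀ / 2) := div_le_div_of_nonneg_left hℓ (by positivity) h1
  calc Real.cosh (h / 2) / Real.sinh (h / 2) * (ℓ / h) ≤ Real.cosh (H₀ / 2) / (H₀ / 4) * (ℓ / (H₀ / 2)) :=
        mul_le_mul h3 h4 (by positivity) (by positivity)
    _ = 8 * Real.cosh (H₀ / 2) / H₀ ^ 2 * ℓ := by field_simp; ring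

theorem s8hb_ofReal_pos (a b : ℝ) (ha : 0 ≤ a) :
    ENNReal.ofReal a * ENNReal.ofReal b = ENNReal.ofReal (a * max b 0) := by
  rw [ENNReal.ofReal_mul ha]
  congr 1
  rcases le_total 0 b with hb | hb
  · rw [max_eq_left hb]
  · rw [max_eq_right hb, ENNReal.ofReal_of_nonpos hb, ENNReal.ofReal_zero]

namespace Shape

variable (Sh : Shape)

/-- **balance under the Poisson kernel**: fine row of depth `e^{-j}`, coarse row of depth `D`. -/
theorem s8_hp_bal (hH : Sh.H ≠ ⊤) (j D x' : ℝ) (hj : Sh.s9k0 ≤ j) (hD : Real.exp (-j) < D) (hD' : D ≤ Sh.Hr) :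
    ∫⁻ u, ENNReal.ofReal (s8Pois (D - Real.exp (-j)) (x' - u)) *
        ENNReal.ofReal (Real.exp (-j) * Sh.s9P (Sh.s8pt u (Real.exp (-j)))) ∂s8nu0 ≤
      ∫⁻ u, ENNReal.ofReal (s8Pois (D - Real.exp (-j)) (x' - u)) *
        ENNReal.ofReal (Real.exp (-j) * -Sh.s9P (Sh.s8pt u (Real.exp (-j)))) ∂s8nu0 +
      ENNReal.ofReal (Real.exp (-j)) * ENNReal.ofReal |Sh.s9P (Sh.s8pt x' D)| +
      ENNReal.ofReal (Real.sinh (Sh.Hr - Real.exp (-j)) / (Real.cosh (Sh.Hr - Real.exp (-j)) - 1) *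
        ((D - Real.exp (-j)) / (Sh.Hr - Real.exp (-j)))) * Sh.s8P1 s8nu0 j := by
  obtain ⟨hd0, hd1⟩ := Sh.s8bc_depth hH j hj
  have hHr := Sh.s8_Hr_pos hH
  set d := Real.exp (-j) with hd
  set h := Sh.Hr - d with hh
  set ℓ := D - d with hℓ
  have hh0 : 0 < h := by rw [hh]; linarith
  have hℓ0 : 0 < ℓ := by rw [hℓ]; linarith
  have hℓh : ℓ ≤ h := by rw [hℓ, hh]; linarith
  have hp : (0 : ℝ) < 2 * π := by positivity
  have hsub : {z : ℂ | 0 ≤ z.im ∧ z.im ≤ h} ⊆ Sh.D := by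
    intro z hz
    rw [Sh.s8_mem_D hH, abs_of_nonneg hz.1]
    have := hz.2
    rw [hh] at this
    linarith
  have hreal : ∀ x : ℝ, (Sh.s9V (x : ℂ)).im = 0 := by
    intro x
    have := Sh.s8_P_real hH x
    unfold s9P at this
    linarith
  have key := s8_hp Sh.s9V h hh0 Sh.D Sh.s8_isOpen_D hsub Sh.s8_V_diff
    (fun z hz1 hz2 => Sh.s8_V_per z (hsub ⟨hz1, hz2⟩)) hreal x' ℓ hℓ0 hℓh
  -- the real functions
  set a : ℝ → ℝ := fun u => s8Pois ℓ (x' - u) with ha
  set P : ℝ → ℝ := fun u => Sh.s9P (Sh.s8pt u d) with hP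
  have hac : Continuous a := (s8_pois_cont ℓ hℓ0).comp (by fun_prop)
  have ha0 : ∀ u, 0 ≤ a u := fun u => (s8_pois_pos _ _ hℓ0).le
  have hPc : Continuous P :=
    Sh.s8_P_cont.comp_continuous (s8_cont_mk _) fun u => Sh.s8_pt_mem hH u d hd0 hd1
  have e1 : ∀ u : ℝ, (Sh.s9V ⟨u, h⟩).im = -P u := fun u => by
    simp only [hP, s9P, s8pt, neg_neg, hh]
  have e2 : (Sh.s9V ⟨x', h - ℓ⟩).im = -Sh.s9P (Sh.s8pt x' D) := by
    simp only [s9P, s8pt, neg_neg]
    rw [show h - ℓ = Sh.Hr - D by rw [hh, hℓ]; ring]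
  simp only [e1, e2, abs_neg, mul_neg] at key
  rw [intervalIntegral.integral_neg] at key
  set S := Real.sinh h / (Real.cosh h - 1) * (ℓ / h) with hS
  have hS0 : 0 ≤ S := by
    have : 1 < Real.cosh h := Real.one_lt_cosh.2 hh0.ne'
    have : 0 < Real.sinh h := Real.sinh_pos_iff.2 hh0
    have : 0 < Real.cosh h - 1 := by linarith
    positivity
  have key2 : (2 * π)⁻¹ * ∫ u in (0 : ℝ)..(2 * π), a u * P u ≤
      |Sh.s9P (Sh.s8pt x' D)| + S * ((2 * π)⁻¹ * ∫ u in (0 : ℝ)..(2 * π), |P u|) := by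
    have h1 := (abs_le.1 key).2
    have h2 := le_abs_self (Sh.s9P (Sh.s8pt x' D))
    have e6 : ∫ u in (0 : ℝ)..(2 * π), a u * P u = ∫ x in (0 : ℝ)..(2 * π), s8Pois ℓ (x' - x) * P x := rfl
    rw [e6]
    rw [mul_neg, sub_neg_eq_add] at h1
    linarith
  -- positive and negative parts
  have hcp : Continuous fun u => a u * max (d * P u) 0 := by fun_prop
  have hcm : Continuous fun u => a u * max (d * -P u) 0 := by fun_prop
  have hca : Continuous fun u => d * |P u| := by fun_prop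
  have hsplit : (2 * π)⁻¹ * ∫ u in (0 : ℝ)..(2 * π), a u * max (d * P u) 0 =
      (2 * π)⁻¹ * (∫ u in (0 : ℝ)..(2 * π), a u * max (d * -P u) 0) +
        d * ((2 * π)⁻¹ * ∫ u in (0 : ℝ)..(2 * π), a u * P u) := by
    have h1 : ∀ u, a u * max (d * P u) 0 = a u * max (d * -P u) 0 + d * (a u * P u) := by
      intro u
      rcases le_total 0 (P u) with hs | hs
      · rw [max_eq_left (by positivity), max_eq_right (by nlinarith)]
        ring
      · rw [max_eq_right (by nlinarith), max_eq_left (by nlinarith)]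
        ring
    have hcd : Continuous fun u => d * (a u * P u) := by fun_prop
    simp only [h1]
    rw [intervalIntegral.integral_add (hcm.intervalIntegrable _ _) (hcd.intervalIntegrable _ _),
      intervalIntegral.integral_const_mul]
    ring
  have e3 : ∀ u, ENNReal.ofReal (a u) * ENNReal.ofReal (d * P u) = ENNReal.ofReal (a u * max (d * P u) 0) :=
    fun u => s8hb_ofReal_pos _ _ (ha0 u)
  have e4 : ∀ u, ENNReal.ofReal (a u) * ENNReal.ofReal (d * -P u) = ENNReal.ofReal (a u * max (d * -P u) 0) :=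
    fun u => s8hb_ofReal_pos _ _ (ha0 u)
  have e5 : Sh.s8P1 s8nu0 j = ENNReal.ofReal ((2 * π)⁻¹ * ∫ u in (0 : ℝ)..(2 * π), d * |P u|) := by
    unfold s8P1
    exact s8bc_lint_cont _ hca fun u => by positivity
  have hIm : 0 ≤ (2 * π)⁻¹ * ∫ u in (0 : ℝ)..(2 * π), a u * max (d * -P u) 0 :=
    mul_nonneg (by positivity) (intervalIntegral.integral_nonneg hp.le fun u _ =>
      mul_nonneg (ha0 u) (le_max_right _ _))
  have hIa : 0 ≤ (2 * π)⁻¹ * ∫ u in (0 : ℝ)..(2 * π), d * |P u| :=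
    mul_nonneg (by positivity) (intervalIntegral.integral_nonneg hp.le fun u _ => by positivity)
  show ∫⁻ u, ENNReal.ofReal (a u) * ENNReal.ofReal (d * P u) ∂s8nu0 ≤
    ∫⁻ u, ENNReal.ofReal (a u) * ENNReal.ofReal (d * -P u) ∂s8nu0 +
      ENNReal.ofReal d * ENNReal.ofReal |Sh.s9P (Sh.s8pt x' D)| + ENNReal.ofReal S * Sh.s8P1 s8nu0 j
  simp only [e3, e4]
  rw [e5, s8bc_lint_cont _ hcp (fun u => mul_nonneg (ha0 u) (le_max_right _ _)),
    s8bc_lint_cont _ hcm (fun u => mul_nonneg (ha0 u) (le_max_right _ _)),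
    ← ENNReal.ofReal_mul hd0.le, ← ENNReal.ofReal_mul hS0, ← ENNReal.ofReal_add hIm (by positivity),
    ← ENNReal.ofReal_add (by positivity) (by positivity)]
  apply ENNReal.ofReal_le_ofReal
  rw [hsplit, intervalIntegral.integral_const_mul]
  have := mul_le_mul_of_nonneg_left key2 hd0.le
  nlinarith

end Shape

end Claimed.Agent.R269
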