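/-
Row 269, P1 Section 8: **the concentration estimate** (8.19)-(8.22) of the proof of Theorem 8.4.  It REPLACES the `2+η` moment (8.17): Section 8.4 uses `s8_conc` directly.   Blueprint: helper48.
LEAF PACKAGES (fill IN PLACE):
  LF-S8-conc-a : `s8_thick_per`, `s8_thick_measure`, `s8_thick_lower`                (HOST-FREE: periodic sets on the line)
  LF-S8-conc-b : `s8_pois_mass`, `s8_pois_mass_le`, `s8_pois_mass_int`               (HOST-FREE: the periodic Poisson kernel)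
  LF-S8-conc-c : `s8_rowset`                                                          (the estimate (8.21) of `P` on a selected set of a row)
  LF-S8-conc-d : `s8_conc_local`                                                      ((8.22'): from `P` back to `M`, keeping the set)
  LF-S8-conc-e : `s8_conc`                                                            (choice `R = 16 σ^{-1/2}`)
Black boxes: `BasicA/B/C.lean`, `LibPois.lean`, `LibPoisB.lean` (`s8_hp`), `OneSided.lean` (`s8_Pm_Lp`, `s8_m_mem`), `Unif.lean` (`s8_boot_unif`), `TileA/B/D.lean` (`s8_T_le_boxP`, `s8Box`).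

Notation: `d_k = e^{-k}`, `E` = integral against `s8nu0`, `m = s8m a ∈ [4/3,2)`, `p = 2/m`, `ϑ = 1 - m/2 = 1 - 1/p ∈ (0,1/3]`; "periodic set": `x ∈ S ↔ x + 2π ∈ S`.

PROOFS.
* `s8_thick_measure`.  `thickening (w+d) E ⊆ ⋃_{|i| ≤ n} (thickening d E + i d)`, `n = ⌊(w+d)/d⌋₊`: if `|x - e| < w + d`, `e ∈ E`, let `i = ± ⌊|x-e|/d⌋`, then `|x - i d - e| < d`.  Each translate of the periodic open set `thickening d E` has the same `s8nu0`-measure
  (`s8_nu0_shift` for the indicator function).  `2n + 1 ≤ 2w/d + 3`.   `measure_biUnion_finset_le`.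
* `s8_thick_lower`.  Let `e ∈ E`; by periodicity (integer translates: induction) we may take `e ∈ [0,2π)`.  `thickening d E ∩ [0,2π)` contains `(e-d,e+d) ∩ [0,2π)`, `(e-d+2π, ..) ∩ [0,2π)`, `(.., e+d-2π) ∩ [0,2π)`, of total length `2d` (`d ≤ π`).
  (Shorter: `s8nu0 (thickening d E) = s8nu0 (thickening d E + (π - e))` and the latter set contains `(π-d,π+d) ⊆ [0,2π)`.)
* `s8_pois_mass`: by `s8_nu0_shift` (translate by `u - π`) we may assume `u = π`; then `S ⊇ (π-D,π+D) ⊆ [0,2π)`, `Pois_ℓ(v) ≥ (1/2) D/(D²+v²)` for `|v| ≤ D ≤ 1 < π` (`s8_pois_ker`, `s8_per_eq_abs`-type fact: prove `s9per v = |v|` for `|v| ≤ π` locally or import Weight.lean's),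
  `∫_{-D}^{D} D/(D²+v²) dv = 2 arctan 1 = π/2`; total `(2π)⁻¹ (1/2)(π/2) = 1/8`.   `s8_pois_mass_le`: `s8_pois_int`.   `s8_pois_mass_int`: Tonelli, `s8_pois_even`, `s8_pois_int`.
* `s8_rowset`.  Constants: `A₁ C_p k_p` from `s8_Pm_Lp`; `C' CP` from `s8_boot_unif` with the aperture `A₁`; `k₁ = max k_p k₀ + 2`.  Fix `k l R E₁`; `d' = e^{-l} ∈ [e^{-2}d_k, e²d_k]`, `D = R d_k ≤ e^{-k₀}` (`< Hr/10`, `≤ 1`), `j_c = k - log R ≥ k₀` (`e^{-j_c} = D`),
  `h = Hr - d'`, `ℓ = D - d' ∈ [D/2, D]` (`R ≥ 16 > 2e²`), `E_R = thickening D E₁` (open, periodic).  `P_l(u) = P(s8pt u d')`, `P_c(x') = P(s8pt x' D)`.  As in `s8_weight_bal` (Weight.lean), `s8_hp` gives for every `x'`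
     `E_u[Pois_ℓ(x'-u) P_l⁺(u)] ≤ E_u[Pois_ℓ(x'-u) P_l⁻(u)] + |P_c(x')| + S (ℓ/h) E|P_l|`.
  Integrate over `x' ∈ E_R` against `s8nu0`; Tonelli; `ψ(u) = ∫⁻_{x' ∈ E_R} Pois_ℓ(x'-u)`: `ψ ≥ 1/8` on `E₁` (`s8_pois_mass`), `ψ ≤ 1`, `E ψ ≤ s8nu0 E_R`.  Hence
     `(1/8) ∫_{E₁} P_l⁺ ≤ E[P_l⁻ ψ] + E|P_c| + S (ℓ/h) E|P_l|`.
  Hölder (`ENNReal.lintegral_mul_le_Lp_mul_Lq`, exponents `p = 2/m`, `p' = 1/ϑ`): `E[P_l⁻ ψ] ≤ ‖P_l⁻‖_p (E ψ^{p'})^{ϑ} ≤ ‖P_l⁻‖_p (s8nu0 E_R)^ϑ` (`ψ^{p'} ≤ ψ`); the same with `1_{E₁}` for `∫_{E₁} P_l⁻`, `E₁ ⊆ E_R`.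
  Normalisation (multiply by `d'`): `d' ‖P_l⁻‖_p ≤ C_p N(l)² (1+C')^{m}` (`s8_Pm_Lp` with `Y = C'`), `d' E|P_c| = (d'/D) P1 s8nu0 j_c ≤ (e²/R) CP N(j_c)² ≤ e² CP R^{2β-1} N(k)²` (`S8Env.back`), `d' E|P_l| = P1 s8nu0 l ≤ CP N(l)²`,
  `S (ℓ/h) ≤ C_H D`, `N(l) ≤ e^{2(β+a)} N(k)`.
* `s8_conc_local`.  `d_k M(s8pt x d_k) ≤ T 1 k x` (`s8_pt_mem_tile`, `s8_le_T`), `s8_T_le_boxP` with `A = 1`: box half width `w = 2e d_k < 6 d_k`, depths `δ ∈ [lo,hi] ⊆ [e^{-2} d_k, e² d_k]`.  With `E₁ = thickening (6 d_k) E`: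
  `∫⁻_{x∈E} Box(x) = ∫⁻_u ∫⁻_δ ∫⁻_x 1_E(x) |P(s8pt (x+u) δ)| ≤ ∫⁻_u ∫⁻_δ ∫⁻_x 1_{E₁}(x+u) |P(s8pt (x+u) δ)| = ∫⁻_u ∫⁻_δ ∫⁻_{E₁} |P(s8pt · δ)|` (Tonelli as in `s8_box_int`, `s8_nu0_shift`),
  and `∫⁻_{E₁} |P(s8pt · δ)| = δ⁻¹ ∫⁻_{E₁} e^{-l}|P(s8pt · e^{-l})| ≤ δ⁻¹ B` with `l = -log δ ∈ [k-2,k+2]`.   `e^{k} · 2w · (hi - lo) · (1/lo) ≤ e^{k} · 4e d_k · 2e d_k · 2e/d_k = 16 e³`.
* `s8_conc`.  If `E = ∅` trivial.  `σ = s8nu0 (thickening d_k E) ∈ [d_k/π, 1]`, `R = 16 σ^{-1/2} ≥ 16`, `R d_k ≤ 16 π σ^{1/2}` and `R d_k ≤ 16 (π d_k)^{1/2} ≤ e^{-k₀}` for `k ≥ k₁`.  `E₁ = thickening (6d_k) E`: `s8nu0 E₁ ≤ 13 σ`;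
  `thickening (R d_k) E₁ ⊆ thickening ((R+5) d_k + d_k) E` (`Metric.thickening_thickening_subset`): measure `≤ (2R + 13) σ ≤ 3 R σ = 48 σ^{1/2}`.  `s8_conc_local` + `s8_rowset`:
  `∫_E (d_k M)² ≤ C (σ + N(k)² (R^{2β-1} + R d_k + (48 σ^{1/2})^ϑ)) ≤ C' N(k)² σ^ζ`, `ζ = min ((1-2β)/2) (ϑ/2)`, using `σ ≤ 1`, `R^{2β-1} ≤ σ^{(1-2β)/2}`.
-/
import Claimed.Agent.R269.S8.Unif
import Claimed.Agent.R269.S8.LibPoisB
import Claimed.Agent.R269.S8.HpBal

set_option autoImplicit false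

namespace Claimed.Agent.R269

open Complex ComplexConjugate Filter Topology MeasureTheory Set Metric
open scoped ENNReal Real

theorem s8_thick_per (E : Set ℝ) (hE : ∀ x, x ∈ E ↔ x + 2 * π ∈ E) (d : ℝ) :
    ∀ x, x ∈ thickening d E ↔ x + 2 * π ∈ thickening d E := by
  intro x
  simp only [Metric.mem_thickening_iff]
  constructor
  · rintro ⟨e, he, hd⟩
    exact ⟨e + 2 * π, (hE e).1 he, by simpa using hd⟩
  · rintro ⟨e, he, hd⟩
    refine ⟨e - 2 * π, (hE _).2 (by simpa using he), ?_⟩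
    rw [Real.dist_eq] at hd ⊢
    rwa [show x - (e - 2 * π) = x + 2 * π - e by ring]

/-- translation invariance of the `s8nu0`-measure of periodic sets -/
theorem s8c_shift_meas (A : Set ℝ) (hA : MeasurableSet A) (hper : ∀ x, x ∈ A ↔ x + 2 * π ∈ A) (h : ℝ) :
    s8nu0 ((fun x => x + h) ⁻¹' A) = s8nu0 A := by
  have h1 := s8_nu0_shift (A.indicator 1) (measurable_one.indicator hA) (fun x => by
    by_cases hx : x ∈ A
    · rw [indicator_of_mem hx, indicator_of_mem ((hper x).1 hx)]; rfl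
    · rw [indicator_of_notMem hx, indicator_of_notMem (fun h' => hx ((hper x).2 h'))]) h
  rw [lintegral_indicator_one hA] at h1
  rw [← h1, ← lintegral_indicator_one (hA.preimage (measurable_add_const h))]
  rfl

theorem s8c_apply (S : Set ℝ) (hS : MeasurableSet S) :
    s8nu0 S = ENNReal.ofReal (2 * π)⁻¹ * volume (S ∩ Ico 0 (2 * π)) := by
  unfold s8nu0
  rw [Measure.smul_apply, Measure.restrict_apply hS, smul_eq_mul]

theorem s8_thick_measure (E : Set ℝ) (hE : ∀ x, x ∈ E ↔ x + 2 * π ∈ E) (d w : ℝ) (hd : 0 < d) (hw : 0 ≤ w) :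
    s8nu0 (thickening (w + d) E) ≤ ENNReal.ofReal (2 * w / d + 3) * s8nu0 (thickening d E) := by
  set n : ℕ := ⌊(w + d) / d⌋₊ with hn
  have hcov : thickening (w + d) E ⊆
      ⋃ i ∈ Finset.Icc (-(n : ℤ)) n, (fun x : ℝ => x + (i : ℝ) * d) ⁻¹' thickening d E := by
    intro x hx
    obtain ⟨e, he, hxe⟩ := Metric.mem_thickening_iff.1 hx
    rw [Real.dist_eq] at hxe
    simp only [mem_iUnion, mem_preimage, Finset.mem_Icc, exists_prop]
    set m : ℕ := ⌊|x - e| / d⌋₊ with hm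
    have hmn : m ≤ n := Nat.floor_le_floor (div_le_div_of_nonneg_right hxe.le hd.le)
    have h0 : 0 ≤ |x - e| / d := by positivity
    have h1 : (m : ℝ) ≤ |x - e| / d := Nat.floor_le h0
    have h2 : |x - e| / d < m + 1 := Nat.lt_floor_add_one _
    rw [le_div_iff₀ hd] at h1
    rw [div_lt_iff₀ hd] at h2
    rcases le_total 0 (x - e) with hs | hs
    · rw [abs_of_nonneg hs] at h1 h2
      refine ⟨-(m : ℤ), ⟨by omega, by omega⟩, Metric.mem_thickening_iff.2 ⟨e, he, ?_⟩⟩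
      rw [Real.dist_eq, abs_lt]
      push_cast
      constructor <;> nlinarith
    · rw [abs_of_nonpos hs] at h1 h2
      refine ⟨(m : ℤ), ⟨by omega, by omega⟩, Metric.mem_thickening_iff.2 ⟨e, he, ?_⟩⟩
      rw [Real.dist_eq, abs_lt]
      push_cast
      constructor <;> nlinarith
  have hper := s8_thick_per E hE d
  have hmeas : MeasurableSet (thickening d E) := isOpen_thickening.measurableSet
  calc s8nu0 (thickening (w + d) E)
      ≤ s8nu0 (⋃ i ∈ Finset.Icc (-(n : ℤ)) n, (fun x : ℝ => x + (i : ℝ) * d) ⁻¹' thickening d E) := measure_mono hcov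
    _ ≤ ∑ i ∈ Finset.Icc (-(n : ℤ)) n, s8nu0 ((fun x : ℝ => x + (i : ℝ) * d) ⁻¹' thickening d E) :=
        measure_biUnion_finset_le _ _
    _ = ∑ _i ∈ Finset.Icc (-(n : ℤ)) n, s8nu0 (thickening d E) :=
        Finset.sum_congr rfl fun i _ => s8c_shift_meas _ hmeas hper _
    _ = ((2 * n + 1 : ℕ) : ℝ≥0∞) * s8nu0 (thickening d E) := by
        rw [Finset.sum_const, Int.card_Icc, nsmul_eq_mul]
        congr 2
        omega
    _ ≤ ENNReal.ofReal (2 * w / d + 3) * s8nu0 (thickening d E) := by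
        refine mul_le_mul_left ?_ _
        rw [← ENNReal.ofReal_natCast]
        apply ENNReal.ofReal_le_ofReal
        have h3 : (n : ℝ) ≤ (w + d) / d := Nat.floor_le (by positivity)
        have h4 : (w + d) / d = w / d + 1 := by field_simp
        push_cast
        rw [h4] at h3
        have h5 : 2 * w / d = 2 * (w / d) := by ring
        linarith

theorem s8_thick_lower (E : Set ℝ) (hE : ∀ x, x ∈ E ↔ x + 2 * π ∈ E) (hne : E.Nonempty) (d : ℝ) (hd : 0 < d)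
    (hdπ : d ≤ π) : ENNReal.ofReal (d / π) ≤ s8nu0 (thickening d E) := by
  obtain ⟨e, he⟩ := hne
  have hper := s8_thick_per E hE d
  have hmeas : MeasurableSet (thickening d E) := isOpen_thickening.measurableSet
  rw [← s8c_shift_meas _ hmeas hper (e - π)]
  have hsub : Ioo (π - d) (π + d) ⊆ (fun x => x + (e - π)) ⁻¹' thickening d E := by
    intro x hx
    refine Metric.mem_thickening_iff.2 ⟨e, he, ?_⟩
    rw [Real.dist_eq, abs_lt]
    constructor <;> linarith [hx.1, hx.2]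
  refine le_trans ?_ (measure_mono hsub)
  have hsub2 : Ioo (π - d) (π + d) ⊆ Ico 0 (2 * π) := fun x hx => ⟨by linarith [hx.1], by linarith [hx.2]⟩
  rw [s8c_apply _ measurableSet_Ioo, inter_eq_left.2 hsub2,
    Real.volume_Ioo, ← ENNReal.ofReal_mul (by positivity)]
  apply ENNReal.ofReal_le_ofReal
  apply le_of_eq
  have := Real.pi_pos
  field_simp
  ring

theorem s8c_per_eq_abs (v : ℝ) (hv : |v| < π) : s9per v = |v| := by
  unfold s9per
  have hp := Real.pi_pos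
  have h0 : round (v / (2 * π)) = 0 := by
    rw [round_eq_zero_iff]
    obtain ⟨h1, h2⟩ := abs_lt.1 hv
    constructor
    · rw [le_div_iff₀ (by positivity)]; linarith
    · rw [div_lt_iff₀ (by positivity)]; linarith
  rw [h0]; simp

theorem s8c_lint_cont (g : ℝ → ℝ) (hg : Continuous g) (h0 : ∀ x, 0 ≤ g x) :
    ∫⁻ x, ENNReal.ofReal (g x) ∂s8nu0 = ENNReal.ofReal ((2 * π)⁻¹ * ∫ x in (0 : ℝ)..(2 * π), g x) := by
  rw [s8_nu0_lintegral, ← ofReal_integral_eq_lintegral_ofReal (hg.integrableOn_Icc.mono_set Ico_subset_Icc_self)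
    (ae_of_all _ h0), ← ENNReal.ofReal_mul (by positivity), integral_Ico_eq_integral_Ioc,
    ← intervalIntegral.integral_of_le (by positivity)]

theorem s8c_pois_total (ℓ u : ℝ) (hℓ : 0 < ℓ) : ∫⁻ x', ENNReal.ofReal (s8Pois ℓ (x' - u)) ∂s8nu0 = 1 := by
  have hc : Continuous fun x' : ℝ => s8Pois ℓ (x' - u) := (s8_pois_cont ℓ hℓ).comp (by fun_prop)
  rw [s8c_lint_cont _ hc (fun x => (s8_pois_pos _ _ hℓ).le)]
  have e : ∀ x' : ℝ, s8Pois ℓ (x' - u) = s8Pois ℓ (u - x') := fun x' => by rw [← s8_pois_even, neg_sub]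
  simp only [e]
  rw [s8_pois_int ℓ u hℓ, inv_mul_cancel₀ (by positivity), ENNReal.ofReal_one]

theorem s8c_pois_total' (ℓ x' : ℝ) (hℓ : 0 < ℓ) : ∫⁻ u, ENNReal.ofReal (s8Pois ℓ (x' - u)) ∂s8nu0 = 1 := by
  have hc : Continuous fun u : ℝ => s8Pois ℓ (x' - u) := (s8_pois_cont ℓ hℓ).comp (by fun_prop)
  rw [s8c_lint_cont _ hc (fun x => (s8_pois_pos _ _ hℓ).le)]
  rw [s8_pois_int ℓ x' hℓ, inv_mul_cancel₀ (by positivity), ENNReal.ofReal_one]

theorem s8c_arctan_cont (D : ℝ) (hD : 0 < D) : Continuous fun x : ℝ => 1 / 2 * (D / (D ^ 2 + (x - π) ^ 2)) :=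
  continuous_const.mul (Continuous.div continuous_const (by fun_prop) fun x => by positivity)

theorem s8c_arctan_int (D : ℝ) (hD : 0 < D) :
    ∫ x in (π - D)..(π + D), 1 / 2 * (D / (D ^ 2 + (x - π) ^ 2)) = π / 4 := by
  have hder : ∀ x ∈ uIcc (π - D) (π + D), HasDerivAt (fun x => 1 / 2 * Real.arctan ((x - π) / D))
      (1 / 2 * (D / (D ^ 2 + (x - π) ^ 2))) x := by
    intro x _
    have h1 : HasDerivAt (fun x : ℝ => (x - π) / D) (1 / D) x := ((hasDerivAt_id x).sub_const π).div_const D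
    have h2 := (h1.arctan).const_mul (1 / 2)
    have hne : D ^ 2 + (x - π) ^ 2 ≠ 0 := by positivity
    have hne2 : 1 + ((x - π) / D) ^ 2 ≠ 0 := by positivity
    have e : 1 / 2 * (D / (D ^ 2 + (x - π) ^ 2)) = 1 / 2 * (1 / (1 + ((x - π) / D) ^ 2) * (1 / D)) := by
      field_simp
    rw [e]
    exact h2
  rw [intervalIntegral.integral_eq_sub_of_hasDerivAt hder ((s8c_arctan_cont D hD).intervalIntegrable _ _)]
  have e1 : (π + D - π) / D = 1 := by field_simp; ring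
  have e2 : (π - D - π) / D = -1 := by field_simp; ring
  rw [e1, e2, Real.arctan_neg, Real.arctan_one]; ring

/-- a fixed fraction of the Poisson mass stays within distance `D ≥ ℓ`. -/
theorem s8_pois_mass (D ℓ u : ℝ) (hD : 0 < D) (hD1 : D ≤ 1) (h1 : D / 2 ≤ ℓ) (h2 : ℓ ≤ D) (S : Set ℝ)
    (hS : ∀ x, x ∈ S ↔ x + 2 * π ∈ S) (hSm : MeasurableSet S) (hball : ∀ v, |v - u| < D → v ∈ S) :
    ENNReal.ofReal (1 / 8) ≤ ∫⁻ x' in S, ENNReal.ofReal (s8Pois ℓ (x' - u)) ∂s8nu0 := by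
  have hℓ : 0 < ℓ := by linarith
  have hp := Real.pi_pos
  have hp3 := Real.pi_gt_three
  set F : ℝ → ℝ≥0∞ := S.indicator (fun x' => ENNReal.ofReal (s8Pois ℓ (x' - u))) with hF
  have hFm : Measurable F :=
    ((s8_pois_cont ℓ hℓ).measurable.comp (measurable_id.sub_const u)).ennreal_ofReal.indicator hSm
  have hFper : ∀ x, F (x + 2 * π) = F x := by
    intro x
    by_cases hx : x ∈ S
    · rw [hF, indicator_of_mem hx, indicator_of_mem ((hS x).1 hx), show x + 2 * π - u = (x - u) + 2 * π by ring,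
        s8_pois_per]
    · rw [hF, indicator_of_notMem hx, indicator_of_notMem (fun h' => hx ((hS x).2 h'))]
  rw [← lintegral_indicator hSm, ← s8_nu0_shift F hFm hFper (u - π), s8_nu0_lintegral]
  have hlow : ∀ x ∈ Ioo (π - D) (π + D),
      ENNReal.ofReal (1 / 2 * (D / (D ^ 2 + (x - π) ^ 2))) ≤ F (x + (u - π)) := by
    intro x hx
    have hxa : |x - π| < D := abs_lt.2 ⟨by linarith [hx.1], by linarith [hx.2]⟩
    have hmem : x + (u - π) ∈ S := hball _ (by rwa [show x + (u - π) - u = x - π by ring])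
    rw [hF, indicator_of_mem hmem, show x + (u - π) - u = x - π by ring]
    apply ENNReal.ofReal_le_ofReal
    have := (s8_pois_ker D ℓ (x - π) hD hD1 h1 h2).1
    unfold s9ker at this
    rwa [s8c_per_eq_abs _ (by linarith), sq_abs] at this
  have hsub : Ioo (π - D) (π + D) ⊆ Ico 0 (2 * π) := fun x hx => ⟨by linarith [hx.1], by linarith [hx.2]⟩
  calc ENNReal.ofReal (1 / 8) = ENNReal.ofReal (2 * π)⁻¹ * ENNReal.ofReal (π / 4) := by
        rw [← ENNReal.ofReal_mul (by positivity)]; congr 1; field_simp; norm_num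
    _ = ENNReal.ofReal (2 * π)⁻¹ *
        ∫⁻ x in Ioo (π - D) (π + D), ENNReal.ofReal (1 / 2 * (D / (D ^ 2 + (x - π) ^ 2))) := by
        congr 1
        rw [← ofReal_integral_eq_lintegral_ofReal
          ((s8c_arctan_cont D hD).integrableOn_Icc.mono_set Ioo_subset_Icc_self)
          (ae_of_all _ fun x => by positivity), ← integral_Ioc_eq_integral_Ioo,
          ← intervalIntegral.integral_of_le (by linarith), s8c_arctan_int D hD]
    _ ≤ ENNReal.ofReal (2 * π)⁻¹ * ∫⁻ x in Ioo (π - D) (π + D), F (x + (u - π)) :=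
        mul_le_mul_right (setLIntegral_mono' measurableSet_Ioo hlow) _
    _ ≤ ENNReal.ofReal (2 * π)⁻¹ * ∫⁻ x in Ico 0 (2 * π), F (x + (u - π)) :=
        mul_le_mul_right (lintegral_mono_set hsub) _

theorem s8_pois_mass_le (ℓ u : ℝ) (hℓ : 0 < ℓ) (S : Set ℝ) :
    ∫⁻ x' in S, ENNReal.ofReal (s8Pois ℓ (x' - u)) ∂s8nu0 ≤ 1 := by
  rw [← s8c_pois_total ℓ u hℓ]
  exact setLIntegral_le_lintegral _ _

theorem s8_pois_mass_int (ℓ : ℝ) (hℓ : 0 < ℓ) (S : Set ℝ) (hSm : MeasurableSet S) :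
    ∫⁻ u, (∫⁻ x' in S, ENNReal.ofReal (s8Pois ℓ (x' - u)) ∂s8nu0) ∂s8nu0 ≤ s8nu0 S := by
  have := s8_nu0_prob
  have hm : Measurable (Function.uncurry fun u x' : ℝ => ENNReal.ofReal (s8Pois ℓ (x' - u))) :=
    ((s8_pois_cont ℓ hℓ).measurable.comp (measurable_snd.sub measurable_fst)).ennreal_ofReal
  rw [lintegral_lintegral_swap hm.aemeasurable]
  simp only [s8c_pois_total' ℓ _ hℓ]
  rw [lintegral_one, Measure.restrict_apply_univ]

/-- numerics of the choice `R = 16 σ^{-1/2}`. -/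
theorem s8c_num (k0 k s : ℝ) (hkk0 : 2 * k0 + 10 ≤ k) (hs0 : 0 < s) (hds' : Real.exp (-k) ≤ π * s) :
    16 / Real.sqrt s * Real.exp (-k) ≤ 16 * π * Real.sqrt s ∧ 3 * (16 / Real.sqrt s) * s = 48 * Real.sqrt s ∧
      16 / Real.sqrt s * Real.exp (-k) ≤ Real.exp (-k0) := by
  have hp := Real.pi_pos
  have hp4 := Real.pi_le_four
  set d := Real.exp (-k) with hd
  have hd0 : 0 < d := Real.exp_pos _
  set r := Real.sqrt s with hr
  have hr0 : 0 < r := Real.sqrt_pos.2 hs0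
  have hrs : r ^ 2 = s := Real.sq_sqrt hs0.le
  set R := 16 / r with hR
  have hR0 : 0 < R := by positivity
  have hRr : R * r = 16 := by rw [hR]; field_simp
  refine ⟨?_, ?_, ?_⟩
  · calc R * d ≤ R * (π * s) := mul_le_mul_of_nonneg_left hds' hR0.le
      _ = (R * r) * π * r := by rw [← hrs]; ring
      _ = 16 * π * r := by rw [hRr]
  · rw [← hrs]
    linear_combination (3 * r) * hRr
  · have h1 : (R * d) ^ 2 ≤ 256 * π * d := by
      have h2 : (R * d) ^ 2 * s = 256 * d ^ 2 := by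
        rw [← hrs]
        linear_combination (d ^ 2 * (R * r + 16)) * hRr
      have h3 : 256 * d ^ 2 ≤ 256 * π * d * s := by
        have : d * d ≤ d * (π * s) := mul_le_mul_of_nonneg_left hds' hd0.le
        nlinarith
      have h4 : (R * d) ^ 2 * s ≤ 256 * π * d * s := by linarith
      exact le_of_mul_le_mul_right h4 hs0
    have h5 : d ≤ Real.exp (-(2 * k0)) * Real.exp (-10) := by
      rw [hd, ← Real.exp_add]
      apply Real.exp_le_exp.2
      linarith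
    have h6 : 1024 * Real.exp (-10) ≤ 1 := by
      have e1 : Real.exp 10 = Real.exp 1 ^ 10 := by rw [← Real.exp_nat_mul]; norm_num
      have e2 : (2 : ℝ) ≤ Real.exp 1 := by
        have := Real.add_one_le_exp (1 : ℝ)
        linarith
      have e3 : (2 : ℝ) ^ 10 ≤ Real.exp 1 ^ 10 := pow_le_pow_left₀ (by norm_num) e2 10
      rw [Real.exp_neg, ← div_eq_mul_inv, div_le_one (Real.exp_pos _), e1]
      linarith
    have h7 : (R * d) ^ 2 ≤ Real.exp (-k0) ^ 2 := by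
      have e4 : Real.exp (-k0) ^ 2 = Real.exp (-(2 * k0)) := by
        rw [← Real.exp_nat_mul]
        congr 1
        push_cast
        ring
      rw [e4]
      have h8 : 0 < Real.exp (-(2 * k0)) := Real.exp_pos _
      calc (R * d) ^ 2 ≤ 256 * π * d := h1
        _ ≤ 1024 * d := by nlinarith
        _ ≤ 1024 * (Real.exp (-(2 * k0)) * Real.exp (-10)) := by linarith
        _ = Real.exp (-(2 * k0)) * (1024 * Real.exp (-10)) := by ring
        _ ≤ Real.exp (-(2 * k0)) * 1 := mul_le_mul_of_nonneg_left h6 h8.le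
        _ = Real.exp (-(2 * k0)) := mul_one _
    exact (pow_le_pow_iff_left₀ (by positivity) (Real.exp_pos _).le (by norm_num)).1 h7

/-- the powers of `σ`. -/
theorem s8c_pow (β ϑ ζ s d : ℝ) (hβ' : β < 1 / 2) (hϑ0 : 0 < ϑ) (hϑ1 : ϑ ≤ 1 / 3)
    (hζ1 : ζ ≤ (1 - 2 * β) / 2) (hζ2 : ζ ≤ ϑ / 2) (hs0 : 0 < s) (hs1 : s ≤ 1)
    (hRd : 16 / Real.sqrt s * d ≤ 16 * π * Real.sqrt s) :
    (16 / Real.sqrt s) ^ (2 * β - 1) + 16 / Real.sqrt s * d + (48 * Real.sqrt s) ^ ϑ ≤ 113 * s ^ ζ ∧ s ≤ s ^ ζ := by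
  have hp := Real.pi_pos
  have hp4 := Real.pi_le_four
  set r := Real.sqrt s with hr
  have hr0 : 0 < r := Real.sqrt_pos.2 hs0
  have hr1 : r ≤ 1 := Real.sqrt_le_one.2 hs1
  set R := 16 / r with hR
  have hR0 : 0 < R := by positivity
  have hsζ : ∀ p : ℝ, ζ ≤ p / 2 → r ^ p ≤ s ^ ζ := by
    intro p hp'
    rw [hr, Real.sqrt_eq_rpow, ← Real.rpow_mul hs0.le]
    apply Real.rpow_le_rpow_of_exponent_ge hs0 hs1
    linarith
  have hX1 : R ^ (2 * β - 1) ≤ s ^ ζ := by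
    have h1 : R ^ (2 * β - 1) = (R⁻¹) ^ (1 - 2 * β) := by
      rw [Real.inv_rpow hR0.le, ← Real.rpow_neg hR0.le]
      congr 1
      ring
    have h2 : R⁻¹ ≤ r := by
      rw [hR, inv_div]
      linarith
    rw [h1]
    exact (Real.rpow_le_rpow (by positivity) h2 (by linarith)).trans (hsζ _ hζ1)
  have hX2 : R * d ≤ 64 * s ^ ζ := by
    have h1 : r ≤ s ^ ζ := by
      have := hsζ 1 (by linarith)
      rwa [Real.rpow_one] at this
    calc R * d ≤ 16 * π * r := hRd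
      _ ≤ 64 * r := by nlinarith
      _ ≤ 64 * s ^ ζ := by linarith
  have hX3 : (48 * r) ^ ϑ ≤ 48 * s ^ ζ := by
    rw [Real.mul_rpow (by norm_num) hr0.le]
    have h1 : (48 : ℝ) ^ ϑ ≤ 48 := by
      calc (48 : ℝ) ^ ϑ ≤ (48 : ℝ) ^ (1 : ℝ) := Real.rpow_le_rpow_of_exponent_le (by norm_num) (by linarith)
        _ = 48 := Real.rpow_one _
    exact mul_le_mul h1 (hsζ _ hζ2) (by positivity) (by norm_num)
  have hX4 : s ≤ s ^ ζ := by
    calc s = s ^ (1 : ℝ) := (Real.rpow_one _).symm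
      _ ≤ s ^ ζ := Real.rpow_le_rpow_of_exponent_ge hs0 hs1 (by linarith)
  exact ⟨by linarith, hX4⟩

/-- selection of a periodic set under the Poisson kernel, and Hölder. -/
theorem s8c_select (D ℓ ϑ q : ℝ) (hD : 0 < D) (hD1 : D ≤ 1) (h1 : D / 2 ≤ ℓ) (h2 : ℓ ≤ D)
    (hϑ0 : 0 < ϑ) (hϑ1 : ϑ < 1) (hq1 : 1 < q) (hqϑ : q⁻¹ + ϑ = 1)
    (pp pm c : ℝ → ℝ≥0∞) (hpp : Measurable pp) (hpm : Measurable pm) (hc : Measurable c) (T : ℝ≥0∞)
    (hbal : ∀ x', ∫⁻ u, ENNReal.ofReal (s8Pois ℓ (x' - u)) * pp u ∂s8nu0 ≤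
      ∫⁻ u, ENNReal.ofReal (s8Pois ℓ (x' - u)) * pm u ∂s8nu0 + c x' + T)
    (E₁ : Set ℝ) (hE₁ : ∀ x, x ∈ E₁ ↔ x + 2 * π ∈ E₁) (hE₁m : MeasurableSet E₁) :
    ∫⁻ x in E₁, (pp x + pm x) ∂s8nu0 ≤
      9 * ((∫⁻ x, pm x ^ q ∂s8nu0) ^ (1 / q) * s8nu0 (thickening D E₁) ^ ϑ) + 8 * ∫⁻ x, c x ∂s8nu0 + 8 * T := by
  have := s8_nu0_prob
  have hℓ : 0 < ℓ := by linarith
  set ER := thickening D E₁ with hER
  have hERm : MeasurableSet ER := isOpen_thickening.measurableSet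
  have hERper := s8_thick_per E₁ hE₁ D
  have hKm : Measurable fun p : ℝ × ℝ => ENNReal.ofReal (s8Pois ℓ (p.1 - p.2)) :=
    ((s8_pois_cont ℓ hℓ).measurable.comp (measurable_fst.sub measurable_snd)).ennreal_ofReal
  have hKm' : Measurable fun p : ℝ × ℝ => ENNReal.ofReal (s8Pois ℓ (p.2 - p.1)) :=
    ((s8_pois_cont ℓ hℓ).measurable.comp (measurable_snd.sub measurable_fst)).ennreal_ofReal
  set ψ : ℝ → ℝ≥0∞ := fun u => ∫⁻ x' in ER, ENNReal.ofReal (s8Pois ℓ (x' - u)) ∂s8nu0 with hψ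
  have hψm : Measurable ψ := hKm'.lintegral_prod_right'
  have hψ1 : ∀ u, ψ u ≤ 1 := fun u => s8_pois_mass_le ℓ u hℓ ER
  have hψint : ∫⁻ u, ψ u ∂s8nu0 ≤ s8nu0 ER := s8_pois_mass_int ℓ hℓ ER hERm
  have hψlow : ∀ u ∈ E₁, ENNReal.ofReal (1 / 8) ≤ ψ u := fun u hu =>
    s8_pois_mass D ℓ u hD hD1 h1 h2 ER hERper hERm
      (fun v hv => mem_thickening_iff.2 ⟨u, hu, by rwa [Real.dist_eq]⟩)
  have hton : ∀ p : ℝ → ℝ≥0∞, Measurable p →
      ∫⁻ x' in ER, (∫⁻ u, ENNReal.ofReal (s8Pois ℓ (x' - u)) * p u ∂s8nu0) ∂s8nu0 =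
        ∫⁻ u, ψ u * p u ∂s8nu0 := by
    intro p hp
    rw [lintegral_lintegral_swap (f := fun x' u => ENNReal.ofReal (s8Pois ℓ (x' - u)) * p u)
      (hKm.mul (hp.comp measurable_snd)).aemeasurable]
    refine lintegral_congr fun u => ?_
    have hmu : Measurable fun x : ℝ => ENNReal.ofReal (s8Pois ℓ (x - u)) :=
      ((s8_pois_cont ℓ hℓ).measurable.comp (measurable_id.sub_const u)).ennreal_ofReal
    exact lintegral_mul_const _ hmu
  have hint : ∫⁻ u, ψ u * pp u ∂s8nu0 ≤ ∫⁻ u, ψ u * pm u ∂s8nu0 + ∫⁻ x, c x ∂s8nu0 + T := by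
    rw [← hton pp hpp, ← hton pm hpm]
    calc ∫⁻ x' in ER, (∫⁻ u, ENNReal.ofReal (s8Pois ℓ (x' - u)) * pp u ∂s8nu0) ∂s8nu0
        ≤ ∫⁻ x' in ER, (∫⁻ u, ENNReal.ofReal (s8Pois ℓ (x' - u)) * pm u ∂s8nu0 + c x' + T) ∂s8nu0 :=
          lintegral_mono fun x' => hbal x'
      _ = ∫⁻ x' in ER, (∫⁻ u, ENNReal.ofReal (s8Pois ℓ (x' - u)) * pm u ∂s8nu0) ∂s8nu0 +
          ∫⁻ x' in ER, c x' ∂s8nu0 + T * s8nu0 ER := by
          rw [lintegral_add_right _ measurable_const, lintegral_add_right _ hc, lintegral_const,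
            Measure.restrict_apply_univ]
      _ ≤ ∫⁻ x' in ER, (∫⁻ u, ENNReal.ofReal (s8Pois ℓ (x' - u)) * pm u ∂s8nu0) ∂s8nu0 +
          ∫⁻ x, c x ∂s8nu0 + T := by
          refine add_le_add (add_le_add le_rfl (setLIntegral_le_lintegral _ _)) ?_
          calc T * s8nu0 ER ≤ T * 1 := mul_le_mul_right prob_le_one _
            _ = T := mul_one _
  set L := (∫⁻ x, pm x ^ q ∂s8nu0) ^ (1 / q) with hL
  have hconj : q.HolderConjugate (1 / ϑ) :=
    Real.holderConjugate_iff.2 ⟨hq1, by rw [one_div, inv_inv]; exact hqϑ⟩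
  have hhol : ∀ g : ℝ → ℝ≥0∞, Measurable g → (∀ u, g u ≤ 1) → ∫⁻ u, g u ∂s8nu0 ≤ s8nu0 ER →
      ∫⁻ u, g u * pm u ∂s8nu0 ≤ L * s8nu0 ER ^ ϑ := by
    intro g hg hg1 hgi
    have h3 := ENNReal.lintegral_mul_le_Lp_mul_Lq s8nu0 hconj hpm.aemeasurable hg.aemeasurable
    have h4 : ∫⁻ u, g u ^ (1 / ϑ) ∂s8nu0 ≤ s8nu0 ER :=
      (lintegral_mono fun u => ENNReal.rpow_le_self_of_le_one (hg1 u) ((one_le_div hϑ0).2 hϑ1.le)).trans hgi
    calc ∫⁻ u, g u * pm u ∂s8nu0 = ∫⁻ u, (pm * g) u ∂s8nu0 := by simp only [Pi.mul_apply, mul_comm]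
      _ ≤ L * (∫⁻ u, g u ^ (1 / ϑ) ∂s8nu0) ^ (1 / (1 / ϑ)) := h3
      _ ≤ L * s8nu0 ER ^ ϑ := by
          rw [one_div_one_div]
          exact mul_le_mul_right (ENNReal.rpow_le_rpow h4 hϑ0.le) _
  have hA : ∫⁻ u, ψ u * pm u ∂s8nu0 ≤ L * s8nu0 ER ^ ϑ := hhol ψ hψm hψ1 hψint
  have hB : ∫⁻ x in E₁, pm x ∂s8nu0 ≤ L * s8nu0 ER ^ ϑ := by
    have h5 := hhol (E₁.indicator 1) (measurable_one.indicator hE₁m)
      (fun u => by
        by_cases hu : u ∈ E₁
        · rw [indicator_of_mem hu]; rfl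
        · rw [indicator_of_notMem hu]; exact zero_le_one)
      (by
        rw [lintegral_indicator_one hE₁m]
        exact measure_mono (self_subset_thickening hD E₁))
    refine le_trans (le_of_eq ?_) h5
    rw [← lintegral_indicator hE₁m]
    refine lintegral_congr fun u => ?_
    by_cases hu : u ∈ E₁
    · rw [indicator_of_mem hu, indicator_of_mem hu, Pi.one_apply, one_mul]
    · rw [indicator_of_notMem hu, indicator_of_notMem hu, zero_mul]
  have hC : ENNReal.ofReal (1 / 8) * ∫⁻ x in E₁, pp x ∂s8nu0 ≤ ∫⁻ u, ψ u * pp u ∂s8nu0 := by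
    rw [← lintegral_const_mul' _ _ ENNReal.ofReal_ne_top]
    refine le_trans ?_ (setLIntegral_le_lintegral E₁ _)
    exact setLIntegral_mono' hE₁m fun u hu => mul_le_mul_left (hψlow u hu) _
  have hC' : ∫⁻ x in E₁, pp x ∂s8nu0 ≤ 8 * (L * s8nu0 ER ^ ϑ + ∫⁻ x, c x ∂s8nu0 + T) := by
    have e8 : (8 : ℝ≥0∞) * ENNReal.ofReal (1 / 8) = 1 := by
      rw [show (8 : ℝ≥0∞) = ENNReal.ofReal 8 by norm_num, ← ENNReal.ofReal_mul (by norm_num)]
      norm_num
    calc ∫⁻ x in E₁, pp x ∂s8nu0 = 8 * (ENNReal.ofReal (1 / 8) * ∫⁻ x in E₁, pp x ∂s8nu0) := by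
          rw [← mul_assoc, e8, one_mul]
      _ ≤ 8 * (L * s8nu0 ER ^ ϑ + ∫⁻ x, c x ∂s8nu0 + T) :=
          mul_le_mul_right (hC.trans (hint.trans (add_le_add (add_le_add hA le_rfl) le_rfl))) _
  rw [lintegral_add_left hpp]
  calc ∫⁻ x in E₁, pp x ∂s8nu0 + ∫⁻ x in E₁, pm x ∂s8nu0
      ≤ 8 * (L * s8nu0 ER ^ ϑ + ∫⁻ x, c x ∂s8nu0 + T) + L * s8nu0 ER ^ ϑ := add_le_add hC' hB
    _ = 9 * (L * s8nu0 ER ^ ϑ) + 8 * ∫⁻ x, c x ∂s8nu0 + 8 * T := by ring

theorem s8c_exp2 : Real.exp 2 < 8 := by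
  have h := Real.exp_one_lt_d9
  have e : Real.exp 2 = Real.exp 1 * Real.exp 1 := by rw [← Real.exp_add]; norm_num
  rw [e]
  have h0 := Real.exp_pos 1
  nlinarith

theorem s8c_row_num (k l R : ℝ) (hl : l ∈ Icc (k - 2) (k + 2)) (hR : 16 ≤ R) :
    Real.exp (-l) ≤ R * Real.exp (-k) / 2 ∧ Real.exp (-l) / (R * Real.exp (-k)) ≤ Real.exp 2 / R := by
  have hk : 0 < Real.exp (-k) := Real.exp_pos _
  have h1 : Real.exp (-l) ≤ Real.exp 2 * Real.exp (-k) := by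
    rw [← Real.exp_add]
    apply Real.exp_le_exp.2
    linarith [hl.1]
  have h2 := s8c_exp2
  constructor
  · nlinarith
  · rw [div_le_div_iff₀ (by positivity) (by linarith)]
    nlinarith

theorem s8c_rpow_root (A B q : ℝ) (hA : 0 ≤ A) (hB : 0 ≤ B) (hq : 0 < q) :
    (A ^ q * B ^ 2) ^ (1 / q) = A * B ^ (2 / q) := by
  rw [Real.mul_rpow (by positivity) (by positivity), one_div, Real.rpow_rpow_inv hA hq.ne',
    ← Real.rpow_natCast B 2, ← Real.rpow_mul hB]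
  congr 2

theorem s8c_abs_split (d P : ℝ) (hd : 0 ≤ d) :
    ENNReal.ofReal (d * |P|) = ENNReal.ofReal (d * P) + ENNReal.ofReal (d * -P) := by
  rcases le_total 0 P with h | h
  · rw [abs_of_nonneg h, ENNReal.ofReal_of_nonpos (show d * -P ≤ 0 by nlinarith), add_zero]
  · rw [abs_of_nonpos h, ENNReal.ofReal_of_nonpos (show d * P ≤ 0 by nlinarith), zero_add]

theorem s8c_env_near {β a : ℝ} {N : ℝ → ℝ} (hN : S8Env β a N) (hβ : 0 ≤ β) (ha : 0 ≤ a) (k l : ℝ)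
    (hl : l ∈ Icc (k - 2) (k + 2)) : N l ^ 2 ≤ Real.exp (4 * (β + a)) * N k ^ 2 := by
  have h1 := hN.near hβ ha l k
  have h2 : |l - k| ≤ 2 := abs_le.2 ⟨by linarith [hl.1], by linarith [hl.2]⟩
  have h3 : Real.exp ((β + a) * |l - k|) ≤ Real.exp (2 * (β + a)) := by
    apply Real.exp_le_exp.2
    nlinarith
  have hk : 0 ≤ N k := by linarith [hN.one_le k]
  have hl0 : 0 ≤ N l := by linarith [hN.one_le l]
  have h4 : N l ≤ N k * Real.exp (2 * (β + a)) := h1.trans (mul_le_mul_of_nonneg_left h3 hk)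
  have h5 : Real.exp (4 * (β + a)) = Real.exp (2 * (β + a)) ^ 2 := by
    rw [← Real.exp_nat_mul]
    congr 1
    push_cast
    ring
  calc N l ^ 2 ≤ (N k * Real.exp (2 * (β + a))) ^ 2 := pow_le_pow_left₀ hl0 h4 2
    _ = Real.exp (4 * (β + a)) * N k ^ 2 := by rw [h5]; ring

theorem s8c_env_back {β a : ℝ} {N : ℝ → ℝ} (hN : S8Env β a N) (k R : ℝ) (hR : 1 ≤ R) :
    N (k - Real.log R) ^ 2 ≤ N k ^ 2 * R ^ (2 * β) := by
  have hR0 : 0 < R := by linarith
  have h1 := hN.back (k - Real.log R) k (by linarith [Real.log_nonneg hR])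
  have e1 : Real.exp (β * (k - (k - Real.log R))) = R ^ β := by
    rw [Real.rpow_def_of_pos hR0]
    congr 1
    ring
  rw [e1] at h1
  have h0 : 0 ≤ N (k - Real.log R) := by linarith [hN.one_le (k - Real.log R)]
  calc N (k - Real.log R) ^ 2 ≤ (N k * R ^ β) ^ 2 := pow_le_pow_left₀ h0 h1 2
    _ = N k ^ 2 * R ^ (2 * β) := by
        rw [mul_pow, ← Real.rpow_natCast (R ^ β) 2, ← Real.rpow_mul hR0.le]
        congr 2
        push_cast
        ring

namespace Shape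

variable (Sh : Shape)

/-- **(8.21)** `P` on a selected periodic set `E₁` of a row `l ∈ [k-2,k+2]`; `R` = ratio of the coarse depth. -/
theorem s8_rowset (hH : Sh.H ≠ ⊤) (β a : ℝ) (C₁ : ℝ → ℝ) (hβ : 0 ≤ β) (hβ' : β < 1 / 2) (ha : 0 ≤ a) :
    ∃ C k₁ : ℝ, 0 < C ∧ Sh.s9k0 + 2 ≤ k₁ ∧ ∀ N : ℝ → ℝ, S8Env β a N → Sh.S8FM C₁ N → Sh.S8Fin N → ∀ k ≥ k₁,
      ∀ l ∈ Icc (k - 2) (k + 2), ∀ R : ℝ, 16 ≤ R → R * Real.exp (-k) ≤ Real.exp (-Sh.s9k0) →
      ∀ E₁ : Set ℝ, (∀ x, x ∈ E₁ ↔ x + 2 * π ∈ E₁) → MeasurableSet E₁ →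
      ∫⁻ x in E₁, ENNReal.ofReal (Real.exp (-l) * |Sh.s9P (Sh.s8pt x (Real.exp (-l)))|) ∂s8nu0 ≤
        ENNReal.ofReal (C * N k ^ 2) * (ENNReal.ofReal (R ^ (2 * β - 1) + R * Real.exp (-k)) +
          s8nu0 (thickening (R * Real.exp (-k)) E₁) ^ (1 - s8m a / 2)) := by
  obtain ⟨A₁, Cp, kp, hA₁, hCp, hkp, hLp⟩ := Sh.s8_Pm_Lp hH β a C₁ hβ hβ' ha
  obtain ⟨C', CP, hC', hCP, hun⟩ := Sh.s8_boot_unif hH β a C₁ hβ hβ' ha A₁ hA₁
  obtain ⟨hm1, hm2⟩ := s8_m_mem a ha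
  have hHr := Sh.s8_Hr_pos hH
  obtain ⟨hk01, hk02⟩ := Sh.s8_k0 hH
  set m := s8m a with hm
  set e4 := Real.exp (4 * (β + a)) with he4
  have he40 : 0 < e4 := Real.exp_pos _
  set CH := 8 * Real.cosh (Sh.Hr / 2) / Sh.Hr ^ 2 with hCH
  have hCH0 : 0 < CH := by
    have := Real.cosh_pos (Sh.Hr / 2)
    positivity
  have hB0 : 0 < (1 + C') ^ m := Real.rpow_pos_of_pos (by linarith) _
  set K1 := 9 * (Cp * e4 * (1 + C') ^ m) with hK1
  set K2 := 8 * (Real.exp 2 * CP) with hK2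
  set K3 := 8 * (CH * CP * e4) with hK3
  have hK10 : 0 < K1 := by positivity
  have hK20 : 0 < K2 := by positivity
  have hK30 : 0 < K3 := by positivity
  refine ⟨K1 + K2 + K3, max kp Sh.s9k0 + 2, by positivity, by linarith [le_max_right kp Sh.s9k0], ?_⟩
  intro N hN hFM hFin k hk l hl R hR hRk E₁ hE₁ hE₁m
  obtain ⟨hT2, hP1⟩ := hun N hN hFM hFin
  have hlkp : kp ≤ l := by linarith [le_max_left kp Sh.s9k0, hl.1]
  have hlk0 : Sh.s9k0 ≤ l := by linarith [le_max_right kp Sh.s9k0, hl.1]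
  have hR0 : 0 < R := by linarith
  obtain ⟨hnA, hnB⟩ := s8c_row_num k l R hl hR
  set d' := Real.exp (-l) with hd'
  have hd'0 : 0 < d' := Real.exp_pos _
  set D := R * Real.exp (-k) with hD
  have hD0 : 0 < D := by positivity
  have hD1 : D ≤ 1 := hRk.trans (by rw [Real.exp_le_one_iff]; linarith)
  have hDH : D < Sh.Hr / 10 := lt_of_le_of_lt hRk hk02
  set ℓ := D - d' with hℓ
  set ϑ := 1 - m / 2 with hϑ
  set q := 2 / m with hq
  have hq0 : 0 < q := by rw [hq]; apply div_pos <;> linarith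
  have hq1 : 1 < q := by rw [hq, lt_div_iff₀ (by linarith)]; linarith
  have hqϑ : q⁻¹ + ϑ = 1 := by rw [hq, hϑ, inv_div]; ring
  have h2q : 2 / q = m := by rw [hq]; field_simp
  -- the functions
  have hPc : ∀ δ : ℝ, 0 < δ → δ < 2 * Sh.Hr → Continuous fun u : ℝ => Sh.s9P (Sh.s8pt u δ) := fun δ h1 h2 =>
    Sh.s8_P_cont.comp_continuous (s8_cont_mk _) fun u => Sh.s8_pt_mem hH u δ h1 h2
  have hPl := hPc d' hd'0 (by linarith)
  have hPD := hPc D hD0 (by linarith)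
  have hsel := s8c_select D ℓ ϑ q hD0 hD1 (by rw [hℓ]; linarith) (by rw [hℓ]; linarith) (by rw [hϑ]; linarith)
    (by rw [hϑ]; linarith) hq1 hqϑ
    (fun u => ENNReal.ofReal (d' * Sh.s9P (Sh.s8pt u d'))) (fun u => ENNReal.ofReal (d' * -Sh.s9P (Sh.s8pt u d')))
    (fun x' => ENNReal.ofReal d' * ENNReal.ofReal |Sh.s9P (Sh.s8pt x' D)|)
    (continuous_const.mul hPl).measurable.ennreal_ofReal (continuous_const.mul hPl.neg).measurable.ennreal_ofReal
    (hPD.abs.measurable.ennreal_ofReal.const_mul _) _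
    (fun x' => Sh.s8_hp_bal hH l D x' hlk0 (by linarith) (by linarith)) E₁ hE₁ hE₁m
  simp only [← s8c_abs_split _ _ hd'0.le] at hsel
  refine hsel.trans ?_
  -- the three bounds
  set n2 := N k ^ 2 with hn2
  have hn20 : 1 ≤ n2 := one_le_pow₀ (hN.one_le k)
  have hNl : N l ^ 2 ≤ e4 * n2 := s8c_env_near hN hβ ha k l hl
  have hNl0 : 0 ≤ N l ^ 2 := by positivity
  set x1 := R ^ (2 * β - 1) with hx1
  have hx10 : 0 < x1 := Real.rpow_pos_of_pos hR0 _
  have hL : (∫⁻ x, ENNReal.ofReal (d' * -Sh.s9P (Sh.s8pt x d')) ^ q ∂s8nu0) ^ (1 / q) ≤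
      ENNReal.ofReal (Cp * (e4 * n2) * (1 + C') ^ m) := by
    have h1 := hLp N s8nu0 C' l hN hFM s8_nu0_prob hC'.le hlkp hT2
    refine (ENNReal.rpow_le_rpow h1 (by positivity)).trans ?_
    rw [ENNReal.ofReal_rpow_of_nonneg (by positivity) (by positivity),
      s8c_rpow_root _ _ q (by positivity) (by linarith) hq0, h2q]
    apply ENNReal.ofReal_le_ofReal
    exact mul_le_mul_of_nonneg_right (mul_le_mul_of_nonneg_left hNl hCp.le) hB0.le
  have hlogD : -Real.log D = k - Real.log R := by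
    rw [hD, Real.log_mul hR0.ne' (Real.exp_pos _).ne', Real.log_exp]
    ring
  have hjc : Sh.s9k0 ≤ -Real.log D := by
    have := Real.log_le_log hD0 hRk
    rw [Real.log_exp] at this
    linarith
  have hc : ∫⁻ x', ENNReal.ofReal d' * ENNReal.ofReal |Sh.s9P (Sh.s8pt x' D)| ∂s8nu0 ≤
      ENNReal.ofReal (Real.exp 2 * CP * n2 * x1) := by
    rw [lintegral_const_mul' _ _ ENNReal.ofReal_ne_top, Sh.s8_P_row s8nu0 D hD0]
    have h1 := hP1 _ hjc
    have h2 : N (-Real.log D) ^ 2 ≤ n2 * R ^ (2 * β) := by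
      rw [hlogD]
      exact s8c_env_back hN k R (by linarith)
    refine (mul_le_mul_right (mul_le_mul_right h1 _) _).trans ?_
    rw [← ENNReal.ofReal_mul (by positivity), ← ENNReal.ofReal_mul hd'0.le]
    apply ENNReal.ofReal_le_ofReal
    have h3 : x1 = R ^ (2 * β) / R := Real.rpow_sub_one hR0.ne' _
    have h4 : 0 < R ^ (2 * β) := Real.rpow_pos_of_pos hR0 _
    calc d' * (1 / D * (CP * N (-Real.log D) ^ 2)) = d' / D * (CP * N (-Real.log D) ^ 2) := by ring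
      _ ≤ Real.exp 2 / R * (CP * (n2 * R ^ (2 * β))) :=
          mul_le_mul hnB (mul_le_mul_of_nonneg_left h2 hCP.le) (by positivity) (by positivity)
      _ = Real.exp 2 * CP * n2 * x1 := by rw [h3]; ring
  have hT : ENNReal.ofReal (Real.sinh (Sh.Hr - d') / (Real.cosh (Sh.Hr - d') - 1) * (ℓ / (Sh.Hr - d'))) *
      Sh.s8P1 s8nu0 l ≤ ENNReal.ofReal (CH * D * (CP * (e4 * n2))) := by
    have h1 := s8hb_coth Sh.Hr (Sh.Hr - d') ℓ hHr (by linarith) (by linarith) (by rw [hℓ]; linarith)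
    have h2 : CH * ℓ ≤ CH * D := mul_le_mul_of_nonneg_left (by rw [hℓ]; linarith) hCH0.le
    rw [ENNReal.ofReal_mul (show 0 ≤ CH * D by positivity)]
    exact mul_le_mul' (ENNReal.ofReal_le_ofReal (h1.trans h2))
      ((hP1 l hlk0).trans (ENNReal.ofReal_le_ofReal (mul_le_mul_of_nonneg_left hNl hCP.le)))
  set σ := s8nu0 (thickening D E₁) ^ ϑ with hσ
  set K := K1 + K2 + K3 with hK
  have e9 : (9 : ℝ≥0∞) = ENNReal.ofReal 9 := by norm_num
  have e8 : (8 : ℝ≥0∞) = ENNReal.ofReal 8 := by norm_num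
  calc 9 * ((∫⁻ x, ENNReal.ofReal (d' * -Sh.s9P (Sh.s8pt x d')) ^ q ∂s8nu0) ^ (1 / q) * σ) +
        8 * ∫⁻ x', ENNReal.ofReal d' * ENNReal.ofReal |Sh.s9P (Sh.s8pt x' D)| ∂s8nu0 +
        8 * (ENNReal.ofReal (Real.sinh (Sh.Hr - d') / (Real.cosh (Sh.Hr - d') - 1) * (ℓ / (Sh.Hr - d'))) *
          Sh.s8P1 s8nu0 l)
      ≤ 9 * (ENNReal.ofReal (Cp * (e4 * n2) * (1 + C') ^ m) * σ) +
        8 * ENNReal.ofReal (Real.exp 2 * CP * n2 * x1) + 8 * ENNReal.ofReal (CH * D * (CP * (e4 * n2))) :=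
        add_le_add (add_le_add (mul_le_mul_right (mul_le_mul_left hL _) _) (mul_le_mul_right hc _))
          (mul_le_mul_right hT _)
    _ = ENNReal.ofReal (K1 * n2) * σ + ENNReal.ofReal (K2 * n2 * x1 + K3 * n2 * D) := by
        rw [e9, e8, ← mul_assoc, ← ENNReal.ofReal_mul (by norm_num), ← ENNReal.ofReal_mul (by norm_num),
          ← ENNReal.ofReal_mul (by norm_num), add_assoc, ← ENNReal.ofReal_add (by positivity) (by positivity)]
        have r1 : 9 * (Cp * (e4 * n2) * (1 + C') ^ m) = K1 * n2 := by rw [hK1]; ring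
        have r2 : 8 * (Real.exp 2 * CP * n2 * x1) + 8 * (CH * D * (CP * (e4 * n2))) =
            K2 * n2 * x1 + K3 * n2 * D := by rw [hK2, hK3]; ring
        rw [r1, r2]
    _ ≤ ENNReal.ofReal (K * n2) * σ + ENNReal.ofReal (K * n2) * ENNReal.ofReal (x1 + D) := by
        refine add_le_add (mul_le_mul_left (ENNReal.ofReal_le_ofReal ?_) _) ?_
        · apply mul_le_mul_of_nonneg_right _ (by linarith)
          rw [hK]; linarith
        · rw [← ENNReal.ofReal_mul (by positivity)]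
          apply ENNReal.ofReal_le_ofReal
          have h1 : K2 * n2 * x1 ≤ K * n2 * x1 := by
            apply mul_le_mul_of_nonneg_right _ hx10.le
            apply mul_le_mul_of_nonneg_right _ (by linarith)
            rw [hK]; linarith
          have h2 : K3 * n2 * D ≤ K * n2 * D := by
            apply mul_le_mul_of_nonneg_right _ hD0.le
            apply mul_le_mul_of_nonneg_right _ (by linarith)
            rw [hK]; linarith
          linarith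
    _ = ENNReal.ofReal (K * n2) * (ENNReal.ofReal (x1 + D) + σ) := by ring

theorem s8c_w_lt (k : ℝ) : s8w 1 k = 2 * Real.exp 1 * Real.exp (-k) ∧ s8w 1 k < 6 * Real.exp (-k) := by
  have h1 : s8w 1 k = 2 * Real.exp 1 * Real.exp (-k) := by
    unfold s8w
    norm_num
  refine ⟨h1, ?_⟩
  rw [h1]
  have := Real.exp_one_lt_d9
  have := Real.exp_pos (-k)
  nlinarith

/-- from `P` back to `M` without losing the set. -/
theorem s8_conc_local (hH : Sh.H ≠ ⊤) :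
    ∃ C : ℝ, 0 < C ∧ ∀ k ≥ Sh.s9k0 + 2, ∀ E : Set ℝ, (∀ x, x ∈ E ↔ x + 2 * π ∈ E) → MeasurableSet E →
      ∀ B : ℝ≥0∞, (∀ l ∈ Icc (k - 2) (k + 2), ∫⁻ x in thickening (6 * Real.exp (-k)) E,
        ENNReal.ofReal (Real.exp (-l) * |Sh.s9P (Sh.s8pt x (Real.exp (-l)))|) ∂s8nu0 ≤ B) →
      ∫⁻ x in E, ENNReal.ofReal (Real.exp (-k) * Sh.M (Sh.s8pt x (Real.exp (-k)))) ^ 2 ∂s8nu0 ≤
        ENNReal.ofReal C * (s8nu0 E + B) := by
  obtain ⟨C₀, hC₀, hT⟩ := Sh.s8_T_le_boxP hH 1 le_rfl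
  refine ⟨C₀ * (16 * Real.exp 3), by positivity, ?_⟩
  intro k hk E hE hEm B hB
  have hk0 : Sh.s9k0 ≤ k := by linarith
  have hek : 0 < Real.exp (-k) := Real.exp_pos _
  set E₁ := thickening (6 * Real.exp (-k)) E with hE₁
  have hE₁o : IsOpen E₁ := isOpen_thickening
  have hE₁per := s8_thick_per E hE (6 * Real.exp (-k))
  set F : ℂ → ℝ≥0∞ := fun z => ENNReal.ofReal |Sh.s9P z| with hF
  set Ft : ℂ → ℝ≥0∞ := (Complex.re ⁻¹' E₁).indicator F with hFt
  have hm1 : Measurable (Sh.D.indicator F) := Sh.s8_meas_ind (fun z => |Sh.s9P z|) Sh.s8_P_cont.abs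
  have hRm : MeasurableSet (Complex.re ⁻¹' E₁) := hE₁o.measurableSet.preimage Complex.measurable_re
  have hm2 : Measurable (Sh.D.indicator Ft) := by
    have : Sh.D.indicator Ft = (Complex.re ⁻¹' E₁).indicator (Sh.D.indicator F) := by
      rw [hFt, indicator_indicator, indicator_indicator, inter_comm]
    rw [this]
    exact hm1.indicator hRm
  have hper : ∀ z ∈ Sh.D, Ft (z + 2 * π) = Ft z := by
    intro z hz
    have hre : (z + 2 * π).re = z.re + 2 * π := by simp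
    by_cases hzE : z.re ∈ E₁
    · have h2 : (z + 2 * π).re ∈ E₁ := by rw [hre]; exact (hE₁per z.re).1 hzE
      rw [hFt, indicator_of_mem (show z ∈ Complex.re ⁻¹' E₁ from hzE),
        indicator_of_mem (show z + 2 * π ∈ Complex.re ⁻¹' E₁ from h2)]
      simp only [hF]
      rw [Sh.s8_P_per z hz]
    · have h2 : (z + 2 * π).re ∉ E₁ := by rw [hre]; exact fun h' => hzE ((hE₁per z.re).2 h')
      rw [hFt, indicator_of_notMem (show z ∉ Complex.re ⁻¹' E₁ from hzE),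
        indicator_of_notMem (show z + 2 * π ∉ Complex.re ⁻¹' E₁ from h2)]
  obtain ⟨hw1, hw2⟩ := s8c_w_lt k
  have hbox : ∀ x ∈ E, Sh.s8Box 1 k F x = Sh.s8Box 1 k Ft x := by
    intro x hx
    unfold s8Box
    apply setLIntegral_congr_fun measurableSet_Icc
    intro u hu
    have hmem : x + u ∈ E₁ := by
      refine mem_thickening_iff.2 ⟨x, hx, ?_⟩
      rw [Real.dist_eq, add_sub_cancel_left]
      exact lt_of_le_of_lt (abs_le.2 hu) hw2
    refine lintegral_congr fun δ => ?_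
    rw [hFt, indicator_of_mem (show Sh.s8pt (x + u) δ ∈ Complex.re ⁻¹' E₁ from hmem)]
  have hrow : ∀ δ ∈ Icc (s8lo 1 k) (Sh.s8hi 1 k),
      ∫⁻ x, Ft (Sh.s8pt x δ) ∂s8nu0 ≤ ENNReal.ofReal (2 * Real.exp 1 * Real.exp k) * B := by
    intro δ hδ
    have hlo : s8lo 1 k = Real.exp (-1) * Real.exp (-k) / 2 := rfl
    have hlo0 : 0 < s8lo 1 k := by rw [hlo]; positivity
    have hδ0 : 0 < δ := lt_of_lt_of_le hlo0 hδ.1
    have hhi : δ ≤ 2 * Real.exp 1 * Real.exp (-k) := hδ.2.trans (min_le_left _ _)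
    have hel : Real.exp (-(-Real.log δ)) = δ := by rw [neg_neg, Real.exp_log hδ0]
    have hlog2 : Real.log 2 < 1 := by
      have := Real.log_two_lt_d9
      linarith
    have hl : -Real.log δ ∈ Icc (k - 2) (k + 2) := by
      constructor
      · have h1 : Real.log δ ≤ Real.log (2 * Real.exp 1 * Real.exp (-k)) := Real.log_le_log hδ0 hhi
        rw [Real.log_mul (by positivity) (by positivity), Real.log_mul (by norm_num) (by positivity),
          Real.log_exp, Real.log_exp] at h1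
        linarith
      · have h1 : Real.log (s8lo 1 k) ≤ Real.log δ := Real.log_le_log hlo0 hδ.1
        rw [hlo, Real.log_div (by positivity) (by norm_num), Real.log_mul (by positivity) (by positivity),
          Real.log_exp, Real.log_exp] at h1
        linarith
    have h1 := hB _ hl
    rw [hel] at h1
    have h2 : ∫⁻ x, Ft (Sh.s8pt x δ) ∂s8nu0 = ∫⁻ x in E₁, ENNReal.ofReal |Sh.s9P (Sh.s8pt x δ)| ∂s8nu0 := by
      rw [← lintegral_indicator hE₁o.measurableSet]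
      rfl
    have h3 : ∫⁻ x in E₁, ENNReal.ofReal |Sh.s9P (Sh.s8pt x δ)| ∂s8nu0 =
        ENNReal.ofReal (1 / δ) * ∫⁻ x in E₁, ENNReal.ofReal (δ * |Sh.s9P (Sh.s8pt x δ)|) ∂s8nu0 := by
      rw [← lintegral_const_mul' _ _ ENNReal.ofReal_ne_top]
      refine lintegral_congr fun x => ?_
      rw [← ENNReal.ofReal_mul (by positivity)]
      congr 1
      field_simp
    have h4 : 1 / δ ≤ 2 * Real.exp 1 * Real.exp k := by
      rw [div_le_iff₀ hδ0]
      have h5 : 2 * Real.exp 1 * Real.exp k * s8lo 1 k = 1 := by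
        rw [hlo, Real.exp_neg, Real.exp_neg]
        field_simp
      have h6 : 2 * Real.exp 1 * Real.exp k * s8lo 1 k ≤ 2 * Real.exp 1 * Real.exp k * δ :=
        mul_le_mul_of_nonneg_left hδ.1 (by positivity)
      linarith
    rw [h2, h3]
    exact (mul_le_mul_right h1 _).trans (mul_le_mul_left (ENNReal.ofReal_le_ofReal h4) _)
  have hbi := Sh.s8_box_int_le hH s8nu0 k (fun _ => 1) (s8_nu0_adm k) 1 k (2 * Real.exp 1) le_rfl (by positivity)
    hw1.le Ft hm2 hper _ hrow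
  have hc1 : (1 : ℝ≥0∞) ≤ ENNReal.ofReal (16 * Real.exp 3) := by
    rw [ENNReal.one_le_ofReal]
    have := Real.one_le_exp (show (0 : ℝ) ≤ 3 by norm_num)
    linarith
  calc ∫⁻ x in E, ENNReal.ofReal (Real.exp (-k) * Sh.M (Sh.s8pt x (Real.exp (-k)))) ^ 2 ∂s8nu0
      ≤ ∫⁻ x in E, ENNReal.ofReal C₀ * (1 + ENNReal.ofReal (Real.exp k) * Sh.s8Box 1 k Ft x) ∂s8nu0 := by
        apply setLIntegral_mono' hEm
        intro x hx
        rw [← hbox x hx]
        refine le_trans ?_ (hT k hk0 x)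
        exact pow_le_pow_left₀ bot_le (ENNReal.ofReal_le_ofReal
          (Sh.s8_le_T hH 1 k x _ (Sh.s8_pt_mem_tile hH 1 k x zero_le_one hk0))) 2
    _ = ENNReal.ofReal C₀ * (s8nu0 E + ENNReal.ofReal (Real.exp k) * ∫⁻ x in E, Sh.s8Box 1 k Ft x ∂s8nu0) := by
        rw [lintegral_const_mul' _ _ ENNReal.ofReal_ne_top, lintegral_add_left measurable_const,
          lintegral_const_mul' _ _ ENNReal.ofReal_ne_top, lintegral_one, Measure.restrict_apply_univ]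
    _ ≤ ENNReal.ofReal C₀ * (s8nu0 E + ENNReal.ofReal (Real.exp k) *
          (ENNReal.ofReal (4 * (1 + 1) * Real.exp (2 * 1) * Real.exp (-(2 * k)) * 1) *
            (ENNReal.ofReal (2 * Real.exp 1 * Real.exp k) * B))) :=
        mul_le_mul_right (add_le_add_right
          (mul_le_mul_right ((setLIntegral_le_lintegral _ _).trans hbi) _) _) _
    _ = ENNReal.ofReal C₀ * (s8nu0 E + ENNReal.ofReal (16 * Real.exp 3) * B) := by
        rw [← mul_assoc, ← mul_assoc, ← ENNReal.ofReal_mul (by positivity), ← ENNReal.ofReal_mul (by positivity)]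
        congr 4
        have e1 : Real.exp 3 = Real.exp (2 * 1) * Real.exp 1 := by rw [← Real.exp_add]; norm_num
        have e2 : Real.exp k * Real.exp (-(2 * k)) * Real.exp k = 1 := by
          rw [← Real.exp_add, ← Real.exp_add]
          simp
          ring
        rw [e1]
        linear_combination (16 * Real.exp (2 * 1) * Real.exp 1) * e2
    _ ≤ ENNReal.ofReal C₀ * (ENNReal.ofReal (16 * Real.exp 3) * (s8nu0 E + B)) := by
        refine mul_le_mul_right ?_ _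
        rw [mul_add]
        exact add_le_add_left (le_mul_of_one_le_left bot_le hc1) _
    _ = ENNReal.ofReal (C₀ * (16 * Real.exp 3)) * (s8nu0 E + B) := by
        rw [ENNReal.ofReal_mul hC₀.le, mul_assoc]

/-- **the concentration estimate** (replaces (8.17)). -/
theorem s8_conc (hH : Sh.H ≠ ⊤) (β a : ℝ) (C₁ : ℝ → ℝ) (hβ : 0 ≤ β) (hβ' : β < 1 / 2) (ha : 0 ≤ a) :
    ∃ ζ C k₁ : ℝ, 0 < ζ ∧ ζ < 1 ∧ 0 < C ∧ Sh.s9k0 ≤ k₁ ∧ ∀ N : ℝ → ℝ, S8Env β a N → Sh.S8FM C₁ N → Sh.S8Fin N →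
      ∀ k ≥ k₁, ∀ E : Set ℝ, (∀ x, x ∈ E ↔ x + 2 * π ∈ E) → MeasurableSet E →
      ∫⁻ x in E, ENNReal.ofReal (Real.exp (-k) * Sh.M (Sh.s8pt x (Real.exp (-k)))) ^ 2 ∂s8nu0 ≤
        ENNReal.ofReal (C * N k ^ 2) * s8nu0 (thickening (Real.exp (-k)) E) ^ ζ := by
  obtain ⟨Cr, kr, hCr, hkr, hrow⟩ := Sh.s8_rowset hH β a C₁ hβ hβ' ha
  obtain ⟨Cl, hCl, hloc⟩ := Sh.s8_conc_local hH
  obtain ⟨hm1, hm2⟩ := s8_m_mem a ha
  set ϑ : ℝ := 1 - s8m a / 2 with hϑ
  have hϑ0 : 0 < ϑ := by rw [hϑ]; linarith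
  have hϑ1 : ϑ ≤ 1 / 3 := by rw [hϑ]; linarith
  set ζ : ℝ := min ((1 - 2 * β) / 2) (ϑ / 2) with hζ
  have hζ0 : 0 < ζ := lt_min (by linarith) (by linarith)
  have hζ1 : ζ ≤ (1 - 2 * β) / 2 := min_le_left _ _
  have hζ2 : ζ ≤ ϑ / 2 := min_le_right _ _
  have hk01 := (Sh.s8_k0 hH).1
  refine ⟨ζ, Cl * (1 + 113 * Cr), max kr (2 * Sh.s9k0 + 10), hζ0, by linarith, by positivity,
    le_trans (by linarith) (le_max_left _ _), ?_⟩
  intro N hN hFM hFin k hk E hE hEm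
  have hkkr : kr ≤ k := le_trans (le_max_left _ _) hk
  have hkk0 : 2 * Sh.s9k0 + 10 ≤ k := le_trans (le_max_right _ _) hk
  rcases E.eq_empty_or_nonempty with rfl | hne
  · simp
  have := s8_nu0_prob
  have hp := Real.pi_pos
  have hp3 := Real.pi_gt_three
  have hp4 := Real.pi_le_four
  set d := Real.exp (-k) with hd
  have hd0 : 0 < d := Real.exp_pos _
  have hd1 : d ≤ 1 := by
    rw [hd, Real.exp_le_one_iff]
    linarith
  set σ := s8nu0 (thickening d E) with hσ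
  have hσ1 : σ ≤ 1 := prob_le_one
  have hσtop : σ ≠ ⊤ := ne_top_of_le_ne_top ENNReal.one_ne_top hσ1
  have hσlow := s8_thick_lower E hE hne d hd0 (by linarith)
  set s := σ.toReal with hs
  have hσs : σ = ENNReal.ofReal s := (ENNReal.ofReal_toReal hσtop).symm
  have hs0' : 0 ≤ s := ENNReal.toReal_nonneg
  have hds : d / π ≤ s := by
    rw [← hσ, hσs] at hσlow
    exact (ENNReal.ofReal_le_ofReal_iff hs0').1 hσlow
  have hs0 : 0 < s := lt_of_lt_of_le (by positivity) hds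
  have hs1 : s ≤ 1 := by
    rw [hσs] at hσ1
    exact ENNReal.ofReal_le_one.1 hσ1
  have hds' : d ≤ π * s := by
    rw [div_le_iff₀ hp] at hds
    linarith
  set r := Real.sqrt s with hr
  have hr0 : 0 < r := Real.sqrt_pos.2 hs0
  have hr1 : r ≤ 1 := Real.sqrt_le_one.2 hs1
  have hrs : r ^ 2 = s := Real.sq_sqrt hs0.le
  set R := 16 / r with hR
  have hR0 : 0 < R := by positivity
  have hR16 : 16 ≤ R := by
    rw [hR, le_div_iff₀ hr0]
    linarith
  obtain ⟨hRd, hRs, hRk⟩ := s8c_num Sh.s9k0 k s hkk0 hs0 hds'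
  -- the sets
  set E₁ := thickening (6 * d) E with hE₁
  have hE₁per := s8_thick_per E hE (6 * d)
  have hE₁m : MeasurableSet E₁ := isOpen_thickening.measurableSet
  have hEσ : s8nu0 E ≤ ENNReal.ofReal s := by
    rw [← hσs]
    exact measure_mono (self_subset_thickening hd0 E)
  have hbig : s8nu0 (thickening (R * d) E₁) ≤ ENNReal.ofReal (48 * r) := by
    have h1 : thickening (R * d) E₁ ⊆ thickening ((R + 5) * d + d) E := by
      refine (thickening_thickening_subset _ _ _).trans (le_of_eq ?_)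
      congr 1
      ring
    have h2 := s8_thick_measure E hE d ((R + 5) * d) hd0 (by positivity)
    refine (measure_mono h1).trans (h2.trans ?_)
    rw [← hσ, hσs, ← ENNReal.ofReal_mul (by positivity)]
    apply ENNReal.ofReal_le_ofReal
    have h3 : 2 * ((R + 5) * d) / d + 3 = 2 * R + 13 := by field_simp; ring
    rw [h3, ← hRs]
    nlinarith
  obtain ⟨hXle, hX4⟩ := s8c_pow β ϑ ζ s d hβ' hϑ0 hϑ1 hζ1 hζ2 hs0 hs1 hRd
  have hN1 : 1 ≤ N k ^ 2 := one_le_pow₀ (hN.one_le k)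
  have hsζ0 : 0 < s ^ ζ := Real.rpow_pos_of_pos hs0 _
  set X : ℝ := R ^ (2 * β - 1) + R * d + (48 * r) ^ ϑ with hX
  have hX0 : 0 ≤ X := by positivity
  -- the rows
  have hB : ∀ l ∈ Icc (k - 2) (k + 2), ∫⁻ x in thickening (6 * Real.exp (-k)) E,
      ENNReal.ofReal (Real.exp (-l) * |Sh.s9P (Sh.s8pt x (Real.exp (-l)))|) ∂s8nu0 ≤
        ENNReal.ofReal (Cr * N k ^ 2 * X) := by
    intro l hl
    refine (hrow N hN hFM hFin k hkkr l hl R hR16 hRk E₁ hE₁per hE₁m).trans ?_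
    rw [ENNReal.ofReal_mul (by positivity : 0 ≤ Cr * N k ^ 2)]
    refine mul_le_mul_right ?_ _
    have e9 : ENNReal.ofReal X = ENNReal.ofReal (R ^ (2 * β - 1) + R * d) + ENNReal.ofReal ((48 * r) ^ ϑ) := by
      rw [hX, ENNReal.ofReal_add (by positivity) (by positivity)]
    rw [e9]
    have h9 : s8nu0 (thickening (R * d) E₁) ^ ϑ ≤ ENNReal.ofReal ((48 * r) ^ ϑ) := by
      rw [← ENNReal.ofReal_rpow_of_pos (by positivity)]
      exact ENNReal.rpow_le_rpow hbig hϑ0.le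
    exact add_le_add le_rfl h9
  refine (hloc k (by linarith) E hE hEm _ hB).trans ?_
  rw [hσs, ENNReal.ofReal_rpow_of_pos hs0, ← ENNReal.ofReal_mul (by positivity)]
  calc ENNReal.ofReal Cl * (s8nu0 E + ENNReal.ofReal (Cr * N k ^ 2 * X))
      ≤ ENNReal.ofReal Cl * (ENNReal.ofReal s + ENNReal.ofReal (Cr * N k ^ 2 * X)) :=
        mul_le_mul_right (add_le_add_left hEσ _) _
    _ = ENNReal.ofReal (Cl * (s + Cr * N k ^ 2 * X)) := by
        rw [← ENNReal.ofReal_add hs0.le (by positivity), ← ENNReal.ofReal_mul hCl.le]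
    _ ≤ ENNReal.ofReal (Cl * (1 + 113 * Cr) * N k ^ 2 * s ^ ζ) := by
        apply ENNReal.ofReal_le_ofReal
        have h1 : Cr * N k ^ 2 * X ≤ Cr * N k ^ 2 * (113 * s ^ ζ) :=
          mul_le_mul_of_nonneg_left hXle (by positivity)
        have h2 : s ≤ N k ^ 2 * s ^ ζ := by nlinarith
        have h3 : s + Cr * N k ^ 2 * X ≤ (1 + 113 * Cr) * N k ^ 2 * s ^ ζ := by nlinarith
        calc Cl * (s + Cr * N k ^ 2 * X) ≤ Cl * ((1 + 113 * Cr) * N k ^ 2 * s ^ ζ) :=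
              mul_le_mul_of_nonneg_left h3 hCl.le
          _ = _ := by ring

end Shape

end Claimed.Agent.R269
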