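/-
Row 269, P1 Section 8, LIBRARY: harmonic majorant on a half disc for a bounded subharmonic function with a step bound on the real diameter (P1 (8.24)-(8.25)).   Blueprint: helper48.
HOST-FREE: Mathlib and `S4/Transfer.lean` (`s4k_min_principle`, black box; owner helper36's leaf LF-S4-4K).

LEAF PACKAGE LF-S8-major (this file).

PROOF (explicit rational majorant, NO Poisson integral, NO harmonic measure).  For `a > 0` put, on `Im t ≥ 0`,
   `g_a(t) = 2 (1 - Re (i a/(t + i a))) = 2 (|t|² + a Im t)/(|t|² + 2 a Im t + a²)`: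
real part of a function holomorphic on `Im t > -a`, so continuous with the mean value property on circles in the open upper half plane (`DiffContOnCl.circleAverage` + `Complex.reCLM`), and
   (i) `g_a ≥ 0`;   (ii) `g_a(t) ≥ 1` if `|t| ≥ a` (`2|t|² + 2 a y ≥ |t|² + 2 a y + a²`);   (iii) `g_a(t) ≤ 4 |t|/a` (`≤ 2(|t|/a)(|t|/a + 1)` if `|t| ≤ a`, `≤ 2` always).
`𝓜(t) = e₀ + ∑ c_i g_{a_i}(t)`.  On `U = {|t| < r₀, Im t > 0}` apply `s4k_min_principle` to `𝓜 - u` (lower semicontinuous, supermean on small circles).  Boundary: `closure U ⊆ ball 0 ρ`, `u` is upper semicontinuous at `ξ`,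
`𝓜` continuous, so it is enough that `u ξ ≤ 𝓜 ξ` for `ξ ∈ frontier U`: real `ξ`: `hreal` and (i), (ii); `|ξ| = r₀`: `hB`, `harc`, (i), (ii).  With (iii) this gives the claim for `Im t > 0`; for real `t` use `hreal`, (ii), (iii) directly
(`1 ≤ 4|x|/a_i` when `a_i ≤ |x|`); for `Im t < 0` apply the result to `t ↦ u (conj t)` (same hypotheses: circles are mapped to circles, `θ ↦ -θ`).
-/
import Claimed.Agent.R269.S4.Transfer

set_option autoImplicit false

namespace Claimed.Agent.R269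

open Complex MeasureTheory Set Metric Filter Topology
open scoped ENNReal Real

/-- the holomorphic function whose real part is the elementary majorant `g_a`. -/
noncomputable def s8g (a : ℝ) (t : ℂ) : ℂ := 2 * (1 - I * (a : ℂ) / (t + I * (a : ℂ)))

theorem s8g_re (a : ℝ) (t : ℂ) :
    (s8g a t).re = 2 * (1 - a * (t.im + a) / (t.re ^ 2 + (t.im + a) ^ 2)) := by
  unfold s8g
  have h1 : (I * (a : ℂ) / (t + I * (a : ℂ))).re = a * (t.im + a) / (t.re ^ 2 + (t.im + a) ^ 2) := by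
    rw [Complex.div_re, Complex.normSq_apply]
    simp
    ring
  have h2 : (2 * (1 - I * (a : ℂ) / (t + I * (a : ℂ)))).re
      = 2 * (1 - (I * (a : ℂ) / (t + I * (a : ℂ))).re) := by
    simp
  rw [h2, h1]

theorem s8g_den_pos (a : ℝ) (ha : 0 < a) (t : ℂ) (ht : 0 ≤ t.im) :
    0 < t.re ^ 2 + (t.im + a) ^ 2 := by
  have : 0 < t.im + a := by linarith
  positivity

theorem s8g_norm_sq (t : ℂ) : ‖t‖ ^ 2 = t.re ^ 2 + t.im ^ 2 := by
  rw [Complex.sq_norm, Complex.normSq_apply]; ring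

theorem s8g_nonneg (a : ℝ) (ha : 0 < a) (t : ℂ) (ht : 0 ≤ t.im) : 0 ≤ (s8g a t).re := by
  rw [s8g_re]
  have hN := s8g_den_pos a ha t ht
  have : a * (t.im + a) / (t.re ^ 2 + (t.im + a) ^ 2) ≤ 1 := by
    rw [div_le_one hN]
    nlinarith [sq_nonneg t.re, mul_nonneg ht ha.le, mul_nonneg ht ht]
  linarith

theorem s8g_one_le (a : ℝ) (ha : 0 < a) (t : ℂ) (ht : 0 ≤ t.im) (hat : a ≤ ‖t‖) :
    1 ≤ (s8g a t).re := by
  rw [s8g_re]
  have hN := s8g_den_pos a ha t ht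
  have hsq : a ^ 2 ≤ t.re ^ 2 + t.im ^ 2 := by
    rw [← s8g_norm_sq]
    exact pow_le_pow_left₀ ha.le hat 2
  have : a * (t.im + a) / (t.re ^ 2 + (t.im + a) ^ 2) ≤ 1 / 2 := by
    rw [div_le_div_iff₀ hN (by norm_num)]
    nlinarith
  linarith

theorem s8g_le (a : ℝ) (ha : 0 < a) (t : ℂ) (ht : 0 ≤ t.im) : (s8g a t).re ≤ 4 * ‖t‖ / a := by
  rw [s8g_re]
  have hN := s8g_den_pos a ha t ht
  have hs0 : 0 ≤ ‖t‖ := norm_nonneg t
  have hsq := s8g_norm_sq t
  have hys : t.im ≤ ‖t‖ := (le_abs_self _).trans (Complex.abs_im_le_norm t)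
  have h1 : 2 * (1 - a * (t.im + a) / (t.re ^ 2 + (t.im + a) ^ 2))
      = 2 * (‖t‖ ^ 2 + a * t.im) / (t.re ^ 2 + (t.im + a) ^ 2) := by
    rw [hsq]
    field_simp
    ring
  rw [h1, div_le_div_iff₀ hN ha]
  have hN2 : t.re ^ 2 + (t.im + a) ^ 2 = ‖t‖ ^ 2 + 2 * a * t.im + a ^ 2 := by
    rw [hsq]; ring
  rw [hN2]
  set s := ‖t‖
  set y := t.im
  have e1 : 0 ≤ a * y * s := by positivity
  have e2 : 0 ≤ a ^ 2 * (s - y) := mul_nonneg (by positivity) (by linarith)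
  have e3 : 0 ≤ s * ((2 * s - a) ^ 2 + 4 * s ^ 2 + 3 * a ^ 2) := by positivity
  nlinarith

theorem s8g_diffAt (a : ℝ) (ha : 0 < a) (t : ℂ) (ht : 0 ≤ t.im) : DifferentiableAt ℂ (s8g a) t := by
  unfold s8g
  have hne : t + I * (a : ℂ) ≠ 0 := by
    intro h
    have := congrArg Complex.im h
    simp at this
    linarith
  fun_prop (disch := exact hne)

/-- the majorant (complexified). -/
noncomputable def s8Maj (e₀ : ℝ) (n : ℕ) (a c : ℕ → ℝ) (t : ℂ) : ℂ :=
  (e₀ : ℂ) + ∑ i ∈ Finset.range n, (c i : ℂ) * s8g (a i) t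

theorem s8Maj_re (e₀ : ℝ) (n : ℕ) (a c : ℕ → ℝ) (t : ℂ) :
    (s8Maj e₀ n a c t).re = e₀ + ∑ i ∈ Finset.range n, c i * (s8g (a i) t).re := by
  unfold s8Maj
  simp [Complex.re_sum]

theorem s8Maj_diffAt (e₀ : ℝ) (n : ℕ) (a c : ℕ → ℝ) (ha : ∀ i < n, 0 < a i) (t : ℂ) (ht : 0 ≤ t.im) :
    DifferentiableAt ℂ (s8Maj e₀ n a c) t := by
  unfold s8Maj
  apply DifferentiableAt.add (differentiableAt_const _)
  apply DifferentiableAt.fun_sum
  intro i hi
  exact (differentiableAt_const _).mul (s8g_diffAt (a i) (ha i (Finset.mem_range.1 hi)) t ht)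

theorem s8Maj_ge (e₀ : ℝ) (n : ℕ) (a c : ℕ → ℝ) (ha : ∀ i < n, 0 < a i) (hc : ∀ i < n, 0 ≤ c i)
    (t : ℂ) (ht : 0 ≤ t.im) :
    e₀ + ∑ i ∈ Finset.range n, (if a i ≤ ‖t‖ then c i else 0) ≤ (s8Maj e₀ n a c t).re := by
  rw [s8Maj_re]
  gcongr with i hi
  have hi' := Finset.mem_range.1 hi
  split_ifs with h
  · have := s8g_one_le (a i) (ha i hi') t ht h
    nlinarith [hc i hi']
  · exact mul_nonneg (hc i hi') (s8g_nonneg (a i) (ha i hi') t ht)

theorem s8Maj_le (e₀ : ℝ) (n : ℕ) (a c : ℕ → ℝ) (ha : ∀ i < n, 0 < a i) (hc : ∀ i < n, 0 ≤ c i)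
    (t : ℂ) (ht : 0 ≤ t.im) :
    (s8Maj e₀ n a c t).re ≤ e₀ + ∑ i ∈ Finset.range n, c i * (4 * ‖t‖ / a i) := by
  rw [s8Maj_re]
  gcongr with i hi
  · exact hc i (Finset.mem_range.1 hi)
  · exact s8g_le (a i) (ha i (Finset.mem_range.1 hi)) t ht

/-- the majorant inequality on the closed upper half disc. -/
theorem s8_halfdisc_major_up (u : ℂ → ℝ) (ρ B e₀ r₀ : ℝ) (n : ℕ) (a c : ℕ → ℝ)
    (husc : UpperSemicontinuousOn u (ball 0 ρ)) (hB : ∀ t ∈ ball (0 : ℂ) ρ, u t ≤ B)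
    (hsm : ∀ (t₀ : ℂ) (r : ℝ), 0 < r → closedBall t₀ r ⊆ ball (0 : ℂ) ρ →
      IntervalIntegrable (fun θ : ℝ => u (t₀ + r * Complex.exp (θ * I))) volume 0 (2 * π) ∧
      2 * π * u t₀ ≤ ∫ θ in (0 : ℝ)..(2 * π), u (t₀ + r * Complex.exp (θ * I)))
    (hr₀ρ : r₀ < ρ) (ha : ∀ i < n, 0 < a i) (hc : ∀ i < n, 0 ≤ c i)
    (hreal : ∀ x : ℝ, |x| ≤ r₀ → u (x : ℂ) ≤ e₀ + ∑ i ∈ Finset.range n, if a i ≤ |x| then c i else 0)
    (harc : B ≤ e₀ + ∑ i ∈ Finset.range n, if a i ≤ r₀ then c i else 0) :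
    ∀ t : ℂ, ‖t‖ ≤ r₀ → 0 ≤ t.im → u t ≤ (s8Maj e₀ n a c t).re := by
  set M : ℂ → ℝ := fun t => (s8Maj e₀ n a c t).re with hM
  set U : Set ℂ := {t : ℂ | ‖t‖ < r₀ ∧ 0 < t.im} with hU
  have hUo : IsOpen U := by
    apply IsOpen.inter
    · exact isOpen_lt continuous_norm continuous_const
    · exact isOpen_lt continuous_const Complex.continuous_im
  have hUb : Bornology.IsBounded U := by
    apply (Metric.isBounded_ball (x := (0 : ℂ)) (r := r₀)).subset
    intro t ht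
    rw [mem_ball_zero_iff]
    exact ht.1
  have hcl : closure U ⊆ {t : ℂ | ‖t‖ ≤ r₀ ∧ 0 ≤ t.im} := by
    apply closure_minimal
    · intro t ht
      exact ⟨ht.1.le, ht.2.le⟩
    · apply IsClosed.inter
      · exact isClosed_le continuous_norm continuous_const
      · exact isClosed_le continuous_const Complex.continuous_im
  have hedge : ∀ t : ℂ, ‖t‖ ≤ r₀ → 0 ≤ t.im → (‖t‖ = r₀ ∨ t.im = 0) → u t ≤ M t := by
    intro t ht1 ht2 hcase
    refine le_trans ?_ (s8Maj_ge e₀ n a c ha hc t ht2)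
    rcases hcase with h | h
    · rw [h]
      refine (hB t ?_).trans harc
      rw [mem_ball_zero_iff]
      linarith
    · have ht : t = ((t.re : ℝ) : ℂ) := by
        apply Complex.ext <;> simp [h]
      have hn : ‖t‖ = |t.re| := by
        conv_lhs => rw [ht]
        rw [Complex.norm_real, Real.norm_eq_abs]
      have := hreal t.re (by rw [← hn]; exact ht1)
      rw [← ht, ← hn] at this
      exact this
  have hloc : ∀ ξ : ℂ, ‖ξ‖ ≤ r₀ → 0 ≤ ξ.im → ∀ ε : ℝ, 0 < ε →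
      ∀ᶠ t in 𝓝 ξ, (M ξ - u ξ) - ε < M t - u t := by
    intro ξ h1 h2 ε hε
    have hξ : ξ ∈ ball (0 : ℂ) ρ := by
      rw [mem_ball_zero_iff]; linarith
    have hu : ∀ᶠ t in 𝓝 ξ, u t < u ξ + ε / 2 := by
      have := husc ξ hξ (u ξ + ε / 2) (by linarith)
      rwa [isOpen_ball.nhdsWithin_eq hξ] at this
    have hMc : ContinuousAt M ξ :=
      Complex.continuous_re.continuousAt.comp (s8Maj_diffAt e₀ n a c ha ξ h2).continuousAt
    have hMe : ∀ᶠ t in 𝓝 ξ, M ξ - ε / 2 < M t :=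
      hMc.tendsto.eventually (lt_mem_nhds (by linarith))
    filter_upwards [hu, hMe] with t h3 h4
    linarith
  have hlsc : LowerSemicontinuousOn (fun t => M t - u t) U := by
    intro x hx y hy'
    have hy : y < M x - u x := hy'
    have := hloc x hx.1.le hx.2.le (M x - u x - y) (by linarith)
    show ∀ᶠ t in 𝓝[U] x, y < M t - u t
    refine (this.filter_mono nhdsWithin_le_nhds).mono ?_
    intro t ht
    linarith
  have hsm' : ∀ p ∈ U, ∃ r₁ : ℝ, 0 < r₁ ∧ ∀ r : ℝ, 0 < r → r < r₁ →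
      IntervalIntegrable (fun θ : ℝ => M (p + r * Complex.exp (θ * I)) - u (p + r * Complex.exp (θ * I)))
        volume 0 (2 * π) ∧
      ∫ θ in (0 : ℝ)..(2 * π), (M (p + r * Complex.exp (θ * I)) - u (p + r * Complex.exp (θ * I)))
        ≤ 2 * π * (M p - u p) := by
    intro p hp
    refine ⟨min p.im (r₀ - ‖p‖), lt_min hp.2 (by linarith [hp.1]), ?_⟩
    intro r hr hr1
    have hr2 : r < p.im := lt_of_lt_of_le hr1 (min_le_left _ _)
    have hr3 : r < r₀ - ‖p‖ := lt_of_lt_of_le hr1 (min_le_right _ _)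
    have hsub : closedBall p r ⊆ ball (0 : ℂ) ρ := by
      intro z hz
      rw [mem_ball_zero_iff]
      rw [mem_closedBall, dist_eq_norm] at hz
      have : ‖z‖ ≤ ‖z - p‖ + ‖p‖ := by
        have := norm_add_le (z - p) p
        rwa [sub_add_cancel] at this
      linarith
    obtain ⟨hi1, hi2⟩ := hsm p r hr hsub
    have hd : DifferentiableOn ℂ (s8Maj e₀ n a c) (ball p p.im) := by
      intro z hz
      apply (s8Maj_diffAt e₀ n a c ha z ?_).differentiableWithinAt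
      rw [mem_ball, dist_eq_norm] at hz
      have h1 : |(z - p).im| ≤ ‖z - p‖ := Complex.abs_im_le_norm _
      rw [Complex.sub_im] at h1
      have := (abs_le.1 h1).1
      linarith
    obtain ⟨hj1, hj2⟩ := s4k_re_mean (s8Maj e₀ n a c) p p.im r hr hr2 hd
    refine ⟨hj1.sub hi1, ?_⟩
    rw [intervalIntegral.integral_sub hj1 hi1, hj2]
    have : (s8Maj e₀ n a c p).re = M p := rfl
    rw [this]
    linarith
  have hbd : ∀ ξ ∈ frontier U, ∀ ε : ℝ, 0 < ε → ∀ᶠ t in 𝓝[U] ξ, -ε < M t - u t := by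
    intro ξ hξ ε hε
    rw [hUo.frontier_eq] at hξ
    have h1 := hcl hξ.1
    have h2 : ‖ξ‖ = r₀ ∨ ξ.im = 0 := by
      by_contra hcon
      push Not at hcon
      exact hξ.2 ⟨lt_of_le_of_ne h1.1 hcon.1, lt_of_le_of_ne h1.2 (Ne.symm hcon.2)⟩
    have h3 := hedge ξ h1.1 h1.2 h2
    refine ((hloc ξ h1.1 h1.2 ε hε).filter_mono nhdsWithin_le_nhds).mono ?_
    intro t ht
    linarith
  have hmin := s4k_min_principle U hUo hUb (fun t => M t - u t) hlsc hsm' hbd
  intro t ht1 ht2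
  by_cases htU : t ∈ U
  · have : 0 ≤ M t - u t := hmin t htU
    linarith
  · apply hedge t ht1 ht2
    by_contra hcon
    push Not at hcon
    exact htU ⟨lt_of_le_of_ne ht1 hcon.1, lt_of_le_of_ne ht2 (Ne.symm hcon.2)⟩

/-- half-disc majorant. -/
theorem s8_halfdisc_major (u : ℂ → ℝ) (ρ B e₀ r₀ : ℝ) (n : ℕ) (a c : ℕ → ℝ)
    (husc : UpperSemicontinuousOn u (ball 0 ρ)) (hB : ∀ t ∈ ball (0 : ℂ) ρ, u t ≤ B)
    (hsm : ∀ (t₀ : ℂ) (r : ℝ), 0 < r → closedBall t₀ r ⊆ ball (0 : ℂ) ρ →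
      IntervalIntegrable (fun θ : ℝ => u (t₀ + r * Complex.exp (θ * I))) volume 0 (2 * π) ∧
      2 * π * u t₀ ≤ ∫ θ in (0 : ℝ)..(2 * π), u (t₀ + r * Complex.exp (θ * I)))
    (hr₀ : 0 < r₀) (hr₀ρ : r₀ < ρ) (ha : ∀ i < n, 0 < a i) (hc : ∀ i < n, 0 ≤ c i)
    (hreal : ∀ x : ℝ, |x| ≤ r₀ → u (x : ℂ) ≤ e₀ + ∑ i ∈ Finset.range n, if a i ≤ |x| then c i else 0)
    (harc : B ≤ e₀ + ∑ i ∈ Finset.range n, if a i ≤ r₀ then c i else 0) :
    ∀ t : ℂ, ‖t‖ ≤ r₀ → u t ≤ e₀ + ∑ i ∈ Finset.range n, c i * (4 * ‖t‖ / a i) := by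
  intro t ht
  rcases le_total 0 t.im with h | h
  · exact (s8_halfdisc_major_up u ρ B e₀ r₀ n a c husc hB hsm hr₀ρ ha hc hreal harc t ht h).trans
      (s8Maj_le e₀ n a c ha hc t h)
  · -- reflect
    have hconjball : ∀ z : ℂ, z ∈ ball (0 : ℂ) ρ → (starRingEnd ℂ) z ∈ ball (0 : ℂ) ρ := by
      intro z hz
      rw [mem_ball_zero_iff] at hz ⊢
      rwa [Complex.norm_conj]
    have husc' : UpperSemicontinuousOn (fun z => u ((starRingEnd ℂ) z)) (ball 0 ρ) := by
      intro x hx y hy'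
      have hy : u ((starRingEnd ℂ) x) < y := hy'
      have h1 := husc _ (hconjball x hx) y hy
      rw [isOpen_ball.nhdsWithin_eq (hconjball x hx)] at h1
      show ∀ᶠ z in 𝓝[ball 0 ρ] x, u ((starRingEnd ℂ) z) < y
      exact (Complex.continuous_conj.continuousAt.eventually h1).filter_mono nhdsWithin_le_nhds
    have hB' : ∀ z ∈ ball (0 : ℂ) ρ, u ((starRingEnd ℂ) z) ≤ B := fun z hz => hB _ (hconjball z hz)
    have hsm' : ∀ (t₀ : ℂ) (r : ℝ), 0 < r → closedBall t₀ r ⊆ ball (0 : ℂ) ρ →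
        IntervalIntegrable (fun θ : ℝ => u ((starRingEnd ℂ) (t₀ + r * Complex.exp (θ * I))))
          volume 0 (2 * π) ∧
        2 * π * u ((starRingEnd ℂ) t₀)
          ≤ ∫ θ in (0 : ℝ)..(2 * π), u ((starRingEnd ℂ) (t₀ + r * Complex.exp (θ * I))) := by
      intro t₀ r hr hsub
      have hsub' : closedBall ((starRingEnd ℂ) t₀) r ⊆ ball (0 : ℂ) ρ := by
        intro z hz
        have h1 : (starRingEnd ℂ) z ∈ closedBall t₀ r := by
          rw [mem_closedBall, dist_eq_norm] at hz ⊢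
          rw [← Complex.norm_conj, map_sub, Complex.conj_conj]
          exact hz
        have := hconjball _ (hsub h1)
        rwa [Complex.conj_conj] at this
      obtain ⟨h1, h2⟩ := hsm _ r hr hsub'
      have he : ∀ θ : ℝ, (starRingEnd ℂ) (t₀ + r * Complex.exp (θ * I))
          = (starRingEnd ℂ) t₀ + r * Complex.exp (((2 * π - θ : ℝ) : ℂ) * I) := by
        intro θ
        rw [map_add, map_mul, Complex.conj_ofReal, ← Complex.exp_conj, map_mul, Complex.conj_ofReal,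
          Complex.conj_I]
        congr 2
        have : (((2 * π - θ : ℝ) : ℂ) * I) = (θ : ℂ) * -I + 2 * π * I := by
          push_cast; ring
        rw [this, Complex.exp_add, Complex.exp_two_pi_mul_I, mul_one]
      simp only [he]
      constructor
      · have := (h1.comp_sub_left (2 * π)).symm
        simpa using this
      · have := intervalIntegral.integral_comp_sub_left (a := 0) (b := 2 * π)
          (fun θ : ℝ => u ((starRingEnd ℂ) t₀ + r * Complex.exp ((θ : ℂ) * I))) (2 * π)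
        rw [this]
        simpa using h2
    have hreal' : ∀ x : ℝ, |x| ≤ r₀ → u ((starRingEnd ℂ) (x : ℂ))
        ≤ e₀ + ∑ i ∈ Finset.range n, if a i ≤ |x| then c i else 0 := by
      intro x hx
      rw [Complex.conj_ofReal]
      exact hreal x hx
    have h1 := s8_halfdisc_major_up (fun z => u ((starRingEnd ℂ) z)) ρ B e₀ r₀ n a c husc' hB' hsm'
      hr₀ρ ha hc hreal' harc ((starRingEnd ℂ) t) (by rwa [Complex.norm_conj])
      (by rw [Complex.conj_im]; linarith)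
    have h2 := s8Maj_le e₀ n a c ha hc ((starRingEnd ℂ) t) (by rw [Complex.conj_im]; linarith)
    simp only [Complex.conj_conj] at h1
    rw [Complex.norm_conj] at h2
    exact h1.trans h2

end Claimed.Agent.R269
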