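/-
Row 269, P1 Section 8: **Theorem 8.4, (8.18)** (global bounds for a nondecreasing envelope) and (8.23) (complex deficit).   Blueprint: helper48.
LEAF PACKAGES (fill IN PLACE):
  LF-S8-global-a : `s8_cplx_deficit`
  LF-S8-global-b : `s8_global`
Black boxes: `s8_basic_width` (OneSided.lean), `s8_halfdisc_major` (LibMajor.lean), `LiftA.lean` (`Δ`: nonneg, `≤ Hr`, usc, submean), `s8_V_bound` (LiftB.lean), `s8i_V_deriv`, `s8_disk_bound(_q)` (LibDisk.lean), `BasicA.lean`.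
"Nondecreasing" = `S8Env 0 a N` (`back` with `β = 0`).   Only the basic width is used (neither the bootstrap nor `S8Fin`).

PROOF of `s8_cplx_deficit`.  `c k₁` from `s8_basic_width` with `β = 0`; enlarge `k₁` so that `c e^{-k₁} ≤ r₀ := ρ/2` (`ρ = Sh.ρ`).  Fix `k ≥ k₁`, `Nk = N k`.  Levels `l_i = k + 3 - i`, `n = ⌊k + 3 - k₁⌋₊ + 1` (so `l_i ≥ k₁` for `i < n`, and `l_{n-1} < k₁ + 1`),
   `a_i = c e^{-3a} e^{-l_i}/Nk`,   `c_i = e^{-l_{i+1}} = e · e^{-l_i}` for `i < n - 1`,   `c_{n-1} = Hr`,   `e₀ = e^{-(k+3)}`.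
 Since `N l_i ≤ e^{3a} Nk` (`back` with `β = 0` if `l_i ≤ k`, `fwd` if `k < l_i ≤ k+3`), the basic width gives `Δ x ≤ e^{-l_i}` for real `|x| ≤ a_i`.  `a_i` increases with `i`.  Real diameter (`hreal`): if `|x| < a_0`: `Δ x ≤ e₀`;
 if `a_i ≤ |x| < a_{i+1}`, `i + 1 < n`: `Δ x ≤ e^{-l_{i+1}} = c_i`, one of the (nonnegative) terms of the sum; if `a_{n-1} ≤ |x|`: `Δ x ≤ Hr = c_{n-1}`.  Arc (`harc`): `a_{n-1} ≤ c e^{-k₁} ≤ r₀`, so the sum contains `c_{n-1} = Hr = B`.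
 `s8_halfdisc_major` (`u = Δ`, `B = Hr`; hypotheses from LiftA.lean):  for `‖t‖ ≤ r₀`:
   `Δ t ≤ e^{-3} e^{-k} + (4 ‖t‖ Nk e^{3a}/c) ((n-1) e + Hr e^{l_{n-1}}) ≤ e^{-3} e^{-k} + C₀ ‖t‖ Nk (1 + k)`,  `C₀ = (4 e^{3a}/c)(4 e + Hr e^{k₁+1})`  (`n - 1 ≤ k + 3 ≤ 4 (1+k)`... any such bound).
 With `c₂ = min (1/(8 C₀)) r₀`: `Δ t ≤ (e^{-3} + 1/8) e^{-k} < e^{-k}/4` (`e³ > 20`).  (`‖t‖ ≤ c₂ e^{-k}/((1+k) Nk) ≤ c₂ ≤ r₀`.)
PROOF of `s8_global`.  `c₂ k₁` as above; `ρ_k = c₂ e^{-k}/((1+k) N k) ≤ ρ/2`, `d = e^{-k}`.  For every `x'` and `d' ∈ [d/2, 2d]` (`2d < Hr`): `Δ t ≤ d/4 < d'` on `ball 0 ρ_k`, so `‖V (s8pt x' d')‖ ≤ 8 d'/ρ_k² ≤ 16 d/ρ_k²` (`s8_V_bound`).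
 Hence `‖V‖ ≤ 16 d/ρ_k²` on `closedBall y₀ (d/2)`, `y₀ = s8pt x d`; in particular `d |P y₀| ≤ 16 d²/ρ_k² = 16 (1+k)² N(k)²/c₂²`.  Cauchy (`Complex.norm_deriv_le_of_forall_mem_sphere_norm_le`, radius `d/4`) on `ball y₀ (d/4)`:
 `‖V'‖ ≤ 64/ρ_k²`, `‖W‖ ≤ 7680/ρ_k² + ‖Wm‖ =: B`.  Disk bound with `R = d/4` at the centre: `M(y₀)² ≤ 8192/d² + 4 B`, so `(d M)² ≤ 8192 + 4 ‖Wm‖ + 30720 (1+k)² N(k)²/c₂² ≤ (C (1+k) N k)²`.  `s8_rowMax_le`.
 The range `k₀ ≤ k ≤ k₁`: `s8_M_low`, continuity and periodicity of `P`.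
-/
import Claimed.Agent.R269.S8.OneSided
import Claimed.Agent.R269.S8.LibMajor

set_option autoImplicit false

namespace Claimed.Agent.R269

open Complex ComplexConjugate Filter Topology MeasureTheory Set Metric
open scoped ENNReal Real

/-- staircase bound: real-variable bookkeeping for the half-disc majorant. -/
theorem s8_stair (u : ℝ → ℝ) (e₀ Bd : ℝ) (n' : ℕ) (av cv lev : ℕ → ℝ) (he₀ : 0 ≤ e₀)
    (hcv : ∀ i, 0 ≤ cv i) (hlev0 : lev 0 = e₀) (hlev : ∀ i < n', lev (i + 1) = cv i) (hlast : cv n' = Bd)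
    (hu : ∀ i ≤ n', ∀ x : ℝ, |x| ≤ av i → u x ≤ lev i) (hB : ∀ x, u x ≤ Bd) (x : ℝ) :
    u x ≤ e₀ + ∑ i ∈ Finset.range (n' + 1), if av i ≤ |x| then cv i else 0 := by
  have hterm : ∀ i, 0 ≤ (if av i ≤ |x| then cv i else 0) := fun i => by
    split_ifs
    · exact hcv i
    · exact le_rfl
  have hsum : ∀ j, 0 ≤ ∑ i ∈ Finset.range j, if av i ≤ |x| then cv i else 0 :=
    fun j => Finset.sum_nonneg fun i _ => hterm i
  have key : ∀ j ≤ n', |x| ≤ av j → u x ≤ e₀ + ∑ i ∈ Finset.range j, if av i ≤ |x| then cv i else 0 := by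
    intro j
    induction j with
    | zero =>
      intro _ hx
      simpa [hlev0] using hu 0 (Nat.zero_le _) x hx
    | succ j ih =>
      intro hj hx
      rw [Finset.sum_range_succ]
      rcases le_or_gt |x| (av j) with h | h
      · have := ih (by omega) h
        have := hterm j
        linarith
      · have h1 := hu (j + 1) hj x hx
        rw [hlev j (by omega)] at h1
        rw [if_pos h.le]
        have h2 := hsum j
        linarith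
  rw [Finset.sum_range_succ]
  rcases le_or_gt |x| (av n') with h | h
  · have := key n' le_rfl h
    have := hterm n'
    linarith
  · rw [if_pos h.le, hlast]
    have := hB x
    have := hsum n'
    linarith

namespace Shape

variable (Sh : Shape)

set_option maxHeartbeats 1000000 in
/-- **(8.23) complex deficit.** -/
theorem s8_cplx_deficit (hH : Sh.H ≠ ⊤) (a : ℝ) (C₁ : ℝ → ℝ) (ha : 0 ≤ a) :
    ∃ c₂ k₁ : ℝ, 0 < c₂ ∧ c₂ ≤ Sh.ρ / 2 ∧ Sh.s9k0 ≤ k₁ ∧ ∀ N : ℝ → ℝ, S8Env 0 a N → Sh.S8FM C₁ N → ∀ k ≥ k₁,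
      ∀ t : ℂ, ‖t‖ ≤ c₂ * Real.exp (-k) / ((1 + k) * N k) → Sh.Δ t ≤ Real.exp (-k) / 4 := by
  obtain ⟨c, k₀', hc, hk₀', hbw⟩ := Sh.s8_basic_width hH 0 a C₁ le_rfl (by norm_num) ha
  have hρ := Sh.ρ_pos
  have hHr := Sh.s8_Hr_pos hH
  have hk01 := (Sh.s8_k0 hH).1
  obtain ⟨r₀, hr₀⟩ : ∃ r₀, r₀ = Sh.ρ / 2 := ⟨_, rfl⟩
  have hr₀0 : 0 < r₀ := by rw [hr₀]; positivity
  obtain ⟨k₁, hk₁⟩ : ∃ k₁, k₁ = max k₀' (Real.log (c / r₀)) := ⟨_, rfl⟩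
  have hk₁a : k₀' ≤ k₁ := hk₁ ▸ le_max_left _ _
  have hk₁b : Real.log (c / r₀) ≤ k₁ := hk₁ ▸ le_max_right _ _
  have hck₁ : c * Real.exp (-k₁) ≤ r₀ := by
    have : c / r₀ ≤ Real.exp k₁ := by
      rw [← Real.log_le_iff_le_exp (by positivity)]; exact hk₁b
    rw [div_le_iff₀ hr₀0] at this
    rw [Real.exp_neg, ← div_eq_mul_inv, div_le_iff₀ (Real.exp_pos _)]
    linarith
  obtain ⟨C₀, hC₀⟩ : ∃ C₀, C₀ = 4 * Real.exp (3 * a) / c * (2 * Real.exp 1 + Sh.Hr * Real.exp (k₁ + 1)) :=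
    ⟨_, rfl⟩
  have hC₀0 : 0 < C₀ := by rw [hC₀]; positivity
  obtain ⟨c₂, hc₂⟩ : ∃ c₂, c₂ = min (1 / (8 * C₀)) r₀ := ⟨_, rfl⟩
  have hc₂0 : 0 < c₂ := by rw [hc₂]; exact lt_min (by positivity) hr₀0
  have hc₂a : c₂ ≤ 1 / (8 * C₀) := hc₂ ▸ min_le_left _ _
  have hc₂b : c₂ ≤ r₀ := hc₂ ▸ min_le_right _ _
  refine ⟨c₂, k₁, hc₂0, hr₀ ▸ hc₂b, hk₀'.trans hk₁a, ?_⟩
  intro N hEnv hFM k hk t ht
  have hk1 : 1 ≤ k₁ := hk01.trans (hk₀'.trans hk₁a)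
  have hk0 : 0 < k := by linarith
  obtain ⟨Nk, hNk⟩ : ∃ Nk, Nk = N k := ⟨_, rfl⟩
  have hNk1 : 1 ≤ Nk := hNk ▸ hEnv.one_le k
  have hNk0 : 0 < Nk := by linarith
  rw [← hNk] at ht
  obtain ⟨n', hn'⟩ : ∃ n' : ℕ, n' = ⌊k + 3 - k₁⌋₊ := ⟨_, rfl⟩
  have hn'1 : (n' : ℝ) ≤ k + 3 - k₁ := hn' ▸ Nat.floor_le (by linarith)
  have hn'2 : k + 3 - k₁ < (n' : ℝ) + 1 := hn' ▸ Nat.lt_floor_add_one _
  obtain ⟨av, hav⟩ : ∃ av : ℕ → ℝ, av = fun i : ℕ =>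
    c * Real.exp (-(3 * a)) * Real.exp (-(k + 3 - i)) / Nk := ⟨_, rfl⟩
  obtain ⟨cv, hcv⟩ : ∃ cv : ℕ → ℝ, cv = fun i : ℕ =>
    if i < n' then Real.exp (-(k + 3 - ((i + 1 : ℕ) : ℝ))) else Sh.Hr := ⟨_, rfl⟩
  have hav0 : ∀ i, 0 < av i := fun i => by rw [hav]; positivity
  have hcv0 : ∀ i, 0 ≤ cv i := fun i => by
    rw [hcv]; dsimp only
    split_ifs
    · exact (Real.exp_pos _).le
    · exact hHr.le
  have hcvlast : cv n' = Sh.Hr := by rw [hcv]; simp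
  -- basic width on the levels
  have hu : ∀ i ≤ n', ∀ x : ℝ, |x| ≤ av i → Sh.Δ (x : ℂ) ≤ Real.exp (-(k + 3 - (i : ℝ))) := by
    intro i hi x hx
    have hi' : (i : ℝ) ≤ n' := by exact_mod_cast hi
    have hi0 : (0 : ℝ) ≤ i := Nat.cast_nonneg i
    have hl : k₀' ≤ k + 3 - (i : ℝ) := by linarith
    have hNl : N (k + 3 - (i : ℝ)) ≤ Real.exp (3 * a) * Nk := by
      rcases le_total (k + 3 - (i : ℝ)) k with h | h
      · have h1 := hEnv.back _ _ h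
        rw [zero_mul, Real.exp_zero, mul_one, ← hNk] at h1
        have : 1 ≤ Real.exp (3 * a) := Real.one_le_exp (by positivity)
        nlinarith
      · have h1 := hEnv.fwd _ _ h
        rw [← hNk] at h1
        have : Real.exp (a * (k + 3 - (i : ℝ) - k)) ≤ Real.exp (3 * a) :=
          Real.exp_le_exp.2 (by nlinarith)
        calc N (k + 3 - (i : ℝ)) ≤ Nk * Real.exp (a * (k + 3 - (i : ℝ) - k)) := h1
          _ ≤ Nk * Real.exp (3 * a) := by gcongr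
          _ = _ := by ring
    have hNl0 : 0 < N (k + 3 - (i : ℝ)) := lt_of_lt_of_le one_pos (hEnv.one_le _)
    apply hbw N hEnv hFM _ hl x
    refine hx.trans ?_
    rw [hav]; dsimp only
    rw [Real.exp_neg (3 * a), div_le_div_iff₀ hNk0 hNl0]
    have hE := Real.exp_pos (3 * a)
    have hE2 := Real.exp_pos (-(k + 3 - (i : ℝ)))
    calc c * (Real.exp (3 * a))⁻¹ * Real.exp (-(k + 3 - (i : ℝ))) * N (k + 3 - (i : ℝ))
        ≤ c * (Real.exp (3 * a))⁻¹ * Real.exp (-(k + 3 - (i : ℝ))) * (Real.exp (3 * a) * Nk) := by gcongr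
      _ = c * Real.exp (-(k + 3 - (i : ℝ))) * Nk := by field_simp
  have hreal : ∀ x : ℝ, |x| ≤ r₀ → Sh.Δ (x : ℂ) ≤ Real.exp (-(k + 3)) +
      ∑ i ∈ Finset.range (n' + 1), if av i ≤ |x| then cv i else 0 := by
    intro x _
    refine s8_stair (fun x : ℝ => Sh.Δ (x : ℂ)) _ Sh.Hr n' av cv
      (fun i : ℕ => Real.exp (-(k + 3 - (i : ℝ)))) (Real.exp_pos _).le hcv0 (by simp) ?_ hcvlast hu
      (fun x => Sh.s8_Δ_le _) x
    intro i hi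
    rw [hcv]; dsimp only
    rw [if_pos hi]
  have havn : av n' ≤ r₀ := by
    refine le_trans ?_ hck₁
    rw [hav]; dsimp only
    rw [div_le_iff₀ hNk0]
    have h1 : Real.exp (-(3 * a)) ≤ 1 := Real.exp_le_one_iff.2 (by linarith)
    have h2 : Real.exp (-(k + 3 - (n' : ℝ))) ≤ Real.exp (-k₁) := Real.exp_le_exp.2 (by linarith)
    calc c * Real.exp (-(3 * a)) * Real.exp (-(k + 3 - (n' : ℝ))) ≤ c * 1 * Real.exp (-k₁) := by gcongr
      _ ≤ c * Real.exp (-k₁) * Nk := by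
          have := Real.exp_pos (-k₁)
          nlinarith [mul_pos hc this]
  have harc : Sh.Hr ≤ Real.exp (-(k + 3)) +
      ∑ i ∈ Finset.range (n' + 1), if av i ≤ r₀ then cv i else 0 := by
    rw [Finset.sum_range_succ, if_pos havn, hcvlast]
    have h1 : 0 ≤ ∑ i ∈ Finset.range n', if av i ≤ r₀ then cv i else 0 :=
      Finset.sum_nonneg fun i _ => by
        split_ifs
        · exact hcv0 i
        · exact le_rfl
    have := Real.exp_pos (-(k + 3))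
    linarith
  have hden : 1 ≤ (1 + k) * Nk := by nlinarith
  have hek : Real.exp (-k) ≤ 1 := Real.exp_le_one_iff.2 (by linarith)
  have htr : ‖t‖ ≤ r₀ := by
    refine ht.trans (le_trans ?_ hc₂b)
    rw [div_le_iff₀ (by linarith)]
    nlinarith
  have hmaj := s8_halfdisc_major Sh.Δ Sh.ρ Sh.Hr (Real.exp (-(k + 3))) r₀ (n' + 1) av cv (Sh.s8_Δ_usc hH)
    (fun t _ => Sh.s8_Δ_le t) (Sh.s8_Δ_submean hH) hr₀0 (by rw [hr₀]; linarith) (fun i _ => hav0 i)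
    (fun i _ => hcv0 i) hreal harc t htr
  obtain ⟨Q, hQ⟩ : ∃ Q, Q = 4 * ‖t‖ * Nk * Real.exp (3 * a) / c := ⟨_, rfl⟩
  have hQ0 : 0 ≤ Q := by rw [hQ]; positivity
  have hdiv : ∀ i : ℕ, 4 * ‖t‖ / av i = Q * Real.exp (k + 3 - (i : ℝ)) := by
    intro i
    rw [hav, hQ]; dsimp only
    rw [Real.exp_neg (3 * a), Real.exp_neg (k + 3 - (i : ℝ))]
    have := Real.exp_pos (3 * a)
    have := Real.exp_pos (k + 3 - (i : ℝ))
    field_simp
  have hsum : ∑ i ∈ Finset.range (n' + 1), cv i * (4 * ‖t‖ / av i) ≤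
      Q * (n' * Real.exp 1 + Sh.Hr * Real.exp (k₁ + 1)) := by
    rw [Finset.sum_range_succ, hcvlast, hdiv n']
    have h1 : ∑ i ∈ Finset.range n', cv i * (4 * ‖t‖ / av i) = n' * (Q * Real.exp 1) := by
      have h0 : (n' : ℝ) * (Q * Real.exp 1) = ∑ _i ∈ Finset.range n', Q * Real.exp 1 := by
        rw [Finset.sum_const, Finset.card_range, nsmul_eq_mul]
      rw [h0]
      apply Finset.sum_congr rfl
      intro i hi
      rw [hdiv i, hcv]; dsimp only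
      rw [if_pos (Finset.mem_range.1 hi)]
      have : Real.exp (-(k + 3 - ((i + 1 : ℕ) : ℝ))) * Real.exp (k + 3 - (i : ℝ)) = Real.exp 1 := by
        rw [← Real.exp_add]; congr 1; push_cast; ring
      calc Real.exp (-(k + 3 - ((i + 1 : ℕ) : ℝ))) * (Q * Real.exp (k + 3 - (i : ℝ)))
          = Q * (Real.exp (-(k + 3 - ((i + 1 : ℕ) : ℝ))) * Real.exp (k + 3 - (i : ℝ))) := by ring
        _ = _ := by rw [this]
    have h2 : Real.exp (k + 3 - (n' : ℝ)) ≤ Real.exp (k₁ + 1) := Real.exp_le_exp.2 (by linarith)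
    rw [h1]
    calc n' * (Q * Real.exp 1) + Sh.Hr * (Q * Real.exp (k + 3 - (n' : ℝ)))
        ≤ n' * (Q * Real.exp 1) + Sh.Hr * (Q * Real.exp (k₁ + 1)) := by gcongr
      _ = _ := by ring
  have hQle : Q * (1 + k) ≤ 4 * Real.exp (3 * a) / c * (c₂ * Real.exp (-k)) := by
    rw [le_div_iff₀ (by linarith)] at ht
    rw [hQ]
    calc 4 * ‖t‖ * Nk * Real.exp (3 * a) / c * (1 + k)
        = 4 * Real.exp (3 * a) / c * (‖t‖ * ((1 + k) * Nk)) := by ring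
      _ ≤ _ := by gcongr
  have hfin : Q * (n' * Real.exp 1 + Sh.Hr * Real.exp (k₁ + 1)) ≤ Real.exp (-k) / 8 := by
    have h1 : (n' : ℝ) * Real.exp 1 + Sh.Hr * Real.exp (k₁ + 1) ≤
        (1 + k) * (2 * Real.exp 1 + Sh.Hr * Real.exp (k₁ + 1)) := by
      have e1 := Real.exp_pos 1
      have e2 : 0 < Sh.Hr * Real.exp (k₁ + 1) := by positivity
      have h3 : (n' : ℝ) ≤ (1 + k) * 2 := by linarith
      nlinarith
    calc Q * (n' * Real.exp 1 + Sh.Hr * Real.exp (k₁ + 1))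
        ≤ Q * ((1 + k) * (2 * Real.exp 1 + Sh.Hr * Real.exp (k₁ + 1))) := by gcongr
      _ = (Q * (1 + k)) * (2 * Real.exp 1 + Sh.Hr * Real.exp (k₁ + 1)) := by ring
      _ ≤ (4 * Real.exp (3 * a) / c * (c₂ * Real.exp (-k))) *
            (2 * Real.exp 1 + Sh.Hr * Real.exp (k₁ + 1)) := by gcongr
      _ = C₀ * c₂ * Real.exp (-k) := by rw [hC₀]; ring
      _ ≤ C₀ * (1 / (8 * C₀)) * Real.exp (-k) := by gcongr
      _ = Real.exp (-k) / 8 := by field_simp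
  have he3 : Real.exp (-(k + 3)) ≤ Real.exp (-k) / 8 := by
    have h1 : Real.exp (-(k + 3)) = Real.exp (-k) * Real.exp (-3) := by
      rw [← Real.exp_add]; congr 1; ring
    have h2 : Real.exp (-3) ≤ 1 / 8 := by
      rw [Real.exp_neg, one_div]
      apply inv_anti₀ (by norm_num)
      have h3 : (2 : ℝ) ≤ Real.exp 1 := by linarith [Real.add_one_le_exp (1 : ℝ)]
      calc (8 : ℝ) = 2 ^ 3 := by norm_num
        _ ≤ Real.exp 1 ^ 3 := pow_le_pow_left₀ (by norm_num) h3 3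
        _ = Real.exp 3 := by rw [← Real.exp_nat_mul]; norm_num
    rw [h1]
    have := Real.exp_pos (-k)
    nlinarith
  linarith

/-- pointwise bounds at depth `d` from a complex deficit `≤ d/4` on `ball 0 ρ'`. -/
theorem s8_global_pt (hH : Sh.H ≠ ⊤) (x d ρ' : ℝ) (hd : 0 < d) (hd' : 2 * d < Sh.Hr) (hρ' : 0 < ρ')
    (hρ'ρ : ρ' ≤ Sh.ρ) (hΔ : ∀ t ∈ ball (0 : ℂ) ρ', Sh.Δ t ≤ d / 4) :
    ‖Sh.s9V (Sh.s8pt x d)‖ ≤ 8 * d / ρ' ^ 2 ∧
      Sh.M (Sh.s8pt x d) ^ 2 ≤ 8192 / d ^ 2 + 4 * (7680 / ρ' ^ 2 + ‖Sh.s9Wm‖) := by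
  have hV : ∀ z : ℂ, |z.im - (Sh.Hr - d)| ≤ d / 2 → ‖Sh.s9V z‖ ≤ 16 * d / ρ' ^ 2 := by
    intro z hz
    rw [abs_le] at hz
    have e : z = Sh.s8pt z.re (Sh.Hr - z.im) := by
      apply Complex.ext
      · rfl
      · show z.im = Sh.Hr - (Sh.Hr - z.im); ring
    have h1 := Sh.s8_V_bound hH z.re (Sh.Hr - z.im) ρ' (by linarith [hz.2]) (by linarith [hz.1]) hρ' hρ'ρ
      (fun t ht => (hΔ t ht).trans_lt (by linarith [hz.2]))
    rw [← e] at h1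
    refine h1.trans ?_
    apply div_le_div_of_nonneg_right _ (by positivity)
    linarith [hz.1]
  have hD : ∀ z : ℂ, |z.im - (Sh.Hr - d)| ≤ d / 2 → z ∈ Sh.D := by
    intro z hz
    rw [abs_le] at hz
    rw [Sh.s8_mem_D hH, abs_lt]
    constructor <;> linarith [hz.1, hz.2]
  obtain ⟨y₀, hy₀⟩ : ∃ y₀, y₀ = Sh.s8pt x d := ⟨_, rfl⟩
  have hy₀im : y₀.im = Sh.Hr - d := by rw [hy₀]; rfl
  rw [← hy₀]
  have him : ∀ (z w : ℂ) (r : ℝ), dist w z ≤ r → |w.im - z.im| ≤ r := by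
    intro z w r h
    rw [← Complex.sub_im]
    exact (Complex.abs_im_le_norm _).trans (by rwa [← dist_eq_norm])
  have hball : ∀ z ∈ ball y₀ (d / 4), |z.im - (Sh.Hr - d)| ≤ d / 4 := by
    intro z hz
    rw [← hy₀im]
    exact him _ _ _ (mem_ball.1 hz).le
  obtain ⟨B, hB⟩ : ∃ B, B = 7680 / ρ' ^ 2 + ‖Sh.s9Wm‖ := ⟨_, rfl⟩
  have hW : ∀ z ∈ ball y₀ (d / 4), ‖Sh.W z‖ ≤ B := by
    intro z hz
    have hz1 := hball z hz
    have hzD : z ∈ Sh.D := hD z (by linarith)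
    have hsub : ∀ w ∈ closedBall z (d / 4), |w.im - (Sh.Hr - d)| ≤ d / 2 := by
      intro w hw
      have h1 := him z w _ (mem_closedBall.1 hw)
      have h2 : w.im - (Sh.Hr - d) = (w.im - z.im) + (z.im - (Sh.Hr - d)) := by ring
      rw [h2]
      exact (abs_add_le _ _).trans (by linarith)
    have hdc : DiffContOnCl ℂ Sh.s9V (ball z (d / 4)) :=
      (Sh.s8_V_diff.mono fun w hw => hD w (hsub w (closure_ball_subset_closedBall hw))).diffContOnCl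
    have h1 := Complex.norm_deriv_le_of_forall_mem_sphere_norm_le (by positivity) hdc
      (fun w hw => hV w (hsub w (sphere_subset_closedBall hw)))
    have h2 := (Sh.s8i_V_deriv z hzD).deriv
    have h3 : Sh.W z = 120 * deriv Sh.s9V z + Sh.s9Wm := by rw [h2]; ring
    have h4 : 16 * d / ρ' ^ 2 / (d / 4) = 64 / ρ' ^ 2 := by field_simp; norm_num
    rw [h4] at h1
    rw [h3, hB]
    calc ‖120 * deriv Sh.s9V z + Sh.s9Wm‖ ≤ ‖120 * deriv Sh.s9V z‖ + ‖Sh.s9Wm‖ := norm_add_le _ _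
      _ = 120 * ‖deriv Sh.s9V z‖ + ‖Sh.s9Wm‖ := by rw [norm_mul]; norm_num
      _ ≤ 120 * (64 / ρ' ^ 2) + ‖Sh.s9Wm‖ := by gcongr
      _ = _ := by ring
  have hsubD : ball y₀ (d / 4) ⊆ Sh.D := fun z hz => hD z (by linarith [hball z hz])
  have hR : (0 : ℝ) < d / 4 := by positivity
  have hmem : y₀ ∈ ball y₀ (d / 4 / 2) := mem_ball_self (by positivity)
  have hf := s8_disk_bound Sh.f Sh.q Sh.W y₀ (d / 4) B hR (Sh.s8_f_diff.mono hsubD)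
    (fun z hz => Sh.s8_f_ode z (hsubD hz)) (fun z _ => rfl) hW y₀ hmem
  have hq := s8_disk_bound_q Sh.f Sh.q Sh.W y₀ (d / 4) B hR (Sh.s8_f_diff.mono hsubD)
    (fun z hz => Sh.s8_f_ode z (hsubD hz)) (fun z _ => rfl) hW y₀ hmem
  have hB0 : 0 ≤ B := by rw [hB]; positivity
  have e1 : 512 / (d / 4) ^ 2 = 8192 / d ^ 2 := by field_simp; norm_num
  have e2 : 64 / (d / 4) ^ 2 = 1024 / d ^ 2 := by field_simp; norm_num
  rw [e1] at hf
  rw [e2] at hq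
  constructor
  · have h1 := Sh.s8_V_bound hH x d ρ' hd (by linarith) hρ' hρ'ρ
      (fun t ht => (hΔ t ht).trans_lt (by linarith))
    rwa [← hy₀] at h1
  · rw [← hB]
    unfold Shape.M
    rcases le_total ‖Sh.f y₀‖ (Real.sqrt ‖Sh.q y₀‖) with h | h
    · rw [max_eq_right h, Real.sq_sqrt (norm_nonneg _)]
      have : 1024 / d ^ 2 ≤ 8192 / d ^ 2 := by gcongr; norm_num
      linarith
    · rw [max_eq_left h]; exact hf

set_option maxHeartbeats 1000000 in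
/-- **(8.18) global bounds.** -/
theorem s8_global (hH : Sh.H ≠ ⊤) (a : ℝ) (C₁ : ℝ → ℝ) (ha : 0 ≤ a) :
    ∃ C : ℝ, 0 < C ∧ ∀ N : ℝ → ℝ, S8Env 0 a N → Sh.S8FM C₁ N → ∀ k ≥ Sh.s9k0,
      Real.exp (-k) * Sh.rowMax (Sh.Hr - Real.exp (-k)) ≤ C * (1 + k) * N k ∧
        ∀ x : ℝ, Real.exp (-k) * |Sh.s9P (Sh.s8pt x (Real.exp (-k)))| ≤ C * (1 + k) ^ 2 * N k ^ 2 := by
  obtain ⟨c₂, k₁, hc₂, hc₂ρ, hk₁, hdef⟩ := Sh.s8_cplx_deficit hH a C₁ ha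
  obtain ⟨M₀, hM₀, hlow⟩ := Sh.s8_M_low hH (Real.exp (-k₁)) (Real.exp_pos _)
  have hHr := Sh.s8_Hr_pos hH
  obtain ⟨hk01, hk0H⟩ := Sh.s8_k0 hH
  obtain ⟨MV, hMV⟩ : ∃ M : ℝ, ∀ z : ℂ, |z.im| ≤ Sh.Hr - Real.exp (-k₁) → ‖Sh.s9V z‖ ≤ M := by
    refine ca_strip_bdd (g := Sh.s9V) (H := Sh.Hr) ?_ ?_ (by linarith [Real.exp_pos (-k₁)])
    · rw [← Sh.sb_D_eq hH]
      exact Sh.s8_V_diff.continuousOn
    · intro z hz
      exact Sh.s8_V_per z ((Sh.s8_mem_D hH z).2 hz)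
  obtain ⟨Ca, hCa⟩ : ∃ Ca, Ca = 8192 + 4 * ‖Sh.s9Wm‖ + 30720 / c₂ ^ 2 := ⟨_, rfl⟩
  have hCa0 : 0 < Ca := by rw [hCa]; positivity
  obtain ⟨C, hC⟩ : ∃ C, C = max (max (Real.sqrt Ca) (8 / c₂ ^ 2)) (max M₀ (max MV 1)) := ⟨_, rfl⟩
  have hC1 : Real.sqrt Ca ≤ C := hC ▸ le_max_of_le_left (le_max_left _ _)
  have hC2 : 8 / c₂ ^ 2 ≤ C := hC ▸ le_max_of_le_left (le_max_right _ _)
  have hC3 : M₀ ≤ C := hC ▸ le_max_of_le_right (le_max_left _ _)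
  have hC4 : MV ≤ C := hC ▸ le_max_of_le_right (le_max_of_le_right (le_max_left _ _))
  have hC5 : 1 ≤ C := hC ▸ le_max_of_le_right (le_max_of_le_right (le_max_right _ _))
  refine ⟨C, by linarith, ?_⟩
  intro N hEnv hFM k hk
  obtain ⟨Nk, hNk⟩ : ∃ Nk, Nk = N k := ⟨_, rfl⟩
  have hNk1 : 1 ≤ Nk := hNk ▸ hEnv.one_le k
  rw [← hNk]
  obtain ⟨d, hd⟩ : ∃ d, d = Real.exp (-k) := ⟨_, rfl⟩
  have hd0 : 0 < d := hd ▸ Real.exp_pos _
  have hd1 : d ≤ 1 := by rw [hd]; exact Real.exp_le_one_iff.2 (by linarith)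
  have hdH : d < Sh.Hr / 10 := by
    rw [hd]; exact lt_of_le_of_lt (Real.exp_le_exp.2 (by linarith)) hk0H
  rw [← hd]
  obtain ⟨u, hu⟩ : ∃ u, u = (1 + k) * Nk := ⟨_, rfl⟩
  have hu1 : 1 ≤ u := by rw [hu]; nlinarith
  have hu0 : 0 < u := by linarith
  have e1 : C * (1 + k) * Nk = C * u := by rw [hu]; ring
  have e2 : C * (1 + k) ^ 2 * Nk ^ 2 = C * u ^ 2 := by rw [hu]; ring
  rw [e1, e2]
  have hu2 : 1 ≤ u ^ 2 := one_le_pow₀ hu1
  rcases le_or_gt k₁ k with hkk | hkk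
  · -- high range
    obtain ⟨ρk, hρk⟩ : ∃ ρk, ρk = c₂ * d / u := ⟨_, rfl⟩
    have hρk0 : 0 < ρk := by rw [hρk]; positivity
    have hρkρ : ρk ≤ Sh.ρ := by
      have h1 : ρk ≤ c₂ := by
        rw [hρk, div_le_iff₀ hu0]; nlinarith
      linarith [Sh.ρ_pos]
    have hΔ : ∀ t ∈ ball (0 : ℂ) ρk, Sh.Δ t ≤ d / 4 := by
      intro t ht
      rw [hd]
      apply hdef N hEnv hFM k hkk t
      rw [← hNk, ← hu, ← hd, ← hρk]
      exact (mem_ball_zero_iff.1 ht).le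
    have hpt := fun x => Sh.s8_global_pt hH x d ρk hd0 (by linarith) hρk0 hρkρ hΔ
    have hdρ : d ^ 2 / ρk ^ 2 = u ^ 2 / c₂ ^ 2 := by rw [hρk]; field_simp
    constructor
    · have hM : ∀ x : ℝ, Sh.M (⟨x, Sh.Hr - d⟩ : ℂ) ≤ Real.sqrt Ca * u / d := by
        intro x
        have h1 := (hpt x).2
        have h2 : (d * Sh.M (Sh.s8pt x d)) ^ 2 ≤ Ca * u ^ 2 := by
          calc (d * Sh.M (Sh.s8pt x d)) ^ 2 = d ^ 2 * Sh.M (Sh.s8pt x d) ^ 2 := by ring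
            _ ≤ d ^ 2 * (8192 / d ^ 2 + 4 * (7680 / ρk ^ 2 + ‖Sh.s9Wm‖)) := by gcongr
            _ = 8192 + 30720 * (d ^ 2 / ρk ^ 2) + 4 * d ^ 2 * ‖Sh.s9Wm‖ := by field_simp; ring
            _ = 8192 + 30720 / c₂ ^ 2 * u ^ 2 + 4 * d ^ 2 * ‖Sh.s9Wm‖ := by rw [hdρ]; ring
            _ ≤ 8192 * u ^ 2 + 30720 / c₂ ^ 2 * u ^ 2 + 4 * u ^ 2 * ‖Sh.s9Wm‖ := by
                have h3 : d ^ 2 ≤ u ^ 2 := by nlinarith
                have := norm_nonneg Sh.s9Wm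
                gcongr
                linarith
            _ = Ca * u ^ 2 := by rw [hCa]; ring
        have h3 : d * Sh.M (Sh.s8pt x d) ≤ Real.sqrt Ca * u := by
          have := Real.le_sqrt_of_sq_le h2
          rwa [Real.sqrt_mul hCa0.le, Real.sqrt_sq hu0.le] at this
        rw [le_div_iff₀ hd0]
        calc Sh.M (⟨x, Sh.Hr - d⟩ : ℂ) * d = d * Sh.M (Sh.s8pt x d) := by rw [mul_comm]; rfl
          _ ≤ _ := h3
      have h1 := Sh.s8_rowMax_le _ _ hM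
      calc d * Sh.rowMax (Sh.Hr - d) ≤ d * (Real.sqrt Ca * u / d) := by gcongr
        _ = Real.sqrt Ca * u := by field_simp
        _ ≤ C * u := by gcongr
    · intro x
      have h1 := (hpt x).1
      have h2 : |Sh.s9P (Sh.s8pt x d)| ≤ ‖Sh.s9V (Sh.s8pt x d)‖ := by
        unfold Shape.s9P; rw [abs_neg]; exact Complex.abs_im_le_norm _
      calc d * |Sh.s9P (Sh.s8pt x d)| ≤ d * (8 * d / ρk ^ 2) := by gcongr; exact h2.trans h1
        _ = 8 * (d ^ 2 / ρk ^ 2) := by ring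
        _ = 8 / c₂ ^ 2 * u ^ 2 := by rw [hdρ]; ring
        _ ≤ C * u ^ 2 := by gcongr
  · -- low range
    have hh : |Sh.Hr - d| ≤ Sh.Hr - Real.exp (-k₁) := by
      rw [abs_of_nonneg (by linarith)]
      have : Real.exp (-k₁) ≤ d := by rw [hd]; exact Real.exp_le_exp.2 (by linarith)
      linarith
    constructor
    · have h1 := Sh.s8_rowMax_le (Sh.Hr - d) M₀ (fun x => hlow _ hh)
      calc d * Sh.rowMax (Sh.Hr - d) ≤ d * M₀ := by gcongr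
        _ ≤ 1 * C := by gcongr
        _ ≤ C * u := by nlinarith
    · intro x
      have h2 : |Sh.s9P (Sh.s8pt x d)| ≤ ‖Sh.s9V (Sh.s8pt x d)‖ := by
        unfold Shape.s9P; rw [abs_neg]; exact Complex.abs_im_le_norm _
      have h3 : ‖Sh.s9V (Sh.s8pt x d)‖ ≤ MV := hMV _ hh
      calc d * |Sh.s9P (Sh.s8pt x d)| ≤ 1 * C := by
            gcongr
            exact h2.trans (h3.trans hC4)
        _ ≤ C * u ^ 2 := by nlinarith

end Shape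

end Claimed.Agent.R269
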