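/-
Row 269, P1 Section 8.4: from "terms at every precision" to a prohibited sequence (Definition 8.7); Corollary 8.10 (polynomial bounds) from Proposition 8.8.   Blueprint: helper48.
LEAF PACKAGES (fill IN PLACE):
  LF-S8-term : `s8_K_exhaust`, `s8_prohibited_of_terms`, `s8_no_term`
  LF-S8-poly : `s8_poly_of_lin`, `s8_T_poly`
Black boxes: `S8/Defs.lean` (`S8Term`, `s8K`), `S9/Ctx.lean` (`S9Prohibited`);  for `poly`: `TileC.lean` (`s8_FM_record`), `Unif.lean` (`s8_mu_le`), `Global.lean` (`s8_global`), `BasicA/C.lean`, `TileA.lean`.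

PROOFS.
* `s8_K_exhaust`: `𝒦` compact in `{Im < 0}`: bounded (`|Re|, |Im| ≤ R`), and `Im` attains its maximum `-c < 0` on `𝒦` (if `𝒦 = ∅` trivial).  Any `m` with `m + 1 ≥ max R (1/c)` works; monotone in `m`.
* `s8_prohibited_of_terms`: choose `k s ω ν : ℕ → _` by `choose`; `eps n = 1/(n+1)`.  `k_tendsto` etc.: `tendsto_atTop_mono` with `tendsto_natCast_atTop_atTop`.  `coarse`: given `β ∈ (0,1/2)`, `A ≥ 1`: `C = Cco A`, eventually `2/(n+1) ≤ β` and `A ≤ n`.  `anchor`: `C = Can β`.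
  `qsmall`: eventually `𝒦 ⊆ s8K n` and `1/(n+1) < η`, then `{x | ∃ S ∈ 𝒦, η < ‖Q‖} ⊆ {x | ∃ S ∈ s8K n, 1/(n+1) < ‖Q‖}`, measure `≤ ofReal (Cq/(n+1)) → 0` (`tendsto_of_tendsto_of_tendsto_of_le_of_le'`/squeeze).
* `s8_no_term`: contraposition (`by_contra`, `push_neg`).
* `s8_poly_of_lin` (Cor 8.10).  `C₁` from `s8_FM_record hH ho 0 1`, `C_μ` from `s8_mu_le hH 0 1 C₁`, `C_g` from `s8_global hH 1 C₁`.  For `K ≥ k₀` let `N = s9env (C₀ (1+K)) 0 1 K` (CONSTANT below `K`: simpler than the paper's envelope).  `S8Env 0 1 N`;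
  `μ_f l ≤ C₀ (1+l) ≤ N l` and `1 + l ≤ N l`: for `l ≤ K` clear; for `l ≥ K`: `(1+K) e^{l-K} ≥ (1+K)(1 + l - K) ≥ 1 + l`.  `s8_fin_env`.  Evaluate at `k = K`: `N K = C₀ (1+K)`.
* `s8_T_poly`: a point `s` of `tile A j x` has depth `e^{-l}`, `|l-j| ≤ A`; if `l ≥ k₀`: `e^{-j} M s ≤ e^{A} e^{-l} rowMax ≤ e^{A} C (1+j+A)² ≤ e^{A} C (1+A)² (1+j)²`; otherwise `s8_M_low` with `δ = e^{-k₀}`.
-/
import Claimed.Agent.R269.S8.Global
import Claimed.Agent.R269.S8.Unif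
import Claimed.Agent.R269.S8.TileC

set_option autoImplicit false

namespace Claimed.Agent.R269

open Complex ComplexConjugate Filter Topology MeasureTheory Set Metric
open scoped ENNReal Real

theorem s8_K_exhaust (𝒦 : Set ℂ) (h𝒦 : IsCompact 𝒦) (hsub : 𝒦 ⊆ s9f_LH) : ∃ m₀ : ℕ, ∀ m ≥ m₀, 𝒦 ⊆ s8K m := by
  obtain ⟨R, hR⟩ := h𝒦.isBounded.exists_norm_le
  have hc : ∃ c : ℝ, 0 < c ∧ ∀ z ∈ 𝒦, z.im ≤ -c := by
    rcases 𝒦.eq_empty_or_nonempty with h0 | hne
    · exact ⟨1, one_pos, by simp [h0]⟩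
    · obtain ⟨z, hz, hmax⟩ := h𝒦.exists_isMaxOn hne Complex.continuous_im.continuousOn
      have hz0 : z.im < 0 := hsub hz
      exact ⟨-z.im, by linarith, fun w hw => by simpa using hmax hw⟩
  obtain ⟨c, hc0, hc⟩ := hc
  refine ⟨⌈max R (1 / c)⌉₊, fun m hm z hz => ?_⟩
  have hm' : max R (1 / c) ≤ (m : ℝ) := (Nat.le_ceil _).trans (by exact_mod_cast hm)
  have hmR : R ≤ (m : ℝ) + 1 := by linarith [le_max_left R (1 / c)]
  have hmc : 1 / c ≤ (m : ℝ) + 1 := by linarith [le_max_right R (1 / c)]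
  have hM1 : 0 < (m : ℝ) + 1 := by positivity
  have hn := hR z hz
  refine ⟨(Complex.abs_re_le_norm z).trans (hn.trans hmR), ?_, ?_⟩
  · have := (abs_le.1 ((Complex.abs_im_le_norm z).trans (hn.trans hmR))).1
    exact this
  · have h1 : 1 / ((m : ℝ) + 1) ≤ c := by
      rw [div_le_iff₀ hM1]
      rw [div_le_iff₀ hc0] at hmc
      linarith
    linarith [hc z hz]

/-- terms at every precision, with FIXED constants, give a prohibited sequence. -/
theorem s8_prohibited_of_terms (Sh : Shape) (cK CK Cq : ℝ) (Cco Can : ℝ → ℝ) (hcK : 0 < cK)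
    (h : ∀ m : ℕ, ∃ (k s : ℝ) (ω ν : Measure ℝ), S8Term Sh cK CK Cq Cco Can m k s ω ν) :
    Nonempty (S9Prohibited Sh) := by
  choose k s ω ν hT using h
  have hge : ∀ x : ℝ, ∀ᶠ n : ℕ in atTop, x ≤ (n : ℝ) :=
    fun x => tendsto_natCast_atTop_atTop.eventually_ge_atTop x
  have hβ : ∀ β : ℝ, 0 < β → ∀ᶠ n : ℕ in atTop, 2 / ((n : ℝ) + 1) ≤ β := by
    intro β hβ
    filter_upwards [hge (2 / β)] with n hn
    have hn1 : 0 < (n : ℝ) + 1 := by positivity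
    rw [div_le_iff₀ hn1]
    rw [div_le_iff₀ hβ] at hn
    nlinarith
  refine ⟨{
    k := k
    eps := fun n => 1 / ((n : ℝ) + 1)
    sa := s
    ω := ω
    ν := ν
    cK := cK
    CK := CK
    cK_pos := hcK
    k_tendsto := tendsto_atTop_mono (fun n => (hT n).k_ge) tendsto_natCast_atTop_atTop
    B_tendsto := tendsto_atTop_mono (fun n => (hT n).B_ge) tendsto_natCast_atTop_atTop
    eps_nonneg := fun n => by positivity
    eps_tendsto := tendsto_one_div_add_atTop_nhds_zero_nat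
    normal := fun n => (hT n).normal
    ka_tendsto := tendsto_atTop_mono (fun n => (hT n).ka_ge) tendsto_natCast_atTop_atTop
    sa_tendsto := tendsto_atTop_mono (fun n => (hT n).s_ge) tendsto_natCast_atTop_atTop
    weight := fun n => (hT n).weight
    coarse := ?_
    anchor := ?_
    qsmall := ?_ }⟩
  · intro β hβ' A hA
    refine ⟨Cco A, ?_⟩
    filter_upwards [hβ β hβ'.1, hge A] with n hn1 hn2
    exact (hT n).coarse β hn1 hβ'.2 A hA hn2
  · intro β hβ'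
    refine ⟨Can β, ?_⟩
    filter_upwards [hβ β hβ'.1] with n hn1
    exact (hT n).anchor β hn1 hβ'.2
  · intro 𝒦 h𝒦 hsub η hη
    obtain ⟨m₀, hm₀⟩ := s8_K_exhaust 𝒦 h𝒦 hsub
    have hlim : Tendsto (fun n : ℕ => ENNReal.ofReal (Cq / ((n : ℝ) + 1))) atTop (𝓝 0) := by
      have h1 : Tendsto (fun n : ℕ => Cq / ((n : ℝ) + 1)) atTop (𝓝 0) := by
        have := (tendsto_one_div_add_atTop_nhds_zero_nat (𝕜 := ℝ)).const_mul Cq
        simpa [div_eq_mul_inv] using this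
      have h2 := ENNReal.tendsto_ofReal h1
      simpa using h2
    refine tendsto_of_tendsto_of_tendsto_of_le_of_le' tendsto_const_nhds hlim
      (Eventually.of_forall fun n => zero_le) ?_
    filter_upwards [eventually_ge_atTop m₀, hge (1 / η)] with n hn1 hn2
    refine le_trans (measure_mono ?_) (hT n).qsmall
    rintro x ⟨S, hS, hx⟩
    refine ⟨S, hm₀ n hn1 hS, lt_of_le_of_lt ?_ hx⟩
    have hn1' : 0 < (n : ℝ) + 1 := by positivity
    rw [div_le_iff₀ hn1']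
    rw [div_le_iff₀ hη] at hn2
    nlinarith

/-- if there is no prohibited sequence then, for any fixed constants, some precision has no term. -/
theorem s8_no_term (Sh : Shape) (hno : IsEmpty (S9Prohibited Sh)) (cK CK Cq : ℝ) (Cco Can : ℝ → ℝ)
    (hcK : 0 < cK) :
    ∃ m : ℕ, ∀ (k s : ℝ) (ω ν : Measure ℝ), ¬ S8Term Sh cK CK Cq Cco Can m k s ω ν := by
  by_contra hcon
  push Not at hcon
  exact hno.false (s8_prohibited_of_terms Sh cK CK Cq Cco Can hcK hcon).some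

namespace Shape

variable (Sh : Shape)

/-- **Corollary 8.10** from a linear bound of `μ_f`. -/
theorem s8_poly_of_lin (hH : Sh.H ≠ ⊤) (ho : Sh.order = 1) (C₀ : ℝ) (hC₀ : 1 ≤ C₀)
    (h : ∀ k ≥ Sh.s9k0, Sh.μf k ≤ C₀ * (1 + k)) :
    ∃ C : ℝ, 0 < C ∧ ∀ k ≥ Sh.s9k0, Sh.μ k ≤ C * (1 + k) ∧
      Real.exp (-k) * Sh.rowMax (Sh.Hr - Real.exp (-k)) ≤ C * (1 + k) ^ 2 ∧
      ∀ x : ℝ, Real.exp (-k) * |Sh.s9P (Sh.s8pt x (Real.exp (-k)))| ≤ C * (1 + k) ^ 4 := by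
  obtain ⟨C₁, hC₁⟩ := Sh.s8_FM_record hH ho 0 1 le_rfl zero_le_one
  obtain ⟨Cμ, hCμ, hμ⟩ := Sh.s8_mu_le hH 0 1 C₁ le_rfl (by norm_num) zero_le_one
  obtain ⟨Cg, hCg, hg⟩ := Sh.s8_global hH 1 C₁ zero_le_one
  have hk0 : 1 ≤ Sh.s9k0 := (Sh.s8_k0 hH).1
  have hC₀0 : 0 < C₀ := by linarith
  refine ⟨(Cμ + Cg) * C₀ ^ 2, by positivity, fun K hK => ?_⟩
  have hK0 : 0 ≤ K := by linarith
  have hN₀ : 1 ≤ C₀ * (1 + K) := by nlinarith
  set N : ℝ → ℝ := s9env (C₀ * (1 + K)) 0 1 K with hN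
  have hEnv : S8Env 0 1 N := s8_env_s9env _ 0 1 K hN₀ le_rfl zero_le_one
  have hlin : ∀ l ≥ Sh.s9k0, C₀ * (1 + l) ≤ N l := by
    intro l hl
    have hu : 0 ≤ max (l - K) 0 := le_max_right _ _
    have hu' : l - K ≤ max (l - K) 0 := le_max_left _ _
    have he : 1 + max (l - K) 0 ≤ Real.exp (max (l - K) 0) := by
      have := Real.add_one_le_exp (max (l - K) 0)
      linarith
    have h1 : 1 + l ≤ (1 + K) * Real.exp (max (l - K) 0) := by
      calc 1 + l ≤ (1 + K) * (1 + max (l - K) 0) := by nlinarith [mul_nonneg hK0 hu]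
        _ ≤ _ := mul_le_mul_of_nonneg_left he (by linarith)
    simp only [hN, s9env, zero_mul, one_mul, zero_add]
    rw [mul_assoc]
    exact mul_le_mul_of_nonneg_left h1 hC₀0.le
  have hFM : Sh.S8FM C₁ N := hC₁ N hEnv (fun l hl => (h l hl).trans (hlin l hl))
    (fun l hl => by
      have h1 : 0 ≤ 1 + l := by linarith
      have h2 : 1 + l ≤ C₀ * (1 + l) := le_mul_of_one_le_left h1 hC₀
      exact h2.trans (hlin l hl))
  have hFin : Sh.S8Fin N := Sh.s8_fin_env hH ho _ 0 1 K hN₀ le_rfl one_pos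
  have hNK : N K = C₀ * (1 + K) := s8_s9env_self _ _ _ _
  have h1 := hμ N hEnv hFM hFin K hK
  obtain ⟨h2, h3⟩ := hg N hEnv hFM K hK
  rw [hNK] at h1 h2
  have h1K : 0 < 1 + K := by linarith
  have hC₀sq : C₀ ≤ C₀ ^ 2 := by nlinarith
  refine ⟨?_, ?_, fun x => ?_⟩
  · refine h1.trans ?_
    rw [← mul_assoc]
    refine mul_le_mul_of_nonneg_right ?_ h1K.le
    calc Cμ * C₀ ≤ Cμ * C₀ ^ 2 := mul_le_mul_of_nonneg_left hC₀sq hCμ.le
      _ ≤ (Cμ + Cg) * C₀ ^ 2 := mul_le_mul_of_nonneg_right (by linarith) (by positivity)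
  · refine h2.trans ?_
    have : Cg * (1 + K) * (C₀ * (1 + K)) = Cg * C₀ * (1 + K) ^ 2 := by ring
    rw [this]
    refine mul_le_mul_of_nonneg_right ?_ (by positivity)
    calc Cg * C₀ ≤ Cg * C₀ ^ 2 := mul_le_mul_of_nonneg_left hC₀sq hCg.le
      _ ≤ (Cμ + Cg) * C₀ ^ 2 := mul_le_mul_of_nonneg_right (by linarith) (by positivity)
  · have h4 := h3 x
    rw [hNK] at h4
    refine h4.trans ?_
    have : Cg * (1 + K) ^ 2 * (C₀ * (1 + K)) ^ 2 = Cg * C₀ ^ 2 * (1 + K) ^ 4 := by ring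
    rw [this]
    refine mul_le_mul_of_nonneg_right ?_ (by positivity)
    exact mul_le_mul_of_nonneg_right (by linarith) (by positivity)

/-- tile version of the sup bound. -/
theorem s8_T_poly (hH : Sh.H ≠ ⊤) (C : ℝ)
    (h : ∀ k ≥ Sh.s9k0, Real.exp (-k) * Sh.rowMax (Sh.Hr - Real.exp (-k)) ≤ C * (1 + k) ^ 2) (A : ℝ)
    (hA : 0 ≤ A) : ∃ CA : ℝ, 0 < CA ∧ ∀ j ≥ Sh.s9k0, ∀ x : ℝ, Sh.s8T A j x ≤ CA * (1 + j) ^ 2 := by
  have hk0 : 1 ≤ Sh.s9k0 := (Sh.s8_k0 hH).1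
  have hM0 : ∀ s : ℂ, 0 ≤ Sh.M s := fun s => (norm_nonneg _).trans (Sh.sb_norm_f_le_M s)
  have hC : 0 ≤ C := by
    have h1 := h Sh.s9k0 le_rfl
    have h2 : 0 ≤ Sh.rowMax (Sh.Hr - Real.exp (-Sh.s9k0)) := Real.iSup_nonneg fun x => hM0 _
    have h3 : 0 ≤ Real.exp (-Sh.s9k0) * Sh.rowMax (Sh.Hr - Real.exp (-Sh.s9k0)) := by positivity
    have h4 : 0 < (1 + Sh.s9k0) ^ 2 := by positivity
    by_contra hcon
    push Not at hcon
    nlinarith
  obtain ⟨M₀, hM₀0, hM₀⟩ := Sh.s8_M_low hH (Real.exp (-Sh.s9k0)) (Real.exp_pos _)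
  refine ⟨Real.exp A * C * (1 + A) ^ 2 + M₀ + 1, by positivity, fun j hj x => ?_⟩
  have hj0 : 0 ≤ j := by linarith
  have h1j : 1 ≤ (1 + j) ^ 2 := by nlinarith
  unfold Shape.s8T
  refine Real.sSup_le ?_ (by positivity)
  rintro _ ⟨s, ⟨hs1, hs2, hs3, hs4⟩, rfl⟩
  simp only
  have hdep : Sh.s9dep s = Sh.Hr - s.im := rfl
  have hδ : 0 < Sh.s9dep s := lt_of_lt_of_le (by positivity) hs1
  set l : ℝ := -Real.log (Sh.s9dep s) with hl
  have hel : Real.exp (-l) = Sh.s9dep s := by rw [hl, neg_neg, Real.exp_log hδ]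
  have hlj : l ≤ j + A := by
    have h1 : Real.exp (-(j + A)) ≤ Real.exp (-l) := by
      rw [hel]
      refine le_trans (le_of_eq ?_) hs1
      rw [← Real.exp_add]; congr 1; ring
    have := Real.exp_le_exp.1 h1
    linarith
  rcases le_total Sh.s9k0 l with hcase | hcase
  · have hsD : s ∈ Sh.D := by
      rw [Sh.sb_mem_D_iff hH, abs_of_nonneg hs4]
      rw [hdep] at hδ; linarith
    have h1 := h l hcase
    have him : Sh.Hr - Real.exp (-l) = s.im := by rw [hel, hdep]; ring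
    rw [him] at h1
    have h2 : Sh.rowMax s.im ≤ Real.exp l * (C * (1 + l) ^ 2) := by
      have h3 := mul_le_mul_of_nonneg_left h1 (Real.exp_pos l).le
      rw [← mul_assoc, ← Real.exp_add] at h3
      simpa using h3
    have hl0 : 0 ≤ 1 + l := by linarith
    have h4 : (1 + l) ^ 2 ≤ ((1 + A) * (1 + j)) ^ 2 := by
      refine pow_le_pow_left₀ hl0 ?_ 2
      nlinarith [mul_nonneg hA hj0]
    calc Real.exp (-j) * Sh.M s ≤ Real.exp (-j) * (Real.exp l * (C * (1 + l) ^ 2)) :=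
          mul_le_mul_of_nonneg_left ((Sh.sb_M_le_rowMax hH hsD).trans h2) (Real.exp_pos _).le
      _ = Real.exp (l - j) * (C * (1 + l) ^ 2) := by
          rw [← mul_assoc, ← Real.exp_add]; congr 2; ring
      _ ≤ Real.exp A * (C * ((1 + A) * (1 + j)) ^ 2) := by
          refine mul_le_mul (Real.exp_le_exp.2 (by linarith)) (mul_le_mul_of_nonneg_left h4 hC)
            (by positivity) (Real.exp_pos _).le
      _ = Real.exp A * C * (1 + A) ^ 2 * (1 + j) ^ 2 := by ring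
      _ ≤ (Real.exp A * C * (1 + A) ^ 2 + M₀ + 1) * (1 + j) ^ 2 := by
          refine mul_le_mul_of_nonneg_right ?_ (by positivity)
          linarith
  · have h1 : Real.exp (-Sh.s9k0) ≤ Real.exp (-l) := Real.exp_le_exp.2 (by linarith)
    rw [hel, hdep] at h1
    have h2 := hM₀ s (by rw [abs_of_nonneg hs4]; linarith)
    have h3 : Real.exp (-j) ≤ 1 := by
      rw [← Real.exp_zero]; exact Real.exp_le_exp.2 (by linarith)
    have hpos : 0 ≤ Real.exp A * C * (1 + A) ^ 2 := by positivity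
    calc Real.exp (-j) * Sh.M s ≤ 1 * M₀ := mul_le_mul h3 h2 (hM0 s) zero_le_one
      _ = M₀ := one_mul _
      _ ≤ (Real.exp A * C * (1 + A) ^ 2 + M₀ + 1) * 1 := by linarith
      _ ≤ _ := mul_le_mul_of_nonneg_left h1j (by positivity)

end Shape

end Claimed.Agent.R269
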