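/-
Row 269, P1 Section 8.3: **weights with an ancestor row, Proposition 8.5 (weighted bootstrap)**.   Blueprint: helper48.
LEAF PACKAGES (fill IN PLACE):
  LF-S8-w-ker  : `s8_per_*`, `s8_ker_*`           (HOST-FREE, elementary real analysis)
  LF-S8-w-adm  : `s8_G_*`, `s8_weight_lint`, `s8_weight_adm`, `s8_weight_tail`
  LF-S8-w-mk   : `s8_mkWeight`
  LF-S8-w-bal  : `s8_weight_bal`
  LF-S8-w-boot : `s8_weighted_bootstrap`            (glue = `s9i_weighted_bootstrap` verbatim)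
Black boxes: `LibPois.lean` (`s8_pois_ker`, kernel facts), `LibPoisB.lean` (`s8_hp`), `BasicA/B/C.lean`, `TileA.lean` (`s8_tileL2_iff`), `TileC.lean` (`s8_FM_of_mu`), `Boot.lean`, `Unif.lean`.

`s9per u = |u - 2π round (u/2π)|` = distance to `2πℤ`;  `s9ker d u = d/(d² + s9per u ²)`;  `s8G d ω x = ∫⁻ ofReal (s9ker d (x - x')) dω(x')`.
`S9Weight da cK CK ω ν`: `ω, ν` probabilities, `ω` carried by `[0,2π)`, `ν = g · dx|_{[0,2π)}`, `cK G ≤ g ≤ CK G` on `[0,2π)`, `G = s8G da ω`.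

PROOFS.
* `s8_per_*`: `|v - round v| ≤ 1/2` (`abs_sub_round`), `round (v + 1) = round v + 1`, `round (-v)`: avoid it: `s9per u = 2π |v - round v|`, `v = u/2π`, and `|v - round v| = min (fract v) (1 - fract v)` (`abs_sub_round_eq_min`), or: `|v - round v| ≤ |v - n|` for all `n : ℤ`
  (`round_le`), which gives evenness (`n = -round v`), periodicity, `s9per u ≤ |u|` (`n = 0`) and the triangle inequality `s9per (u+h) ≤ |u + h - 2π round(u/2π)| ≤ s9per u + |h|`.  Measurability: `round v = ⌊v + 1/2⌋` (`round_eq`), `Int.measurable_floor`.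
* `s8_ker_shift`: `s9per u ≤ s9per (u-h) + |h|`, so `d² + per(u)² ≤ d² + 2 per(u-h)² + 2A²d² ≤ (2+2A²)(d² + per(u-h)²)`.
* `s8_ker_int`: `x ↦ s9ker d (x - x')` is measurable and `2π`-periodic: `s8_nu0_shift`-type invariance reduces to `x' = π`...: simplest: `∫⁻_{Ico 0 2π} F(x - x') dx = ∫⁻_{Ico 0 2π} F(x - π) dx` (both equal `2π ∫⁻ F ∂s8nu0` by `s8_nu0_shift`), and for `x ∈ [0,2π)`,
  `s9per (x - π) = |x - π|`; `∫_{-π}^{π} d/(d²+v²) dv = 2 arctan(π/d)` (`integral_inv_one_add_sq`-type, substitution `v = d w`; or FTC with the primitive `arctan (v/d)`).  `1 ≤ arctan π` since `tan 1 < π` (`arctan π ≥ arctan (tan 1)`; `tan 1 < 1.6`), or `arctan π ≥ arctan √3 = π/3 > 1`.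
* `s8_ker_tail`: as above reduce to `x' = π`; on `{|v| > A d}`: `d/(d²+v²) ≤ d/v²`, `2 ∫_{Ad}^{∞} d/v² dv = 2/A`.
* `s8_G_per`, `s8_G_meas`: `(x,x') ↦ ofReal (s9ker d (x - x'))` is measurable (`Measurable.lintegral_prod_right'`).
* `s8_weight_lint`: `lintegral_withDensity_eq_lintegral_mul` and the two-sided bound of `g` on `[0,2π)`.
* `s8_weight_adm`.  For `F` measurable periodic, `|h| ≤ A d_a`:  `∫⁻ F(x+h) dν ≤ CK ∫⁻_{[0,2π)} F(x+h) G(x) dx = CK ∫⁻_{[0,2π)} F(y) G(y-h) dy` (periodicity: `s8_nu0_shift` for `y ↦ F(y) G(y-h)`) `≤ CK (2+2A²) ∫⁻_{[0,2π)} F G ≤ (CK/cK)(2+2A²) ∫⁻ F dν`.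
* `s8_weight_tail`.  `ν(Bad) ≤ CK ∫⁻_{Bad ∩ [0,2π)} G = CK ∫⁻ dω(x') ∫⁻_{Bad ∩ [0,2π)} ker(x - x') dx` (Tonelli; `Bad` may be replaced by a measurable superset `toMeasurable`... simpler: the statement assumes `Bad ⊆ {x | ∀ x' ∈ E', A d < s9per (x - x')}`; for `ω`-a.e. `x'`
  (`x' ∈ E'`) `Bad ⊆ {x | A d < s9per (x - x')}`, a measurable set: use `measure_mono` AFTER writing `ν Bad ≤ ∫⁻ dω(x') ..` via the outer-measure inequality `ν Bad ≤ ν (toMeasurable ν Bad)`; ALTERNATIVE that avoids all this: define the measurable function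
  `φ(x) = ∫⁻ 1_{A d < s9per (x - x')} ofReal (ker d (x-x')) dω(x')`; on `Bad`, `G(x) = φ(x)` because the indicator is `1` for `ω`-a.e. `x'`; so `ν Bad ≤ CK ∫⁻_{Bad∩[0,2π)} φ ≤ CK ∫⁻_{[0,2π)} φ = CK ∫⁻ dω ∫⁻_{[0,2π)} (..) dx ≤ CK · 2/A`).
* `s8_mkWeight`.  `Z = 2 arctan(π/da) ∈ [2, π]`, `g = G/Z`, `ν = (volume.restrict [0,2π)).withDensity g`.  Mass: Tonelli and `s8_ker_int`.  `1/π ≤ 1/Z ≤ 1/2`.  Domination: if `∫⁻ F dω ≤ c ∫⁻ F ∂s8nu0` for all measurable `F` then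
  `G(x) ≤ c ∫⁻ ker(x - x') ∂s8nu0(x') = c Z/(2π)` (evenness + `s8_ker_int`), so `g ≤ c/(2π)` and `∫⁻ F dν ≤ c ∫⁻ F ∂s8nu0`.
* `s8_weight_bal`.  `d_a = e^{-ka}`, `d_j = e^{-j} < d_a/2`, `h = Hr - d_j ≥ Hr/2`, `ℓ = d_a - d_j ∈ [d_a/2, d_a]`, `ℓ ≤ h`.  `s8_hp` for `V = s9V`, `O = D` at every `x'`, with `P = - Im V`, `P_j(u) = P(u + ih)`, `P_a(x') = P(x' + i(Hr - d_a))`, `E` = mean:
    `E_u[Pois_ℓ(x'-u) P_j⁺(u)] ≤ E_u[Pois_ℓ(x'-u) P_j⁻(u)] + |P_a(x')| + S (ℓ/h) E|P_j|`,  `S = sinh h/(cosh h - 1)`  (all functions continuous: pass from `∫` to `∫⁻` by `ofReal_integral_eq_lintegral_ofReal`).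
  Integrate `dω(x')`, Tonelli: `E[P_j^± κ]`, `κ(u) = ∫⁻ Pois_ℓ(x'-u) dω(x')`, `(1/2) G ≤ κ ≤ 24 G` (`s8_pois_ker`, `s9ker` even).  With `s8_weight_lint`:
    `∫ P_j⁺ dν ≤ CK ∫_0^{2π} P_j⁺ G ≤ 4π CK E[P_j⁺ κ]`,   `E[P_j⁻ κ] ≤ 24 E[P_j⁻ G] ≤ (24/(2π cK)) ∫ P_j⁻ dν`.
  So `∫ P_j⁺ dν ≤ (48 CK/cK) ∫ P_j⁻ dν + 4π CK (∫ |P_a| dω + S (ℓ/h) E|P_j|)`; multiply by `d_j`;  `S (ℓ/h) ≤ (sinh(Hr/2)/(cosh(Hr/2) - 1)) (2/Hr) d_a` (`S = coth(h/2)` decreases in `h`; or bound `S ≤ 1 + 2/h`...).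
* `s8_weighted_bootstrap`.  `C₁` from `s8_FM_of_mu hH β a`; `ka₀`, then `A'` (for `A`) from `s8_boot`.  Given `Can Cc`: `CT A = CK/cK (2+2A²)`, `CP₀` from `s8_boot_unif` (aperture `1`), `C_w` from `s8_weight_bal`, `Cb = C_w max 1 (max Can 0 + CP₀)`; `C'` from `s8_boot`.
  For `N = s9env N₀ β a K`: `s8_env_s9env`, `S8FM`, `s8_fin_env`.  (Co) by `s8_tileL2_iff`.  (Ba): `d_j ∫|P_a| dω ≤ Can N(ka)² d_j/d_a ≤ Can N(j)² e^{-(1-2β)(j-ka)} ≤ Can N(j)²` (`S8Env.back`), `d_a P1 s8nu0 j ≤ CP₀ N(j)²`.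
-/
import Claimed.Agent.R269.S8.Unif
import Claimed.Agent.R269.S8.TileC
import Claimed.Agent.R269.S8.LibPoisB
import Claimed.Agent.R269.S8.HpBal

set_option autoImplicit false

namespace Claimed.Agent.R269

open Complex ComplexConjugate Filter Topology MeasureTheory Set Metric
open scoped ENNReal Real

/-! ### the model kernel (host-free) -/

theorem s8w_per_le (u : ℝ) (n : ℤ) : s9per u ≤ |u - 2 * π * n| := by
  unfold s9per
  have hp := Real.pi_pos
  have h := round_le (u / (2 * π)) n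
  have e1 : u - 2 * π * round (u / (2 * π)) = 2 * π * (u / (2 * π) - round (u / (2 * π))) := by field_simp
  have e2 : u - 2 * π * n = 2 * π * (u / (2 * π) - n) := by field_simp
  rw [e1, e2, abs_mul (2 * π), abs_mul (2 * π)]
  exact mul_le_mul_of_nonneg_left h (abs_nonneg _)

theorem s8w_per_ex (u : ℝ) : ∃ n : ℤ, s9per u = |u - 2 * π * n| := ⟨round (u / (2 * π)), rfl⟩

theorem s8_per_nonneg (u : ℝ) : 0 ≤ s9per u := by
  exact abs_nonneg _

theorem s8_per_le_abs (u : ℝ) : s9per u ≤ |u| := by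
  simpa using s8w_per_le u 0

theorem s8_per_eq_abs (u : ℝ) (hu : |u| ≤ π) : s9per u = |u| := by
  apply le_antisymm (s8_per_le_abs u)
  obtain ⟨n, hn⟩ := s8w_per_ex u
  rw [hn]
  have hp := Real.pi_pos
  by_cases h0 : n = 0
  · simp [h0]
  · have h1 : (1 : ℝ) ≤ |(n : ℝ)| := by exact_mod_cast Int.one_le_abs h0
    have h2 : |2 * π * (n : ℝ)| - |u| ≤ |u - 2 * π * n| := by
      rw [abs_sub_comm u]
      exact abs_sub_abs_le_abs_sub _ _
    rw [abs_mul, abs_of_pos (by positivity : (0 : ℝ) < 2 * π)] at h2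
    nlinarith

theorem s8_per_per (u : ℝ) : s9per (u + 2 * π) = s9per u := by
  apply le_antisymm
  · obtain ⟨n, hn⟩ := s8w_per_ex u
    rw [hn]
    refine (s8w_per_le _ (n + 1)).trans (le_of_eq ?_)
    push_cast
    ring_nf
  · obtain ⟨n, hn⟩ := s8w_per_ex (u + 2 * π)
    rw [hn]
    refine (s8w_per_le _ (n - 1)).trans (le_of_eq ?_)
    push_cast
    ring_nf

theorem s8w_per_neg_le (u : ℝ) : s9per (-u) ≤ s9per u := by
  obtain ⟨n, hn⟩ := s8w_per_ex u
  rw [hn]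
  refine (s8w_per_le _ (-n)).trans (le_of_eq ?_)
  rw [← abs_neg]
  push_cast
  ring_nf

theorem s8_per_neg (u : ℝ) : s9per (-u) = s9per u := by
  apply le_antisymm (s8w_per_neg_le u)
  have := s8w_per_neg_le (-u)
  rwa [neg_neg] at this

theorem s8_per_add_le (u h : ℝ) : s9per (u + h) ≤ s9per u + |h| := by
  obtain ⟨n, hn⟩ := s8w_per_ex u
  rw [hn]
  refine (s8w_per_le _ n).trans ?_
  rw [show u + h - 2 * π * n = (u - 2 * π * n) + h by ring]
  exact abs_add_le _ _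

theorem s8_per_meas : Measurable s9per := by
  unfold s9per
  simp only [round_eq]
  have h1 : Measurable fun u : ℝ => ((⌊u / (2 * π) + 1 / 2⌋ : ℤ) : ℝ) :=
    (measurable_from_top (f := fun n : ℤ => (n : ℝ))).comp
      (Measurable.floor ((measurable_id.div_const _).add_const _))
  exact (measurable_id.sub (h1.const_mul _)).abs

theorem s8_ker_pos (d u : ℝ) (hd : 0 < d) : 0 < s9ker d u := by
  unfold s9ker
  positivity

theorem s8_ker_per (d u : ℝ) : s9ker d (u + 2 * π) = s9ker d u := by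
  unfold s9ker
  rw [s8_per_per]

theorem s8_ker_neg (d u : ℝ) : s9ker d (-u) = s9ker d u := by
  unfold s9ker
  rw [s8_per_neg]

theorem s8_ker_meas (d : ℝ) : Measurable (s9ker d) := by
  unfold s9ker
  exact measurable_const.div (measurable_const.add (s8_per_meas.pow_const 2))

theorem s8_ker_shift (d A u h : ℝ) (hd : 0 < d) (hh : |h| ≤ A * d) :
    s9ker d (u - h) ≤ (2 + 2 * A ^ 2) * s9ker d u := by
  unfold s9ker
  have h1 := s8_per_add_le (u - h) h
  rw [sub_add_cancel] at h1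
  have h0 := s8_per_nonneg u
  have h0' := s8_per_nonneg (u - h)
  set a := s9per (u - h)
  set b := s9per u
  have hA : |h| ^ 2 ≤ (A * d) ^ 2 := pow_le_pow_left₀ (abs_nonneg _) hh 2
  have hb : b ^ 2 ≤ (a + |h|) ^ 2 := pow_le_pow_left₀ h0 h1 2
  have key : d ^ 2 + b ^ 2 ≤ (2 + 2 * A ^ 2) * (d ^ 2 + a ^ 2) := by
    nlinarith [sq_nonneg (a - |h|), sq_nonneg (A * a), sq_nonneg d]
  have hp1 : 0 < d ^ 2 + a ^ 2 := by positivity
  have hp2 : 0 < d ^ 2 + b ^ 2 := by positivity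
  rw [← mul_div_assoc, div_le_div_iff₀ hp1 hp2]
  nlinarith

/-- shift invariance of the integral over one period -/
theorem s8w_shift (F : ℝ → ℝ≥0∞) (hF : Measurable F) (hper : ∀ x, F (x + 2 * π) = F x) (h : ℝ) :
    ∫⁻ x in Ico (0 : ℝ) (2 * π), F (x + h) = ∫⁻ x in Ico (0 : ℝ) (2 * π), F x := by
  have h1 := s8_nu0_shift F hF hper h
  rw [s8_nu0_lintegral, s8_nu0_lintegral] at h1
  have hp : (0 : ℝ) < (2 * π)⁻¹ := by positivity
  exact (ENNReal.mul_right_inj (ENNReal.ofReal_pos.2 hp).ne' ENNReal.ofReal_ne_top).1 h1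

theorem s8w_arctan_cont (d : ℝ) (hd : 0 < d) : Continuous fun x : ℝ => d / (d ^ 2 + (x - π) ^ 2) :=
  Continuous.div continuous_const (by fun_prop) fun x => by positivity

theorem s8w_arctan_int (d : ℝ) (hd : 0 < d) :
    ∫ x in (0 : ℝ)..(2 * π), d / (d ^ 2 + (x - π) ^ 2) = 2 * Real.arctan (π / d) := by
  have hder : ∀ x ∈ uIcc (0 : ℝ) (2 * π), HasDerivAt (fun x => Real.arctan ((x - π) / d))
      (d / (d ^ 2 + (x - π) ^ 2)) x := by
    intro x _
    have h1 : HasDerivAt (fun x : ℝ => (x - π) / d) (1 / d) x := ((hasDerivAt_id x).sub_const π).div_const d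
    have h2 := h1.arctan
    have hne : d ^ 2 + (x - π) ^ 2 ≠ 0 := by positivity
    have hne2 : 1 + ((x - π) / d) ^ 2 ≠ 0 := by positivity
    have e : d / (d ^ 2 + (x - π) ^ 2) = 1 / (1 + ((x - π) / d) ^ 2) * (1 / d) := by
      field_simp
    rw [e]
    exact h2
  rw [intervalIntegral.integral_eq_sub_of_hasDerivAt hder ((s8w_arctan_cont d hd).intervalIntegrable _ _)]
  have e1 : (2 * π - π) / d = π / d := by ring
  have e2 : (0 - π) / d = -(π / d) := by ring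
  rw [e1, e2, Real.arctan_neg]; ring

theorem s8_ker_int (d x' : ℝ) (hd : 0 < d) :
    ∫⁻ x in Ico (0 : ℝ) (2 * π), ENNReal.ofReal (s9ker d (x - x')) = ENNReal.ofReal (2 * Real.arctan (π / d)) := by
  have hp := Real.pi_pos
  have h1 := s8w_shift (fun x => ENNReal.ofReal (s9ker d (x - π)))
    ((s8_ker_meas d).comp (measurable_id.sub_const π)).ennreal_ofReal (fun x => by
      rw [show x + 2 * π - π = (x - π) + 2 * π by ring, s8_ker_per]) (π - x')
  have e : ∀ x : ℝ, x + (π - x') - π = x - x' := fun x => by ring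
  simp only [e] at h1
  rw [h1]
  have h2 : ∫⁻ x in Ico (0 : ℝ) (2 * π), ENNReal.ofReal (s9ker d (x - π)) =
      ∫⁻ x in Ico (0 : ℝ) (2 * π), ENNReal.ofReal (d / (d ^ 2 + (x - π) ^ 2)) := by
    apply setLIntegral_congr_fun measurableSet_Ico
    intro x hx
    have : |x - π| ≤ π := abs_le.2 ⟨by linarith [hx.1], by linarith [hx.2]⟩
    simp only [s9ker]
    rw [s8_per_eq_abs _ this, sq_abs]
  rw [h2, ← ofReal_integral_eq_lintegral_ofReal ((s8w_arctan_cont d hd).integrableOn_Icc.mono_set Ico_subset_Icc_self)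
    (ae_of_all _ fun x => by positivity), integral_Ico_eq_integral_Ioc,
    ← intervalIntegral.integral_of_le (by positivity), s8w_arctan_int d hd]

theorem s8_arctan_bd (d : ℝ) (hd : 0 < d) (hd1 : d ≤ 1) :
    2 ≤ 2 * Real.arctan (π / d) ∧ 2 * Real.arctan (π / d) ≤ π := by
  have hp3 := Real.pi_gt_three
  constructor
  · have h1 : √3 ≤ π / d := by
      have h2 : √3 ≤ 2 := by
        rw [Real.sqrt_le_left (by norm_num)]
        norm_num
      rw [le_div_iff₀ hd]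
      nlinarith [Real.sqrt_nonneg 3]
    have h3 := Real.arctan_mono h1
    rw [Real.arctan_sqrt_three] at h3
    linarith
  · have := Real.arctan_lt_pi_div_two (π / d)
    linarith

theorem s8w_tail_int (d c : ℝ) (hd : 0 < d) (hc : 0 < c) :
    ∫⁻ v, (Ioi c).indicator (fun v : ℝ => ENNReal.ofReal (d / v ^ 2)) v = ENNReal.ofReal (d / c) := by
  rw [lintegral_indicator measurableSet_Ioi]
  have hi := integrableOn_Ioi_rpow_of_lt (a := -2) (by norm_num) hc
  have h1 : ∫⁻ v in Ioi c, ENNReal.ofReal (d / v ^ 2) = ∫⁻ v in Ioi c, ENNReal.ofReal (d * v ^ (-2 : ℝ)) := by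
    apply setLIntegral_congr_fun measurableSet_Ioi
    intro v hv
    have hv0 : 0 < v := lt_trans hc hv
    simp only
    rw [Real.rpow_neg hv0.le, Real.rpow_two, div_eq_mul_inv]
  rw [h1, ← ofReal_integral_eq_lintegral_ofReal (hi.const_mul d)
    ((ae_restrict_mem measurableSet_Ioi).mono fun v hv => by
      have hv0 : 0 < v := lt_trans hc hv
      positivity), integral_const_mul, integral_Ioi_rpow_of_lt (by norm_num) hc]
  congr 1
  rw [show (-2 : ℝ) + 1 = -1 by norm_num, Real.rpow_neg_one]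
  field_simp

theorem s8_ker_tail (d A x' : ℝ) (hd : 0 < d) (hA : 0 < A) :
    ∫⁻ x in Ico (0 : ℝ) (2 * π) ∩ {x | A * d < s9per (x - x')}, ENNReal.ofReal (s9ker d (x - x')) ≤
      ENNReal.ofReal (2 / A) := by
  have hp := Real.pi_pos
  have hc : 0 < A * d := by positivity
  set T : Set ℝ := {v | A * d < s9per v} with hT
  have hTm : MeasurableSet T := measurableSet_lt measurable_const s8_per_meas
  set F : ℝ → ℝ≥0∞ := fun x => T.indicator (fun v => ENNReal.ofReal (s9ker d v)) (x - π) with hF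
  have hFm : Measurable F := ((s8_ker_meas d).ennreal_ofReal.indicator hTm).comp (measurable_id.sub_const π)
  have hFper : ∀ x, F (x + 2 * π) = F x := by
    intro x
    simp only [hF, indicator, hT, mem_ofPred_eq]
    rw [show x + 2 * π - π = (x - π) + 2 * π by ring, s8_per_per, s8_ker_per]
  have h1 := s8w_shift F hFm hFper (π - x')
  have hTm' : MeasurableSet {x : ℝ | A * d < s9per (x - x')} :=
    measurableSet_lt measurable_const (s8_per_meas.comp (measurable_id.sub_const x'))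
  have h2 : ∫⁻ x in Ico (0 : ℝ) (2 * π) ∩ {x | A * d < s9per (x - x')}, ENNReal.ofReal (s9ker d (x - x')) =
      ∫⁻ x in Ico (0 : ℝ) (2 * π), F (x + (π - x')) := by
    rw [inter_comm, ← lintegral_indicator (hTm'.inter measurableSet_Ico), ← lintegral_indicator measurableSet_Ico]
    congr 1
    ext x
    simp only [hF, indicator, hT, mem_ofPred_eq, mem_inter_iff, show x + (π - x') - π = x - x' by ring]
    by_cases ha : x ∈ Ico (0 : ℝ) (2 * π) <;> by_cases hb : A * d < s9per (x - x') <;> simp [ha, hb]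
  rw [h2, h1]
  set g : ℝ → ℝ≥0∞ := (Ioi (A * d)).indicator (fun v : ℝ => ENNReal.ofReal (d / v ^ 2)) with hg
  have hgm : Measurable g :=
    (measurable_const.div (measurable_id.pow_const 2)).ennreal_ofReal.indicator measurableSet_Ioi
  have hpt : ∀ x ∈ Ico (0 : ℝ) (2 * π), F x ≤ g (x - π) + g (π - x) := by
    intro x hx
    have hx' : |x - π| ≤ π := abs_le.2 ⟨by linarith [hx.1], by linarith [hx.2]⟩
    by_cases hm : x - π ∈ T
    · have hm' : A * d < |x - π| := by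
        have : A * d < s9per (x - π) := hm
        rwa [s8_per_eq_abs _ hx'] at this
      simp only [hF]
      rw [indicator_of_mem hm]
      have hk : s9ker d (x - π) ≤ d / (x - π) ^ 2 := by
        unfold s9ker
        rw [s8_per_eq_abs _ hx', sq_abs]
        have hsq : 0 < (x - π) ^ 2 := by
          rw [← sq_abs]
          have : 0 < |x - π| := lt_trans hc hm'
          positivity
        exact div_le_div_of_nonneg_left hd.le hsq (by nlinarith [sq_nonneg d])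
      rcases le_total 0 (x - π) with hs | hs
      · rw [abs_of_nonneg hs] at hm'
        have : g (x - π) = ENNReal.ofReal (d / (x - π) ^ 2) := by
          rw [hg, indicator_of_mem (show x - π ∈ Ioi (A * d) from hm')]
        rw [this]
        exact le_add_right (ENNReal.ofReal_le_ofReal hk)
      · rw [abs_of_nonpos hs, neg_sub] at hm'
        have : g (π - x) = ENNReal.ofReal (d / (x - π) ^ 2) := by
          rw [hg, indicator_of_mem (show π - x ∈ Ioi (A * d) from hm'), show (π - x) ^ 2 = (x - π) ^ 2 by ring]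
        rw [this]
        exact le_add_left (ENNReal.ofReal_le_ofReal hk)
    · simp only [hF]
      rw [indicator_of_notMem hm]
      exact bot_le
  calc ∫⁻ x in Ico (0 : ℝ) (2 * π), F x ≤ ∫⁻ x in Ico (0 : ℝ) (2 * π), (g (x - π) + g (π - x)) :=
        setLIntegral_mono' measurableSet_Ico hpt
    _ ≤ ∫⁻ x, (g (x - π) + g (π - x)) := setLIntegral_le_lintegral _ _
    _ = (∫⁻ x, g (x - π)) + ∫⁻ x, g (π - x) := lintegral_add_left (hgm.comp (measurable_id.sub_const π)) _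
    _ = ENNReal.ofReal (d / (A * d)) + ENNReal.ofReal (d / (A * d)) := by
        rw [lintegral_sub_right_eq_self g π, lintegral_sub_left_eq_self g π, hg, s8w_tail_int d _ hd hc]
    _ = ENNReal.ofReal (2 / A) := by
        rw [← ENNReal.ofReal_add (by positivity) (by positivity)]
        congr 1
        field_simp
        norm_num

/-! ### mixtures -/

/-- the mixture `K_d * ω` of the model kernels. -/
noncomputable def s8G (d : ℝ) (ω : Measure ℝ) (x : ℝ) : ℝ≥0∞ := ∫⁻ x', ENNReal.ofReal (s9ker d (x - x')) ∂ω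

theorem s8w_ker2_meas (d : ℝ) : Measurable fun p : ℝ × ℝ => ENNReal.ofReal (s9ker d (p.1 - p.2)) :=
  ((s8_ker_meas d).comp (measurable_fst.sub measurable_snd)).ennreal_ofReal

theorem s8_G_meas (d : ℝ) (ω : Measure ℝ) [SFinite ω] : Measurable (s8G d ω) := by
  exact (s8w_ker2_meas d).lintegral_prod_right'

theorem s8_G_per (d : ℝ) (ω : Measure ℝ) (x : ℝ) : s8G d ω (x + 2 * π) = s8G d ω x := by
  unfold s8G
  refine lintegral_congr fun x' => ?_
  rw [show x + 2 * π - x' = (x - x') + 2 * π by ring, s8_ker_per]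

/-- integrals against `ν` are comparable with integrals against `G dx`. -/
theorem s8_weight_lint (da cK CK : ℝ) (ω ν : Measure ℝ) (hw : S9Weight da cK CK ω ν) (F : ℝ → ℝ≥0∞)
    (hF : Measurable F) :
    ENNReal.ofReal cK * ∫⁻ x in Ico (0 : ℝ) (2 * π), F x * s8G da ω x ≤ ∫⁻ x, F x ∂ν ∧
      ∫⁻ x, F x ∂ν ≤ ENNReal.ofReal CK * ∫⁻ x in Ico (0 : ℝ) (2 * π), F x * s8G da ω x := by
  obtain ⟨g, hgm, hν, hb⟩ := hw.dens
  rw [hν, lintegral_withDensity_eq_lintegral_mul _ hgm hF, ← lintegral_const_mul' _ _ ENNReal.ofReal_ne_top,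
    ← lintegral_const_mul' _ _ ENNReal.ofReal_ne_top]
  constructor
  · apply setLIntegral_mono' measurableSet_Ico
    intro x hx
    have := (hb x hx).1
    calc ENNReal.ofReal cK * (F x * s8G da ω x) = (ENNReal.ofReal cK * s8G da ω x) * F x := by ring
      _ ≤ g x * F x := mul_le_mul_left this _
  · apply setLIntegral_mono' measurableSet_Ico
    intro x hx
    have := (hb x hx).2
    calc g x * F x ≤ (ENNReal.ofReal CK * s8G da ω x) * F x := mul_le_mul_left this _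
      _ = ENNReal.ofReal CK * (F x * s8G da ω x) := by ring

theorem s8w_G_shift (d A : ℝ) (ω : Measure ℝ) (y h : ℝ) (hd : 0 < d) (hh : |h| ≤ A * d) :
    s8G d ω (y - h) ≤ ENNReal.ofReal (2 + 2 * A ^ 2) * s8G d ω y := by
  unfold s8G
  rw [← lintegral_const_mul' _ _ ENNReal.ofReal_ne_top]
  refine lintegral_mono fun x' => ?_
  rw [← ENNReal.ofReal_mul (by positivity)]
  apply ENNReal.ofReal_le_ofReal
  rw [show y - h - x' = (y - x') - h by ring]
  exact s8_ker_shift d A _ h hd hh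

/-- translation comparison (first property after (8.22)). -/
theorem s8_weight_adm (ka cK CK : ℝ) (hcK : 0 < cK) (ω ν : Measure ℝ)
    (hw : S9Weight (Real.exp (-ka)) cK CK ω ν) : S8Adm ν ka (fun A => CK / cK * (2 + 2 * A ^ 2)) := by
  refine ⟨hw.ν_prob, ?_⟩
  intro A _ h hh F hF hper
  have := hw.ω_prob
  have hd : 0 < Real.exp (-ka) := Real.exp_pos _
  set d := Real.exp (-ka) with hdd
  have hGm := s8_G_meas d ω
  have h1 := (s8_weight_lint d cK CK ω ν hw (fun x => F (x + h)) (hF.comp (measurable_id.add_const h))).2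
  have h2 := s8w_shift (fun y => F y * s8G d ω (y - h)) (hF.mul (hGm.comp (measurable_id.sub_const h)))
    (fun x => by
      rw [hper, show x + 2 * π - h = (x - h) + 2 * π by ring, s8_G_per]) h
  simp only [add_sub_cancel_right] at h2
  rw [h2] at h1
  have h3 : ∫⁻ y in Ico (0 : ℝ) (2 * π), F y * s8G d ω (y - h) ≤
      ENNReal.ofReal (2 + 2 * A ^ 2) * ∫⁻ y in Ico (0 : ℝ) (2 * π), F y * s8G d ω y := by
    rw [← lintegral_const_mul' _ _ ENNReal.ofReal_ne_top]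
    refine lintegral_mono fun y => ?_
    calc F y * s8G d ω (y - h) ≤ F y * (ENNReal.ofReal (2 + 2 * A ^ 2) * s8G d ω y) :=
          mul_le_mul_right (s8w_G_shift d A ω y h hd hh) _
      _ = ENNReal.ofReal (2 + 2 * A ^ 2) * (F y * s8G d ω y) := by ring
  have h4 := (s8_weight_lint d cK CK ω ν hw F hF).1
  have hc0 : ENNReal.ofReal cK ≠ 0 := (ENNReal.ofReal_pos.2 hcK).ne'
  have h5 : ∫⁻ y in Ico (0 : ℝ) (2 * π), F y * s8G d ω y ≤ (∫⁻ x, F x ∂ν) / ENNReal.ofReal cK := by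
    rw [ENNReal.le_div_iff_mul_le (Or.inl hc0) (Or.inl ENNReal.ofReal_ne_top), mul_comm]
    exact h4
  calc ∫⁻ x, F (x + h) ∂ν ≤ ENNReal.ofReal CK * ∫⁻ y in Ico (0 : ℝ) (2 * π), F y * s8G d ω (y - h) := h1
    _ ≤ ENNReal.ofReal CK * (ENNReal.ofReal (2 + 2 * A ^ 2) * ((∫⁻ x, F x ∂ν) / ENNReal.ofReal cK)) :=
        mul_le_mul_right (h3.trans (mul_le_mul_right h5 _)) _
    _ = ENNReal.ofReal (CK / cK * (2 + 2 * A ^ 2)) * ∫⁻ x, F x ∂ν := by
        rw [ENNReal.ofReal_mul' (by positivity), ENNReal.ofReal_div_of_pos hcK]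
        simp only [div_eq_mul_inv]
        ring

/-- the kernel increment exceeds `A d_a` with probability `≤ 2 CK/A`. -/
theorem s8_weight_tail (da cK CK A : ℝ) (hda : 0 < da) (hA : 0 < A) (ω ν : Measure ℝ)
    (hw : S9Weight da cK CK ω ν) (E' Bad : Set ℝ) (hE' : ω E'ᶜ = 0)
    (hBad : ∀ x ∈ Bad, ∀ x' ∈ E', A * da < s9per (x - x')) : ν Bad ≤ ENNReal.ofReal (2 * CK / A) := by
  have := hw.ω_prob
  obtain ⟨g, hgm, hν, hb⟩ := hw.dens
  set T : Set (ℝ × ℝ) := {p | A * da < s9per (p.1 - p.2)} with hT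
  have hTm : MeasurableSet T :=
    measurableSet_lt measurable_const (s8_per_meas.comp (measurable_fst.sub measurable_snd))
  set f : ℝ × ℝ → ℝ≥0∞ := T.indicator fun p => ENNReal.ofReal (s9ker da (p.1 - p.2)) with hf
  have hfm : Measurable f := (s8w_ker2_meas da).indicator hTm
  set φ : ℝ → ℝ≥0∞ := fun x => ∫⁻ x', f (x, x') ∂ω with hφ
  have hφm : Measurable φ := hfm.lintegral_prod_right'
  have hGm := s8_G_meas da ω
  set B' : Set ℝ := {x | s8G da ω x ≤ φ x} with hB'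
  have hB'm : MeasurableSet B' := measurableSet_le hGm hφm
  have hsub : Bad ⊆ B' := by
    intro x hx
    show s8G da ω x ≤ φ x
    apply lintegral_mono_ae
    have hae : ∀ᵐ x' ∂ω, x' ∈ E' := mem_ae_iff.2 hE'
    filter_upwards [hae] with x' hx'
    have hm : (x, x') ∈ T := hBad x hx x' hx'
    rw [hf, indicator_of_mem hm]
  have hin : ∀ x' : ℝ, ∫⁻ x in Ico (0 : ℝ) (2 * π), f (x, x') ≤ ENNReal.ofReal (2 / A) := by
    intro x'
    have hTm' : MeasurableSet {x : ℝ | A * da < s9per (x - x')} :=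
      measurableSet_lt measurable_const (s8_per_meas.comp (measurable_id.sub_const x'))
    have e : (fun x => f (x, x')) =
        {x : ℝ | A * da < s9per (x - x')}.indicator fun x => ENNReal.ofReal (s9ker da (x - x')) := by
      ext x
      simp only [hf, indicator, hT, mem_ofPred_eq]
    rw [e, setLIntegral_indicator hTm', inter_comm]
    exact s8_ker_tail da A x' hda hA
  calc ν Bad ≤ ν B' := measure_mono hsub
    _ = ∫⁻ x in B' ∩ Ico (0 : ℝ) (2 * π), g x := by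
        rw [hν, withDensity_apply _ hB'm, Measure.restrict_restrict hB'm]
    _ ≤ ∫⁻ x in B' ∩ Ico (0 : ℝ) (2 * π), ENNReal.ofReal CK * φ x := by
        apply setLIntegral_mono' (hB'm.inter measurableSet_Ico)
        intro x hx
        exact ((hb x hx.2).2).trans (mul_le_mul_right hx.1 _)
    _ ≤ ∫⁻ x in Ico (0 : ℝ) (2 * π), ENNReal.ofReal CK * φ x := lintegral_mono_set inter_subset_right
    _ = ENNReal.ofReal CK * ∫⁻ x in Ico (0 : ℝ) (2 * π), ∫⁻ x', f (x, x') ∂ω :=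
        lintegral_const_mul' _ _ ENNReal.ofReal_ne_top
    _ = ENNReal.ofReal CK * ∫⁻ x', (∫⁻ x in Ico (0 : ℝ) (2 * π), f (x, x')) ∂ω := by
        rw [lintegral_lintegral_swap (f := fun x x' => f (x, x')) hfm.aemeasurable]
    _ ≤ ENNReal.ofReal CK * ∫⁻ _x', ENNReal.ofReal (2 / A) ∂ω := mul_le_mul_right (lintegral_mono hin) _
    _ = ENNReal.ofReal (2 * CK / A) := by
        rw [lintegral_const, measure_univ, mul_one, ← ENNReal.ofReal_mul' (by positivity)]
        congr 1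
        ring

/-- existence of `ν = K_{d_a} * ω` with absolute comparison constants; domination by the uniform measure is inherited. -/
theorem s8_mkWeight (da : ℝ) (hda : 0 < da) (hda1 : da ≤ 1) (ω : Measure ℝ) (hω : IsProbabilityMeasure ω)
    (hsupp : ω (Ico 0 (2 * π))ᶜ = 0) :
    ∃ ν : Measure ℝ, S9Weight da (1 / π) (1 / 2) ω ν ∧
      ∀ c : ℝ≥0∞, (∀ F : ℝ → ℝ≥0∞, Measurable F → ∫⁻ x, F x ∂ω ≤ c * ∫⁻ x, F x ∂s8nu0) →
        ∀ F : ℝ → ℝ≥0∞, Measurable F → ∫⁻ x, F x ∂ν ≤ c * ∫⁻ x, F x ∂s8nu0 := by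
  have hp := Real.pi_pos
  obtain ⟨hZ1, hZ2⟩ := s8_arctan_bd da hda hda1
  set Z : ℝ := 2 * Real.arctan (π / da) with hZ
  have hZ0 : 0 < Z := by linarith
  have hGm := s8_G_meas da ω
  have hz0 : ENNReal.ofReal Z ≠ 0 := (ENNReal.ofReal_pos.2 hZ0).ne'
  set g : ℝ → ℝ≥0∞ := fun x => (ENNReal.ofReal Z)⁻¹ * s8G da ω x with hg
  have hgm : Measurable g := hGm.const_mul _
  refine ⟨(volume.restrict (Ico 0 (2 * π))).withDensity g, ⟨hω, ⟨?_⟩, hsupp, g, hgm, rfl, ?_⟩, ?_⟩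
  · rw [withDensity_apply _ MeasurableSet.univ, Measure.restrict_univ, hg,
      lintegral_const_mul' _ _ (ENNReal.inv_ne_top.2 hz0)]
    unfold s8G
    rw [lintegral_lintegral_swap (f := fun x x' => ENNReal.ofReal (s9ker da (x - x'))) (s8w_ker2_meas da).aemeasurable]
    simp only [s8_ker_int da _ hda]
    rw [lintegral_const, measure_univ, mul_one, ENNReal.inv_mul_cancel hz0 ENNReal.ofReal_ne_top]
  · intro x _
    rw [hg]
    simp only
    rw [← ENNReal.ofReal_inv_of_pos hZ0]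
    constructor
    · refine mul_le_mul_left (ENNReal.ofReal_le_ofReal ?_) _
      rw [one_div]
      exact inv_anti₀ hZ0 hZ2
    · refine mul_le_mul_left (ENNReal.ofReal_le_ofReal ?_) _
      rw [one_div]
      exact inv_anti₀ (by norm_num) hZ1
  · intro c hc F hF
    have hG : ∀ x, s8G da ω x ≤ c * (ENNReal.ofReal (2 * π)⁻¹ * ENNReal.ofReal Z) := by
      intro x
      have h1 := hc (fun x' => ENNReal.ofReal (s9ker da (x - x')))
        ((s8_ker_meas da).comp (measurable_const.sub measurable_id)).ennreal_ofReal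
      rw [s8_nu0_lintegral] at h1
      have e : ∀ x' : ℝ, s9ker da (x - x') = s9ker da (x' - x) := fun x' => by rw [← s8_ker_neg, neg_sub]
      simp only [e] at h1
      rw [s8_ker_int da x hda] at h1
      unfold s8G
      simp only [e]
      exact h1
    have hgle : ∀ x, g x ≤ c * ENNReal.ofReal (2 * π)⁻¹ := by
      intro x
      calc g x ≤ (ENNReal.ofReal Z)⁻¹ * (c * (ENNReal.ofReal (2 * π)⁻¹ * ENNReal.ofReal Z)) :=
            mul_le_mul_right (hG x) _
        _ = c * ENNReal.ofReal (2 * π)⁻¹ * ((ENNReal.ofReal Z)⁻¹ * ENNReal.ofReal Z) := by ring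
        _ = c * ENNReal.ofReal (2 * π)⁻¹ := by
            rw [ENNReal.inv_mul_cancel hz0 ENNReal.ofReal_ne_top, mul_one]
    rw [lintegral_withDensity_eq_lintegral_mul _ hgm hF, s8_nu0_lintegral, ← mul_assoc, ← lintegral_const_mul _ hF]
    exact lintegral_mono fun x => mul_le_mul_left (hgle x) _

namespace Shape

variable (Sh : Shape)

/-- **balance of `P⁺` and `P⁻` under `ν`** (the signed integral under the harmonic-measure law, P1 proof of Prop 8.5). -/
theorem s8_weight_bal (hH : Sh.H ≠ ⊤) (cK CK : ℝ) (hcK : 0 < cK) :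
    ∃ C : ℝ, 0 < C ∧ ∀ (ω ν : Measure ℝ) (ka j : ℝ), Sh.s9k0 ≤ ka → ka + 1 ≤ j →
      S9Weight (Real.exp (-ka)) cK CK ω ν →
      Sh.s8Pp ν j ≤ ENNReal.ofReal C * (Sh.s8Pm ν j +
        ENNReal.ofReal (Real.exp (-j)) * ∫⁻ x, ENNReal.ofReal |Sh.s9P ⟨x, Sh.Hr - Real.exp (-ka)⟩| ∂ω +
        ENNReal.ofReal (Real.exp (-ka)) * Sh.s8P1 s8nu0 j) := by
  have hHr := Sh.s8_Hr_pos hH
  obtain ⟨hk01, hk02⟩ := Sh.s8_k0 hH
  have hp := Real.pi_pos
  set CH := 8 * Real.cosh (Sh.Hr / 2) / Sh.Hr ^ 2 with hCH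
  have hCH0 : 0 < CH := by
    have := Real.cosh_pos (Sh.Hr / 2)
    positivity
  set c := max CK 0 with hc
  have hc0 : 0 ≤ c := le_max_right _ _
  have hcc : ENNReal.ofReal CK = ENNReal.ofReal c := by
    rcases le_total 0 CK with h | h
    · rw [hc, max_eq_left h]
    · rw [hc, max_eq_right h, ENNReal.ofReal_of_nonpos h, ENNReal.ofReal_zero]
  set M := 4 * π * c with hM
  have hM0 : 0 ≤ M := by positivity
  set C := M * (24 / (2 * π * cK)) + M + M * CH + 1 with hC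
  refine ⟨C, by positivity, ?_⟩
  intro ω ν ka j hka hj hw
  have := hw.ω_prob
  have := s8_nu0_prob
  have hjk0 : Sh.s9k0 ≤ j := by linarith
  set da := Real.exp (-ka) with hda
  set dj := Real.exp (-j) with hdj
  have hda0 : 0 < da := Real.exp_pos _
  have hdj0 : 0 < dj := Real.exp_pos _
  have hdja : dj ≤ da / 2 := by
    have h1 : dj ≤ Real.exp (-1) * da := by
      rw [hdj, hda, ← Real.exp_add]
      apply Real.exp_le_exp.2
      linarith
    have h2 : Real.exp (-1) ≤ 1 / 2 := by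
      rw [Real.exp_neg, one_div]
      apply inv_anti₀ (by norm_num)
      have := Real.add_one_le_exp (1 : ℝ)
      linarith
    nlinarith
  have hdak : da ≤ Real.exp (-Sh.s9k0) := Real.exp_le_exp.2 (by linarith)
  have hda1 : da ≤ 1 := hdak.trans (by rw [Real.exp_le_one_iff]; linarith)
  have hdaH : da < Sh.Hr / 10 := lt_of_le_of_lt hdak hk02
  set ℓ := da - dj with hℓ
  have hℓ0 : 0 < ℓ := by rw [hℓ]; linarith
  have hPc : ∀ δ : ℝ, 0 < δ → δ < 2 * Sh.Hr → Continuous fun u : ℝ => Sh.s9P (Sh.s8pt u δ) := fun δ h1 h2 =>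
    Sh.s8_P_cont.comp_continuous (s8_cont_mk _) fun u => Sh.s8_pt_mem hH u δ h1 h2
  have hPj := hPc dj hdj0 (by linarith)
  have hPa := hPc da hda0 (by linarith)
  set pp : ℝ → ℝ≥0∞ := fun u => ENNReal.ofReal (dj * Sh.s9P (Sh.s8pt u dj)) with hpp
  set pm : ℝ → ℝ≥0∞ := fun u => ENNReal.ofReal (dj * -Sh.s9P (Sh.s8pt u dj)) with hpm
  have hppm : Measurable pp := (continuous_const.mul hPj).measurable.ennreal_ofReal
  have hpmm : Measurable pm := (continuous_const.mul hPj.neg).measurable.ennreal_ofReal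
  have hKm : Measurable fun p : ℝ × ℝ => ENNReal.ofReal (s8Pois ℓ (p.1 - p.2)) :=
    ((s8_pois_cont ℓ hℓ0).measurable.comp (measurable_fst.sub measurable_snd)).ennreal_ofReal
  have hKm' : Measurable fun p : ℝ × ℝ => ENNReal.ofReal (s8Pois ℓ (p.2 - p.1)) :=
    ((s8_pois_cont ℓ hℓ0).measurable.comp (measurable_snd.sub measurable_fst)).ennreal_ofReal
  set κ : ℝ → ℝ≥0∞ := fun u => ∫⁻ x', ENNReal.ofReal (s8Pois ℓ (x' - u)) ∂ω with hκ
  have hκm : Measurable κ := hKm'.lintegral_prod_right'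
  have hGm := s8_G_meas da ω
  have hker : ∀ u x' : ℝ, 1 / 2 * s9ker da (u - x') ≤ s8Pois ℓ (x' - u) ∧
      s8Pois ℓ (x' - u) ≤ 24 * s9ker da (u - x') := by
    intro u x'
    have := s8_pois_ker da ℓ (x' - u) hda0 hda1 (by rw [hℓ]; linarith) (by rw [hℓ]; linarith)
    rwa [← s8_ker_neg, neg_sub] at this
  have hκ1 : ∀ u, s8G da ω u ≤ 2 * κ u := by
    intro u
    rw [hκ]
    simp only
    rw [← lintegral_const_mul' _ _ (by norm_num)]
    refine lintegral_mono fun x' => ?_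
    rw [show (2 : ℝ≥0∞) = ENNReal.ofReal 2 by norm_num, ← ENNReal.ofReal_mul (by norm_num)]
    apply ENNReal.ofReal_le_ofReal
    linarith [(hker u x').1]
  have hκ2 : ∀ u, κ u ≤ 24 * s8G da ω u := by
    intro u
    unfold s8G
    rw [← lintegral_const_mul' _ _ (by norm_num)]
    refine lintegral_mono fun x' => ?_
    rw [show (24 : ℝ≥0∞) = ENNReal.ofReal 24 by norm_num, ← ENNReal.ofReal_mul (by norm_num)]
    exact ENNReal.ofReal_le_ofReal (hker u x').2
  have hton : ∀ p : ℝ → ℝ≥0∞, Measurable p →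
      ∫⁻ x', (∫⁻ u, ENNReal.ofReal (s8Pois ℓ (x' - u)) * p u ∂s8nu0) ∂ω = ∫⁻ u, κ u * p u ∂s8nu0 := by
    intro p hp
    rw [lintegral_lintegral_swap (f := fun x' u => ENNReal.ofReal (s8Pois ℓ (x' - u)) * p u)
      (hKm.mul (hp.comp measurable_snd)).aemeasurable]
    refine lintegral_congr fun u => ?_
    have hmu : Measurable fun x : ℝ => ENNReal.ofReal (s8Pois ℓ (x - u)) :=
      ((s8_pois_cont ℓ hℓ0).measurable.comp (measurable_id.sub_const u)).ennreal_ofReal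
    exact lintegral_mul_const _ hmu
  set T : ℝ≥0∞ := ENNReal.ofReal (Real.sinh (Sh.Hr - dj) / (Real.cosh (Sh.Hr - dj) - 1) * (ℓ / (Sh.Hr - dj))) *
    Sh.s8P1 s8nu0 j with hT
  set Aω : ℝ≥0∞ := ENNReal.ofReal dj * ∫⁻ x, ENNReal.ofReal |Sh.s9P (Sh.s8pt x da)| ∂ω with hAω
  have hint : ∫⁻ u, κ u * pp u ∂s8nu0 ≤ ∫⁻ u, κ u * pm u ∂s8nu0 + Aω + T := by
    rw [← hton pp hppm, ← hton pm hpmm]
    calc ∫⁻ x', (∫⁻ u, ENNReal.ofReal (s8Pois ℓ (x' - u)) * pp u ∂s8nu0) ∂ω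
        ≤ ∫⁻ x', (∫⁻ u, ENNReal.ofReal (s8Pois ℓ (x' - u)) * pm u ∂s8nu0 +
            ENNReal.ofReal dj * ENNReal.ofReal |Sh.s9P (Sh.s8pt x' da)| + T) ∂ω :=
          lintegral_mono fun x' => Sh.s8_hp_bal hH j da x' hjk0 (by linarith) (by linarith)
      _ = ∫⁻ x', (∫⁻ u, ENNReal.ofReal (s8Pois ℓ (x' - u)) * pm u ∂s8nu0) ∂ω + Aω + T := by
          rw [lintegral_add_right _ measurable_const,
            lintegral_add_right _ (hPa.abs.measurable.ennreal_ofReal.const_mul _), lintegral_const, measure_univ,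
            mul_one, lintegral_const_mul' _ _ ENNReal.ofReal_ne_top]
  have hTle : T ≤ ENNReal.ofReal CH * (ENNReal.ofReal da * Sh.s8P1 s8nu0 j) := by
    have h1 := s8hb_coth Sh.Hr (Sh.Hr - dj) ℓ hHr (by linarith) (by linarith) hℓ0.le
    have h2 : CH * ℓ ≤ CH * da := mul_le_mul_of_nonneg_left (by rw [hℓ]; linarith) hCH0.le
    rw [← mul_assoc, ← ENNReal.ofReal_mul hCH0.le]
    exact mul_le_mul_left (ENNReal.ofReal_le_ofReal (h1.trans h2)) _
  have hIco : ∀ F : ℝ → ℝ≥0∞, ∫⁻ x in Ico (0 : ℝ) (2 * π), F x = ENNReal.ofReal (2 * π) * ∫⁻ x, F x ∂s8nu0 := by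
    intro F
    rw [s8_nu0_lintegral, ← mul_assoc, ← ENNReal.ofReal_mul (by positivity), mul_inv_cancel₀ (by positivity),
      ENNReal.ofReal_one, one_mul]
  have hc0' : ENNReal.ofReal cK ≠ 0 := (ENNReal.ofReal_pos.2 hcK).ne'
  have hminus : ∫⁻ u, κ u * pm u ∂s8nu0 ≤ ENNReal.ofReal (24 / (2 * π * cK)) * Sh.s8Pm ν j := by
    have h1 := (s8_weight_lint da cK CK ω ν hw pm hpmm).1
    have h2 : ∫⁻ x in Ico (0 : ℝ) (2 * π), pm x * s8G da ω x ≤ (∫⁻ x, pm x ∂ν) / ENNReal.ofReal cK := by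
      rw [ENNReal.le_div_iff_mul_le (Or.inl hc0') (Or.inl ENNReal.ofReal_ne_top), mul_comm]
      exact h1
    calc ∫⁻ u, κ u * pm u ∂s8nu0 ≤ ∫⁻ u, 24 * (pm u * s8G da ω u) ∂s8nu0 :=
          lintegral_mono fun u => by
            calc κ u * pm u ≤ 24 * s8G da ω u * pm u := mul_le_mul_left (hκ2 u) _
              _ = 24 * (pm u * s8G da ω u) := by ring
      _ = 24 * (ENNReal.ofReal (2 * π)⁻¹ * ∫⁻ x in Ico (0 : ℝ) (2 * π), pm x * s8G da ω x) := by
          rw [lintegral_const_mul' _ _ (by norm_num), s8_nu0_lintegral]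
      _ ≤ 24 * (ENNReal.ofReal (2 * π)⁻¹ * ((∫⁻ x, pm x ∂ν) / ENNReal.ofReal cK)) :=
          mul_le_mul_right (mul_le_mul_right h2 _) _
      _ = ENNReal.ofReal (24 / (2 * π * cK)) * Sh.s8Pm ν j := by
          have e1 : ENNReal.ofReal (24 / (2 * π * cK)) =
              24 * (ENNReal.ofReal (2 * π)⁻¹ * (ENNReal.ofReal cK)⁻¹) := by
            rw [show (24 : ℝ≥0∞) = ENNReal.ofReal 24 by norm_num, ← ENNReal.ofReal_inv_of_pos hcK,
              ← ENNReal.ofReal_mul (by positivity), ← ENNReal.ofReal_mul (by norm_num)]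
            congr 1
            field_simp
          rw [e1, div_eq_mul_inv]
          unfold s8Pm
          ring
  have hplus : Sh.s8Pp ν j ≤ ENNReal.ofReal M * ∫⁻ u, κ u * pp u ∂s8nu0 := by
    have h1 := (s8_weight_lint da cK CK ω ν hw pp hppm).2
    rw [hcc] at h1
    calc Sh.s8Pp ν j ≤ ENNReal.ofReal c * ∫⁻ x in Ico (0 : ℝ) (2 * π), pp x * s8G da ω x := h1
      _ ≤ ENNReal.ofReal c * ∫⁻ x in Ico (0 : ℝ) (2 * π), 2 * (κ x * pp x) := by
          refine mul_le_mul_right (lintegral_mono fun x => ?_) _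
          calc pp x * s8G da ω x ≤ pp x * (2 * κ x) := mul_le_mul_right (hκ1 x) _
            _ = 2 * (κ x * pp x) := by ring
      _ = ENNReal.ofReal M * ∫⁻ u, κ u * pp u ∂s8nu0 := by
          rw [lintegral_const_mul' _ _ (by norm_num), hIco, show (2 : ℝ≥0∞) = ENNReal.ofReal 2 by norm_num,
            ← mul_assoc, ← mul_assoc, ← ENNReal.ofReal_mul hc0, ← ENNReal.ofReal_mul (by positivity)]
          congr 2
          rw [hM]
          ring
  set Bu : ℝ≥0∞ := ENNReal.ofReal da * Sh.s8P1 s8nu0 j with hBu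
  have hle : ∀ t : ℝ, t ≤ C → ENNReal.ofReal t ≤ ENNReal.ofReal C := fun t ht => ENNReal.ofReal_le_ofReal ht
  have hq0 : 0 ≤ 24 / (2 * π * cK) := by positivity
  calc Sh.s8Pp ν j ≤ ENNReal.ofReal M * ∫⁻ u, κ u * pp u ∂s8nu0 := hplus
    _ ≤ ENNReal.ofReal M * (ENNReal.ofReal (24 / (2 * π * cK)) * Sh.s8Pm ν j + Aω + ENNReal.ofReal CH * Bu) :=
        mul_le_mul_right (hint.trans (add_le_add (add_le_add hminus le_rfl) hTle)) _
    _ = ENNReal.ofReal (M * (24 / (2 * π * cK))) * Sh.s8Pm ν j + ENNReal.ofReal M * Aω +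
        ENNReal.ofReal (M * CH) * Bu := by
        rw [ENNReal.ofReal_mul hM0, ENNReal.ofReal_mul hM0]
        ring
    _ ≤ ENNReal.ofReal C * Sh.s8Pm ν j + ENNReal.ofReal C * Aω + ENNReal.ofReal C * Bu := by
        have h1 : 0 ≤ M * (24 / (2 * π * cK)) := by positivity
        have h2 : 0 ≤ M * CH := by positivity
        exact add_le_add (add_le_add (mul_le_mul_left (hle _ (by rw [hC]; linarith)) _)
          (mul_le_mul_left (hle _ (by rw [hC]; linarith)) _)) (mul_le_mul_left (hle _ (by rw [hC]; linarith)) _)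
    _ = ENNReal.ofReal C * (Sh.s8Pm ν j + Aω + Bu) := by ring

/-- **Proposition 8.5 (weighted bootstrap)** = `s9i_weighted_bootstrap` of S9/Imports.lean, verbatim. -/
theorem s8_weighted_bootstrap (hH : Sh.H ≠ ⊤) (ho : Sh.order = 1) (β a cK CK : ℝ)
    (hβ : 0 ≤ β) (hβ' : β < 1 / 2) (ha : 0 < a) (hcK : 0 < cK) (A : ℝ) (hA : 1 ≤ A) :
    ∃ A' : ℝ, 1 ≤ A' ∧ ∀ Can Cc : ℝ, ∃ C' ka₀ : ℝ, ∀ (K N₀ ka : ℝ) (ω ν : Measure ℝ), 1 ≤ N₀ → ka₀ ≤ ka →
      S9Weight (Real.exp (-ka)) cK CK ω ν →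
      (∀ l ≥ Sh.s9k0, Sh.μ l ≤ s9env N₀ β a K l) →
      (∀ j ∈ Icc Sh.s9k0 (ka + 3), Sh.s9TileL2 ν A' j (Cc * s9env N₀ β a K j)) →
      (∫⁻ x, ENNReal.ofReal |Sh.s9P ⟨x, Sh.Hr - Real.exp (-ka)⟩| ∂ω ≤
        ENNReal.ofReal (Can * s9env N₀ β a K ka ^ 2 / Real.exp (-ka))) →
      ∀ j ≥ Sh.s9k0, Sh.s9TileL2 ν A j (C' * s9env N₀ β a K j) := by
  obtain ⟨C₁, hC₁⟩ := Sh.s8_FM_of_mu hH β a hβ ha.le
  obtain ⟨ka₀, hka₀, hb⟩ := Sh.s8_boot hH β a C₁ hβ hβ' ha.le
  obtain ⟨A', hA', hb'⟩ := hb A hA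
  refine ⟨A', hA', ?_⟩
  intro Can Cc
  obtain ⟨Cu, CP₀, hCu, hCP₀, hunif⟩ := Sh.s8_boot_unif hH β a C₁ hβ hβ' ha.le 1 le_rfl
  obtain ⟨Cw, hCw, hbal⟩ := Sh.s8_weight_bal hH cK CK hcK
  obtain ⟨C', CP, hC', hCP, hmain⟩ :=
    hb' (fun A => CK / cK * (2 + 2 * A ^ 2)) (Cw * max 1 (max Can 0 + CP₀)) Cc
  refine ⟨C', ka₀, ?_⟩
  intro K N₀ ka ω ν hN₀ hka hw hμ hco han j hj
  have hN : S8Env β a (s9env N₀ β a K) := s8_env_s9env N₀ β a K hN₀ hβ ha.le
  have hFM := hC₁ _ hN hμ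
  have hFin := Sh.s8_fin_env hH ho N₀ β a K hN₀ hβ ha
  have hadm := s8_weight_adm ka cK CK hcK ω ν hw
  have hk0 := (Sh.s8_k0 hH).1
  have hCo : ∀ j ∈ Icc Sh.s9k0 (ka + 3),
      Sh.s8T2 ν A' j ≤ ENNReal.ofReal ((Cc * s9env N₀ β a K j) ^ 2) :=
    fun j hj => (Sh.s8_tileL2_iff hH ν A' j _).mp (hco j hj)
  have hBa : ∀ j ≥ ka + 1, Sh.s8Pp ν j ≤ ENNReal.ofReal (Cw * max 1 (max Can 0 + CP₀)) *
      (Sh.s8Pm ν j + ENNReal.ofReal (s9env N₀ β a K j ^ 2)) := by
    intro j hj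
    have hjk0 : Sh.s9k0 ≤ j := by linarith
    have h1 := hbal ω ν ka j (hka₀.trans hka) hj hw
    set Nj := s9env N₀ β a K j with hNj
    set Na := s9env N₀ β a K ka with hNa
    have hNj1 : 1 ≤ Nj := hN.one_le j
    have hNa1 : 1 ≤ Na := hN.one_le ka
    -- second term
    have h2 : ENNReal.ofReal (Real.exp (-j)) *
        ∫⁻ x, ENNReal.ofReal |Sh.s9P ⟨x, Sh.Hr - Real.exp (-ka)⟩| ∂ω ≤
        ENNReal.ofReal (max Can 0 * Nj ^ 2) := by
      calc ENNReal.ofReal (Real.exp (-j)) *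
            ∫⁻ x, ENNReal.ofReal |Sh.s9P ⟨x, Sh.Hr - Real.exp (-ka)⟩| ∂ω
          ≤ ENNReal.ofReal (Real.exp (-j)) * ENNReal.ofReal (Can * Na ^ 2 / Real.exp (-ka)) := by
            gcongr
        _ = ENNReal.ofReal (Real.exp (-j) * (Can * Na ^ 2 / Real.exp (-ka))) :=
            (ENNReal.ofReal_mul (Real.exp_pos _).le).symm
        _ ≤ ENNReal.ofReal (max Can 0 * Nj ^ 2) := by
            apply ENNReal.ofReal_le_ofReal
            have hback : Na ≤ Nj * Real.exp (β * (j - ka)) := hN.back ka j (by linarith)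
            have hsq : Na ^ 2 ≤ Nj ^ 2 * Real.exp (2 * β * (j - ka)) := by
              calc Na ^ 2 ≤ (Nj * Real.exp (β * (j - ka))) ^ 2 :=
                    pow_le_pow_left₀ (by linarith) hback 2
                _ = Nj ^ 2 * Real.exp (2 * β * (j - ka)) := by
                    rw [mul_pow, ← Real.exp_nat_mul]; push_cast; ring_nf
            have he : Real.exp (-j) / Real.exp (-ka) * Real.exp (2 * β * (j - ka)) ≤ 1 := by
              rw [← Real.exp_sub, ← Real.exp_add]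
              apply Real.exp_le_one_iff.mpr
              nlinarith
            have hpos : 0 ≤ Real.exp (-j) / Real.exp (-ka) := by positivity
            calc Real.exp (-j) * (Can * Na ^ 2 / Real.exp (-ka))
                = Can * (Real.exp (-j) / Real.exp (-ka) * Na ^ 2) := by ring
              _ ≤ max Can 0 * (Real.exp (-j) / Real.exp (-ka) * Na ^ 2) := by
                  gcongr
                  exact le_max_left _ _
              _ ≤ max Can 0 * (Real.exp (-j) / Real.exp (-ka) * (Nj ^ 2 * Real.exp (2 * β * (j - ka)))) := by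
                  gcongr
              _ = max Can 0 * (Nj ^ 2 * (Real.exp (-j) / Real.exp (-ka) * Real.exp (2 * β * (j - ka)))) := by
                  ring
              _ ≤ max Can 0 * (Nj ^ 2 * 1) := by
                  gcongr
              _ = max Can 0 * Nj ^ 2 := by ring
    -- third term
    have h3 : ENNReal.ofReal (Real.exp (-ka)) * Sh.s8P1 s8nu0 j ≤ ENNReal.ofReal (CP₀ * Nj ^ 2) := by
      have h4 := (hunif _ hN hFM hFin).2 j hjk0
      have h5 : ENNReal.ofReal (Real.exp (-ka)) ≤ 1 := by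
        rw [← ENNReal.ofReal_one]
        apply ENNReal.ofReal_le_ofReal
        apply Real.exp_le_one_iff.mpr
        linarith
      calc ENNReal.ofReal (Real.exp (-ka)) * Sh.s8P1 s8nu0 j ≤ 1 * ENNReal.ofReal (CP₀ * Nj ^ 2) := by
            gcongr
        _ = _ := one_mul _
    set Λ := max 1 (max Can 0 + CP₀) with hΛ
    have hΛ1 : 1 ≤ Λ := le_max_left _ _
    have hΛ1' : (1 : ℝ≥0∞) ≤ ENNReal.ofReal Λ := by
      rw [← ENNReal.ofReal_one]; exact ENNReal.ofReal_le_ofReal hΛ1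
    calc Sh.s8Pp ν j ≤ ENNReal.ofReal Cw * (Sh.s8Pm ν j +
          ENNReal.ofReal (Real.exp (-j)) * ∫⁻ x, ENNReal.ofReal |Sh.s9P ⟨x, Sh.Hr - Real.exp (-ka)⟩| ∂ω +
          ENNReal.ofReal (Real.exp (-ka)) * Sh.s8P1 s8nu0 j) := h1
      _ ≤ ENNReal.ofReal Cw * (Sh.s8Pm ν j + ENNReal.ofReal (max Can 0 * Nj ^ 2) +
          ENNReal.ofReal (CP₀ * Nj ^ 2)) := by
          gcongr
      _ = ENNReal.ofReal Cw * (Sh.s8Pm ν j + ENNReal.ofReal ((max Can 0 + CP₀) * Nj ^ 2)) := by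
          rw [add_assoc, ← ENNReal.ofReal_add (by positivity) (by positivity), add_mul]
      _ ≤ ENNReal.ofReal Cw * (ENNReal.ofReal Λ * Sh.s8Pm ν j + ENNReal.ofReal (Λ * Nj ^ 2)) := by
          gcongr
          · calc Sh.s8Pm ν j = 1 * Sh.s8Pm ν j := (one_mul _).symm
              _ ≤ ENNReal.ofReal Λ * Sh.s8Pm ν j := by gcongr
          · exact le_max_right _ _
      _ = ENNReal.ofReal (Cw * Λ) * (Sh.s8Pm ν j + ENNReal.ofReal (Nj ^ 2)) := by
          rw [ENNReal.ofReal_mul hCw.le, ENNReal.ofReal_mul (by linarith : (0:ℝ) ≤ Λ), mul_add, mul_add,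
            mul_assoc, mul_assoc]
  exact (Sh.s8_tileL2_iff hH ν A j _).mpr ((hmain _ ν ka hN hka hadm hFM hFin hCo hBa).1 j hj)

end Shape

end Claimed.Agent.R269
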