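/-
Row 269, P1 Section 8.4: **Proposition 8.8 (power saving for `μ_f`)**, by contraposition AT A FIXED PRECISION `m` (no sequences, no diagonal choices).   Blueprint: helper48.
LEAF PACKAGES (fill IN PLACE):
  LF-S8-pw-rec    : `s8_record_exists`                         (deterministic record selection, (8.33))
  LF-S8-pw-data   : `s8_record_data`                           ((8.34), (8.36): envelope of a record, event cost via `s8_conc`)
  LF-S8-pw-normal : `s8_normal_level`, `s8_normal_of_max`      ((8.37))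
  LF-S8-pw-coarse : `s8_term_coarse`, `s8_term_anchor`, `s8_cond`    ((8.28), (8.29) for a measure dominated by `c · s8nu0`)
  LF-S8-pw-chain  : `s8_f_upper`, `s8_q_chain`                 (disc chain (8.31) + log-deficit lemma)
  LF-S8-pw-q      : `s8_power_q`                               ((8.30))
  LF-S8-pw-num    : `s8_power_num`                             (HOST-FREE real asymptotics: choice of `θ_m`, `κ_m`)
  LF-S8-pw-term   : `s8_power_term`                            (assembly of one term)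
  LF-S8-pw-main   : `s8_power`                                 (Prop 8.8)
Black boxes: `Term.lean`, `Conc.lean`, `Weight.lean` (`s8_mkWeight`, `s8_weight_tail`), `Unif.lean`, `Global.lean`, `TileA/C.lean`, `BasicA/C.lean`, `LibLog.lean` (`s8_av_chain`), `s8i_log_deficit`.

Notation: `M1 = m + 1`, `ε = 1/M1`, `η = ε/2`, `d_j = e^{-j}`, `b = μ_f κ`, `N₀ = b + κ + 1`, `L = log (1+κ)`.

PROOFS.
* `s8_record_exists`.  `C = 1 + sup_{[k₀,U₀]} μ_f` (continuity `s8_muf_cont`, compactness).  Let `μ_f k₁ > C (1+k₁)^{1-θ} (≥ C)`.  `u` = a maximiser of `μ_f` on `[k₀,k₁]`; `μ_f u ≥ μ_f k₁ > C`, so `u > U₀`; and `μ_f u > C (1+k₁)^{1-θ} ≥ (1+u)^{1-θ}`.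
  `g(j) = μ_f j e^{-η (j-u)}` on `[u,∞)` is continuous, `g u > 0`, and `g j ≤ 2 C' e^{(η/2) j} e^{-η (j-u)} → 0` (`s8_muf_le_mu`, `s8_mu_le_rowMax`, `s8_subexp` with `ε = η/2`): a maximiser `κ ≥ u` exists (maximise on `[u,J]`, `g < g u` beyond `J`).
  Record: `j ≤ u`: `μ_f j ≤ μ_f u = g u ≤ g κ ≤ μ_f κ`; `u ≤ j ≤ κ`: `μ_f j = g j e^{η(j-u)} ≤ g κ e^{η(κ-u)} = μ_f κ`; `j ≥ κ`: `μ_f j ≤ g κ e^{η (j-u)} = μ_f κ e^{η(j-κ)}`.
  Size: `μ_f κ ≥ μ_f u e^{η(κ-u)} ≥ (1+u)^{1-θ} e^{η(κ-u)} ≥ (1+κ)^{1-θ}` since `log((1+κ)/(1+u)) ≤ (κ-u)/(1+u) ≤ η (κ-u)` (`1/η ≤ U₀ < u`) and `1 - θ ≤ 1`.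
* `s8_record_data`.  `C₁` from `s8_FM_record hH ho 0 1`; `Cμ` from `s8_mu_le hH 0 1 C₁`, `Cg` from `s8_global hH 1 C₁`, `ζ Cc k_c` from `s8_conc hH 0 1 C₁` (enlarge the constants to be `≥ 1`).  `N = s9env N₀ 0 η κ`, i.e. `N j = N₀ e^{η (j-κ)₊}`: `S8Env 0 η`, hence `S8Env 0 1` (`S8Env.mono`);
  `μ_f ≤ N` (record); `1 + l ≤ N l`: `l ≤ κ` clear, `l ≥ κ`: `1 + l ≤ (1+κ) e^{(l-κ)/(1+κ)} ≤ (1+κ) e^{η(l-κ)}`; `s8_fin_env`.  Third claim: `E = {b/2 ≤ d_κ ‖f‖}` is closed (`s8_row_cont_f`), periodic (`s8_f_per`);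
  `ofReal b² = ∫⁻ (d_κ‖f‖)² = ∫⁻_E + ∫⁻_{Eᶜ} ≤ ∫⁻_E (d_κ M)² + ofReal (b²/4)` (`s8_muf_sq`, `‖f‖ ≤ M`, probability measure), then `s8_conc`; `N κ = N₀`.
* `s8_normal_level`: `g(j) = μ j e^{-ε|j-κ|}` is continuous on `[k₀,∞)`, `≥ 0`, `→ 0` (`s8_mu_le_rowMax`, `s8_subexp` with `ε/2`).  If `g ≡ 0` take `k = κ`; otherwise maximise on a compact interval.   `s8_normal_of_max`: `|j-κ| ≤ |j-k| + |k-κ|`.
* `s8_term_coarse`.  `Cco A = 2 C_A`, `C_A` from `s8_T2_of_mu hH (1/4) 1 A` (`choose`; for `A < 1` anything).  `2ε ≤ β < 1/2` gives `ε < 1/4`.  `N = s9env (μ k) ε ε k` is `S8Env ε ε ⊆ S8Env (1/4) 1`, `μ ≤ N` is the normality (`ε (k-j)₊ + ε (j-k)₊ = ε |j-k|`).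
  `T2 ν A j ≤ c T2 s8nu0 A j ≤ c (2 C_A μ k e^{ε(k-j)})²` (`F = ofReal (T A j ·)²` measurable), `c ≤ e^{2ε(s-3)} ≤ e^{2ε(k-j)}` for `j ≤ k - s + 3`, and `e^{2ε(k-j)} ≤ e^{β(k-j)}`.  `s8_tileL2_iff`.
* `s8_term_anchor`.  For `β ∈ (0,1/2)`: `C₁` from `s8_FM_of_mu hH (β/2) 1`, `Can β = CP` from `s8_boot_unif hH (β/2) 1 C₁ .. 1` (`choose` over `β`).  `N = s9env (μ k) (β/2) 1 k ≥ μ` by normality (`ε ≤ β/2`, `ε ≤ 1`), `s8_fin_env`.
  `∫⁻ |P_a| dω ≤ c ∫⁻ |P_a| ∂s8nu0 = c e^{ka} P1 s8nu0 ka ≤ c CP (μ k)² e^{β s}/d_a` (`N ka = μ k e^{(β/2) s}`), `c ≤ e^{2εs} ≤ e^{βs}`.   (`x ↦ ofReal |P ⟨x, ..⟩|` is measurable: continuous, `s8_P_cont`.)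
* `s8_cond`: `ω = (s8nu0 E')⁻¹ • s8nu0.restrict E'` (= `ProbabilityTheory.cond`).
* `s8_f_upper`: `z` with `0 < Im z < Hr - e^{-l₁}` has depth `e^{-l}`, `l < l₁`; if `l ≥ k₀`: `‖f z‖ ≤ M z ≤ rowMax ≤ e^{l} R ≤ e^{l₁} R`; otherwise `|Im z| ≤ Hr - e^{-k₀}`: `M₀`.
* `s8_q_chain`.  `C = 8 C_ld`, `C_ld` from `s8i_log_deficit`.  `s8_av_chain` with `f = Sh.f`, `Ht = Hr`, `ylow = 0` (`{0 < Im < Hr - δmin} ⊆ D`) bounds `s8av f K z₁ (d₁/8)`, `d₁ = dep z₁`; `s8i_log_deficit` on `ball z₁ (d₁/8)` at its centre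
  (`ball ⊆ {0 < Im < Hr - δmin}`: depths in `[7d₁/8, 9d₁/8]`, `δmin < 3d₁/8`, `9 d₁/8 ≤ 9D/8 < Hr`; `f ≢ 0` on the ball by the identity theorem and `s8_f_real`).  The right side is finite: pass to `toReal`.
* `s8_power_q`.  Let `da = e^{-(k-s)}`, `E' = thickening d_κ E`, `Bad = {x | ∀ x' ∈ E', M1 da < s9per (x - x')}`: `ν Bad ≤ ofReal (2 (1/2)/M1)` (`s8_weight_tail`).  CLAIM: `{x | ∃ S ∈ s8K m, 1/M1 < ‖Q k x S‖} ⊆ Bad`.  Let `x ∉ Bad`: there are `x' ∈ E'` with `s9per (x-x') ≤ M1 da`,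
  `x₀' ∈ E` with `|x' - x₀'| < d_κ`, and `n : ℤ` with `|x - x' - 2πn| = s9per (x-x')`; `x₀ = x₀' + 2πn ∈ E` (periodicity), `|x - x₀| ≤ M1 da + d_κ`.  For `S ∈ s8K m`: `z₁ = x + i Hr + d_k S`, `dep z₁ = - d_k Im S ∈ [d_k/M1, M1 d_k]`, `z₀ = s8pt x₀ d_κ`,
  `D = da` (`d_κ ≤ da`, `M1 d_k ≤ da` because `s ≥ |k-κ| + log M1`; `2 da < Hr` since `k - s ≥ k₀`), `|Re z₀ - Re z₁| ≤ M1 da + d_κ + M1 d_k ≤ (M1 + 2) da`, `δmin = e^{-(max κ (k + log M1) + 1)} = e^{-1} min d_κ (d_k/M1) < (3/8) min ..`.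
  `s8_q_chain`: `dep z₁ √‖q z₁‖ ≤ Cq' (1 + exp(28 ((κ-k+s) + (s + log M1) + (M1+2) + 1)) (K - log ‖f z₀‖))`, `log ‖f z₀‖ ≥ κ + log (b/2)`.  Hence `d_k √‖q z₁‖ ≤ M1 · (..) ≤ μ k/√M1` by `hnum`, i.e. `‖Q k x S‖ = (d_k/μ k)² ‖q z₁‖ ≤ 1/M1`.
* `s8_power_num`: with `L = log(1+κ) → ∞`: `s ≤ a₀ + a₁ θ L`, `a₁ = M1 (2 + 2/ζ)`…; the exponential is `≤ C (1+κ)^{c θ}` with `c = 28 M1 (6 + 4/ζ)`; the last bracket is `≤ C (1 + L)`.  Take `θ = 1/(2(c+1))`: LHS `≤ C' (1+κ)^{cθ} (1+L) ≤ (1+κ)^{1/2} ≤ (1+κ)^{1-θ}` for large `κ`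
  (`Real.isLittleO_log_id_atTop`/`isLittleO_log_rpow_atTop`); first claim: `κ - 2 sh - .. ≥ κ - C (1 + L) ≥ K₁` for large `κ`.
* `s8_power_term`.  `Cco`, `Can` from `s8_term_coarse/anchor`; `ζ Cμ Cg Cc k₁` from `s8_record_data`; `Cq` from `s8_power_q`; `M₀` from `s8_f_upper`.  Given `m`: `θ κ'` from `s8_power_num m ζ Cμ Cg Cc Cq (max m k₀)`; `κm = max (max κ' k₁) (max (2 M1) (log M₀ ..))`.
  Let `κ ≥ κm` be a record with `b ≥ (1+κ)^{1-θ} (≥ 1)`.  Then `N₀ = b + κ + 1 ≤ 2 (1+κ)^θ b`.  `k` from `s8_normal_level (1/M1) κ`, `B = μ k`, `sh = |k-κ|`: `B e^{-ε sh} ≥ μ κ ≥ b` and `B ≤ Cμ N₀ e^{η sh}` give `e^{(ε/2) sh} ≤ 2 Cμ (1+κ)^θ`: bound of `sh`.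
  `σ = s8nu0 E'`: `σ^ζ ≥ (3/4) b²/(Cc N₀²) ≥ 3/(16 Cc (1+κ)^{2θ})`: `σ > 0` and `lam = log (1/σ.toReal)` is bounded as in `s8_power_num`.  `s = 3 + m + sh + log M1 + M1 lam`.  `ω` from `s8_cond`, `ν` from `s8_mkWeight` (`da ≤ 1`), both dominated by `c = e^{lam}`,
  `c ≤ e^{2ε(s-3)}` since `2ε M1 lam = 2 lam`.  `K = l₁ + log R`, `l₁ = max κ (k + log M1) + 1 ≤ κ + sh + log M1 + 1`, `R = Cg (1+l₁) N₀ e^{η (l₁-κ)}` (`s8_f_upper`; `e^{l₁} R ≥ M₀`), so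
  `K - κ - log (b/2) ≤ 2 (sh + log M1 + 1) + log (4 Cg (2 + κ + sh + log M1)(1+κ)^θ)`.  Fields of `S8Term`: `ka_ge`, `k_ge`, `s_ge` from the first claim of `s8_power_num`; `B_ge`: `B ≥ b ≥ M1^{3/2} ≥ m`; the rest from the lemmas.
* `s8_power`.  `s8_no_term` with `(1/π, 1/2, 1, Cco, Can)` gives `m`; `θ κm` from `s8_power_term`; `C` from `s8_record_exists` with `η = 1/(2 M1)`, `U₀ = max κm (max (2 M1) k₀)`.  If `μ_f k₁ > C (1+k₁)^{1-θ}` there is a record, hence a term: contradiction.  `ε₁ = θ`.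
-/
import Claimed.Agent.R269.S8.Term
import Claimed.Agent.R269.S8.Conc
import Claimed.Agent.R269.S8.Weight
import Claimed.Agent.R269.S8.LibLog

set_option autoImplicit false

namespace Claimed.Agent.R269

open Complex ComplexConjugate Filter Topology MeasureTheory Set Metric
open scoped ENNReal Real

/-- `κ` is a record level of `μ_f` with forward rate `η` (P1 (8.33)). -/
structure S8Rec (Sh : Shape) (η κ : ℝ) : Prop where
  past : ∀ j ∈ Icc Sh.s9k0 κ, Sh.μf j ≤ Sh.μf κ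
  fut : ∀ j ≥ κ, Sh.μf j ≤ Sh.μf κ * Real.exp (η * (j - κ))

/-- conditioning the uniform measure on a set of positive measure. -/
theorem s8_cond (E' : Set ℝ) (hE' : MeasurableSet E') (hpos : s8nu0 E' ≠ 0) :
    ∃ ω : Measure ℝ, IsProbabilityMeasure ω ∧ ω (Ico 0 (2 * π))ᶜ = 0 ∧ ω E'ᶜ = 0 ∧
      ∀ F : ℝ → ℝ≥0∞, Measurable F → ∫⁻ x, F x ∂ω ≤ (s8nu0 E')⁻¹ * ∫⁻ x, F x ∂s8nu0 := by
  have := s8_nu0_prob
  have hfin : s8nu0 E' ≠ ⊤ := measure_ne_top _ _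
  refine ⟨(s8nu0 E')⁻¹ • s8nu0.restrict E', ⟨?_⟩, ?_, ?_, ?_⟩
  · rw [Measure.smul_apply, Measure.restrict_apply MeasurableSet.univ, univ_inter, smul_eq_mul]
    exact ENNReal.inv_mul_cancel hpos hfin
  · rw [Measure.smul_apply, smul_eq_mul]
    have h1 : s8nu0 (Ico 0 (2 * π))ᶜ = 0 := by
      unfold s8nu0
      rw [Measure.smul_apply, Measure.restrict_apply measurableSet_Ico.compl]
      simp
    have h2 : s8nu0.restrict E' (Ico 0 (2 * π))ᶜ = 0 :=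
      le_antisymm ((Measure.restrict_apply_le _ _).trans h1.le) zero_le
    rw [h2, mul_zero]
  · rw [Measure.smul_apply, smul_eq_mul, Measure.restrict_apply hE'.compl]
    simp
  · intro F _
    rw [lintegral_smul_measure, smul_eq_mul]
    exact mul_le_mul' le_rfl (setLIntegral_le_lintegral _ _)

/-! #### helpers for `s8_power_num`, `s8_record_exists`, `s8_normal_level` (helper269; Mathlib only) -/

theorem s8_pn_claim1 {κ X L S p e K₁ : ℝ} (hX1 : 1 ≤ X) (hX4 : X ^ 4 = 1 + κ) (hLX : L ≤ 4 * X)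
    (hp0 : 0 ≤ p) (he : 0 ≤ e) (hS : S ≤ p * L + e) (hT : 4 * p + |K₁| + e + 1 ≤ X) : K₁ ≤ κ - S := by
  have h4 : p * L ≤ p * (4 * X) := mul_le_mul_of_nonneg_left hLX hp0
  have h5 : 0 ≤ (X - 1) * (X - 4 * p) :=
    mul_nonneg (by linarith) (by linarith [abs_nonneg K₁])
  have h6 : X ^ 2 ≤ X ^ 4 := pow_le_pow_right₀ hX1 (by norm_num)
  have h7 := le_abs_self K₁
  nlinarith

theorem s8_pn_claim2 {P Ex br Z ec d₀ q L X A₁ A₂ : ℝ} (hP : 0 < P) (hEx0 : 0 ≤ Ex) (hEx : Ex ≤ Z * ec)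
    (hZ : 1 ≤ Z) (hec : 0 < ec) (hbr : br ≤ q * L + d₀) (hq : 0 ≤ q) (hL0 : 0 ≤ L) (hd₀ : 0 ≤ d₀)
    (hLX : L ≤ 4 * X) (hX1 : 1 ≤ X) (hA₁ : A₁ = P * (1 + ec * d₀)) (hA₂ : A₂ = P * (ec * q))
    (hT : A₁ + 4 * A₂ ≤ X) : P * (1 + Ex * br) ≤ Z * X ^ 2 := by
  have hB0 : 0 ≤ q * L + d₀ := by positivity
  have h1 : Ex * br ≤ Z * ec * (q * L + d₀) :=
    (mul_le_mul_of_nonneg_left hbr hEx0).trans (mul_le_mul_of_nonneg_right hEx hB0)
  have h2 : 1 + Ex * br ≤ Z * (1 + ec * (q * L + d₀)) := by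
    have : 0 ≤ (Z - 1) := by linarith
    nlinarith
  have h3 : P * (1 + Ex * br) ≤ Z * (A₁ + A₂ * L) := by
    have := mul_le_mul_of_nonneg_left h2 hP.le
    rw [hA₁, hA₂]
    linarith
  have hA₁0 : 0 ≤ A₁ := by rw [hA₁]; positivity
  have hA₂0 : 0 ≤ A₂ := by rw [hA₂]; positivity
  have h4 : A₁ + A₂ * L ≤ X ^ 2 := by
    have h5 : A₂ * L ≤ A₂ * (4 * X) := mul_le_mul_of_nonneg_left hLX hA₂0
    have h6 : A₁ ≤ A₁ * X := by nlinarith
    have h7 : (A₁ + 4 * A₂) * X ≤ X * X := mul_le_mul_of_nonneg_right hT (by linarith)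
    nlinarith
  exact h3.trans (mul_le_mul_of_nonneg_left h4 (by linarith))

theorem s8_pn_br {M1 lM u Cg κ sh θ L : ℝ} (hM1 : 1 ≤ M1) (hlM : 0 ≤ lM) (hu : 0 ≤ u) (hCg : 1 ≤ Cg)
    (hκ1 : 1 ≤ κ) (hsh0 : 0 ≤ sh) (hL : L = Real.log (1 + κ)) (hθ0 : 0 < θ) (hθ1 : θ < 1)
    (hsh : sh ≤ 2 * M1 * (θ * L + u)) :
    2 * (sh + lM + 1) + Real.log (4 * Cg * (2 + κ + sh + lM) * (1 + κ) ^ θ) ≤
      (4 * M1 + 2) * L + (2 * (2 * M1 * u + lM + 1) + Real.log (4 * Cg) +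
        Real.log (2 + 2 * M1 + 2 * M1 * u + lM)) := by
  have hx : 0 < 1 + κ := by linarith
  have hL0 : 0 ≤ L := by rw [hL]; exact Real.log_nonneg (by linarith)
  have hLκ : L ≤ κ := by
    have := Real.log_le_sub_one_of_pos hx
    rw [hL]
    linarith
  have hθL : θ * L ≤ L := by
    have := mul_le_mul_of_nonneg_right hθ1.le hL0
    linarith
  have hM0 : 0 < M1 := by linarith
  have hsh' : sh ≤ 2 * M1 * L + 2 * M1 * u := by
    have := mul_le_mul_of_nonneg_left hθL (by positivity : 0 ≤ 2 * M1)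
    linarith
  have hMu : 0 ≤ M1 * u := by positivity
  have hG0 : 0 < 2 + 2 * M1 + 2 * M1 * u + lM := by positivity
  have h1 : 0 < 2 + κ + sh + lM := by positivity
  have h2 : 2 + κ + sh + lM ≤ (2 + 2 * M1 + 2 * M1 * u + lM) * (1 + κ) := by
    have a1 : 2 * M1 * L ≤ 2 * M1 * κ := mul_le_mul_of_nonneg_left hLκ (by positivity)
    have a2 : 0 ≤ M1 * u * κ := by positivity
    have a3 : 0 ≤ lM * κ := by positivity
    nlinarith
  have h3 := Real.log_le_log h1 h2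
  rw [Real.log_mul hG0.ne' hx.ne', ← hL] at h3
  rw [Real.log_mul (by positivity) (by positivity), Real.log_mul (by positivity) h1.ne',
    Real.log_rpow hx, ← hL]
  linarith

theorem s8_pn_exp {M1 mm lM u w ζi sh lam t : ℝ} (hM1 : 1 ≤ M1)
    (hsh : sh ≤ 2 * M1 * (t + u)) (hlam : lam ≤ ζi * (2 * t + w)) :
    28 * (2 * (3 + mm + sh + lM + M1 * lam) + sh + lM + M1 + 3) ≤
      28 * M1 * (6 + 4 * ζi) * t +
        28 * (6 * M1 * u + 2 * M1 * (ζi * w) + 2 * (3 + mm) + 3 * lM + M1 + 3) := by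
  have h1 := mul_le_mul_of_nonneg_left hlam (by linarith : 0 ≤ M1)
  linarith

/-- core of `s8_power_num` after renaming the constants. -/
theorem s8_power_num_core (M1 mm lM u w P ζ Cg K₁ : ℝ) (hM1 : 1 ≤ M1) (hmm : 0 ≤ mm) (hlM : 0 ≤ lM)
    (hu : 0 ≤ u) (hw : 0 ≤ w) (hP : 0 < P) (hζ : 0 < ζ) (hCg : 1 ≤ Cg) :
    ∃ θ κm : ℝ, 0 < θ ∧ θ < 1 ∧ 1 ≤ κm ∧ ∀ κ sh lam : ℝ, κm ≤ κ → 0 ≤ sh →
      sh ≤ 2 * M1 * (θ * Real.log (1 + κ) + u) → 0 ≤ lam →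
      lam ≤ 1 / ζ * (2 * θ * Real.log (1 + κ) + w) →
      K₁ ≤ κ - sh - (3 + mm + sh + lM + M1 * lam) ∧
      P * (1 +
        Real.exp (28 * (2 * (3 + mm + sh + lM + M1 * lam) + sh + lM + M1 + 3)) *
        (2 * (sh + lM + 1) +
          Real.log (4 * Cg * (2 + κ + sh + lM) * (1 + κ) ^ θ))) ≤ (1 + κ) ^ (1 - θ) := by
  have hM0 : 0 < M1 := by linarith
  have hζi : 0 < 1 / ζ := by positivity
  generalize 1 / ζ = ζi at hζi ⊢
  obtain ⟨c, hc⟩ : ∃ c : ℝ, c = 28 * M1 * (6 + 4 * ζi) := ⟨_, rfl⟩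
  have hc0 : 0 < c := by rw [hc]; positivity
  obtain ⟨θ, hθ⟩ : ∃ θ : ℝ, θ = 1 / (2 * (c + 1)) := ⟨_, rfl⟩
  have hθ0 : 0 < θ := by rw [hθ]; positivity
  have hθc : (c + 1) * θ = 1 / 2 := by rw [hθ]; field_simp
  have hθ1 : θ < 1 := by
    have : θ ≤ (c + 1) * θ := by nlinarith only [hc0, hθ0]
    linarith only [this, hθc]
  obtain ⟨c₁, hc₁⟩ : ∃ c₁ : ℝ,
    c₁ = 28 * (6 * M1 * u + 2 * M1 * (ζi * w) + 2 * (3 + mm) + 3 * lM + M1 + 3) := ⟨_, rfl⟩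
  have hMu : 0 ≤ M1 * u := by positivity
  have hG1 : 1 ≤ 2 + 2 * M1 + 2 * M1 * u + lM := by linarith only [hM0, hMu, hlM]
  obtain ⟨d₀, hd₀⟩ : ∃ d₀ : ℝ, d₀ = 2 * (2 * M1 * u + lM + 1) + Real.log (4 * Cg) +
    Real.log (2 + 2 * M1 + 2 * M1 * u + lM) := ⟨_, rfl⟩
  have hd₀0 : 0 ≤ d₀ := by
    have h1 : 0 ≤ Real.log (4 * Cg) := Real.log_nonneg (by linarith only [hCg])
    have h2 : 0 ≤ Real.log (2 + 2 * M1 + 2 * M1 * u + lM) := Real.log_nonneg hG1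
    linarith only [hd₀, h1, h2, hMu, hlM]
  obtain ⟨p, hp⟩ : ∃ p : ℝ, p = 4 * M1 + 2 * M1 * ζi := ⟨_, rfl⟩
  have hp0 : 0 ≤ p := by rw [hp]; positivity
  obtain ⟨e₀, he₀⟩ : ∃ e₀ : ℝ, e₀ = 4 * M1 * u + M1 * (ζi * w) + 3 + mm + lM := ⟨_, rfl⟩
  have he₀0 : 0 ≤ e₀ := by rw [he₀]; positivity
  obtain ⟨T, hT1, hT2⟩ : ∃ T : ℝ, 4 * p + |K₁| + e₀ + 1 ≤ T ∧
      P * (1 + Real.exp c₁ * d₀) + 4 * (P * (Real.exp c₁ * (4 * M1 + 2))) ≤ T :=
    ⟨_, le_max_left _ _, le_max_right _ _⟩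
  have hTge : 1 ≤ T := by linarith only [abs_nonneg K₁, hT1, hp0, he₀0]
  refine ⟨θ, T ^ 4, hθ0, hθ1, one_le_pow₀ hTge, ?_⟩
  intro κ sh lam hκ hsh0 hsh hlam0 hlam
  have hκ1 : 1 ≤ κ := (one_le_pow₀ hTge).trans hκ
  have hx : 0 < 1 + κ := by linarith only [hκ1]
  obtain ⟨X, hX⟩ : ∃ X : ℝ, X = (1 + κ) ^ (1 / 4 : ℝ) := ⟨_, rfl⟩
  have hX0 : 0 < X := by rw [hX]; positivity
  have hX4 : X ^ 4 = 1 + κ := by
    rw [hX, ← Real.rpow_natCast, ← Real.rpow_mul hx.le]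
    norm_num
  have hX2 : X ^ 2 = (1 + κ) ^ (1 / 2 : ℝ) := by
    rw [hX, ← Real.rpow_natCast, ← Real.rpow_mul hx.le]
    norm_num
  have hXT : T ≤ X := by
    have h1 : T ^ 4 ≤ X ^ 4 := by rw [hX4]; linarith only [hκ]
    exact (pow_le_pow_iff_left₀ (by linarith only [hTge]) hX0.le (by norm_num)).1 h1
  have hX1 : 1 ≤ X := hTge.trans hXT
  obtain ⟨L, hL⟩ : ∃ L : ℝ, L = Real.log (1 + κ) := ⟨_, rfl⟩
  rw [← hL] at hsh hlam
  have hL0 : 0 ≤ L := by rw [hL]; exact Real.log_nonneg (by linarith only [hκ1])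
  have hLX : L ≤ 4 * X := by
    have := Real.log_le_rpow_div hx.le (by norm_num : (0 : ℝ) < 1 / 4)
    rw [hL, hX]
    linarith only [this]
  have hθL : θ * L ≤ L := by
    have := mul_le_mul_of_nonneg_right hθ1.le hL0
    linarith only [this]
  constructor
  · have h1 : 2 * M1 * (θ * L) ≤ 2 * M1 * L := mul_le_mul_of_nonneg_left hθL (by positivity)
    have h2 : 2 * M1 * ζi * (θ * L) ≤ 2 * M1 * ζi * L := mul_le_mul_of_nonneg_left hθL (by positivity)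
    have h3 := mul_le_mul_of_nonneg_left hlam hM0.le
    have h4 : sh + (3 + mm + sh + lM + M1 * lam) ≤ p * L + e₀ := by
      rw [hp, he₀]
      linarith only [h1, h2, h3, hsh]
    have h5 := s8_pn_claim1 hX1 hX4 hLX hp0 he₀0 h4 (hT1.trans hXT)
    linarith only [h5]
  · have hlam' : lam ≤ ζi * (2 * (θ * L) + w) := by
      have e : 2 * θ * L = 2 * (θ * L) := by ring
      rw [← e]
      exact hlam
    have hE := s8_pn_exp (mm := mm) (lM := lM) hM1 hsh hlam'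
    rw [← hc, ← hc₁] at hE
    have hZ : Real.exp (c * (θ * L)) = (1 + κ) ^ (c * θ) := by
      rw [Real.rpow_def_of_pos hx, hL]
      congr 1
      ring
    have hEx : Real.exp (28 * (2 * (3 + mm + sh + lM + M1 * lam) + sh + lM + M1 + 3))
        ≤ (1 + κ) ^ (c * θ) * Real.exp c₁ := by
      rw [← hZ, ← Real.exp_add]
      exact Real.exp_le_exp.2 hE
    have hbr := s8_pn_br hM1 hlM hu hCg hκ1 hsh0 hL hθ0 hθ1 hsh
    rw [← hd₀] at hbr
    have hZ1 : 1 ≤ (1 + κ) ^ (c * θ) := Real.one_le_rpow (by linarith only [hκ1]) (by positivity)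
    have h := s8_pn_claim2 hP (Real.exp_pos _).le hEx hZ1 (Real.exp_pos c₁) hbr (by positivity) hL0 hd₀0
      hLX hX1 rfl rfl (hT2.trans hXT)
    refine h.trans (le_of_eq ?_)
    rw [hX2, ← Real.rpow_add hx]
    congr 1
    linarith only [hθc]

/-- a nonnegative continuous function on a half line with exponential decay attains its maximum. -/
theorem s8_exists_max_of_decay {a C c : ℝ} {g : ℝ → ℝ} (hg : ContinuousOn g (Ici a))
    (h0 : ∀ j ≥ a, 0 ≤ g j) (hc : 0 < c) (hC : 0 < C) (hdec : ∀ j ≥ a, g j ≤ C * Real.exp (-(c * j))) :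
    ∃ k ≥ a, ∀ j ≥ a, g j ≤ g k := by
  by_cases h : ∃ x₀ ≥ a, 0 < g x₀
  · obtain ⟨x₀, hx₀, hpos⟩ := h
    obtain ⟨J, hJ⟩ : ∃ J : ℝ, J = max x₀ (1 / c * Real.log (C / g x₀)) := ⟨_, rfl⟩
    have hJ1 : x₀ ≤ J := by rw [hJ]; exact le_max_left _ _
    have hJ2 : 1 / c * Real.log (C / g x₀) ≤ J := by rw [hJ]; exact le_max_right _ _
    have haJ : a ≤ J := hx₀.trans hJ1
    obtain ⟨k, hk, hmax⟩ := (isCompact_Icc (a := a) (b := J)).exists_isMaxOn ⟨a, le_rfl, haJ⟩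
      (hg.mono fun x hx => hx.1)
    refine ⟨k, hk.1, fun j hj => ?_⟩
    rcases le_total j J with hjJ | hjJ
    · exact hmax ⟨hj, hjJ⟩
    · have h1 : g x₀ ≤ g k := hmax ⟨hx₀, hJ1⟩
      refine le_trans ?_ h1
      refine (hdec j hj).trans ?_
      have h2 : Real.log (C / g x₀) ≤ c * j := by
        rw [one_div, inv_mul_le_iff₀ hc] at hJ2
        have := mul_le_mul_of_nonneg_left hjJ hc.le
        linarith
      have h3 : C / g x₀ ≤ Real.exp (c * j) := (Real.log_le_iff_le_exp (by positivity)).1 h2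
      rw [Real.exp_neg, ← div_eq_mul_inv, div_le_iff₀ (Real.exp_pos _)]
      rw [div_le_iff₀ hpos] at h3
      linarith
  · push Not at h
    exact ⟨a, le_rfl, fun j hj => (h j hj).trans (h0 a le_rfl)⟩

/-- abstract form of `s8_normal_level`. -/
theorem s8_normal_level_abs {k₀ : ℝ} {F : ℝ → ℝ} (hF : ContinuousOn F (Ici k₀)) (h0 : ∀ j, 0 ≤ F j)
    (hsub : ∀ ε : ℝ, 0 < ε → ∃ C : ℝ, 0 < C ∧ ∀ k ≥ k₀, F k ≤ C * Real.exp (ε * k))
    (ε κ : ℝ) (hε : 0 < ε) :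
    ∃ k ≥ k₀, ∀ j ≥ k₀, F j * Real.exp (-(ε * |j - κ|)) ≤ F k * Real.exp (-(ε * |k - κ|)) := by
  obtain ⟨C, hC, hb⟩ := hsub (ε / 2) (by positivity)
  refine s8_exists_max_of_decay (g := fun j => F j * Real.exp (-(ε * |j - κ|))) (c := ε / 2)
    (C := C * Real.exp (ε * κ)) ?_ (fun j _ => mul_nonneg (h0 j) (Real.exp_pos _).le) (by positivity)
    (by positivity) ?_
  · exact hF.mul (Continuous.continuousOn (by fun_prop))
  · intro j hj
    have h1 : Real.exp (-(ε * |j - κ|)) ≤ Real.exp (-(ε * (j - κ))) := by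
      apply Real.exp_le_exp.2
      have := mul_le_mul_of_nonneg_left (le_abs_self (j - κ)) hε.le
      linarith
    calc F j * Real.exp (-(ε * |j - κ|)) ≤ (C * Real.exp (ε / 2 * j)) * Real.exp (-(ε * (j - κ))) :=
          mul_le_mul (hb j hj) h1 (Real.exp_pos _).le (by positivity)
      _ = C * Real.exp (ε * κ) * Real.exp (-(ε / 2 * j)) := by
          rw [mul_assoc, mul_assoc, ← Real.exp_add, ← Real.exp_add]
          congr 2
          ring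

/-- abstract form of `s8_record_exists`. -/
theorem s8_record_exists_abs {k₀ : ℝ} {F : ℝ → ℝ} (hk₀ : 0 ≤ k₀) (hF : ContinuousOn F (Ici k₀))
    (h0 : ∀ j, 0 ≤ F j)
    (hsub : ∀ ε : ℝ, 0 < ε → ∃ C : ℝ, 0 < C ∧ ∀ k ≥ k₀, F k ≤ C * Real.exp (ε * k))
    (η θ U₀ : ℝ) (hη : 0 < η) (hθ : 0 < θ) (hθ' : θ < 1) (hU₀ : k₀ ≤ U₀) (hU₀' : 1 / η ≤ U₀) :
    ∃ C : ℝ, 0 < C ∧ ∀ k₁ ≥ k₀, C * (1 + k₁) ^ (1 - θ) < F k₁ →
      ∃ κ ≥ U₀, (∀ j ∈ Icc k₀ κ, F j ≤ F κ) ∧ (∀ j ≥ κ, F j ≤ F κ * Real.exp (η * (j - κ))) ∧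
        (1 + κ) ^ (1 - θ) ≤ F κ := by
  obtain ⟨B, hB⟩ := (isCompact_Icc (a := k₀) (b := U₀)).exists_bound_of_continuousOn
    (hF.mono fun x hx => hx.1)
  have hB0 : 0 ≤ B := (norm_nonneg _).trans (hB k₀ ⟨le_rfl, hU₀⟩)
  refine ⟨1 + B, by linarith, fun k₁ hk₁ hbig => ?_⟩
  have hθ1 : 0 < 1 - θ := by linarith
  have hk₁0 : 0 ≤ k₁ := hk₀.trans hk₁
  have hp1 : 1 ≤ (1 + k₁) ^ (1 - θ) := Real.one_le_rpow (by linarith) hθ1.le
  have hFk₁ : 1 + B < F k₁ := by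
    have : (1 + B) * 1 ≤ (1 + B) * (1 + k₁) ^ (1 - θ) := mul_le_mul_of_nonneg_left hp1 (by linarith)
    linarith
  obtain ⟨u, hu, humax⟩ := (isCompact_Icc (a := k₀) (b := k₁)).exists_isMaxOn ⟨k₀, le_rfl, hk₁⟩
    (hF.mono fun x hx => hx.1)
  have hFu : F k₁ ≤ F u := humax ⟨hk₁, le_rfl⟩
  have huU : U₀ < u := by
    by_contra hcon
    have h1 := hB u ⟨hu.1, not_lt.1 hcon⟩
    rw [Real.norm_eq_abs] at h1
    have := le_abs_self (F u)
    linarith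
  have hu0 : 0 ≤ u := hk₀.trans hu.1
  have hFu' : (1 + u) ^ (1 - θ) ≤ F u := by
    have h1 : (1 + u) ^ (1 - θ) ≤ (1 + k₁) ^ (1 - θ) :=
      Real.rpow_le_rpow (by linarith) (by linarith [hu.2]) hθ1.le
    have h2 : 1 * (1 + k₁) ^ (1 - θ) ≤ (1 + B) * (1 + k₁) ^ (1 - θ) :=
      mul_le_mul_of_nonneg_right (by linarith) (by linarith)
    linarith
  -- the second maximiser
  obtain ⟨C', hC', hb⟩ := hsub (η / 2) (by positivity)
  obtain ⟨κ, hκu, hκmax⟩ := s8_exists_max_of_decay (a := u) (g := fun j => F j * Real.exp (-(η * (j - u))))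
    (c := η / 2) (C := C' * Real.exp (η * u))
    ((hF.mono fun x (hx : u ≤ x) => hu.1.trans hx).mul (Continuous.continuousOn (by fun_prop)))
    (fun j _ => mul_nonneg (h0 j) (Real.exp_pos _).le) (by positivity) (by positivity) (by
      intro j hj
      calc F j * Real.exp (-(η * (j - u))) ≤ (C' * Real.exp (η / 2 * j)) * Real.exp (-(η * (j - u))) :=
            mul_le_mul_of_nonneg_right (hb j (hu.1.trans hj)) (Real.exp_pos _).le
        _ = C' * Real.exp (η * u) * Real.exp (-(η / 2 * j)) := by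
            rw [mul_assoc, mul_assoc, ← Real.exp_add, ← Real.exp_add]
            congr 2
            ring)
  have hκu' : u ≤ κ := hκu
  -- `F j ≤ F κ e^{η (j - κ)}` for `j ≥ u`
  have key : ∀ j ≥ u, F j ≤ F κ * Real.exp (η * (j - κ)) := by
    intro j hj
    have h1 := mul_le_mul_of_nonneg_right (hκmax j hj) (Real.exp_pos (η * (j - u))).le
    rw [mul_assoc, mul_assoc, ← Real.exp_add, ← Real.exp_add] at h1
    have e1 : -(η * (j - u)) + η * (j - u) = 0 := by ring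
    have e2 : -(η * (κ - u)) + η * (j - u) = η * (j - κ) := by ring
    rwa [e1, e2, Real.exp_zero, mul_one] at h1
  have hle1 : ∀ j, j ≤ κ → F κ * Real.exp (η * (j - κ)) ≤ F κ := by
    intro j hj
    have h1 : Real.exp (η * (j - κ)) ≤ 1 := by
      rw [Real.exp_le_one_iff]
      exact mul_nonpos_of_nonneg_of_nonpos hη.le (by linarith)
    have := mul_le_mul_of_nonneg_left h1 (h0 κ)
    linarith
  refine ⟨κ, huU.le.trans hκu', ?_, fun j hj => key j (hκu'.trans hj), ?_⟩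
  · intro j hj
    rcases le_total j u with hju | hju
    · exact (humax ⟨hj.1, hju.trans hu.2⟩).trans ((key u le_rfl).trans (hle1 u hκu'))
    · exact (key j hju).trans (hle1 j hj.2)
  · -- size
    have h1 := key u le_rfl
    have h2 : F u * Real.exp (η * (κ - u)) ≤ F κ := by
      have := mul_le_mul_of_nonneg_right h1 (Real.exp_pos (η * (κ - u))).le
      rw [mul_assoc, ← Real.exp_add] at this
      have e : η * (u - κ) + η * (κ - u) = 0 := by ring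
      rwa [e, Real.exp_zero, mul_one] at this
    refine le_trans ?_ h2
    have hu1 : 0 < 1 + u := by linarith
    have hκ1 : 0 < 1 + κ := by linarith
    have hr1 : 1 ≤ (1 + κ) / (1 + u) := by
      rw [le_div_iff₀ hu1]
      linarith
    have h3 : (1 + κ) ^ (1 - θ) = (1 + u) ^ (1 - θ) * ((1 + κ) / (1 + u)) ^ (1 - θ) := by
      rw [← Real.mul_rpow hu1.le (by positivity)]
      congr 1
      field_simp
    have h4 : ((1 + κ) / (1 + u)) ^ (1 - θ) ≤ (1 + κ) / (1 + u) := by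
      calc ((1 + κ) / (1 + u)) ^ (1 - θ) ≤ ((1 + κ) / (1 + u)) ^ (1 : ℝ) :=
            Real.rpow_le_rpow_of_exponent_le hr1 (by linarith)
        _ = _ := Real.rpow_one _
    have h5 : (1 + κ) / (1 + u) ≤ Real.exp (η * (κ - u)) := by
      have h6 : (1 + κ) / (1 + u) = (κ - u) / (1 + u) + 1 := by
        field_simp
        ring
      have h7 : (κ - u) / (1 + u) ≤ η * (κ - u) := by
        rw [div_le_iff₀ hu1]
        have h8 : 1 ≤ η * (1 + u) := by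
          rw [div_le_iff₀ hη] at hU₀'
          nlinarith
        have := mul_le_mul_of_nonneg_right h8 (by linarith : 0 ≤ κ - u)
        linarith
      rw [h6]
      exact (by linarith : (κ - u) / (1 + u) + 1 ≤ η * (κ - u) + 1).trans (Real.add_one_le_exp _)
    rw [h3]
    exact mul_le_mul hFu' (h4.trans h5) (by positivity) (h0 u)

theorem s8_pt_N0 {κ θ b : ℝ} (hκ : 0 ≤ κ) (hθ : 0 < θ) (hθ' : θ < 1) (hb : (1 + κ) ^ (1 - θ) ≤ b) :
    1 ≤ b ∧ b + κ + 1 ≤ 2 * (1 + κ) ^ θ * b := by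
  have hx : 0 < 1 + κ := by linarith
  have h1 : 1 ≤ (1 + κ) ^ (1 - θ) := Real.one_le_rpow (by linarith) (by linarith)
  have h2 : 1 ≤ (1 + κ) ^ θ := Real.one_le_rpow (by linarith) hθ.le
  have h3 : (1 + κ) ^ θ * (1 + κ) ^ (1 - θ) = 1 + κ := by
    rw [← Real.rpow_add hx]
    simp
  have hb1 : 1 ≤ b := h1.trans hb
  refine ⟨hb1, ?_⟩
  have h4 : (1 + κ) ^ θ * (1 + κ) ^ (1 - θ) ≤ (1 + κ) ^ θ * b :=
    mul_le_mul_of_nonneg_left hb (by positivity)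
  have h5 : 1 * b ≤ (1 + κ) ^ θ * b := mul_le_mul_of_nonneg_right h2 (by linarith)
  linarith

theorem s8_pt_sh {M1 b B Cμ N₀ Y sh : ℝ} (hM1 : 0 < M1) (hb : 0 < b) (hCμ : 1 ≤ Cμ) (hY : 0 < Y)
    (h1 : b ≤ B * Real.exp (-(1 / M1 * sh))) (h2 : B ≤ Cμ * N₀ * Real.exp (1 / (2 * M1) * sh))
    (h3 : N₀ ≤ 2 * Y * b) : sh ≤ 2 * M1 * (Real.log Y + Real.log (2 * Cμ)) := by
  have hCμ0 : 0 < Cμ := by linarith
  have e1 : b * Real.exp (1 / M1 * sh) ≤ B := by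
    have := mul_le_mul_of_nonneg_right h1 (Real.exp_pos (1 / M1 * sh)).le
    rwa [mul_assoc, ← Real.exp_add, neg_add_cancel, Real.exp_zero, mul_one] at this
  have e2 : Cμ * N₀ * Real.exp (1 / (2 * M1) * sh) ≤ Cμ * (2 * Y * b) * Real.exp (1 / (2 * M1) * sh) :=
    mul_le_mul_of_nonneg_right (mul_le_mul_of_nonneg_left h3 hCμ0.le) (Real.exp_pos _).le
  have e3 : Real.exp (1 / M1 * sh) ≤ (2 * Cμ * Y) * Real.exp (1 / (2 * M1) * sh) := by
    have : b * Real.exp (1 / M1 * sh) ≤ b * ((2 * Cμ * Y) * Real.exp (1 / (2 * M1) * sh)) := by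
      calc b * Real.exp (1 / M1 * sh) ≤ Cμ * (2 * Y * b) * Real.exp (1 / (2 * M1) * sh) :=
            e1.trans (h2.trans e2)
        _ = _ := by ring
    exact le_of_mul_le_mul_left this hb
  have e4 := Real.log_le_log (Real.exp_pos _) e3
  rw [Real.log_exp, Real.log_mul (by positivity) (Real.exp_pos _).ne', Real.log_exp,
    Real.log_mul (by positivity) hY.ne'] at e4
  have e5 : 1 / M1 * sh - 1 / (2 * M1) * sh = sh / (2 * M1) := by
    field_simp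
    ring
  have e6 : sh / (2 * M1) ≤ Real.log Y + Real.log (2 * Cμ) := by linarith
  rw [div_le_iff₀ (by positivity)] at e6
  linarith

theorem s8_pt_lam {σ : ℝ≥0∞} {ζ b Cc N₀ Y : ℝ} (hσ1 : σ ≤ 1) (hζ : 0 < ζ) (hb : 0 < b) (hCc : 1 ≤ Cc)
    (hY : 0 < Y) (hN0 : 0 ≤ N₀) (h3 : N₀ ≤ 2 * Y * b)
    (h : ENNReal.ofReal (3 / 4 * b ^ 2) ≤ ENNReal.ofReal (Cc * N₀ ^ 2) * σ ^ ζ) :
    σ ≠ 0 ∧ σ ≠ ⊤ ∧ 0 ≤ Real.log (1 / σ.toReal) ∧
      Real.log (1 / σ.toReal) ≤ 1 / ζ * (2 * Real.log Y + Real.log (16 * Cc / 3)) := by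
  have hCc0 : 0 < Cc := by linarith
  have hσ0 : σ ≠ 0 := by
    rintro rfl
    rw [ENNReal.zero_rpow_of_pos hζ, mul_zero] at h
    have : 0 < ENNReal.ofReal (3 / 4 * b ^ 2) := ENNReal.ofReal_pos.2 (by positivity)
    exact absurd h (not_le.2 this)
  have hσt : σ ≠ ⊤ := ne_top_of_le_ne_top ENNReal.one_ne_top hσ1
  have ht0 : 0 < σ.toReal := ENNReal.toReal_pos hσ0 hσt
  have ht1 : σ.toReal ≤ 1 := by
    have := ENNReal.toReal_mono ENNReal.one_ne_top hσ1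
    simpa using this
  have hσ : σ = ENNReal.ofReal σ.toReal := (ENNReal.ofReal_toReal hσt).symm
  rw [hσ, ENNReal.ofReal_rpow_of_pos ht0, ← ENNReal.ofReal_mul (by positivity),
    ENNReal.ofReal_le_ofReal_iff (by positivity)] at h
  refine ⟨hσ0, hσt, ?_, ?_⟩
  · exact Real.log_nonneg ((one_le_div ht0).2 ht1)
  generalize σ.toReal = t at ht0 ht1 h
  have hN2 : N₀ ^ 2 ≤ (2 * Y * b) ^ 2 := pow_le_pow_left₀ hN0 h3 2
  have htζ : 0 < t ^ ζ := Real.rpow_pos_of_pos ht0 ζ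
  have h4 : 3 / 4 * b ^ 2 ≤ Cc * (2 * Y * b) ^ 2 * t ^ ζ :=
    h.trans (mul_le_mul_of_nonneg_right (mul_le_mul_of_nonneg_left hN2 hCc0.le) htζ.le)
  have h5 : 1 ≤ 16 * Cc / 3 * Y ^ 2 * t ^ ζ := by
    have h6 : b ^ 2 * 1 ≤ b ^ 2 * (16 * Cc / 3 * Y ^ 2 * t ^ ζ) := by nlinarith
    exact le_of_mul_le_mul_left h6 (by positivity)
  have h6 := Real.log_nonneg h5
  rw [Real.log_mul (by positivity) htζ.ne', Real.log_mul (by positivity) (by positivity),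
    Real.log_pow, Real.log_rpow ht0] at h6
  rw [one_div, Real.log_inv, one_div, le_inv_mul_iff₀ hζ]
  push_cast at h6
  linarith

theorem s8_pt_K {κ lM sh b N₀ Y Cg η l₁ : ℝ} (hκ : 0 ≤ κ) (hb : 0 < b)
    (hN1 : 1 ≤ N₀) (h3 : N₀ ≤ 2 * Y * b) (hCg : 1 ≤ Cg) (hη1 : η ≤ 1) (hY : 0 < Y)
    (hl1 : κ + 1 ≤ l₁) (hl2 : l₁ ≤ κ + sh + lM + 1) :
    (l₁ + Real.log (Cg * (1 + l₁) * N₀ * Real.exp (η * (l₁ - κ)))) - κ - Real.log (b / 2) ≤
      2 * (sh + lM + 1) + Real.log (4 * Cg * (2 + κ + sh + lM) * Y) := by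
  have hCg0 : 0 < Cg := by linarith
  have hl0 : 0 < 1 + l₁ := by linarith
  have hN0 : 0 < N₀ := by linarith
  have h1 : Cg * (1 + l₁) * N₀ ≤ 4 * Cg * (2 + κ + sh + lM) * Y * (b / 2) := by
    have a1 : Cg * (1 + l₁) ≤ Cg * (2 + κ + sh + lM) := mul_le_mul_of_nonneg_left (by linarith) hCg0.le
    have a2 : Cg * (1 + l₁) * N₀ ≤ Cg * (2 + κ + sh + lM) * (2 * Y * b) :=
      mul_le_mul a1 h3 hN0.le (by nlinarith)
    calc _ ≤ _ := a2
      _ = _ := by ring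
  have hP : 0 < 4 * Cg * (2 + κ + sh + lM) * Y := by
    have : 0 < 2 + κ + sh + lM := by linarith
    positivity
  have h2 := Real.log_le_log (by positivity) h1
  rw [Real.log_mul hP.ne' (by positivity)] at h2
  rw [Real.log_mul (by positivity) (Real.exp_pos _).ne', Real.log_exp]
  have h4 : η * (l₁ - κ) ≤ 1 * (l₁ - κ) := mul_le_mul_of_nonneg_right hη1 (by linarith)
  linarith

/-- HOST-FREE: the choice of `θ_m`, `κ_m`. -/
theorem s8_power_num (m : ℕ) (ζ Cμ Cg Cc Cq K₁ : ℝ) (hζ : 0 < ζ) (hCμ : 1 ≤ Cμ) (hCg : 1 ≤ Cg) (hCc : 1 ≤ Cc)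
    (hCq : 1 ≤ Cq) :
    ∃ θ κm : ℝ, 0 < θ ∧ θ < 1 ∧ 1 ≤ κm ∧ ∀ κ sh lam : ℝ, κm ≤ κ → 0 ≤ sh →
      sh ≤ 2 * ((m : ℝ) + 1) * (θ * Real.log (1 + κ) + Real.log (2 * Cμ)) → 0 ≤ lam →
      lam ≤ 1 / ζ * (2 * θ * Real.log (1 + κ) + Real.log (16 * Cc / 3)) →
      K₁ ≤ κ - sh - (3 + m + sh + Real.log ((m : ℝ) + 1) + ((m : ℝ) + 1) * lam) ∧
      ((m : ℝ) + 1) ^ (3 / 2 : ℝ) * Cq * (1 +
        Real.exp (28 * (2 * (3 + m + sh + Real.log ((m : ℝ) + 1) + ((m : ℝ) + 1) * lam) + sh +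
          Real.log ((m : ℝ) + 1) + ((m : ℝ) + 1) + 3)) *
        (2 * (sh + Real.log ((m : ℝ) + 1) + 1) +
          Real.log (4 * Cg * (2 + κ + sh + Real.log ((m : ℝ) + 1)) * (1 + κ) ^ θ))) ≤ (1 + κ) ^ (1 - θ) := by
  have hm0 : (0 : ℝ) ≤ m := Nat.cast_nonneg m
  have hM1 : (1 : ℝ) ≤ (m : ℝ) + 1 := by linarith
  exact s8_power_num_core ((m : ℝ) + 1) m (Real.log ((m : ℝ) + 1)) (Real.log (2 * Cμ))
    (Real.log (16 * Cc / 3)) (((m : ℝ) + 1) ^ (3 / 2 : ℝ) * Cq) ζ Cg K₁ hM1 hm0 (Real.log_nonneg hM1)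
    (Real.log_nonneg (by linarith)) (Real.log_nonneg (by linarith)) (by positivity) hζ hCg

namespace Shape

variable (Sh : Shape)

/-- deterministic record selection. -/
theorem s8_record_exists (hH : Sh.H ≠ ⊤) (ho : Sh.order = 1) (η θ U₀ : ℝ) (hη : 0 < η) (hθ : 0 < θ)
    (hθ' : θ < 1) (hU₀ : Sh.s9k0 ≤ U₀) (hU₀' : 1 / η ≤ U₀) :
    ∃ C : ℝ, 0 < C ∧ ∀ k₁ ≥ Sh.s9k0, C * (1 + k₁) ^ (1 - θ) < Sh.μf k₁ →
      ∃ κ ≥ U₀, S8Rec Sh η κ ∧ (1 + κ) ^ (1 - θ) ≤ Sh.μf κ := by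
  have hsub : ∀ ε : ℝ, 0 < ε → ∃ C : ℝ, 0 < C ∧ ∀ k ≥ Sh.s9k0, Sh.μf k ≤ C * Real.exp (ε * k) := by
    intro ε hε
    obtain ⟨C, hC, hb⟩ := Sh.s8_subexp hH ho ε hε
    refine ⟨2 * C, by positivity, fun k hk => ?_⟩
    have h1 := Sh.s8_muf_le_mu hH k hk
    have h2 := Sh.s8_mu_le_rowMax hH k hk
    have h3 := hb k hk
    linarith
  have hk₀ : 0 ≤ Sh.s9k0 := zero_le_one.trans (le_max_left _ _)
  obtain ⟨C, hC, h⟩ := s8_record_exists_abs hk₀ (Sh.s8_muf_cont hH) Sh.s8_muf_nonneg hsub η θ U₀ hη hθ hθ'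
    hU₀ hU₀'
  refine ⟨C, hC, fun k₁ hk₁ hbig => ?_⟩
  obtain ⟨κ, hκ, h1, h2, h3⟩ := h k₁ hk₁ hbig
  exact ⟨κ, hκ, ⟨h1, h2⟩, h3⟩

/-- consequences of a record: (8.34) and the event cost (8.36). -/
theorem s8_record_data (hH : Sh.H ≠ ⊤) (ho : Sh.order = 1) :
    ∃ ζ Cμ Cg Cc k₁ : ℝ, 0 < ζ ∧ ζ < 1 ∧ 1 ≤ Cμ ∧ 1 ≤ Cg ∧ 1 ≤ Cc ∧ Sh.s9k0 ≤ k₁ ∧
      ∀ η κ : ℝ, 0 < η → η ≤ 1 → k₁ ≤ κ → 1 ≤ η * (1 + κ) → S8Rec Sh η κ →
        (∀ j ≥ Sh.s9k0, Sh.μ j ≤ Cμ * (Sh.μf κ + κ + 1) * Real.exp (η * max (j - κ) 0)) ∧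
        (∀ j ≥ Sh.s9k0, Real.exp (-j) * Sh.rowMax (Sh.Hr - Real.exp (-j)) ≤
          Cg * (1 + j) * (Sh.μf κ + κ + 1) * Real.exp (η * max (j - κ) 0)) ∧
        ENNReal.ofReal (3 / 4 * Sh.μf κ ^ 2) ≤ ENNReal.ofReal (Cc * (Sh.μf κ + κ + 1) ^ 2) *
          s8nu0 (thickening (Real.exp (-κ))
            {x | Sh.μf κ / 2 ≤ Real.exp (-κ) * ‖Sh.f (Sh.s8pt x (Real.exp (-κ)))‖}) ^ ζ := by
  obtain ⟨C₁, hC₁⟩ := Sh.s8_FM_record hH ho 0 1 le_rfl zero_le_one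
  obtain ⟨Cμ, hCμ, hμ⟩ := Sh.s8_mu_le hH 0 1 C₁ le_rfl (by norm_num) zero_le_one
  obtain ⟨Cg, hCg, hg⟩ := Sh.s8_global hH 1 C₁ zero_le_one
  obtain ⟨ζ, Cc, kc, hζ, hζ', hCc, hkc, hconc⟩ := Sh.s8_conc hH 0 1 C₁ le_rfl (by norm_num) zero_le_one
  have hk0 : 1 ≤ Sh.s9k0 := (Sh.s8_k0 hH).1
  refine ⟨ζ, max 1 Cμ, max 1 Cg, max 1 Cc, kc, hζ, hζ', le_max_left _ _, le_max_left _ _,
    le_max_left _ _, hkc, ?_⟩
  intro η κ hη hη1 hκ hηκ hrec
  have hκ0 : Sh.s9k0 ≤ κ := hkc.trans hκ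
  have hκ1 : 0 < 1 + κ := by linarith
  have hb0 : 0 ≤ Sh.μf κ := by unfold Shape.μf; positivity
  set b : ℝ := Sh.μf κ with hb
  set N₀ : ℝ := b + κ + 1 with hN₀
  have hN₀1 : 1 ≤ N₀ := by rw [hN₀]; linarith
  have hN₀0 : 0 < N₀ := by linarith
  set N : ℝ → ℝ := s9env N₀ 0 η κ with hN
  have hNval : ∀ l, N l = N₀ * Real.exp (η * max (l - κ) 0) := by
    intro l; simp only [hN, s9env, zero_mul, zero_add]
  have hEnv : S8Env 0 1 N := (s8_env_s9env N₀ 0 η κ hN₀1 le_rfl hη.le).mono le_rfl hη1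
  have hμfN : ∀ l ≥ Sh.s9k0, Sh.μf l ≤ N l := by
    intro l hl
    rw [hNval]
    rcases le_total l κ with h | h
    · rw [max_eq_right (by linarith), mul_zero, Real.exp_zero, mul_one]
      have := hrec.past l ⟨hl, h⟩
      rw [hN₀]; linarith
    · rw [max_eq_left (by linarith)]
      refine (hrec.fut l h).trans ?_
      refine mul_le_mul_of_nonneg_right ?_ (Real.exp_pos _).le
      rw [hN₀]; linarith
  have hlinN : ∀ l ≥ Sh.s9k0, 1 + l ≤ N l := by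
    intro l hl
    rw [hNval]
    rcases le_total l κ with h | h
    · rw [max_eq_right (by linarith), mul_zero, Real.exp_zero, mul_one]
      rw [hN₀]; linarith
    · rw [max_eq_left (by linarith)]
      have h1 : 1 + η * (l - κ) ≤ Real.exp (η * (l - κ)) := by
        have := Real.add_one_le_exp (η * (l - κ)); linarith
      have h2 : l - κ ≤ (1 + κ) * (η * (l - κ)) := by
        have : 1 * (l - κ) ≤ η * (1 + κ) * (l - κ) := mul_le_mul_of_nonneg_right hηκ (by linarith)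
        nlinarith
      calc 1 + l ≤ (1 + κ) * (1 + η * (l - κ)) := by nlinarith
        _ ≤ (1 + κ) * Real.exp (η * (l - κ)) := mul_le_mul_of_nonneg_left h1 hκ1.le
        _ ≤ N₀ * Real.exp (η * (l - κ)) :=
          mul_le_mul_of_nonneg_right (by rw [hN₀]; linarith) (Real.exp_pos _).le
  have hFM : Sh.S8FM C₁ N := hC₁ N hEnv hμfN hlinN
  have hFin : Sh.S8Fin N := Sh.s8_fin_env hH ho N₀ 0 η κ hN₀1 le_rfl hη
  have hNpos : ∀ l, 0 < N l := fun l => by rw [hNval]; positivity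
  refine ⟨fun j hj => ?_, fun j hj => ?_, ?_⟩
  · rw [mul_assoc, ← hNval]
    exact (hμ N hEnv hFM hFin j hj).trans
      (mul_le_mul_of_nonneg_right (le_max_right _ _) (hNpos j).le)
  · have h1j : 0 ≤ 1 + j := by linarith
    rw [mul_assoc, ← hNval]
    refine ((hg N hEnv hFM j hj).1).trans ?_
    refine mul_le_mul_of_nonneg_right ?_ (hNpos j).le
    exact mul_le_mul_of_nonneg_right (le_max_right _ _) h1j
  · have hd0 : 0 < Real.exp (-κ) := Real.exp_pos _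
    have hd1 : Real.exp (-κ) < 2 * Sh.Hr := by
      have h2 := (Sh.s8_k0 hH).2
      have h3 : Real.exp (-κ) ≤ Real.exp (-Sh.s9k0) := Real.exp_le_exp.2 (by linarith)
      have := Sh.sb_Hr_pos hH
      linarith
    have hcont : Continuous fun x : ℝ => Real.exp (-κ) * ‖Sh.f (Sh.s8pt x (Real.exp (-κ)))‖ :=
      continuous_const.mul (Sh.s8_row_cont_f hH _ hd0 hd1).norm
    set E : Set ℝ := {x | b / 2 ≤ Real.exp (-κ) * ‖Sh.f (Sh.s8pt x (Real.exp (-κ)))‖} with hE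
    have hEcl : IsClosed E := isClosed_le continuous_const hcont
    have hEm : MeasurableSet E := hEcl.measurableSet
    have hEper : ∀ x, x ∈ E ↔ x + 2 * π ∈ E := by
      intro x
      have h1 : Sh.s8pt (x + 2 * π) (Real.exp (-κ)) = Sh.s8pt x (Real.exp (-κ)) + 2 * π := by
        apply Complex.ext <;> simp [Shape.s8pt]
      simp only [hE, Set.mem_ofPred_eq]
      rw [h1, Sh.s8_f_per _ (Sh.s8_pt_mem hH x _ hd0 hd1)]
    have hc := hconc N hEnv hFM hFin κ hκ E hEper hEm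
    have hNκ : N κ = N₀ := s8_s9env_self _ _ _ _
    rw [hNκ] at hc
    have hsq := Sh.s8_muf_sq hH κ hκ0
    rw [← lintegral_add_compl _ hEm] at hsq
    have := s8_nu0_prob
    have hcompl : ∫⁻ x in Eᶜ, ENNReal.ofReal (Real.exp (-κ) * ‖Sh.f (Sh.s8pt x (Real.exp (-κ)))‖) ^ 2 ∂s8nu0
        ≤ ENNReal.ofReal (1 / 4 * b ^ 2) := by
      calc ∫⁻ x in Eᶜ, ENNReal.ofReal (Real.exp (-κ) * ‖Sh.f (Sh.s8pt x (Real.exp (-κ)))‖) ^ 2 ∂s8nu0
          ≤ ∫⁻ _x in Eᶜ, ENNReal.ofReal (1 / 4 * b ^ 2) ∂s8nu0 := by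
            refine setLIntegral_mono measurable_const fun x hx => ?_
            have hx' : Real.exp (-κ) * ‖Sh.f (Sh.s8pt x (Real.exp (-κ)))‖ < b / 2 := by
              simpa [hE] using hx
            rw [← ENNReal.ofReal_pow (by positivity)]
            apply ENNReal.ofReal_le_ofReal
            calc (Real.exp (-κ) * ‖Sh.f (Sh.s8pt x (Real.exp (-κ)))‖) ^ 2 ≤ (b / 2) ^ 2 :=
                  pow_le_pow_left₀ (by positivity) hx'.le 2
              _ = _ := by ring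
        _ = ENNReal.ofReal (1 / 4 * b ^ 2) * s8nu0 Eᶜ := by
            rw [setLIntegral_const]
        _ ≤ ENNReal.ofReal (1 / 4 * b ^ 2) * 1 := mul_le_mul' le_rfl prob_le_one
        _ = _ := mul_one _
    have hEint : ∫⁻ x in E, ENNReal.ofReal (Real.exp (-κ) * ‖Sh.f (Sh.s8pt x (Real.exp (-κ)))‖) ^ 2 ∂s8nu0
        ≤ ∫⁻ x in E, ENNReal.ofReal (Real.exp (-κ) * Sh.M (Sh.s8pt x (Real.exp (-κ)))) ^ 2 ∂s8nu0 := by
      refine lintegral_mono fun x => ?_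
      refine pow_le_pow_left' (ENNReal.ofReal_le_ofReal ?_) 2
      exact mul_le_mul_of_nonneg_left (Sh.sb_norm_f_le_M _) hd0.le
    have hsplit : ENNReal.ofReal (b ^ 2) = ENNReal.ofReal (3 / 4 * b ^ 2) + ENNReal.ofReal (1 / 4 * b ^ 2) := by
      rw [← ENNReal.ofReal_add (by positivity) (by positivity)]
      congr 1; ring
    have h5 : ENNReal.ofReal (3 / 4 * b ^ 2) + ENNReal.ofReal (1 / 4 * b ^ 2)
        ≤ ENNReal.ofReal (Cc * N₀ ^ 2) * s8nu0 (thickening (Real.exp (-κ)) E) ^ ζ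
          + ENNReal.ofReal (1 / 4 * b ^ 2) := by
      rw [← hsplit, hsq]
      exact add_le_add (hEint.trans hc) hcompl
    have h6 := (ENNReal.add_le_add_iff_right ENNReal.ofReal_ne_top).1 h5
    refine h6.trans (mul_le_mul' (ENNReal.ofReal_le_ofReal ?_) le_rfl)
    exact mul_le_mul_of_nonneg_right (le_max_right _ _) (by positivity)

/-- a maximiser of the discounted full moment. -/
theorem s8_normal_level (hH : Sh.H ≠ ⊤) (ho : Sh.order = 1) (ε κ : ℝ) (hε : 0 < ε) (hκ : Sh.s9k0 ≤ κ) :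
    ∃ k ≥ Sh.s9k0, ∀ j ≥ Sh.s9k0,
      Sh.μ j * Real.exp (-(ε * |j - κ|)) ≤ Sh.μ k * Real.exp (-(ε * |k - κ|)) := by
  have hsub : ∀ ε : ℝ, 0 < ε → ∃ C : ℝ, 0 < C ∧ ∀ k ≥ Sh.s9k0, Sh.μ k ≤ C * Real.exp (ε * k) := by
    intro ε hε
    obtain ⟨C, hC, hb⟩ := Sh.s8_subexp hH ho ε hε
    refine ⟨2 * C, by positivity, fun k hk => ?_⟩
    have h2 := Sh.s8_mu_le_rowMax hH k hk
    have h3 := hb k hk
    linarith
  exact s8_normal_level_abs (Sh.s8_mu_cont hH) Sh.s8_mu_nonneg hsub ε κ hε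

/-- (8.37): the maximiser is a normal level. -/
theorem s8_normal_of_max (ε κ k : ℝ) (hε : 0 < ε)
    (h : ∀ j ≥ Sh.s9k0, Sh.μ j * Real.exp (-(ε * |j - κ|)) ≤ Sh.μ k * Real.exp (-(ε * |k - κ|))) :
    ∀ j ≥ Sh.s9k0, Sh.μ j ≤ Sh.μ k * Real.exp (ε * |j - k|) := by
  intro j hj
  have h1 := mul_le_mul_of_nonneg_right (h j hj) (Real.exp_pos (ε * |j - κ|)).le
  rw [mul_assoc, mul_assoc, ← Real.exp_add, ← Real.exp_add] at h1
  have e1 : -(ε * |j - κ|) + ε * |j - κ| = 0 := by ring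
  rw [e1, Real.exp_zero, mul_one] at h1
  refine h1.trans (mul_le_mul_of_nonneg_left (Real.exp_le_exp.2 ?_) (Sh.s8_mu_nonneg k))
  have h2 : |j - κ| ≤ |j - k| + |k - κ| := by
    have := abs_add_le (j - k) (k - κ)
    rwa [sub_add_sub_cancel] at this
  have h3 := mul_le_mul_of_nonneg_left h2 hε.le
  linarith

/-- (8.28) for a measure dominated by `c · s8nu0`, `c ≤ e^{2ε(s-3)}`. -/
theorem s8_term_coarse (hH : Sh.H ≠ ⊤) :
    ∃ Cco : ℝ → ℝ, ∀ (ε k s c : ℝ) (ν : Measure ℝ), 0 < ε → Sh.s9k0 ≤ k → 1 ≤ Sh.μ k → 3 ≤ s →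
      (∀ j ≥ Sh.s9k0, Sh.μ j ≤ Sh.μ k * Real.exp (ε * |j - k|)) →
      (∀ F : ℝ → ℝ≥0∞, Measurable F → ∫⁻ x, F x ∂ν ≤ ENNReal.ofReal c * ∫⁻ x, F x ∂s8nu0) →
      c ≤ Real.exp (2 * ε * (s - 3)) →
      ∀ β : ℝ, 2 * ε ≤ β → β < 1 / 2 → ∀ A : ℝ, 1 ≤ A → ∀ j ∈ Icc Sh.s9k0 (k - s + 3),
        Sh.s9TileL2 ν A j (Cco A * Sh.μ k * Real.exp (β * (k - j))) := by
  have hex : ∀ A : ℝ, ∃ C : ℝ, 1 ≤ A → (0 < C ∧ ∀ (N : ℝ → ℝ) (Y : ℝ), S8Env (1 / 4) 1 N → 0 ≤ Y →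
      (∀ l ≥ Sh.s9k0, Sh.μ l ≤ Y * N l) →
      ∀ j ≥ Sh.s9k0, Sh.s8T2 s8nu0 A j ≤ ENNReal.ofReal ((C * (Y + 1) * N j) ^ 2)) := by
    intro A
    by_cases hA : 1 ≤ A
    · obtain ⟨C, hC⟩ := Sh.s8_T2_of_mu hH (1 / 4) 1 A (by norm_num) zero_le_one hA
      exact ⟨C, fun _ => hC⟩
    · exact ⟨0, fun h => absurd h hA⟩
  choose CA hCA using hex
  refine ⟨fun A => 2 * CA A, ?_⟩
  intro ε k s c ν hε hk hμk hs hnorm hdom hc β hβ hβ' A hA j hj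
  obtain ⟨hCA0, hT2⟩ := hCA A hA
  have hε4 : ε ≤ 1 / 4 := by linarith
  have hEnv : S8Env (1 / 4) 1 (s9env (Sh.μ k) ε ε k) :=
    (s8_env_s9env (Sh.μ k) ε ε k hμk hε.le hε.le).mono hε4 (by linarith)
  have hμN : ∀ l ≥ Sh.s9k0, Sh.μ l ≤ 1 * s9env (Sh.μ k) ε ε k l := by
    intro l hl
    rw [one_mul]
    refine (hnorm l hl).trans (le_of_eq ?_)
    unfold s9env
    congr 2
    rw [← mul_add]
    congr 1
    rcases le_total l k with h | h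
    · rw [abs_of_nonpos (by linarith), max_eq_left (by linarith), max_eq_right (by linarith)]; ring
    · rw [abs_of_nonneg (by linarith), max_eq_right (by linarith), max_eq_left (by linarith)]; ring
  have h1 := hT2 _ 1 hEnv zero_le_one hμN j hj.1
  have hjk : j ≤ k := by have := hj.2; linarith
  have hNj : s9env (Sh.μ k) ε ε k j = Sh.μ k * Real.exp (ε * (k - j)) := by
    unfold s9env
    rw [max_eq_left (by linarith), max_eq_right (by linarith)]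
    simp
  rw [hNj] at h1
  rw [Sh.s8_tileL2_iff hH]
  have hmeas : Measurable fun x => ENNReal.ofReal (Sh.s8T A j x) ^ 2 :=
    ((Sh.s8_T_meas hH A j).ennreal_ofReal).pow_const 2
  have h2 : Sh.s8T2 ν A j ≤ ENNReal.ofReal c * Sh.s8T2 s8nu0 A j := hdom _ hmeas
  have hc' : c ≤ Real.exp (2 * ε * (k - j)) := by
    refine hc.trans (Real.exp_le_exp.2 ?_)
    have := hj.2
    have h3 : s - 3 ≤ k - j := by linarith
    exact mul_le_mul_of_nonneg_left h3 (by positivity)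
  have hμ0 : 0 < Sh.μ k := by linarith
  calc Sh.s8T2 ν A j ≤ ENNReal.ofReal c * Sh.s8T2 s8nu0 A j := h2
    _ ≤ ENNReal.ofReal (Real.exp (2 * ε * (k - j))) *
        ENNReal.ofReal ((CA A * (1 + 1) * (Sh.μ k * Real.exp (ε * (k - j)))) ^ 2) :=
        mul_le_mul' (ENNReal.ofReal_le_ofReal hc') h1
    _ = ENNReal.ofReal (Real.exp (2 * ε * (k - j)) *
        (CA A * (1 + 1) * (Sh.μ k * Real.exp (ε * (k - j)))) ^ 2) :=
        (ENNReal.ofReal_mul (Real.exp_pos _).le).symm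
    _ ≤ _ := by
        apply ENNReal.ofReal_le_ofReal
        have e1 : Real.exp (2 * ε * (k - j)) = Real.exp (ε * (k - j)) ^ 2 := by
          rw [← Real.exp_nat_mul]; congr 1; push_cast; ring
        have e2 : Real.exp (ε * (k - j)) * Real.exp (ε * (k - j)) ≤ Real.exp (β * (k - j)) := by
          rw [← Real.exp_add]
          apply Real.exp_le_exp.2
          have : 2 * ε * (k - j) ≤ β * (k - j) := mul_le_mul_of_nonneg_right hβ (by linarith)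
          linarith
        rw [e1, ← mul_pow]
        refine pow_le_pow_left₀ (by positivity) ?_ 2
        calc Real.exp (ε * (k - j)) * (CA A * (1 + 1) * (Sh.μ k * Real.exp (ε * (k - j))))
            = 2 * CA A * Sh.μ k * (Real.exp (ε * (k - j)) * Real.exp (ε * (k - j))) := by ring
          _ ≤ 2 * CA A * Sh.μ k * Real.exp (β * (k - j)) :=
            mul_le_mul_of_nonneg_left e2 (by positivity)

/-- (8.29) for a measure dominated by `c · s8nu0`, `c ≤ e^{2εs}`. -/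
theorem s8_term_anchor (hH : Sh.H ≠ ⊤) (ho : Sh.order = 1) :
    ∃ Can : ℝ → ℝ, ∀ (ε k s c : ℝ) (ω : Measure ℝ), 0 < ε → Sh.s9k0 ≤ k - s → 0 ≤ s → 1 ≤ Sh.μ k →
      (∀ j ≥ Sh.s9k0, Sh.μ j ≤ Sh.μ k * Real.exp (ε * |j - k|)) →
      (∀ F : ℝ → ℝ≥0∞, Measurable F → ∫⁻ x, F x ∂ω ≤ ENNReal.ofReal c * ∫⁻ x, F x ∂s8nu0) →
      c ≤ Real.exp (2 * ε * s) →
      ∀ β : ℝ, 2 * ε ≤ β → β < 1 / 2 →
        ∫⁻ x, ENNReal.ofReal |Sh.s9P ⟨x, Sh.Hr - Real.exp (-(k - s))⟩| ∂ω ≤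
          ENNReal.ofReal (Can β * Sh.μ k ^ 2 * Real.exp (2 * β * s) / Real.exp (-(k - s))) := by
  have hex : ∀ β : ℝ, ∃ CP : ℝ, 0 < β → β < 1 / 2 → (0 < CP ∧ ∀ N : ℝ → ℝ, S8Env (β / 2) 1 N →
      (∀ l ≥ Sh.s9k0, Sh.μ l ≤ N l) → Sh.S8Fin N →
      ∀ j ≥ Sh.s9k0, Sh.s8P1 s8nu0 j ≤ ENNReal.ofReal (CP * N j ^ 2)) := by
    intro β
    by_cases hβ : 0 < β ∧ β < 1 / 2
    · obtain ⟨C₁, hC₁⟩ := Sh.s8_FM_of_mu hH (β / 2) 1 (by linarith [hβ.1]) zero_le_one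
      obtain ⟨C', CP, _, hCP, hb⟩ := Sh.s8_boot_unif hH (β / 2) 1 C₁ (by linarith [hβ.1])
        (by linarith [hβ.2]) zero_le_one 1 le_rfl
      exact ⟨CP, fun _ _ => ⟨hCP, fun N hN hμ hfin => (hb N hN (hC₁ N hN hμ) hfin).2⟩⟩
    · exact ⟨0, fun h1 h2 => absurd ⟨h1, h2⟩ hβ⟩
  choose Can hCan using hex
  refine ⟨Can, ?_⟩
  intro ε k s c ω hε hka hs hμk hnorm hdom hc β hβ hβ'
  have hβ0 : 0 < β := by linarith
  obtain ⟨hCP, hP1⟩ := hCan β hβ0 hβ'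
  have hEnv : S8Env (β / 2) 1 (s9env (Sh.μ k) (β / 2) 1 k) :=
    s8_env_s9env (Sh.μ k) (β / 2) 1 k hμk (by linarith) zero_le_one
  have hμ0 : 0 < Sh.μ k := by linarith
  have hμN : ∀ l ≥ Sh.s9k0, Sh.μ l ≤ s9env (Sh.μ k) (β / 2) 1 k l := by
    intro l hl
    refine (hnorm l hl).trans ?_
    unfold s9env
    refine mul_le_mul_of_nonneg_left (Real.exp_le_exp.2 ?_) hμ0.le
    rcases le_total l k with h | h
    · rw [abs_of_nonpos (by linarith), max_eq_left (by linarith), max_eq_right (by linarith)]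
      have : ε * (k - l) ≤ β / 2 * (k - l) := mul_le_mul_of_nonneg_right (by linarith) (by linarith)
      linarith
    · rw [abs_of_nonneg (by linarith), max_eq_right (by linarith), max_eq_left (by linarith)]
      have : ε * (l - k) ≤ 1 * (l - k) := mul_le_mul_of_nonneg_right (by linarith) (by linarith)
      linarith
  have hFin : Sh.S8Fin (s9env (Sh.μ k) (β / 2) 1 k) :=
    Sh.s8_fin_env hH ho (Sh.μ k) (β / 2) 1 k hμk (by linarith) one_pos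
  have h1 := hP1 _ hEnv hμN hFin (k - s) hka
  have hNa : s9env (Sh.μ k) (β / 2) 1 k (k - s) = Sh.μ k * Real.exp (β / 2 * s) := by
    unfold s9env
    rw [max_eq_left (by linarith), max_eq_right (by linarith)]
    congr 2; ring
  rw [hNa] at h1
  -- measurability
  have hd0 : 0 < Real.exp (-(k - s)) := Real.exp_pos _
  have hd1 : Real.exp (-(k - s)) < 2 * Sh.Hr := by
    have h2 := (Sh.s8_k0 hH).2
    have h3 : Real.exp (-(k - s)) ≤ Real.exp (-Sh.s9k0) := Real.exp_le_exp.2 (by linarith)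
    have := Sh.sb_Hr_pos hH
    linarith
  have hcont : Continuous fun x : ℝ => Sh.s9P ⟨x, Sh.Hr - Real.exp (-(k - s))⟩ :=
    Sh.s8_P_cont.comp_continuous (s8bc_cont_mk _) fun x => Sh.s8_pt_mem hH x _ hd0 hd1
  have hmeas : Measurable fun x : ℝ => ENNReal.ofReal |Sh.s9P ⟨x, Sh.Hr - Real.exp (-(k - s))⟩| :=
    (hcont.abs.measurable).ennreal_ofReal
  have h2 := hdom _ hmeas
  have h3 : ∫⁻ x, ENNReal.ofReal |Sh.s9P ⟨x, Sh.Hr - Real.exp (-(k - s))⟩| ∂s8nu0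
      = ENNReal.ofReal (Real.exp (k - s)) * Sh.s8P1 s8nu0 (k - s) := by
    unfold Shape.s8P1
    rw [← lintegral_const_mul' _ _ ENNReal.ofReal_ne_top]
    refine lintegral_congr fun x => ?_
    rw [← ENNReal.ofReal_mul (Real.exp_pos _).le, ← mul_assoc, ← Real.exp_add]
    simp [Shape.s8pt]
  rw [h3] at h2
  calc ∫⁻ x, ENNReal.ofReal |Sh.s9P ⟨x, Sh.Hr - Real.exp (-(k - s))⟩| ∂ω
      ≤ ENNReal.ofReal c * (ENNReal.ofReal (Real.exp (k - s)) * Sh.s8P1 s8nu0 (k - s)) := h2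
    _ ≤ ENNReal.ofReal (Real.exp (2 * ε * s)) * (ENNReal.ofReal (Real.exp (k - s)) *
        ENNReal.ofReal (Can β * (Sh.μ k * Real.exp (β / 2 * s)) ^ 2)) :=
        mul_le_mul' (ENNReal.ofReal_le_ofReal hc) (mul_le_mul' le_rfl h1)
    _ = ENNReal.ofReal (Real.exp (2 * ε * s) * (Real.exp (k - s) *
        (Can β * (Sh.μ k * Real.exp (β / 2 * s)) ^ 2))) := by
        rw [← ENNReal.ofReal_mul (Real.exp_pos _).le, ← ENNReal.ofReal_mul (Real.exp_pos _).le]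
    _ ≤ _ := by
        apply ENNReal.ofReal_le_ofReal
        have e1 : Real.exp (β / 2 * s) ^ 2 = Real.exp (β * s) := by
          rw [← Real.exp_nat_mul]; congr 1; push_cast; ring
        have e2 : Real.exp (2 * ε * s) * Real.exp (β * s) ≤ Real.exp (2 * β * s) := by
          rw [← Real.exp_add]
          apply Real.exp_le_exp.2
          have : 2 * ε * s ≤ β * s := mul_le_mul_of_nonneg_right hβ hs
          linarith
        have e3 : Real.exp (-(k - s)) = (Real.exp (k - s))⁻¹ := Real.exp_neg _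
        rw [e3, div_inv_eq_mul, mul_pow, e1]
        calc Real.exp (2 * ε * s) * (Real.exp (k - s) * (Can β * (Sh.μ k ^ 2 * Real.exp (β * s))))
            = Can β * Sh.μ k ^ 2 * Real.exp (k - s) * (Real.exp (2 * ε * s) * Real.exp (β * s)) := by
              ring
          _ ≤ Can β * Sh.μ k ^ 2 * Real.exp (k - s) * Real.exp (2 * β * s) :=
              mul_le_mul_of_nonneg_left e2 (by positivity)
          _ = _ := by ring

/-- an upper bound of `|f|` below a row from bounds of the normalised row maxima. -/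
theorem s8_f_upper (hH : Sh.H ≠ ⊤) :
    ∃ M₀ : ℝ, 0 < M₀ ∧ ∀ l₁ R : ℝ, Sh.s9k0 ≤ l₁ → 0 ≤ R →
      (∀ l ∈ Icc Sh.s9k0 l₁, Real.exp (-l) * Sh.rowMax (Sh.Hr - Real.exp (-l)) ≤ R) →
      ∀ z : ℂ, 0 < z.im → z.im < Sh.Hr - Real.exp (-l₁) → ‖Sh.f z‖ ≤ max M₀ (Real.exp l₁ * R) := by
  have hc : Sh.Hr - Real.exp (-Sh.s9k0) < Sh.Hr := by linarith [Real.exp_pos (-Sh.s9k0)]
  obtain ⟨Mf, hMf⟩ := Sh.sb_bdd_f hH hc
  refine ⟨max Mf 1, lt_of_lt_of_le one_pos (le_max_right _ _), ?_⟩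
  intro l₁ R hl₁ hR hrow z hz0 hz1
  have hδ : 0 < Sh.Hr - z.im := by linarith [Real.exp_pos (-l₁)]
  set l : ℝ := -Real.log (Sh.Hr - z.im) with hl
  have hel : Real.exp (-l) = Sh.Hr - z.im := by rw [hl, neg_neg, Real.exp_log hδ]
  rcases le_total Sh.s9k0 l with hcase | hcase
  · refine le_trans ?_ (le_max_right _ _)
    have hll₁ : l ≤ l₁ := by
      have h1 : Real.exp (-l₁) < Real.exp (-l) := by rw [hel]; linarith
      have := Real.exp_lt_exp.1 h1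
      linarith
    have hzD : z ∈ Sh.D := by
      rw [Sh.sb_mem_D_iff hH, abs_lt]
      constructor <;> linarith
    have h1 := hrow l ⟨hcase, hll₁⟩
    have him : Sh.Hr - Real.exp (-l) = z.im := by rw [hel]; ring
    rw [him] at h1
    have h2 : Sh.rowMax z.im ≤ Real.exp l * R := by
      have h3 := mul_le_mul_of_nonneg_left h1 (Real.exp_pos l).le
      rw [← mul_assoc, ← Real.exp_add] at h3
      simpa using h3
    calc ‖Sh.f z‖ ≤ Sh.M z := Sh.sb_norm_f_le_M z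
      _ ≤ Sh.rowMax z.im := Sh.sb_M_le_rowMax hH hzD
      _ ≤ Real.exp l * R := h2
      _ ≤ Real.exp l₁ * R := mul_le_mul_of_nonneg_right (Real.exp_le_exp.2 hll₁) hR
  · refine le_trans ?_ (le_max_left _ _)
    refine le_trans ?_ (le_max_left _ _)
    apply hMf
    rw [abs_of_pos hz0]
    have h1 : Real.exp (-Sh.s9k0) ≤ Real.exp (-l) := Real.exp_le_exp.2 (by linarith)
    rw [hel] at h1
    linarith

/-- disc chain + log-deficit lemma: from a lower bound of `|f|` at `z₀` to an upper bound of `|q|` at `z₁`. -/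
theorem s8_q_chain (hH : Sh.H ≠ ⊤) :
    ∃ C : ℝ, 1 ≤ C ∧ ∀ (K δmin D A : ℝ) (z₀ z₁ : ℂ), 0 ≤ δmin →
      (∀ z : ℂ, 0 < z.im → z.im < Sh.Hr - δmin → ‖Sh.f z‖ ≤ Real.exp K) → Sh.f z₀ ≠ 0 → 0 ≤ A →
      δmin < 3 / 8 * Sh.s9dep z₀ → δmin < 3 / 8 * Sh.s9dep z₁ → Sh.s9dep z₀ ≤ D → Sh.s9dep z₁ ≤ D →
      2 * D < Sh.Hr → |z₀.re - z₁.re| ≤ A * D →
      Sh.s9dep z₁ * Real.sqrt ‖Sh.q z₁‖ ≤ C * (1 +
        Real.exp (28 * (Real.log (D / Sh.s9dep z₀) + Real.log (D / Sh.s9dep z₁) + A + 1)) *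
          (K - Real.log ‖Sh.f z₀‖)) := by
  obtain ⟨C₁, hC₁, hLD⟩ := s8i_log_deficit
  refine ⟨max 1 (8 * C₁), le_max_left _ _, ?_⟩
  intro K δmin D A z₀ z₁ hδ hKb hne hA h0 h1 hD0 hD1 hD hx
  have hdep : ∀ z : ℂ, Sh.s9dep z = Sh.Hr - z.im := fun _ => rfl
  rw [hdep] at h0 h1 hD0 hD1
  simp only [hdep]
  have hBdD : ∀ z : ℂ, 0 < z.im → z.im < Sh.Hr - δmin → z ∈ Sh.D := by
    intro z hz1 hz2
    rw [Sh.sb_mem_D_iff hH, abs_lt]
    constructor <;> linarith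
  have hfBd : DifferentiableOn ℂ Sh.f {z : ℂ | 0 < z.im ∧ z.im < Sh.Hr - δmin} :=
    Sh.sb_f_diff.mono fun z hz => hBdD z hz.1 hz.2
  have hchain := s8_av_chain Sh.f K Sh.Hr 0 δmin hfBd hKb z₀ z₁ D A hne hA hδ h0 h1 hD0 hD1
    (by linarith) hx
  set E : ℝ := Real.exp (28 * (Real.log (D / (Sh.Hr - z₀.im)) + Real.log (D / (Sh.Hr - z₁.im)) + A + 1))
    with hE
  have hE0 : 0 < E := Real.exp_pos _
  set r : ℝ := (Sh.Hr - z₁.im) / 8 with hr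
  have hr0 : 0 < r := by rw [hr]; linarith
  have hball : ∀ z ∈ ball z₁ r, 0 < z.im ∧ z.im < Sh.Hr - δmin := by
    intro z hz
    have h2 : |(z - z₁).im| < r :=
      lt_of_le_of_lt (Complex.abs_im_le_norm _) (by simpa [dist_eq_norm] using hz)
    rw [Complex.sub_im, abs_lt] at h2
    constructor
    · have := h2.1; rw [hr] at this; linarith
    · have := h2.2; rw [hr] at this; linarith
  have hballD : ball z₁ r ⊆ Sh.D := fun z hz => hBdD z (hball z hz).1 (hball z hz).2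
  have hz₁D : z₁ ∈ Sh.D := hballD (mem_ball_self hr0)
  have hex : ∃ z ∈ ball z₁ r, Sh.f z ≠ 0 := by
    by_contra hcon
    push Not at hcon
    apply Sh.sb_f_not_eventually_zero hz₁D
    filter_upwards [ball_mem_nhds z₁ hr0] with z hz using hcon z hz
  have hdef := hLD Sh.f Sh.q z₁ r K hr0 (Sh.sb_f_diff.mono hballD) (Sh.q_diff.mono hballD)
    (fun z hz => Sh.sb_f_ode z (hballD hz)) hex (fun z hz => hKb z (hball z hz).1 (hball z hz).2)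
    z₁ (mem_ball_self (by positivity))
  set X : ℝ := K - Real.log ‖Sh.f z₀‖ with hX
  have hf0 : 0 < ‖Sh.f z₀‖ := norm_pos_iff.2 hne
  have hX0 : 0 ≤ X := by
    have h2 := hKb z₀ (by linarith) (by linarith)
    have h3 : Real.log ‖Sh.f z₀‖ ≤ K := by
      rw [← Real.log_exp K]
      exact Real.log_le_log hf0 h2
    rw [hX]; linarith
  have hreal : r * Real.sqrt ‖Sh.q z₁‖ ≤ C₁ * (1 + E * X) := by
    have h2 : ENNReal.ofReal (r * Real.sqrt ‖Sh.q z₁‖) ≤ ENNReal.ofReal (C₁ * (1 + E * X)) := by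
      refine hdef.trans ?_
      rw [ENNReal.ofReal_mul hC₁.le, ENNReal.ofReal_add zero_le_one (by positivity),
        ENNReal.ofReal_one, ENNReal.ofReal_mul hE0.le]
      refine mul_le_mul' le_rfl (add_le_add le_rfl ?_)
      exact hchain
    exact (ENNReal.ofReal_le_ofReal_iff (by positivity)).1 h2
  have hpos : 0 ≤ 1 + E * X := by positivity
  calc (Sh.Hr - z₁.im) * Real.sqrt ‖Sh.q z₁‖ = 8 * (r * Real.sqrt ‖Sh.q z₁‖) := by rw [hr]; ring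
    _ ≤ 8 * (C₁ * (1 + E * X)) := by linarith
    _ = 8 * C₁ * (1 + E * X) := by ring
    _ ≤ max 1 (8 * C₁) * (1 + E * X) := mul_le_mul_of_nonneg_right (le_max_right _ _) hpos

/-- (8.30) at precision `m`. -/
theorem s8_power_q (hH : Sh.H ≠ ⊤) :
    ∃ Cq : ℝ, 1 ≤ Cq ∧ ∀ (m : ℕ) (κ k s K b : ℝ) (E : Set ℝ) (ω ν : Measure ℝ), Sh.s9k0 ≤ κ → Sh.s9k0 ≤ k →
      Sh.s9k0 ≤ k - s → |k - κ| + Real.log ((m : ℝ) + 1) ≤ s → 0 < b → 0 < Sh.μ k →
      (∀ x, x ∈ E ↔ x + 2 * π ∈ E) →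
      (∀ x ∈ E, b / 2 ≤ Real.exp (-κ) * ‖Sh.f (Sh.s8pt x (Real.exp (-κ)))‖) →
      (∀ z : ℂ, 0 < z.im → z.im < Sh.Hr - Real.exp (-(max κ (k + Real.log ((m : ℝ) + 1)) + 1)) →
        ‖Sh.f z‖ ≤ Real.exp K) →
      S9Weight (Real.exp (-(k - s))) (1 / π) (1 / 2) ω ν → ω (thickening (Real.exp (-κ)) E)ᶜ = 0 →
      ((m : ℝ) + 1) ^ (3 / 2 : ℝ) * Cq * (1 +
        Real.exp (28 * (2 * s + |k - κ| + Real.log ((m : ℝ) + 1) + ((m : ℝ) + 1) + 3)) *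
          (K - κ - Real.log (b / 2))) ≤ Sh.μ k →
      ν {x | ∃ S ∈ s8K m, 1 / ((m : ℝ) + 1) < ‖Sh.s9Q k x S‖} ≤ ENNReal.ofReal (1 / ((m : ℝ) + 1)) := by
  obtain ⟨Cq, hCq, hchain⟩ := Sh.s8_q_chain hH
  refine ⟨Cq, hCq, ?_⟩
  intro m κ k s K b E ω ν hκ hk hka hs hb hμk hEper hEf hKb hw hωE hnum
  set M1 : ℝ := (m : ℝ) + 1 with hM1
  have hM1pos : 0 < M1 := by positivity
  have hM1one : 1 ≤ M1 := by rw [hM1]; linarith [(Nat.cast_nonneg m : (0 : ℝ) ≤ m)]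
  have hlogM : 0 ≤ Real.log M1 := Real.log_nonneg hM1one
  have hda : 0 < Real.exp (-(k - s)) := Real.exp_pos _
  have hperInt : ∀ n : ℤ, ∀ x, x ∈ E ↔ x + 2 * π * n ∈ E := by
    intro n
    induction n using Int.induction_on with
    | zero => intro x; simp
    | succ i ih =>
      intro x
      rw [ih x, hEper (x + 2 * π * (i : ℤ))]
      have : x + 2 * π * ((i : ℤ) : ℝ) + 2 * π = x + 2 * π * (((i : ℤ) + 1 : ℤ) : ℝ) := by
        push_cast; ring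
      rw [this]
    | pred i ih =>
      intro x
      rw [ih x, hEper (x + 2 * π * ((-(i : ℤ) - 1 : ℤ) : ℝ))]
      have : x + 2 * π * ((-(i : ℤ) - 1 : ℤ) : ℝ) + 2 * π = x + 2 * π * ((-(i : ℤ) : ℤ) : ℝ) := by
        push_cast; ring
      rw [this]
  have htail := s8_weight_tail (Real.exp (-(k - s))) (1 / π) (1 / 2) M1 hda hM1pos ω ν hw
    (thickening (Real.exp (-κ)) E) {x | ∃ S ∈ s8K m, 1 / M1 < ‖Sh.s9Q k x S‖} hωE ?_
  · refine htail.trans (le_of_eq ?_)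
    congr 1; ring
  rintro x ⟨S, hS, hQ⟩ x' hx'
  by_contra hcon
  push Not at hcon
  apply absurd hQ
  push Not
  -- the points
  obtain ⟨x₀', hx₀'E, hx₀'d⟩ := Metric.mem_thickening_iff.1 hx'
  obtain ⟨n, hn⟩ := s8w_per_ex (x - x')
  set x₀ : ℝ := x₀' + 2 * π * n with hx₀
  have hx₀E : x₀ ∈ E := (hperInt n x₀').1 hx₀'E
  have hxx₀ : |x - x₀| ≤ M1 * Real.exp (-(k - s)) + Real.exp (-κ) := by
    have h1 : x - x₀ = (x - x' - 2 * π * n) + (x' - x₀') := by rw [hx₀]; ring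
    rw [h1]
    refine (abs_add_le _ _).trans (add_le_add ?_ ?_)
    · rw [← hn]; exact hcon
    · rw [← Real.dist_eq]; exact hx₀'d.le
  set z₁ : ℂ := (x : ℂ) + I * Sh.Hr + (Real.exp (-k) : ℝ) * S with hz₁
  set z₀ : ℂ := Sh.s8pt x₀ (Real.exp (-κ)) with hz₀
  have hz₁im : z₁.im = Sh.Hr + Real.exp (-k) * S.im := by
    simp only [hz₁, Complex.add_im, Complex.mul_im, Complex.ofReal_im, Complex.ofReal_re,
      Complex.I_im, Complex.I_re]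
    ring
  have hz₁re : z₁.re = x + Real.exp (-k) * S.re := by
    simp only [hz₁, Complex.add_re, Complex.mul_re, Complex.ofReal_im, Complex.ofReal_re,
      Complex.I_im, Complex.I_re]
    ring
  have hdep₁ : Sh.s9dep z₁ = -(Real.exp (-k) * S.im) := by
    rw [Shape.s9dep, hz₁im]; ring
  have hdep₀ : Sh.s9dep z₀ = Real.exp (-κ) := by
    simp [Shape.s9dep, hz₀, Shape.s8pt]
  have hz₀re : z₀.re = x₀ := rfl
  obtain ⟨hS1, hS2, hS3⟩ := hS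
  rw [← hM1] at hS1 hS2 hS3
  have hdk : 0 < Real.exp (-k) := Real.exp_pos _
  have hdκ : 0 < Real.exp (-κ) := Real.exp_pos _
  have hdep₁lo : Real.exp (-k) / M1 ≤ Sh.s9dep z₁ := by
    rw [hdep₁, div_eq_mul_one_div]
    have := mul_le_mul_of_nonneg_left hS3 hdk.le
    linarith
  have hdep₁hi : Sh.s9dep z₁ ≤ M1 * Real.exp (-k) := by
    rw [hdep₁]
    have := mul_le_mul_of_nonneg_left hS2 hdk.le
    linarith
  have hdep₁pos : 0 < Sh.s9dep z₁ := lt_of_lt_of_le (by positivity) hdep₁lo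
  have habs1 := le_abs_self (k - κ)
  have habs2 := neg_abs_le (k - κ)
  -- comparison of scales
  have hκda : Real.exp (-κ) ≤ Real.exp (-(k - s)) := Real.exp_le_exp.2 (by linarith)
  have hM1exp : M1 = Real.exp (Real.log M1) := (Real.exp_log hM1pos).symm
  have hMdk : M1 * Real.exp (-k) ≤ Real.exp (-(k - s)) := by
    rw [hM1exp, ← Real.exp_add]
    exact Real.exp_le_exp.2 (by linarith [abs_nonneg (k - κ)])
  have hdaH : 2 * Real.exp (-(k - s)) < Sh.Hr := by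
    have h2 := (Sh.s8_k0 hH).2
    have h3 : Real.exp (-(k - s)) ≤ Real.exp (-Sh.s9k0) := Real.exp_le_exp.2 (by linarith)
    have := Sh.sb_Hr_pos hH
    linarith
  have he1 : Real.exp (-1) < 3 / 8 := by
    rw [Real.exp_neg, inv_lt_comm₀ (Real.exp_pos _) (by norm_num)]
    have := Real.exp_one_gt_d9
    norm_num at this ⊢
    linarith
  set δmin : ℝ := Real.exp (-(max κ (k + Real.log M1) + 1)) with hδmin
  have hδ0 : 0 ≤ δmin := (Real.exp_pos _).le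
  have hδa : δmin < 3 / 8 * Sh.s9dep z₀ := by
    rw [hdep₀]
    have h1 : δmin ≤ Real.exp (-1) * Real.exp (-κ) := by
      rw [hδmin, ← Real.exp_add]
      exact Real.exp_le_exp.2 (by linarith [le_max_left κ (k + Real.log M1)])
    have h2 : Real.exp (-1) * Real.exp (-κ) < 3 / 8 * Real.exp (-κ) :=
      mul_lt_mul_of_pos_right he1 hdκ
    linarith
  have hdkM : Real.exp (-k) / M1 = Real.exp (-(k + Real.log M1)) := by
    rw [neg_add, Real.exp_add, Real.exp_neg (Real.log M1), Real.exp_log hM1pos]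
    rfl
  have hδb : δmin < 3 / 8 * Sh.s9dep z₁ := by
    have h1 : δmin ≤ Real.exp (-1) * (Real.exp (-k) / M1) := by
      rw [hdkM, hδmin, ← Real.exp_add]
      exact Real.exp_le_exp.2 (by linarith [le_max_right κ (k + Real.log M1)])
    have h2 : Real.exp (-1) * (Real.exp (-k) / M1) < 3 / 8 * (Real.exp (-k) / M1) :=
      mul_lt_mul_of_pos_right he1 (by positivity)
    linarith
  have hfz₀ := hEf x₀ hx₀E
  have hfz₀pos : 0 < ‖Sh.f z₀‖ := by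
    by_contra hc0
    push Not at hc0
    have : ‖Sh.f z₀‖ = 0 := le_antisymm hc0 (norm_nonneg _)
    rw [← hz₀, this, mul_zero] at hfz₀
    linarith
  have hne : Sh.f z₀ ≠ 0 := norm_pos_iff.1 hfz₀pos
  have hxre : |z₀.re - z₁.re| ≤ (M1 + 2) * Real.exp (-(k - s)) := by
    rw [hz₀re, hz₁re]
    have h1 : x₀ - (x + Real.exp (-k) * S.re) = -(x - x₀) - Real.exp (-k) * S.re := by ring
    rw [h1]
    have h2 : |Real.exp (-k) * S.re| ≤ M1 * Real.exp (-k) := by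
      rw [abs_mul, abs_of_pos hdk, mul_comm]
      exact mul_le_mul_of_nonneg_right hS1 hdk.le
    have h3 := abs_sub (-(x - x₀)) (Real.exp (-k) * S.re)
    rw [abs_neg] at h3
    nlinarith
  have hmain := hchain K δmin (Real.exp (-(k - s))) (M1 + 2) z₀ z₁ hδ0 hKb hne (by positivity) hδa hδb
    (by rw [hdep₀]; exact hκda) (hdep₁hi.trans hMdk) hdaH hxre
  -- estimate of the right side
  have hlog0 : Real.log (Real.exp (-(k - s)) / Sh.s9dep z₀) ≤ |k - κ| + s := by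
    rw [hdep₀, ← Real.exp_sub, Real.log_exp]
    linarith
  have hlog1 : Real.log (Real.exp (-(k - s)) / Sh.s9dep z₁) ≤ s + Real.log M1 := by
    have h1 : Real.exp (-(k - s)) / Sh.s9dep z₁ ≤ Real.exp (s + Real.log M1) := by
      rw [div_le_iff₀ hdep₁pos]
      calc Real.exp (-(k - s)) = Real.exp (s + Real.log M1) * Real.exp (-(k + Real.log M1)) := by
            rw [← Real.exp_add]; congr 1; ring
        _ ≤ Real.exp (s + Real.log M1) * Sh.s9dep z₁ := by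
            rw [← hdkM]
            exact mul_le_mul_of_nonneg_left hdep₁lo (Real.exp_pos _).le
    calc Real.log (Real.exp (-(k - s)) / Sh.s9dep z₁) ≤ Real.log (Real.exp (s + Real.log M1)) :=
          Real.log_le_log (by positivity) h1
      _ = _ := Real.log_exp _
  have hz₀im : z₀.im = Sh.Hr - Real.exp (-κ) := rfl
  have hX0 : 0 ≤ K - Real.log ‖Sh.f z₀‖ := by
    have h2 := hKb z₀ (by rw [hz₀im]; linarith) (by
      rw [hz₀im]
      rw [hdep₀] at hδa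
      linarith)
    have h3 : Real.log ‖Sh.f z₀‖ ≤ K := by
      rw [← Real.log_exp K]
      exact Real.log_le_log hfz₀pos h2
    linarith
  have hX1 : K - Real.log ‖Sh.f z₀‖ ≤ K - κ - Real.log (b / 2) := by
    have h1 : b / 2 * Real.exp κ ≤ ‖Sh.f z₀‖ := by
      have h2 := mul_le_mul_of_nonneg_right hfz₀ (Real.exp_pos κ).le
      have h3 : Real.exp (-κ) * ‖Sh.f z₀‖ * Real.exp κ = ‖Sh.f z₀‖ := by
        rw [mul_right_comm, ← Real.exp_add]; simp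
      rw [← hz₀, h3] at h2
      exact h2
    have h2 := Real.log_le_log (by positivity) h1
    rw [Real.log_mul (by positivity) (Real.exp_pos _).ne', Real.log_exp] at h2
    linarith
  set Y : ℝ := 1 + Real.exp (28 * (2 * s + |k - κ| + Real.log M1 + M1 + 3)) * (K - κ - Real.log (b / 2))
    with hY
  have hle : Sh.s9dep z₁ * Real.sqrt ‖Sh.q z₁‖ ≤ Cq * Y := by
    refine hmain.trans (mul_le_mul_of_nonneg_left ?_ (by linarith))
    rw [hY]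
    refine add_le_add le_rfl (mul_le_mul (Real.exp_le_exp.2 (by linarith)) hX1 hX0 (Real.exp_pos _).le)
  -- conclusion
  set r : ℝ := M1 ^ (1 / 2 : ℝ) with hr
  have hr0 : 0 < r := by positivity
  have hrr : r * r = M1 := by
    rw [hr, ← Real.rpow_add hM1pos]; norm_num
  have h32 : M1 ^ (3 / 2 : ℝ) = M1 * r := by
    rw [hr, ← Real.rpow_one_add' hM1pos.le (by norm_num)]; norm_num
  rw [h32] at hnum
  have hsq0 := Real.sqrt_nonneg ‖Sh.q z₁‖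
  have ht : Real.exp (-k) * Real.sqrt ‖Sh.q z₁‖ ≤ M1 * (Cq * Y) := by
    have h1 : Real.exp (-k) ≤ M1 * Sh.s9dep z₁ := by
      rw [div_le_iff₀ hM1pos] at hdep₁lo
      linarith
    calc Real.exp (-k) * Real.sqrt ‖Sh.q z₁‖ ≤ M1 * Sh.s9dep z₁ * Real.sqrt ‖Sh.q z₁‖ :=
          mul_le_mul_of_nonneg_right h1 hsq0
      _ = M1 * (Sh.s9dep z₁ * Real.sqrt ‖Sh.q z₁‖) := by ring
      _ ≤ _ := mul_le_mul_of_nonneg_left hle hM1pos.le
  have ht2 : r * (Real.exp (-k) * Real.sqrt ‖Sh.q z₁‖) ≤ Sh.μ k := by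
    refine le_trans ?_ hnum
    calc r * (Real.exp (-k) * Real.sqrt ‖Sh.q z₁‖) ≤ r * (M1 * (Cq * Y)) :=
          mul_le_mul_of_nonneg_left ht hr0.le
      _ = _ := by ring
  have hQn : ‖Sh.s9Q k x S‖ = (Real.exp (-k) * Real.sqrt ‖Sh.q z₁‖ / Sh.μ k) ^ 2 := by
    unfold Shape.s9Q
    rw [norm_mul, Complex.norm_real, Real.norm_of_nonneg (by positivity), div_pow, div_pow, mul_pow,
      Real.sq_sqrt (norm_nonneg _)]
    ring
  rw [hQn]
  have h7 : Real.exp (-k) * Real.sqrt ‖Sh.q z₁‖ / Sh.μ k ≤ 1 / r := by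
    rw [div_le_div_iff₀ hμk hr0]
    linarith
  calc (Real.exp (-k) * Real.sqrt ‖Sh.q z₁‖ / Sh.μ k) ^ 2 ≤ (1 / r) ^ 2 :=
        pow_le_pow_left₀ (by positivity) h7 2
    _ = 1 / M1 := by rw [div_pow, one_pow, sq, hrr]

/-- **one term of a prohibited sequence from a large record.** -/
theorem s8_power_term (hH : Sh.H ≠ ⊤) (ho : Sh.order = 1) :
    ∃ Cco Can : ℝ → ℝ, ∀ m : ℕ, ∃ θ κm : ℝ, 0 < θ ∧ θ < 1 ∧ ∀ κ ≥ κm, S8Rec Sh (1 / (2 * ((m : ℝ) + 1))) κ →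
      (1 + κ) ^ (1 - θ) ≤ Sh.μf κ →
      ∃ (k s : ℝ) (ω ν : Measure ℝ), S8Term Sh (1 / π) (1 / 2) 1 Cco Can m k s ω ν := by
  obtain ⟨Cco, hco⟩ := Sh.s8_term_coarse hH
  obtain ⟨Can, han⟩ := Sh.s8_term_anchor hH ho
  obtain ⟨ζ, Cμ, Cg, Cc, k₁, hζ, -, hCμ, hCg, hCc, hk₁, hdata⟩ := Sh.s8_record_data hH ho
  obtain ⟨Cq, hCq, hq⟩ := Sh.s8_power_q hH
  obtain ⟨M₀, hM₀, hfup⟩ := Sh.s8_f_upper hH
  refine ⟨Cco, Can, fun m => ?_⟩
  obtain ⟨θ, κ', hθ, hθ', -, hnum⟩ := s8_power_num m ζ Cμ Cg Cc Cq (max m Sh.s9k0) hζ hCμ hCg hCc hCq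
  refine ⟨θ, max (max κ' k₁) (max (2 * ((m : ℝ) + 1)) (Real.log M₀)), hθ, hθ', fun κ hκ hrec hsize => ?_⟩
  have hk0 : 1 ≤ Sh.s9k0 := (Sh.s8_k0 hH).1
  have hκ1 : κ' ≤ κ := ((le_max_left _ _).trans (le_max_left _ _)).trans hκ
  have hκ2 : k₁ ≤ κ := ((le_max_right _ _).trans (le_max_left _ _)).trans hκ
  have hκ3 : 2 * ((m : ℝ) + 1) ≤ κ := ((le_max_left _ _).trans (le_max_right _ _)).trans hκ
  have hκ4 : Real.log M₀ ≤ κ := ((le_max_right _ _).trans (le_max_right _ _)).trans hκ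
  have hκk0 : Sh.s9k0 ≤ κ := hk₁.trans hκ2
  have hκ0 : 0 ≤ κ := by linarith
  have hm0 : (0 : ℝ) ≤ m := Nat.cast_nonneg m
  have hM1 : (1 : ℝ) ≤ (m : ℝ) + 1 := by linarith
  have hM0 : (0 : ℝ) < (m : ℝ) + 1 := by linarith
  have hlM : 0 ≤ Real.log ((m : ℝ) + 1) := Real.log_nonneg hM1
  have hx : 0 < 1 + κ := by linarith
  have hY : 0 < (1 + κ) ^ θ := by positivity
  have hlogY : Real.log ((1 + κ) ^ θ) = θ * Real.log (1 + κ) := Real.log_rpow hx θ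
  obtain ⟨hb1, hN0⟩ := s8_pt_N0 hκ0 hθ hθ' hsize
  have hb0 : 0 < Sh.μf κ := by linarith
  have hη1 : 1 / (2 * ((m : ℝ) + 1)) ≤ 1 := by
    rw [div_le_one (by positivity)]
    linarith
  obtain ⟨d1, d2, d3⟩ := hdata (1 / (2 * ((m : ℝ) + 1))) κ (by positivity) hη1 hκ2 (by
    rw [one_div, le_inv_mul_iff₀ (by positivity)]
    linarith) hrec
  obtain ⟨k, hk, hkmax⟩ := Sh.s8_normal_level hH ho (1 / ((m : ℝ) + 1)) κ (by positivity) hκk0
  have hnormal := Sh.s8_normal_of_max (1 / ((m : ℝ) + 1)) κ k (by positivity) hkmax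
  have hN1 : 1 ≤ Sh.μf κ + κ + 1 := by linarith
  -- the shift
  have hB1 : Sh.μf κ ≤ Sh.μ k * Real.exp (-(1 / ((m : ℝ) + 1) * |k - κ|)) := by
    have h1 := hkmax κ hκk0
    rw [sub_self, abs_zero, mul_zero, neg_zero, Real.exp_zero, mul_one] at h1
    exact (Sh.s8_muf_le_mu hH κ hκk0).trans h1
  have hB2 : Sh.μ k ≤ Cμ * (Sh.μf κ + κ + 1) * Real.exp (1 / (2 * ((m : ℝ) + 1)) * |k - κ|) := by
    refine (d1 k hk).trans (mul_le_mul_of_nonneg_left (Real.exp_le_exp.2 ?_) (by positivity))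
    exact mul_le_mul_of_nonneg_left (max_le (le_abs_self _) (abs_nonneg _)) (by positivity)
  have hbB : Sh.μf κ ≤ Sh.μ k := by
    refine hB1.trans ?_
    have h1 : Real.exp (-(1 / ((m : ℝ) + 1) * |k - κ|)) ≤ 1 := by
      rw [Real.exp_le_one_iff]
      have : 0 ≤ 1 / ((m : ℝ) + 1) * |k - κ| := by positivity
      linarith
    have := mul_le_mul_of_nonneg_left h1 (Sh.s8_mu_nonneg k)
    linarith
  have hsh := s8_pt_sh hM0 hb0 hCμ hY hB1 hB2 hN0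
  rw [hlogY] at hsh
  -- the event
  have hprob := s8_nu0_prob
  have hσ1 : s8nu0 (thickening (Real.exp (-κ))
      {x | Sh.μf κ / 2 ≤ Real.exp (-κ) * ‖Sh.f (Sh.s8pt x (Real.exp (-κ)))‖}) ≤ 1 := prob_le_one
  obtain ⟨hσ0, hσt, hlam0, hlam⟩ := s8_pt_lam hσ1 hζ hb0 hCc hY (by linarith) hN0 d3
  rw [hlogY] at hlam
  have hper : ∀ x, x ∈ {x | Sh.μf κ / 2 ≤ Real.exp (-κ) * ‖Sh.f (Sh.s8pt x (Real.exp (-κ)))‖} ↔
      x + 2 * π ∈ {x | Sh.μf κ / 2 ≤ Real.exp (-κ) * ‖Sh.f (Sh.s8pt x (Real.exp (-κ)))‖} := by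
    intro x
    obtain ⟨hd0, hd1⟩ := Sh.s8bc_depth hH κ hκk0
    have e : Sh.s8pt (x + 2 * π) (Real.exp (-κ)) = Sh.s8pt x (Real.exp (-κ)) + 2 * π := by
      apply Complex.ext <;> simp [Shape.s8pt]
    simp only [Set.mem_ofPred_eq]
    rw [e, Sh.s8_f_per _ (Sh.s8_pt_mem hH x _ hd0 hd1)]
  have hEdef : ∀ x ∈ {x | Sh.μf κ / 2 ≤ Real.exp (-κ) * ‖Sh.f (Sh.s8pt x (Real.exp (-κ)))‖},
      Sh.μf κ / 2 ≤ Real.exp (-κ) * ‖Sh.f (Sh.s8pt x (Real.exp (-κ)))‖ := fun x hx => hx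
  generalize {x | Sh.μf κ / 2 ≤ Real.exp (-κ) * ‖Sh.f (Sh.s8pt x (Real.exp (-κ)))‖} = E
    at hσ0 hσt hlam0 hlam hper hEdef
  have hexplam : Real.exp (Real.log (1 / (s8nu0 (thickening (Real.exp (-κ)) E)).toReal))
      = 1 / (s8nu0 (thickening (Real.exp (-κ)) E)).toReal :=
    Real.exp_log (by have := ENNReal.toReal_pos hσ0 hσt; positivity)
  have hcinv : (s8nu0 (thickening (Real.exp (-κ)) E))⁻¹
      = ENNReal.ofReal (Real.exp (Real.log (1 / (s8nu0 (thickening (Real.exp (-κ)) E)).toReal))) := by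
    rw [hexplam, one_div, ENNReal.ofReal_inv_of_pos (ENNReal.toReal_pos hσ0 hσt),
      ENNReal.ofReal_toReal hσt]
  obtain ⟨ω, hωp, hωs, hωE, hωd⟩ := s8_cond _ (isOpen_thickening (δ := Real.exp (-κ)) (E := E)).measurableSet hσ0
  rw [hcinv] at hωd
  generalize Real.log (1 / (s8nu0 (thickening (Real.exp (-κ)) E)).toReal) = lam at hlam0 hlam hωd
  obtain ⟨hc1, hc2⟩ := hnum κ |k - κ| lam hκ1 (abs_nonneg _) hsh hlam0 (by
    have e : 2 * θ * Real.log (1 + κ) = 2 * (θ * Real.log (1 + κ)) := by ring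
    rw [e]
    exact hlam)
  obtain ⟨s, hs⟩ : ∃ s : ℝ, s = 3 + m + |k - κ| + Real.log ((m : ℝ) + 1) + ((m : ℝ) + 1) * lam := ⟨_, rfl⟩
  rw [← hs] at hc1 hc2
  have habs := abs_le.1 (le_refl |k - κ|)
  have hsh0 := abs_nonneg (k - κ)
  have hMlam : 0 ≤ ((m : ℝ) + 1) * lam := by positivity
  have hs3 : 3 + (m : ℝ) ≤ s := by
    rw [hs]
    linarith
  have hks : max (m : ℝ) Sh.s9k0 ≤ k - s := by linarith [habs.1]
  have hks1 : (m : ℝ) ≤ k - s := (le_max_left _ _).trans hks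
  have hks2 : Sh.s9k0 ≤ k - s := (le_max_right _ _).trans hks
  have hda1 : Real.exp (-(k - s)) ≤ 1 := by
    rw [Real.exp_le_one_iff]
    linarith
  obtain ⟨ν, hw, hνd⟩ := s8_mkWeight (Real.exp (-(k - s))) (Real.exp_pos _) hda1 ω hωp hωs
  have hνd' := hνd _ hωd
  have hμk1 : 1 ≤ Sh.μ k := hb1.trans hbB
  have hε : 1 / ((m : ℝ) + 1) * (((m : ℝ) + 1) * lam) = lam := by field_simp
  have hcs3 : Real.exp lam ≤ Real.exp (2 * (1 / ((m : ℝ) + 1)) * (s - 3)) := by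
    apply Real.exp_le_exp.2
    have h1 : 2 * (1 / ((m : ℝ) + 1)) * (s - 3)
        = 2 * (1 / ((m : ℝ) + 1) * (m + |k - κ| + Real.log ((m : ℝ) + 1)))
          + 2 * (1 / ((m : ℝ) + 1) * (((m : ℝ) + 1) * lam)) := by
      rw [hs]
      ring
    rw [h1, hε]
    have : 0 ≤ 1 / ((m : ℝ) + 1) * (m + |k - κ| + Real.log ((m : ℝ) + 1)) := by positivity
    linarith
  have hcs : Real.exp lam ≤ Real.exp (2 * (1 / ((m : ℝ) + 1)) * s) :=
    hcs3.trans (Real.exp_le_exp.2 (mul_le_mul_of_nonneg_left (by linarith) (by positivity)))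
  -- the upper bound of `f`
  obtain ⟨l₁, hl₁⟩ : ∃ l₁ : ℝ, l₁ = max κ (k + Real.log ((m : ℝ) + 1)) + 1 := ⟨_, rfl⟩
  have hl1 : κ + 1 ≤ l₁ := by
    rw [hl₁]
    linarith [le_max_left κ (k + Real.log ((m : ℝ) + 1))]
  have hl2 : l₁ ≤ κ + |k - κ| + Real.log ((m : ℝ) + 1) + 1 := by
    have : max κ (k + Real.log ((m : ℝ) + 1)) ≤ κ + |k - κ| + Real.log ((m : ℝ) + 1) :=
      max_le (by linarith) (by linarith [habs.2])
    rw [hl₁]
    linarith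
  obtain ⟨R, hR⟩ : ∃ R : ℝ, R = Cg * (1 + l₁) * (Sh.μf κ + κ + 1) *
      Real.exp (1 / (2 * ((m : ℝ) + 1)) * (l₁ - κ)) := ⟨_, rfl⟩
  have hη0 : 0 < 1 / (2 * ((m : ℝ) + 1)) := by positivity
  have hR1 : 1 ≤ R := by
    rw [hR]
    have a1 : 1 ≤ Cg * (1 + l₁) := one_le_mul_of_one_le_of_one_le hCg (by linarith)
    have a2 : 1 ≤ Cg * (1 + l₁) * (Sh.μf κ + κ + 1) := one_le_mul_of_one_le_of_one_le a1 hN1
    have a3 : 1 ≤ Real.exp (1 / (2 * ((m : ℝ) + 1)) * (l₁ - κ)) :=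
      Real.one_le_exp (mul_nonneg hη0.le (by linarith))
    exact one_le_mul_of_one_le_of_one_le a2 a3
  have hrow : ∀ l ∈ Icc Sh.s9k0 l₁, Real.exp (-l) * Sh.rowMax (Sh.Hr - Real.exp (-l)) ≤ R := by
    intro l hl
    refine (d2 l hl.1).trans ?_
    rw [hR]
    have hl0 : 0 ≤ 1 + l := by linarith [hl.1]
    have hl₁0 : 0 ≤ 1 + l₁ := by linarith
    exact mul_le_mul (mul_le_mul_of_nonneg_right (mul_le_mul_of_nonneg_left (by linarith [hl.2])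
      (by linarith)) (by linarith)) (Real.exp_le_exp.2 (mul_le_mul_of_nonneg_left
        (max_le (by linarith [hl.2]) (by linarith)) hη0.le)) (Real.exp_pos _).le (by positivity)
  have hfz : ∀ z : ℂ, 0 < z.im →
      z.im < Sh.Hr - Real.exp (-(max κ (k + Real.log ((m : ℝ) + 1)) + 1)) →
      ‖Sh.f z‖ ≤ Real.exp (l₁ + Real.log R) := by
    intro z hz1 hz2
    rw [← hl₁] at hz2
    have h1 := hfup l₁ R (by linarith) (by linarith) hrow z hz1 hz2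
    rw [Real.exp_add, Real.exp_log (by linarith)]
    refine h1.trans (max_le ?_ le_rfl)
    have h2 : M₀ ≤ Real.exp κ := (Real.log_le_iff_le_exp hM₀).1 hκ4
    have h3 : Real.exp κ ≤ Real.exp l₁ := Real.exp_le_exp.2 (by linarith)
    have h4 : Real.exp l₁ * 1 ≤ Real.exp l₁ * R := mul_le_mul_of_nonneg_left hR1 (Real.exp_pos _).le
    linarith
  have hK := s8_pt_K (lM := Real.log ((m : ℝ) + 1)) (sh := |k - κ|) hκ0 hb0 hN1 hN0 hCg hη1 hY hl1 hl2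
  rw [← hR] at hK
  have hP0 : 0 < ((m : ℝ) + 1) ^ (3 / 2 : ℝ) * Cq := by positivity
  have hfinal : ((m : ℝ) + 1) ^ (3 / 2 : ℝ) * Cq * (1 +
      Real.exp (28 * (2 * s + |k - κ| + Real.log ((m : ℝ) + 1) + ((m : ℝ) + 1) + 3)) *
        (l₁ + Real.log R - κ - Real.log (Sh.μf κ / 2))) ≤ Sh.μ k := by
    refine le_trans ?_ (hc2.trans (hsize.trans hbB))
    exact mul_le_mul_of_nonneg_left (by
      have := mul_le_mul_of_nonneg_left hK (Real.exp_pos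
        (28 * (2 * s + |k - κ| + Real.log ((m : ℝ) + 1) + ((m : ℝ) + 1) + 3))).le
      linarith) hP0.le
  have hBge : (m : ℝ) ≤ Sh.μ k := by
    refine le_trans ?_ (hc2.trans (hsize.trans hbB))
    have a1 : (1 : ℝ) ≤ 4 * Cg * (2 + κ + |k - κ| + Real.log ((m : ℝ) + 1)) * (1 + κ) ^ θ :=
      one_le_mul_of_one_le_of_one_le (one_le_mul_of_one_le_of_one_le (by linarith) (by linarith))
        (Real.one_le_rpow (by linarith) hθ.le)
    have a2 := Real.log_nonneg a1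
    have a3 : (m : ℝ) + 1 ≤ ((m : ℝ) + 1) ^ (3 / 2 : ℝ) := by
      calc (m : ℝ) + 1 = ((m : ℝ) + 1) ^ (1 : ℝ) := (Real.rpow_one _).symm
        _ ≤ _ := Real.rpow_le_rpow_of_exponent_le hM1 (by norm_num)
    have a4 : ((m : ℝ) + 1) ^ (3 / 2 : ℝ) * 1 ≤ ((m : ℝ) + 1) ^ (3 / 2 : ℝ) * Cq :=
      mul_le_mul_of_nonneg_left hCq (by positivity)
    have a5 : 0 ≤ Real.exp (28 * (2 * s + |k - κ| + Real.log ((m : ℝ) + 1) + ((m : ℝ) + 1) + 3)) *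
        (2 * (|k - κ| + Real.log ((m : ℝ) + 1) + 1) +
          Real.log (4 * Cg * (2 + κ + |k - κ| + Real.log ((m : ℝ) + 1)) * (1 + κ) ^ θ)) :=
      mul_nonneg (Real.exp_pos _).le (by linarith)
    have a6 := mul_le_mul_of_nonneg_left (by linarith : (1 : ℝ) ≤ 1 +
      Real.exp (28 * (2 * s + |k - κ| + Real.log ((m : ℝ) + 1) + ((m : ℝ) + 1) + 3)) *
        (2 * (|k - κ| + Real.log ((m : ℝ) + 1) + 1) +
          Real.log (4 * Cg * (2 + κ + |k - κ| + Real.log ((m : ℝ) + 1)) * (1 + κ) ^ θ))) hP0.le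
    linarith
  refine ⟨k, s, ω, ν, ⟨by linarith, hBge, hnormal, hks1, by linarith, hw, ?_, ?_, ?_⟩⟩
  · intro β hβ hβ' A hA _ j hj
    exact hco (1 / ((m : ℝ) + 1)) k s (Real.exp lam) ν (by positivity) hk hμk1 (by linarith) hnormal hνd'
      hcs3 β (by rw [mul_one_div]; exact hβ) hβ' A hA j hj
  · intro β hβ hβ'
    exact han (1 / ((m : ℝ) + 1)) k s (Real.exp lam) ω (by positivity) hks2 (by linarith) hμk1 hnormal hωd
      hcs β (by rw [mul_one_div]; exact hβ) hβ'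
  · exact hq m κ k s (l₁ + Real.log R) (Sh.μf κ) E ω ν hκk0 hk hks2 (by rw [hs]; linarith) hb0
      (by linarith) hper hEdef hfz hw hωE hfinal

/-- **Proposition 8.8 (power saving).** -/
theorem s8_power (hH : Sh.H ≠ ⊤) (ho : Sh.order = 1) (hno : IsEmpty (S9Prohibited Sh)) :
    ∃ C ε₁ : ℝ, 0 < C ∧ 0 < ε₁ ∧ ε₁ < 1 ∧ ∀ k ≥ Sh.s9k0, Sh.μf k ≤ C * (1 + k) ^ (1 - ε₁) := by
  obtain ⟨Cco, Can, hterm⟩ := Sh.s8_power_term hH ho
  obtain ⟨m, hm⟩ := s8_no_term Sh hno (1 / π) (1 / 2) 1 Cco Can (by positivity)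
  obtain ⟨θ, κm, hθ, hθ', hκ⟩ := hterm m
  have hM1 : 0 < (m : ℝ) + 1 := by positivity
  obtain ⟨C, hC, hrec⟩ := Sh.s8_record_exists hH ho (1 / (2 * ((m : ℝ) + 1))) θ
    (max κm (max (2 * ((m : ℝ) + 1)) Sh.s9k0)) (by positivity) hθ hθ'
    (le_max_of_le_right (le_max_right _ _))
    (by
      rw [one_div_one_div]
      exact le_max_of_le_right (le_max_left _ _))
  refine ⟨C, θ, hC, hθ, hθ', fun k hk => ?_⟩
  by_contra hcon
  push Not at hcon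
  obtain ⟨κ, hκU, hR, hsize⟩ := hrec k hk hcon
  obtain ⟨k', s, ω, ν, hT⟩ := hκ κ ((le_max_left _ _).trans hκU) hR hsize
  exact hm k' s ω ν hT

end Shape

end Claimed.Agent.R269
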