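/-
Row 269, P1 Section 8.4: **Lemma 8.11 (growth charge)**, by contraposition AT A FIXED PRECISION `m`.   Blueprint: helper48.
LEAF PACKAGES (fill IN PLACE):
  LF-S8-ch-gf    : `s8_Gf_attained`, `s8_f_le_Gf`, `s8_Gf_mono`, `s8_Gf_le`          (`G_f(j) = log max_x |f|` on the row of depth `e^{-j}`)
  LF-S8-ch-shift : `s8_charge_shift`                                                   (HOST-FREE: distance of the normal level)
  LF-S8-ch-row   : `s8_charge_row`                                                     (superharmonic comparison from the ancestor point)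
  LF-S8-ch-q     : `s8_charge_q`                                                       ((8.30) by Markov)
  LF-S8-ch-num   : `s8_charge_num`                                                     (HOST-FREE real asymptotics)
  LF-S8-ch-term  : `s8_charge_term`                                                    (assembly of one term)
  LF-S8-ch-main  : `s8_charge`
Black boxes: `Term.lean`, `Power.lean` (`s8_normal_level`, `s8_normal_of_max`), `Weight.lean` (`s8_mkWeight`, `s8_weight_adm`, `s8_weight_lint`), `LibPois.lean` (`s8_pois_ker`, `s8_pois_even`), `LibPoisB.lean` (`s8_hp_log`), `LibLogB.lean` (`s8_deficit_row`),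
`TileA/B/C.lean` (`s8_Tq_le_box`, `s8_box_int_le`, `s8_le_Tq`, `s8_Tq_meas`, `s8_tileL2_iff`, `s8_T_mono`), `BasicA/C.lean`.

Notation: `M1 = m + 1`, `ε = 1/M1`, `A = M1²` (aperture of a tile containing `x + iH + d_k 𝒦_m`), `d_j = e^{-j}`, `b = μ_f κ`, `B = μ k`, `sh = |k - κ|`, `s = 3 + 2 M1 log κ`, `ka = k - s`, `da = e^{-ka}`.
POLY = the three bounds of `s8_poly_of_lin` with the constant `Cp`.

PROOFS.
* `s8_Gf_attained`: `x ↦ ‖f (s8pt x d)‖` is continuous and `2π`-periodic: the supremum over `ℝ` is attained at some `xa ∈ [0,2π)` (max on `[0,2π]`, periodicity; `ciSup`); it is positive: otherwise `f = 0` on the row, hence `f ≡ 0` on the connected open `D`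
  (identity theorem: the row has accumulation points), against `s8_f_real`.
* `s8_f_le_Gf`: `PhragmenLindelof.horizontal_strip` on `|Im z| < h = Hr - e^{-j}` for `f` (holomorphic on `D ⊇` closed strip, bounded there by `s8_M_low`): on `Im z = ± h`, `‖f‖ ≤ e^{Gf j}` (`s8_f_conj` for the lower row).
* `s8_Gf_mono`: `j₁ ≤ j₂`: the row `j₁` lies in `0 ≤ Im ≤ Hr - e^{-j₂}`; `Gf j₁ = log ‖f(..xa..)‖ ≤ Gf j₂`.      `s8_Gf_le`: `‖f‖ ≤ M ≤ rowMax ≤ e^{v} C (1+v)²`.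
* `s8_charge_shift`: `1 ≤ μκ ≤ B e^{-ε sh}`, `B ≤ Cp (1+k) ≤ Cp (1+κ)(1+sh)`, `1 + sh ≤ (2/ε) e^{ε sh/2}`: `e^{ε sh/2} ≤ (2/ε) Cp (1+κ)`.
* `s8_charge_row`.  `F x = ofReal (G - log ‖f (s8pt x δ)‖)` (measurable: `f = deriv φ`).  `s8_weight_lint`: `∫⁻ F dν ≤ (1/2) ∫⁻_{[0,2π)} F(x) s8G da (dirac xa) x dx`, `s8G da (dirac xa) x = ofReal (s9ker da (x - xa))` (`lintegral_dirac'`), `s9ker da θ ≤ 2 s8Pois ℓ θ` for `ℓ = da - δ ∈ [da/2,da]`
  (`s8_pois_ker`, `da ≤ 1`), `s8Pois` even.  So `∫⁻ F dν ≤ 2π ∫⁻ ofReal (s8Pois ℓ (xa - u) (G - log ‖f ⟨u,h⟩‖)) ∂s8nu0`, `h = Hr - δ`.  `s8_hp_log` (`O = D`, `x = xa`, `h - ℓ = Hr - da`) and `s8_deficit_row` (`K = G`):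
  `≤ 2π (ofReal (G - log ‖f (s8pt xa da)‖) + ofReal (S ℓ/h) ofReal (G - L0))`, `S ℓ/h ≤ C_H da` (`h ≥ Hr/2`, `S = sinh h/(cosh h - 1)` is decreasing).
* `s8_charge_q`.  `A = M1²`.  For `S ∈ s8K m`: `z = x + iHr + d_k S ∈ s9tile A k x` (`dep z = -d_k Im S ∈ [d_k/M1, M1 d_k] ⊆ [e^{-A}d_k, e^{A}d_k]`, `|Re z - x| ≤ M1 d_k ≤ A dep z`, `Im z ≥ 0` since `M1 d_k ≤ e^{A} d_k ≤ da < Hr`).  So `1/M1 < ‖Q k x S‖ = (d_k/B)² ‖q z‖` gives
  `B/√M1 < d_k √‖q z‖ ≤ Tq A k x`.  Markov: `ν{..} ≤ (√M1/B) ∫⁻ ofReal (Tq A k x) dν`.  `s8_Tq_le_box` (box depths `≥ lo ≥ e^{-(k+A+1)}`, `≤ hi ≤ 2e^{A}d_k ≤ da/2 < Hr`, so `0 ≤ Im z ≤ Hr - e^{-(k+A+1)}` there), `s8_box_int_le` with `S8Adm ν ka CT`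
  (`s8_weight_adm`, `CT A' = (π/2)(2+2A'²)`, `A₀ = A + 1`, `w = (A+1)e^{A}d_k ≤ (A+1) da` as `s ≥ A`), rows by `s8_charge_row` (`δ ≤ hi ≤ da/2` as `s ≥ A + 2`): `∫⁻ F(s8pt · δ) dν ≤ C_r (U + 1)`.
  Total: `∫⁻ Tq dν ≤ C_A (1 + 4 (A+1) e^{2A} CT(A+1) C_r (U+1))`.   `Cm' = √M1 C_A (1 + 4(A+1)e^{2A} CT(A+1) C_r)`.
* `s8_charge_num`: `log κ → ∞`; `sh ≤ 2 M1 log (2 M1 Cp (1+κ)) ≤ 3 M1 log κ` for large `κ`; `e^{(2/M1)(s-3)} = κ⁴`, `e^{(4/M1) s} ≥ κ⁸`; `Cm = max (5 M1 + 1 + M1²) (2 M1 Cm')`; `κ - sh - s ≥ κ/2` for large `κ`, so (n6) `e^{-κ/2} (2κ + ..) ≤ 1`.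
* `s8_charge_term`.  `CTm` from `s8_T_poly` (aperture `M1`), `Cm'` from `s8_charge_q m`, `Cm κ'` from `s8_charge_num`.  Let `κ ≥ κm`, `b = μ_f κ ≥ κ^α ≥ 1`.  `k` from `s8_normal_level ε κ`; `B e^{-ε sh} ≥ μ κ ≥ b` (`s8_muf_le_mu`); `sh` bounded by `s8_charge_shift`.
  `xa` from `s8_Gf_attained` at the level `ka`, `ω = dirac xa` (probability, carried by `[0,2π)`), `ν` from `s8_mkWeight`.  Fields: `normal`: `s8_normal_of_max`.  `coarse`: for `A' ≤ m`, `j ≤ ka + 3`, `β ≥ 2ε`: `T A' j x ≤ T M1 j x ≤ CTm (1+j)² ≤ CTm (1+κ+sh)² ≤ e^{2ε(s-3)} ≤ e^{β(k-j)} ≤ B e^{β(k-j)}`,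
  integrate the square over the probability `ν`, `s8_tileL2_iff`.  `anchor`: `lintegral_dirac'`: `|P(s8pt xa da)| ≤ Cp (1+ka)⁴/da ≤ e^{4εs}/da ≤ B² e^{2βs}/da`.  `qsmall`: `G = Gf (k + M1² + 1)` (`s8_f_le_Gf`), `U = b/Cm`:
  `G - log ‖f (s8pt xa da)‖ = Gf (k+M1²+1) - Gf ka ≤ Gf (κ + Cm log κ) - Gf (κ - Cm log κ) ≤ b/Cm` (`s8_Gf_mono`, (n5), (n8)); `da (G - L0) ≤ 1` by `s8_Gf_le` and (n6); `Cm' (1 + b/Cm)/B ≤ Cm'/κ^α + Cm'/Cm ≤ 1/M1`.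
* `s8_charge`: `s8_no_term` with `(1/π, 1/2, 1, 1, 1)` gives `m`; `C = Cm`, `K₀ = κm`; contraposition of `s8_charge_term`.
-/
import Claimed.Agent.R269.S8.Power

set_option autoImplicit false

namespace Claimed.Agent.R269

open Complex ComplexConjugate Filter Topology MeasureTheory Set Metric
open scoped ENNReal Real

/-- HOST-FREE: the normal level is within `O(ε⁻¹ log κ)` of `κ`. -/
theorem s8_charge_shift (ε κ k Cp μκ B : ℝ) (hε : 0 < ε) (hε1 : ε ≤ 1) (hκ : 0 ≤ κ) (hk : 0 ≤ k) (hCp : 0 < Cp)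
    (h1 : 1 ≤ μκ) (hmax : μκ ≤ B * Real.exp (-(ε * |k - κ|))) (hB : B ≤ Cp * (1 + k)) :
    |k - κ| ≤ 2 / ε * Real.log (2 / ε * Cp * (1 + κ)) := by
  obtain ⟨s, hs⟩ : ∃ s : ℝ, s = |k - κ| := ⟨_, rfl⟩
  rw [← hs] at hmax ⊢
  have hs0 : 0 ≤ s := by rw [hs]; exact abs_nonneg _
  have hks : k ≤ κ + s := by
    have := le_abs_self (k - κ)
    rw [← hs] at this
    linarith
  obtain ⟨X, hX⟩ : ∃ X : ℝ, X = Real.exp (ε * s / 2) := ⟨_, rfl⟩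
  have hX0 : 0 < X := by rw [hX]; exact Real.exp_pos _
  have hXX : X * X = Real.exp (ε * s) := by
    rw [hX, ← Real.exp_add]; congr 1; ring
  have h2 : Real.exp (ε * s) ≤ B := by
    have h3 : 1 ≤ B * Real.exp (-(ε * s)) := h1.trans hmax
    have h4 := mul_le_mul_of_nonneg_right h3 (Real.exp_pos (ε * s)).le
    rw [one_mul, mul_assoc, ← Real.exp_add, neg_add_cancel, Real.exp_zero, mul_one] at h4
    exact h4
  have h5 : 1 + s ≤ 2 / ε * X := by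
    have h6 : ε * s / 2 + 1 ≤ X := by rw [hX]; exact Real.add_one_le_exp _
    have h7 : 2 / ε * (ε * s / 2 + 1) ≤ 2 / ε * X := mul_le_mul_of_nonneg_left h6 (by positivity)
    have h8 : 2 / ε * (ε * s / 2 + 1) = s + 2 / ε := by field_simp
    have h9 : 2 ≤ 2 / ε := by rw [le_div_iff₀ hε]; linarith
    linarith
  have h10 : 1 + k ≤ (1 + κ) * (1 + s) := by nlinarith [mul_nonneg hκ hs0]
  have h11 : X * X ≤ X * (2 / ε * Cp * (1 + κ)) := by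
    calc X * X ≤ Cp * (1 + k) := by rw [hXX]; exact h2.trans hB
      _ ≤ Cp * ((1 + κ) * (1 + s)) := mul_le_mul_of_nonneg_left h10 hCp.le
      _ ≤ Cp * ((1 + κ) * (2 / ε * X)) := by
          refine mul_le_mul_of_nonneg_left (mul_le_mul_of_nonneg_left h5 (by linarith)) hCp.le
      _ = X * (2 / ε * Cp * (1 + κ)) := by ring
  have h12 : X ≤ 2 / ε * Cp * (1 + κ) := le_of_mul_le_mul_left h11 hX0
  have h13 : ε * s / 2 ≤ Real.log (2 / ε * Cp * (1 + κ)) := by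
    rw [Real.le_log_iff_exp_le (by positivity), ← hX]
    exact h12
  calc s = 2 / ε * (ε * s / 2) := by field_simp
    _ ≤ 2 / ε * Real.log (2 / ε * Cp * (1 + κ)) := mul_le_mul_of_nonneg_left h13 (by positivity)

theorem s8cn_log_le (A κ : ℝ) (hA : 0 ≤ A) (hκ : 0 < κ) (h : 64 * A ^ 2 ≤ κ) :
    A * Real.log κ ≤ κ / 4 := by
  have hs : 0 < Real.sqrt κ := Real.sqrt_pos.2 hκ
  have h1 : Real.log κ ≤ 2 * Real.sqrt κ := by
    have := Real.log_le_sub_one_of_pos hs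
    rw [Real.log_sqrt hκ.le] at this
    linarith
  have h2 : 8 * A ≤ Real.sqrt κ := by
    apply Real.le_sqrt_of_sq_le
    nlinarith
  have h3 : Real.sqrt κ * Real.sqrt κ = κ := Real.mul_self_sqrt hκ.le
  calc A * Real.log κ ≤ A * (2 * Real.sqrt κ) := mul_le_mul_of_nonneg_left h1 hA
    _ ≤ κ / 4 := by nlinarith

/-- HOST-FREE: the choice of `C_m`, `κ_m`. -/
theorem s8_charge_num (m : ℕ) (Cp CTm Cm' α L0 K₁ : ℝ) (hCp : 1 ≤ Cp) (hCTm : 0 < CTm) (hCm' : 1 ≤ Cm')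
    (hα : 0 < α) :
    ∃ Cm κm : ℝ, 1 ≤ Cm ∧ 3 ≤ κm ∧ 2 * ((m : ℝ) + 1) * Cm' ≤ Cm ∧ ∀ κ sh : ℝ, κm ≤ κ → 0 ≤ sh →
      sh ≤ 2 * ((m : ℝ) + 1) * Real.log (2 * ((m : ℝ) + 1) * Cp * (1 + κ)) →
      K₁ ≤ κ - sh - (3 + 2 * ((m : ℝ) + 1) * Real.log κ) ∧
      ((m : ℝ) + 1) ^ 2 + 2 ≤ 3 + 2 * ((m : ℝ) + 1) * Real.log κ ∧
      CTm * (1 + κ + sh) ^ 2 ≤ Real.exp (2 / ((m : ℝ) + 1) * (2 * ((m : ℝ) + 1) * Real.log κ)) ∧
      Cp * (1 + κ + sh) ^ 4 ≤ Real.exp (4 / ((m : ℝ) + 1) * (3 + 2 * ((m : ℝ) + 1) * Real.log κ)) ∧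
      sh + ((m : ℝ) + 1) ^ 2 + 1 ≤ Cm * Real.log κ ∧
      sh + (3 + 2 * ((m : ℝ) + 1) * Real.log κ) ≤ Cm * Real.log κ ∧
      Real.exp (-(κ - sh - (3 + 2 * ((m : ℝ) + 1) * Real.log κ))) *
        (κ + sh + ((m : ℝ) + 1) ^ 2 + 1 + Real.log (Cp * (2 + κ + sh + ((m : ℝ) + 1) ^ 2) ^ 2) - L0) ≤ 1 ∧
      2 * ((m : ℝ) + 1) * Cm' ≤ κ ^ α ∧ K₁ ≤ κ - Cm * Real.log κ := by
  obtain ⟨M, hM⟩ : ∃ M : ℝ, M = (m : ℝ) + 1 := ⟨_, rfl⟩
  have hM1 : 1 ≤ M := by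
    rw [hM]
    have : (0 : ℝ) ≤ m := Nat.cast_nonneg m
    linarith
  have hM0 : 0 < M := by linarith
  simp only [← hM]
  obtain ⟨Cm, hCm1, hCm2⟩ : ∃ Cm : ℝ, 5 * M + 3 + M ^ 2 ≤ Cm ∧ 2 * M * Cm' ≤ Cm :=
    ⟨max (5 * M + 3 + M ^ 2) (2 * M * Cm'), le_max_left _ _, le_max_right _ _⟩
  have hM2 : 1 ≤ M ^ 2 := one_le_pow₀ hM1
  have hCm0 : 0 ≤ Cm := by linarith
  have q1 : 0 < Real.exp (M ^ 2) := Real.exp_pos _
  have q2 : 0 ≤ (4 * M * Cp) ^ 2 := by positivity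
  have q3 : 0 ≤ 64 * (5 * M) ^ 2 := by positivity
  have q4 : 0 ≤ 2 * |K₁| := by positivity
  have q5 : 0 ≤ 2 * M ^ 2 + 2 := by positivity
  have q6 : 0 ≤ |L0| := abs_nonneg _
  have q7 : 0 ≤ (2 * M * Cm') ^ (1 / α) := by positivity
  have q8 : 0 ≤ 64 * Cm ^ 2 := by positivity
  refine ⟨Cm, 72 + Real.exp (M ^ 2) + (4 * M * Cp) ^ 2 + 64 * (5 * M) ^ 2 + 2 * |K₁| +
    (2 * M ^ 2 + 2) + 4 * CTm + 16 * Cp + |L0| + (2 * M * Cm') ^ (1 / α) + 64 * Cm ^ 2,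
    by linarith, by linarith, hCm2, ?_⟩
  intro κ sh hκ hsh0 hsh
  have t1 : 72 ≤ κ := by linarith
  have t2 : Real.exp (M ^ 2) ≤ κ := by linarith
  have t3 : (4 * M * Cp) ^ 2 ≤ κ := by linarith
  have t4 : 64 * (5 * M) ^ 2 ≤ κ := by linarith
  have t5 : 2 * |K₁| ≤ κ := by linarith
  have t6 : 2 * M ^ 2 + 2 ≤ κ := by linarith
  have t7 : 4 * CTm ≤ κ := by linarith
  have t8 : 16 * Cp + |L0| ≤ κ := by linarith
  have t9 : (2 * M * Cm') ^ (1 / α) ≤ κ := by linarith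
  have t10 : 64 * Cm ^ 2 ≤ κ := by linarith
  have hκ0 : 0 < κ := by linarith
  obtain ⟨ℓ, hℓ⟩ : ∃ ℓ : ℝ, ℓ = Real.log κ := ⟨_, rfl⟩
  rw [← hℓ]
  have hexpℓ : Real.exp ℓ = κ := by rw [hℓ, Real.exp_log hκ0]
  have hℓM : M ^ 2 ≤ ℓ := by rw [hℓ]; exact (Real.le_log_iff_exp_le hκ0).2 t2
  have hℓ1 : 1 ≤ ℓ := by linarith
  have hsh3 : sh ≤ 3 * M * ℓ := by
    have hs : 0 < Real.sqrt κ := Real.sqrt_pos.2 hκ0
    have a1 : 4 * M * Cp ≤ Real.sqrt κ := Real.le_sqrt_of_sq_le t3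
    have a2 : 2 * M * Cp * (1 + κ) ≤ Real.sqrt κ * κ := by
      calc 2 * M * Cp * (1 + κ) ≤ 2 * M * Cp * (2 * κ) :=
            mul_le_mul_of_nonneg_left (by linarith) (by positivity)
        _ = 4 * M * Cp * κ := by ring
        _ ≤ Real.sqrt κ * κ := mul_le_mul_of_nonneg_right a1 hκ0.le
    have a3 : Real.log (2 * M * Cp * (1 + κ)) ≤ ℓ / 2 + ℓ := by
      calc Real.log (2 * M * Cp * (1 + κ)) ≤ Real.log (Real.sqrt κ * κ) :=
            Real.log_le_log (by positivity) a2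
        _ = ℓ / 2 + ℓ := by rw [Real.log_mul hs.ne' hκ0.ne', Real.log_sqrt hκ0.le, hℓ]
    have a4 : 2 * M * Real.log (2 * M * Cp * (1 + κ)) ≤ 2 * M * (ℓ / 2 + ℓ) :=
      mul_le_mul_of_nonneg_left a3 (by positivity)
    linarith
  have h5 : 5 * M * ℓ ≤ κ / 4 := by rw [hℓ]; exact s8cn_log_le (5 * M) κ (by positivity) hκ0 t4
  have hCmℓ : Cm * ℓ ≤ κ / 4 := by rw [hℓ]; exact s8cn_log_le Cm κ hCm0 hκ0 t10
  have hMℓ : 0 ≤ M * ℓ := by positivity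
  have hMℓ' : ℓ ≤ M * ℓ := le_mul_of_one_le_left (by linarith) hM1
  have hK : K₁ ≤ κ / 2 := by linarith [le_abs_self K₁]
  have hhalf : κ / 2 ≤ κ - sh - (3 + 2 * M * ℓ) := by linarith
  have hsum : 1 + κ + sh ≤ 2 * κ := by linarith
  have hsum0 : 0 ≤ 1 + κ + sh := by linarith
  have hκ1 : 1 ≤ κ := by linarith
  have hCmℓ' : (5 * M + 3 + M ^ 2) * ℓ ≤ Cm * ℓ := mul_le_mul_of_nonneg_right hCm1 (by linarith)
  have hM2ℓ : M ^ 2 ≤ M ^ 2 * ℓ := le_mul_of_one_le_right (sq_nonneg M) hℓ1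
  have hexpand : (5 * M + 3 + M ^ 2) * ℓ = 5 * M * ℓ + 3 * ℓ + M ^ 2 * ℓ := by ring
  have e3M : 3 * M * ℓ = 3 * (M * ℓ) := by ring
  have e5M : 5 * M * ℓ = 5 * (M * ℓ) := by ring
  have e2M : 2 * M * ℓ = 2 * (M * ℓ) := by ring
  refine ⟨by linarith, by linarith, ?_, ?_, by linarith, by linarith, ?_, ?_, by linarith⟩
  · have e1 : 2 / M * (2 * M * ℓ) = ((4 : ℕ) : ℝ) * ℓ := by
      push_cast; field_simp; ring
    rw [e1, Real.exp_nat_mul, hexpℓ]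
    calc CTm * (1 + κ + sh) ^ 2 ≤ CTm * (2 * κ) ^ 2 :=
          mul_le_mul_of_nonneg_left (pow_le_pow_left₀ hsum0 hsum 2) hCTm.le
      _ = 4 * CTm * κ ^ 2 := by ring
      _ ≤ κ * κ ^ 2 := mul_le_mul_of_nonneg_right t7 (by positivity)
      _ = κ ^ 3 := by ring
      _ ≤ κ ^ 4 := pow_le_pow_right₀ hκ1 (by norm_num)
  · have e1 : ((8 : ℕ) : ℝ) * ℓ ≤ 4 / M * (3 + 2 * M * ℓ) := by
      have : 4 / M * (3 + 2 * M * ℓ) = 12 / M + 8 * ℓ := by field_simp; ring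
      rw [this]
      push_cast
      have : 0 ≤ 12 / M := by positivity
      linarith
    refine le_trans ?_ (Real.exp_le_exp.2 e1)
    rw [Real.exp_nat_mul, hexpℓ]
    calc Cp * (1 + κ + sh) ^ 4 ≤ Cp * (2 * κ) ^ 4 :=
          mul_le_mul_of_nonneg_left (pow_le_pow_left₀ hsum0 hsum 4) (by linarith)
      _ = 16 * Cp * κ ^ 4 := by ring
      _ ≤ κ * κ ^ 4 := mul_le_mul_of_nonneg_right (by linarith) (by positivity)
      _ = κ ^ 5 := by ring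
      _ ≤ κ ^ 8 := pow_le_pow_right₀ hκ1 (by norm_num)
  · obtain ⟨Y, hY⟩ : ∃ Y : ℝ, Y = κ + sh + M ^ 2 + 1 + Real.log (Cp * (2 + κ + sh + M ^ 2) ^ 2) - L0 :=
      ⟨_, rfl⟩
    rw [← hY]
    have hZ0 : 0 < 2 + κ + sh + M ^ 2 := by positivity
    have hlog : Real.log (Cp * (2 + κ + sh + M ^ 2) ^ 2) ≤ Cp + 6 * κ := by
      rw [Real.log_mul (by linarith) (by positivity), Real.log_pow]
      have b1 := Real.log_le_sub_one_of_pos (show 0 < Cp by linarith)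
      have b2 := Real.log_le_sub_one_of_pos hZ0
      push_cast
      linarith
    have hY9 : Y ≤ 9 * κ := by
      rw [hY]
      have := neg_abs_le L0
      linarith
    rcases le_total Y 0 with hY0 | hY0
    · have : Real.exp (-(κ - sh - (3 + 2 * M * ℓ))) * Y ≤ 0 :=
        mul_nonpos_of_nonneg_of_nonpos (Real.exp_pos _).le hY0
      linarith
    · have c1 : Real.exp (-(κ - sh - (3 + 2 * M * ℓ))) ≤ Real.exp (-(κ / 2)) :=
        Real.exp_le_exp.2 (by linarith)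
      have c2 : 9 * κ ≤ Real.exp (κ / 2) := by
        have h1 := Real.quadratic_le_exp_of_nonneg (show 0 ≤ κ / 2 by linarith)
        have h2 : 72 * κ ≤ κ * κ := mul_le_mul_of_nonneg_right t1 hκ0.le
        have h3 : (κ / 2) ^ 2 / 2 = κ * κ / 8 := by ring
        linarith
      calc Real.exp (-(κ - sh - (3 + 2 * M * ℓ))) * Y ≤ Real.exp (-(κ / 2)) * Real.exp (κ / 2) :=
            mul_le_mul c1 (hY9.trans c2) hY0 (Real.exp_pos _).le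
        _ = 1 := by rw [← Real.exp_add]; simp
  · have d1 : (0 : ℝ) ≤ 2 * M * Cm' := by positivity
    calc 2 * M * Cm' = ((2 * M * Cm') ^ (1 / α)) ^ α := by
          rw [← Real.rpow_mul d1, one_div_mul_cancel hα.ne', Real.rpow_one]
      _ ≤ κ ^ α := Real.rpow_le_rpow q7 t9 hα.le

namespace Shape

variable (Sh : Shape)

theorem s8ch_d (hH : Sh.H ≠ ⊤) (j : ℝ) (hj : Sh.s9k0 ≤ j) :
    0 < Real.exp (-j) ∧ Real.exp (-j) < Sh.Hr / 10 ∧ 0 < Sh.Hr := by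
  have h2 := (Sh.s8_k0 hH).2
  have h3 : Real.exp (-j) ≤ Real.exp (-Sh.s9k0) := Real.exp_le_exp.2 (by linarith)
  exact ⟨Real.exp_pos _, by linarith, Sh.sb_Hr_pos hH⟩

theorem s8ch_attained (hH : Sh.H ≠ ⊤) (j : ℝ) (hj : Sh.s9k0 ≤ j) :
    ∃ xa ∈ Ico (0 : ℝ) (2 * π), Sh.f (Sh.s8pt xa (Real.exp (-j))) ≠ 0 ∧
      Real.log ‖Sh.f (Sh.s8pt xa (Real.exp (-j)))‖ = Sh.s8Gf j ∧
      ∀ x, ‖Sh.f (Sh.s8pt x (Real.exp (-j)))‖ ≤ ‖Sh.f (Sh.s8pt xa (Real.exp (-j)))‖ := by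
  obtain ⟨hd0, hd1, hHr⟩ := Sh.s8ch_d hH j hj
  have hd2 : Real.exp (-j) < 2 * Sh.Hr := by linarith
  set d : ℝ := Real.exp (-j) with hd
  have hcf : Continuous fun x : ℝ => Sh.f (Sh.s8pt x d) := Sh.s8_row_cont_f hH d hd0 hd2
  set g : ℝ → ℝ := fun x => ‖Sh.f (Sh.s8pt x d)‖ with hg
  have hcont : Continuous g := hcf.norm
  have hper : Function.Periodic g (2 * π) := by
    intro x
    have h1 : Sh.s8pt (x + 2 * π) d = Sh.s8pt x d + 2 * π := by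
      apply Complex.ext <;> simp [Shape.s8pt]
    simp only [hg]
    rw [h1, Sh.s8_f_per _ (Sh.s8_pt_mem hH x _ hd0 hd2)]
  have hpi : (0 : ℝ) < 2 * π := by positivity
  obtain ⟨x₁, _, hmax⟩ := (isCompact_Icc (a := (0 : ℝ)) (b := 2 * π)).exists_isMaxOn
    ⟨0, left_mem_Icc.2 hpi.le⟩ hcont.continuousOn
  have hall : ∀ x, g x ≤ g x₁ := by
    intro x
    obtain ⟨y, hy, hxy⟩ := hper.exists_mem_Ico₀ hpi x
    rw [hxy]
    exact hmax ⟨hy.1, hy.2.le⟩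
  obtain ⟨xa, hxa, hxa1⟩ := hper.exists_mem_Ico₀ hpi x₁
  have hall' : ∀ x, g x ≤ g xa := fun x => hxa1 ▸ hall x
  have hsup : (⨆ x : ℝ, g x) = g xa :=
    le_antisymm (ciSup_le hall') (le_ciSup ⟨g xa, by rintro _ ⟨x, rfl⟩; exact hall' x⟩ xa)
  refine ⟨xa, hxa, ?_, ?_, hall'⟩
  · intro h0
    have hz : ∀ x : ℝ, Sh.f (Sh.s8pt x d) = 0 := by
      intro x
      have h1 := hall' x
      simp only [hg] at h1
      rw [h0, norm_zero] at h1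
      exact norm_le_zero_iff.1 h1
    have hzD : Sh.s8pt 0 d ∈ Sh.D := Sh.s8_pt_mem hH 0 d hd0 hd2
    have hfr := Sh.sb_f_frequently_ne hzD
    have hcm : Continuous fun x : ℝ => Sh.s8pt x d := s8bc_cont_mk _
    have htend : Tendsto (fun x : ℝ => Sh.s8pt x d) (𝓝[≠] (0 : ℝ)) (𝓝[≠] (Sh.s8pt 0 d)) := by
      refine tendsto_nhdsWithin_of_tendsto_nhds_of_eventually_within _
        (hcm.continuousAt.tendsto.mono_left nhdsWithin_le_nhds) ?_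
      filter_upwards [self_mem_nhdsWithin] with x hx
      intro h1
      apply hx
      have := congrArg Complex.re h1
      simpa [Shape.s8pt] using this
    obtain ⟨x, hx⟩ := (htend.eventually hfr).exists
    exact hx (hz x)
  · unfold Shape.s8Gf
    rw [← hd]
    have : (⨆ x : ℝ, ‖Sh.f (Sh.s8pt x d)‖) = g xa := hsup
    rw [this]

theorem s8_Gf_attained (hH : Sh.H ≠ ⊤) (j : ℝ) (hj : Sh.s9k0 ≤ j) :
    ∃ xa ∈ Ico (0 : ℝ) (2 * π), Sh.f (Sh.s8pt xa (Real.exp (-j))) ≠ 0 ∧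
      Real.log ‖Sh.f (Sh.s8pt xa (Real.exp (-j)))‖ = Sh.s8Gf j := by
  obtain ⟨xa, h1, h2, h3, _⟩ := Sh.s8ch_attained hH j hj
  exact ⟨xa, h1, h2, h3⟩

/-- maximum principle between opposite rows. -/
theorem s8_f_le_Gf (hH : Sh.H ≠ ⊤) (j : ℝ) (hj : Sh.s9k0 ≤ j) :
    ∀ z : ℂ, 0 ≤ z.im → z.im ≤ Sh.Hr - Real.exp (-j) → ‖Sh.f z‖ ≤ Real.exp (Sh.s8Gf j) := by
  intro z hz0 hz1
  obtain ⟨hd0, hd1, hHr⟩ := Sh.s8ch_d hH j hj
  obtain ⟨xa, _, hne, hlog, hall⟩ := Sh.s8ch_attained hH j hj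
  have hexp : Real.exp (Sh.s8Gf j) = ‖Sh.f (Sh.s8pt xa (Real.exp (-j)))‖ := by
    rw [← hlog, Real.exp_log (norm_pos_iff.2 hne)]
  set h : ℝ := Sh.Hr - Real.exp (-j) with hh
  have hh0 : 0 < h := by rw [hh]; linarith
  have hhH : h < Sh.Hr := by rw [hh]; linarith
  have htop : ∀ w : ℂ, w.im = h → ‖Sh.f w‖ ≤ Real.exp (Sh.s8Gf j) := by
    intro w hw
    have : w = Sh.s8pt w.re (Real.exp (-j)) := by
      apply Complex.ext
      · rfl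
      · exact hw
    rw [this, hexp]
    exact hall _
  have hsubD : ∀ w : ℂ, |w.im| ≤ h → w ∈ Sh.D := fun w hw =>
    (Sh.sb_mem_D_iff hH w).2 (lt_of_le_of_lt hw hhH)
  obtain ⟨M₀, hM₀⟩ := Sh.sb_bdd_f hH hhH
  refine PhragmenLindelof.horizontal_strip (a := -h) (b := h) (f := Sh.f) ?_ ?_ ?_ htop
    (by linarith) hz1
  · apply DifferentiableOn.diffContOnCl
    rw [Complex.closure_preimage_im, closure_Ioo (by linarith)]
    exact Sh.sb_f_diff.mono fun w hw => hsubD w (abs_le.2 hw)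
  · refine ⟨0, div_pos Real.pi_pos (by linarith), 0, ?_⟩
    refine Asymptotics.IsBigO.of_bound M₀ ?_
    refine eventually_inf_principal.2 (Eventually.of_forall fun w hw => ?_)
    have hw' : |w.im| ≤ h := abs_le.2 ⟨hw.1.le, hw.2.le⟩
    simpa using hM₀ w hw'
  · intro w hw
    have hwD : w ∈ Sh.D := hsubD w (by rw [hw, abs_neg, abs_of_pos hh0])
    rw [← Sh.sb_norm_f_conj hwD]
    apply htop
    rw [Complex.conj_im, hw, neg_neg]

theorem s8_Gf_mono (hH : Sh.H ≠ ⊤) : MonotoneOn Sh.s8Gf (Ici Sh.s9k0) := by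
  intro j₁ hj₁ j₂ hj₂ h12
  obtain ⟨xa, _, hne, hlog⟩ := Sh.s8_Gf_attained hH j₁ hj₁
  obtain ⟨hd0, hd1, hHr⟩ := Sh.s8ch_d hH j₁ hj₁
  have h1 := Sh.s8_f_le_Gf hH j₂ hj₂ (Sh.s8pt xa (Real.exp (-j₁)))
    (by show 0 ≤ Sh.Hr - Real.exp (-j₁); linarith)
    (by
      show Sh.Hr - Real.exp (-j₁) ≤ Sh.Hr - Real.exp (-j₂)
      have : Real.exp (-j₂) ≤ Real.exp (-j₁) := Real.exp_le_exp.2 (by linarith)
      linarith)
  rw [← hlog, ← Real.log_exp (Sh.s8Gf j₂)]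
  exact Real.log_le_log (norm_pos_iff.2 hne) h1

theorem s8_Gf_le (hH : Sh.H ≠ ⊤) (C : ℝ)
    (h : ∀ k ≥ Sh.s9k0, Real.exp (-k) * Sh.rowMax (Sh.Hr - Real.exp (-k)) ≤ C * (1 + k) ^ 2) :
    ∀ v ≥ Sh.s9k0, Sh.s8Gf v ≤ v + Real.log (C * (1 + v) ^ 2) := by
  intro v hv
  obtain ⟨xa, _, hne, hlog⟩ := Sh.s8_Gf_attained hH v hv
  obtain ⟨hd0, hd1, hHr⟩ := Sh.s8ch_d hH v hv
  have hpos : 0 < ‖Sh.f (Sh.s8pt xa (Real.exp (-v)))‖ := norm_pos_iff.2 hne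
  have hD : Sh.s8pt xa (Real.exp (-v)) ∈ Sh.D := Sh.s8_pt_mem hH xa _ hd0 (by linarith)
  have h1 : ‖Sh.f (Sh.s8pt xa (Real.exp (-v)))‖ ≤ Sh.rowMax (Sh.Hr - Real.exp (-v)) :=
    (Sh.sb_norm_f_le_M _).trans (Sh.sb_M_le_rowMax hH hD)
  have h2 := h v hv
  have h3 : Sh.rowMax (Sh.Hr - Real.exp (-v)) ≤ Real.exp v * (C * (1 + v) ^ 2) := by
    have h4 := mul_le_mul_of_nonneg_left h2 (Real.exp_pos v).le
    rw [← mul_assoc, ← Real.exp_add] at h4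
    simpa using h4
  have h5 : 0 < Real.exp v * (C * (1 + v) ^ 2) := lt_of_lt_of_le hpos (h1.trans h3)
  have h6 : 0 < C * (1 + v) ^ 2 := by
    by_contra hc
    push Not at hc
    have := mul_nonpos_of_nonneg_of_nonpos (Real.exp_pos v).le hc
    linarith
  rw [← hlog]
  calc Real.log ‖Sh.f (Sh.s8pt xa (Real.exp (-v)))‖ ≤ Real.log (Real.exp v * (C * (1 + v) ^ 2)) :=
        Real.log_le_log hpos (h1.trans h3)
    _ = _ := by rw [Real.log_mul (Real.exp_pos _).ne' h6.ne', Real.log_exp]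

/-- positive superharmonic comparison from the ancestor point `xa + i(H - d_a)` to the row of depth `δ ≤ d_a/2`. -/
theorem s8_charge_row (hH : Sh.H ≠ ⊤) :
    ∃ C : ℝ, 0 < C ∧ ∀ (ka δ G xa : ℝ) (ν : Measure ℝ), Sh.s9k0 ≤ ka → 0 < δ → δ ≤ Real.exp (-ka) / 2 →
      (∀ z : ℂ, 0 ≤ z.im → z.im ≤ Sh.Hr - δ → ‖Sh.f z‖ ≤ Real.exp G) →
      Sh.f (Sh.s8pt xa (Real.exp (-ka))) ≠ 0 →
      S9Weight (Real.exp (-ka)) (1 / π) (1 / 2) (Measure.dirac xa) ν →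
      ∫⁻ x, ENNReal.ofReal (G - Real.log ‖Sh.f (Sh.s8pt x δ)‖) ∂ν ≤
        ENNReal.ofReal C * (ENNReal.ofReal (G - Real.log ‖Sh.f (Sh.s8pt xa (Real.exp (-ka)))‖) +
          ENNReal.ofReal (Real.exp (-ka) * (G - Sh.s8L0))) := by
  have hHr := Sh.sb_Hr_pos hH
  have hcosh : 0 < Real.cosh (Sh.Hr / 2) - 1 := by
    have := Real.one_lt_cosh.2 (show Sh.Hr / 2 ≠ 0 by positivity)
    linarith
  have hsinh : 0 < Real.sinh Sh.Hr := Real.sinh_pos_iff.2 hHr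
  set CH : ℝ := Real.sinh Sh.Hr / (Real.cosh (Sh.Hr / 2) - 1) * (2 / Sh.Hr) with hCH
  have hCH0 : 0 < CH := by positivity
  refine ⟨2 * π * max 1 CH, by positivity, ?_⟩
  intro ka δ G xa ν hka hδ hδ2 hG hne hw
  obtain ⟨hd0, hd1, _⟩ := Sh.s8ch_d hH ka hka
  set da : ℝ := Real.exp (-ka) with hda
  have hda1 : da ≤ 1 := by
    rw [hda, ← Real.exp_zero]
    exact Real.exp_le_exp.2 (by linarith [(Sh.s8_k0 hH).1])
  set h : ℝ := Sh.Hr - δ with hh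
  set ℓ : ℝ := da - δ with hℓ
  have hℓ0 : 0 < ℓ := by rw [hℓ]; linarith
  have hℓ1 : da / 2 ≤ ℓ := by rw [hℓ]; linarith
  have hℓ2 : ℓ ≤ da := by rw [hℓ]; linarith
  have hh0 : 0 < h := by rw [hh]; linarith
  have hhH : h < Sh.Hr := by rw [hh]; linarith
  have hhH2 : Sh.Hr / 2 ≤ h := by rw [hh]; linarith
  have hℓh : ℓ ≤ h := by rw [hℓ, hh]; linarith
  have hhℓ : h - ℓ = Sh.Hr - da := by rw [hh, hℓ]; ring
  -- measurability
  have hFm : Measurable fun x : ℝ => ENNReal.ofReal (G - Real.log ‖Sh.f (Sh.s8pt x δ)‖) := by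
    have h1 : Measurable fun x : ℝ => Sh.s8pt x δ := (s8bc_cont_mk _).measurable
    exact (measurable_const.sub (Real.measurable_log.comp (Sh.sb_measurable_f.comp h1).norm)).ennreal_ofReal
  have h1 := (s8_weight_lint da (1 / π) (1 / 2) (Measure.dirac xa) ν hw _ hFm).2
  have hGd : ∀ x, s8G da (Measure.dirac xa) x = ENNReal.ofReal (s9ker da (x - xa)) := by
    intro x
    unfold s8G
    have hm : Measurable fun x' : ℝ => ENNReal.ofReal (s9ker da (x - x')) :=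
      ((s8_ker_meas da).comp (measurable_const.sub measurable_id)).ennreal_ofReal
    exact lintegral_dirac' xa hm
  have hpt : ∀ x : ℝ, ENNReal.ofReal (G - Real.log ‖Sh.f (Sh.s8pt x δ)‖) * s8G da (Measure.dirac xa) x
      ≤ ENNReal.ofReal 2 * ENNReal.ofReal (s8Pois ℓ (xa - x) * (G - Real.log ‖Sh.f ⟨x, h⟩‖)) := by
    intro x
    rw [hGd x]
    have hk := (s8_pois_ker da ℓ (x - xa) hd0 hda1 hℓ1 hℓ2).1
    have he : s8Pois ℓ (x - xa) = s8Pois ℓ (xa - x) := by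
      rw [← s8_pois_even, neg_sub]
    rw [he] at hk
    have hp := (s8_pois_pos ℓ (xa - x) hℓ0).le
    have hpt' : Sh.s8pt x δ = ⟨x, h⟩ := rfl
    rw [hpt']
    calc ENNReal.ofReal (G - Real.log ‖Sh.f ⟨x, h⟩‖) * ENNReal.ofReal (s9ker da (x - xa))
        ≤ ENNReal.ofReal (G - Real.log ‖Sh.f ⟨x, h⟩‖) * ENNReal.ofReal (2 * s8Pois ℓ (xa - x)) :=
          mul_le_mul' le_rfl (ENNReal.ofReal_le_ofReal (by linarith))
      _ = ENNReal.ofReal 2 * ENNReal.ofReal (s8Pois ℓ (xa - x) * (G - Real.log ‖Sh.f ⟨x, h⟩‖)) := by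
          rw [ENNReal.ofReal_mul (by norm_num : (0 : ℝ) ≤ 2), ENNReal.ofReal_mul hp]
          ring
  have hnu : ∀ Φ : ℝ → ℝ≥0∞, ∫⁻ x in Ico (0 : ℝ) (2 * π), Φ x
      = ENNReal.ofReal (2 * π) * ∫⁻ x, Φ x ∂s8nu0 := by
    intro Φ
    unfold s8nu0
    rw [lintegral_smul_measure, smul_eq_mul, ← mul_assoc, ← ENNReal.ofReal_mul (by positivity),
      mul_inv_cancel₀ (by positivity), ENNReal.ofReal_one, one_mul]
  have hsubD : {z : ℂ | 0 ≤ z.im ∧ z.im ≤ h} ⊆ Sh.D := by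
    intro z hz
    rw [Sh.sb_mem_D_iff hH, abs_of_nonneg hz.1]
    exact lt_of_le_of_lt hz.2 hhH
  have h2 := s8_hp_log Sh.f h G hh0 Sh.D Sh.sb_isOpen_D hsubD Sh.sb_f_diff
    (fun z hz0 hz1 => Sh.sb_f_per z (hsubD ⟨hz0, hz1⟩)) hG xa ℓ hℓ0 hℓh
    (by rw [hhℓ]; exact hne)
  have h3 := s8_deficit_row Sh.f Sh.Hr h G (by rw [abs_of_pos hh0]; exact hhH)
    (by rw [← Sh.sb_D_eq hH]; exact Sh.sb_f_diff)
    (fun z hz => Sh.sb_f_per z ((Sh.sb_mem_D_iff hH z).2 hz))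
    (fun z hz => Sh.sb_norm_f_conj ((Sh.sb_mem_D_iff hH z).2 hz)) Sh.s8_f_real
    (fun x => hG ⟨x, h⟩ hh0.le le_rfl)
  have hS : Real.sinh h / (Real.cosh h - 1) * (ℓ / h) ≤ CH * da := by
    have e1 : Real.sinh h ≤ Real.sinh Sh.Hr := Real.sinh_le_sinh.2 hhH.le
    have e2 : Real.cosh (Sh.Hr / 2) ≤ Real.cosh h := by
      rw [Real.cosh_le_cosh, abs_of_pos (by positivity), abs_of_pos hh0]
      exact hhH2
    have e3 : Real.sinh h / (Real.cosh h - 1) ≤ Real.sinh Sh.Hr / (Real.cosh (Sh.Hr / 2) - 1) :=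
      div_le_div₀ hsinh.le e1 hcosh (by linarith)
    have e4 : ℓ / h ≤ 2 / Sh.Hr * da := by
      rw [div_le_iff₀ hh0]
      have : 2 / Sh.Hr * da * h = da * (2 * h / Sh.Hr) := by ring
      rw [this]
      have h5 : 1 ≤ 2 * h / Sh.Hr := by rw [le_div_iff₀ hHr]; linarith
      nlinarith
    calc Real.sinh h / (Real.cosh h - 1) * (ℓ / h)
        ≤ Real.sinh Sh.Hr / (Real.cosh (Sh.Hr / 2) - 1) * (2 / Sh.Hr * da) :=
          mul_le_mul e3 e4 (by positivity) (by positivity)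
      _ = CH * da := by rw [hCH]; ring
  set a : ℝ≥0∞ := ENNReal.ofReal (G - Real.log ‖Sh.f (Sh.s8pt xa da)‖) with ha
  have hL0 : G - (2 * π)⁻¹ * ∫ x in (0 : ℝ)..(2 * π), Real.log ‖Sh.f (x : ℂ)‖ = G - Sh.s8L0 := rfl
  rw [hL0] at h3
  have hI : ∫⁻ u, ENNReal.ofReal (s8Pois ℓ (xa - u) * (G - Real.log ‖Sh.f ⟨u, h⟩‖)) ∂s8nu0
      ≤ ENNReal.ofReal (max 1 CH) * (a + ENNReal.ofReal (da * (G - Sh.s8L0))) := by
    refine h2.trans ?_
    rw [hhℓ, mul_add]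
    refine add_le_add ?_ ?_
    · have : (1 : ℝ≥0∞) ≤ ENNReal.ofReal (max 1 CH) := by
        rw [← ENNReal.ofReal_one]; exact ENNReal.ofReal_le_ofReal (le_max_left _ _)
      calc ENNReal.ofReal (G - Real.log ‖Sh.f ⟨xa, Sh.Hr - da⟩‖) = 1 * a := (one_mul _).symm
        _ ≤ _ := mul_le_mul' this le_rfl
    · calc ENNReal.ofReal (Real.sinh h / (Real.cosh h - 1) * (ℓ / h)) *
            ∫⁻ u, ENNReal.ofReal (G - Real.log ‖Sh.f ⟨u, h⟩‖) ∂s8nu0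
          ≤ ENNReal.ofReal (CH * da) * ENNReal.ofReal (G - Sh.s8L0) :=
            mul_le_mul' (ENNReal.ofReal_le_ofReal hS) h3
        _ = ENNReal.ofReal CH * ENNReal.ofReal (da * (G - Sh.s8L0)) := by
            rw [ENNReal.ofReal_mul hCH0.le, ENNReal.ofReal_mul hd0.le, mul_assoc]
        _ ≤ _ := mul_le_mul' (ENNReal.ofReal_le_ofReal (le_max_right _ _)) le_rfl
  calc ∫⁻ x, ENNReal.ofReal (G - Real.log ‖Sh.f (Sh.s8pt x δ)‖) ∂ν
      ≤ ENNReal.ofReal (1 / 2) * ∫⁻ x in Ico (0 : ℝ) (2 * π),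
          ENNReal.ofReal (G - Real.log ‖Sh.f (Sh.s8pt x δ)‖) * s8G da (Measure.dirac xa) x := h1
    _ ≤ ENNReal.ofReal (1 / 2) * ∫⁻ x in Ico (0 : ℝ) (2 * π),
          ENNReal.ofReal 2 * ENNReal.ofReal (s8Pois ℓ (xa - x) * (G - Real.log ‖Sh.f ⟨x, h⟩‖)) :=
        mul_le_mul' le_rfl (lintegral_mono hpt)
    _ = ENNReal.ofReal (2 * π) *
          ∫⁻ x, ENNReal.ofReal (s8Pois ℓ (xa - x) * (G - Real.log ‖Sh.f ⟨x, h⟩‖)) ∂s8nu0 := by
        rw [lintegral_const_mul' _ _ ENNReal.ofReal_ne_top, hnu, ← mul_assoc, ← mul_assoc,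
          ← ENNReal.ofReal_mul (by norm_num)]
        norm_num
    _ ≤ ENNReal.ofReal (2 * π) * (ENNReal.ofReal (max 1 CH) * (a + ENNReal.ofReal (da * (G - Sh.s8L0)))) :=
        mul_le_mul' le_rfl hI
    _ = _ := by
        rw [← mul_assoc, ← ENNReal.ofReal_mul (by positivity)]

/-- (8.30) at precision `m` from a small deficit `U` at the ancestor point. -/
theorem s8_charge_q (hH : Sh.H ≠ ⊤) (m : ℕ) :
    ∃ Cm' : ℝ, 1 ≤ Cm' ∧ ∀ (k s G xa U : ℝ) (ν : Measure ℝ), Sh.s9k0 ≤ k - s → ((m : ℝ) + 1) ^ 2 + 2 ≤ s →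
      0 < Sh.μ k →
      (∀ z : ℂ, 0 ≤ z.im → z.im ≤ Sh.Hr - Real.exp (-(k + ((m : ℝ) + 1) ^ 2 + 1)) → ‖Sh.f z‖ ≤ Real.exp G) →
      Sh.f (Sh.s8pt xa (Real.exp (-(k - s)))) ≠ 0 →
      S9Weight (Real.exp (-(k - s))) (1 / π) (1 / 2) (Measure.dirac xa) ν → 0 ≤ U →
      G - Real.log ‖Sh.f (Sh.s8pt xa (Real.exp (-(k - s))))‖ ≤ U →
      Real.exp (-(k - s)) * (G - Sh.s8L0) ≤ 1 →
      ν {x | ∃ S ∈ s8K m, 1 / ((m : ℝ) + 1) < ‖Sh.s9Q k x S‖} ≤ ENNReal.ofReal (Cm' * (1 + U) / Sh.μ k) := by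
  set M1 : ℝ := (m : ℝ) + 1 with hM1
  have hM1pos : 0 < M1 := by positivity
  have hM1one : 1 ≤ M1 := by rw [hM1]; linarith [(Nat.cast_nonneg m : (0 : ℝ) ≤ m)]
  set A : ℝ := M1 ^ 2 with hA
  have hA1 : 1 ≤ A := by rw [hA]; nlinarith
  have hAM : M1 ≤ A := by rw [hA]; nlinarith
  obtain ⟨CA, hCA, hbox⟩ := Sh.s8_Tq_le_box hH A hA1
  obtain ⟨Cr, hCr, hrow⟩ := Sh.s8_charge_row hH
  set CT : ℝ → ℝ := fun A' => 1 / 2 / (1 / π) * (2 + 2 * A' ^ 2) with hCT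
  have hCT0 : 0 < CT (A + 1) := by simp only [hCT]; positivity
  set r : ℝ := M1 ^ (1 / 2 : ℝ) with hr
  have hr0 : 0 < r := by positivity
  have hrr : r * r = M1 := by
    rw [hr, ← Real.rpow_add hM1pos]; norm_num
  set W : ℝ := 4 * (A + 1) * Real.exp (2 * A) * CT (A + 1) * Cr with hW
  have hW0 : 0 < W := by positivity
  refine ⟨max 1 (r * (CA * (1 + W))), le_max_left _ _, ?_⟩
  intro k s G xa U ν hka hs hμk hG hne hw hU hU1 hU2
  obtain ⟨hd0, hd1, hHr⟩ := Sh.s8ch_d hH (k - s) hka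
  set da : ℝ := Real.exp (-(k - s)) with hda
  have hdk : 0 < Real.exp (-k) := Real.exp_pos _
  have hνp := hw.ν_prob
  -- scales
  have hAda : Real.exp A * Real.exp (-k) ≤ da := by
    rw [hda, ← Real.exp_add]
    exact Real.exp_le_exp.2 (by linarith)
  have h4 : (4 : ℝ) ≤ Real.exp 2 := by
    have h1 := Real.add_one_le_exp (1 : ℝ)
    have h2 : Real.exp 2 = Real.exp 1 * Real.exp 1 := by rw [← Real.exp_add]; norm_num
    rw [h2]; nlinarith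
  have hhi : 2 * Real.exp A * Real.exp (-k) ≤ da / 2 := by
    have h1 : Real.exp 2 * (Real.exp A * Real.exp (-k)) ≤ da := by
      rw [hda, ← Real.exp_add, ← Real.exp_add]
      exact Real.exp_le_exp.2 (by linarith)
    have h2 : 0 < Real.exp A * Real.exp (-k) := by positivity
    nlinarith
  have hlo : Real.exp (-(k + A + 1)) ≤ s8lo A k := by
    unfold s8lo
    have h1 : Real.exp (-(k + A + 1)) = Real.exp (-A) * Real.exp (-k) * Real.exp (-1) := by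
      rw [← Real.exp_add, ← Real.exp_add]; congr 1; ring
    have h2 : Real.exp (-1) ≤ 1 / 2 := by
      rw [Real.exp_neg, inv_le_comm₀ (Real.exp_pos _) (by norm_num)]
      have := Real.add_one_le_exp (1 : ℝ)
      norm_num at this ⊢
      linarith
    rw [h1, div_eq_mul_one_div]
    exact mul_le_mul_of_nonneg_left h2 (by positivity)
  have hhi' : Sh.s8hi A k ≤ da / 2 := (min_le_left _ _).trans hhi
  have hM1exp : M1 ≤ Real.exp A := by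
    have := Real.add_one_le_exp A
    linarith
  -- the function F
  set F : ℂ → ℝ≥0∞ := fun z => ENNReal.ofReal (G - Real.log ‖Sh.f z‖) with hF
  have hFm : Measurable F :=
    (measurable_const.sub (Real.measurable_log.comp Sh.sb_measurable_f.norm)).ennreal_ofReal
  have hGbox : ∀ z : ℂ, s8lo A k ≤ Sh.s9dep z → Sh.s9dep z ≤ Sh.s8hi A k → ‖Sh.f z‖ ≤ Real.exp G := by
    intro z hz1 hz2
    have hdep : Sh.s9dep z = Sh.Hr - z.im := rfl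
    rw [hdep] at hz1 hz2
    exact hG z (by linarith) (by linarith)
  have hadm : S8Adm ν (k - s) CT := s8_weight_adm (k - s) (1 / π) (1 / 2) (by positivity) _ ν hw
  have hrowB : ∀ δ ∈ Icc (s8lo A k) (Sh.s8hi A k), ∫⁻ x, F (Sh.s8pt x δ) ∂ν ≤ ENNReal.ofReal (Cr * (U + 1)) := by
    intro δ hδ
    have hδ0 : 0 < δ := lt_of_lt_of_le (Real.exp_pos _) (hlo.trans hδ.1)
    have h1 := hrow (k - s) δ G xa ν hka hδ0 (hδ.2.trans hhi')
      (fun z hz0 hz1 => hG z hz0 (by have := hlo.trans hδ.1; linarith)) hne hw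
    refine h1.trans ?_
    rw [ENNReal.ofReal_mul hCr.le, ENNReal.ofReal_add hU zero_le_one]
    exact mul_le_mul' le_rfl (add_le_add (ENNReal.ofReal_le_ofReal hU1) (ENNReal.ofReal_le_ofReal hU2))
  have hboxint := Sh.s8_box_int_le hH ν (k - s) CT hadm A k (A + 1) hA1 (by linarith)
    (by
      unfold s8w
      rw [mul_assoc]
      exact mul_le_mul_of_nonneg_left hAda (by linarith)) F
    (hFm.indicator Sh.sb_isOpen_D.measurableSet)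
    (fun z hz => by simp only [hF]; rw [Sh.sb_f_per z hz]) _ hrowB
  -- integral of Tq
  have hTq : ∫⁻ x, ENNReal.ofReal (Sh.s8Tq A k x) ∂ν ≤ ENNReal.ofReal (CA * (1 + W) * (1 + U)) := by
    calc ∫⁻ x, ENNReal.ofReal (Sh.s8Tq A k x) ∂ν
        ≤ ∫⁻ x, ENNReal.ofReal CA * (1 + ENNReal.ofReal (Real.exp (2 * k)) * Sh.s8Box A k F x) ∂ν :=
          lintegral_mono fun x => hbox k G x hGbox
      _ = ENNReal.ofReal CA * (1 + ENNReal.ofReal (Real.exp (2 * k)) * ∫⁻ x, Sh.s8Box A k F x ∂ν) := by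
          rw [lintegral_const_mul' _ _ ENNReal.ofReal_ne_top, lintegral_add_left measurable_const,
            lintegral_const_mul' _ _ ENNReal.ofReal_ne_top]
          simp
      _ ≤ ENNReal.ofReal CA * (1 + ENNReal.ofReal (Real.exp (2 * k)) *
            (ENNReal.ofReal (4 * (A + 1) * Real.exp (2 * A) * Real.exp (-(2 * k)) * CT (A + 1)) *
              ENNReal.ofReal (Cr * (U + 1)))) :=
          mul_le_mul' le_rfl (add_le_add le_rfl (mul_le_mul' le_rfl hboxint))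
      _ = ENNReal.ofReal (CA * (1 + W * (U + 1))) := by
          rw [← ENNReal.ofReal_mul (by positivity), ← ENNReal.ofReal_mul (by positivity),
            ← ENNReal.ofReal_one, ← ENNReal.ofReal_add zero_le_one (by positivity),
            ← ENNReal.ofReal_mul hCA.le]
          congr 3
          have : Real.exp (2 * k) * Real.exp (-(2 * k)) = 1 := by rw [← Real.exp_add]; simp
          rw [hW]
          calc Real.exp (2 * k) * (4 * (A + 1) * Real.exp (2 * A) * Real.exp (-(2 * k)) * CT (A + 1) *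
                (Cr * (U + 1)))
              = (Real.exp (2 * k) * Real.exp (-(2 * k))) * (4 * (A + 1) * Real.exp (2 * A) * CT (A + 1) *
                Cr * (U + 1)) := by ring
            _ = _ := by rw [this, one_mul]
      _ ≤ _ := by
          apply ENNReal.ofReal_le_ofReal
          have e : CA * (1 + W) * (1 + U) = CA * ((1 + W) * (1 + U)) := by ring
          rw [e]
          refine mul_le_mul_of_nonneg_left ?_ hCA.le
          nlinarith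
  -- Markov
  have hsub : {x | ∃ S ∈ s8K m, 1 / M1 < ‖Sh.s9Q k x S‖} ⊆
      {x | ENNReal.ofReal (Sh.μ k / r) ≤ ENNReal.ofReal (Sh.s8Tq A k x)} := by
    rintro x ⟨S, ⟨hS1, hS2, hS3⟩, hQ⟩
    rw [← hM1] at hS1 hS2 hS3
    apply ENNReal.ofReal_le_ofReal
    set z : ℂ := (x : ℂ) + I * Sh.Hr + (Real.exp (-k) : ℝ) * S with hz
    have hzim : z.im = Sh.Hr + Real.exp (-k) * S.im := by
      simp only [hz, Complex.add_im, Complex.mul_im, Complex.ofReal_im, Complex.ofReal_re,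
        Complex.I_im, Complex.I_re]
      ring
    have hzre : z.re = x + Real.exp (-k) * S.re := by
      simp only [hz, Complex.add_re, Complex.mul_re, Complex.ofReal_im, Complex.ofReal_re,
        Complex.I_im, Complex.I_re]
      ring
    have hdep : Sh.s9dep z = -(Real.exp (-k) * S.im) := by
      rw [Shape.s9dep, hzim]; ring
    have hdeplo : Real.exp (-k) / M1 ≤ Sh.s9dep z := by
      rw [hdep, div_eq_mul_one_div]
      have := mul_le_mul_of_nonneg_left hS3 hdk.le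
      linarith
    have hdephi : Sh.s9dep z ≤ M1 * Real.exp (-k) := by
      rw [hdep]
      have := mul_le_mul_of_nonneg_left hS2 hdk.le
      linarith
    have htile : z ∈ Sh.s9tile A k x := by
      refine ⟨?_, ?_, ?_, ?_⟩
      · refine le_trans ?_ hdeplo
        rw [Real.exp_neg A, div_eq_inv_mul]
        exact mul_le_mul_of_nonneg_right (inv_anti₀ hM1pos hM1exp) hdk.le
      · exact hdephi.trans (mul_le_mul_of_nonneg_right hM1exp hdk.le)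
      · rw [hzre, add_sub_cancel_left, abs_mul, abs_of_pos hdk]
        calc Real.exp (-k) * |S.re| ≤ Real.exp (-k) * M1 := mul_le_mul_of_nonneg_left hS1 hdk.le
          _ = A * (Real.exp (-k) / M1) := by rw [hA]; field_simp
          _ ≤ A * Sh.s9dep z := mul_le_mul_of_nonneg_left hdeplo (by linarith)
      · have h1 : Sh.s9dep z ≤ da :=
          hdephi.trans ((mul_le_mul_of_nonneg_right hM1exp hdk.le).trans hAda)
        have h2 : Sh.s9dep z = Sh.Hr - z.im := rfl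
        rw [h2] at h1
        linarith
    have hTq' := Sh.s8_le_Tq hH A k x z htile
    refine le_trans ?_ hTq'
    have hQn : ‖Sh.s9Q k x S‖ = (Real.exp (-k) * Real.sqrt ‖Sh.q z‖ / Sh.μ k) ^ 2 := by
      unfold Shape.s9Q
      rw [norm_mul, Complex.norm_real, Real.norm_of_nonneg (by positivity), div_pow, div_pow, mul_pow,
        Real.sq_sqrt (norm_nonneg _)]
      ring
    rw [hQn] at hQ
    have h1r : 1 / M1 = (1 / r) ^ 2 := by rw [div_pow, one_pow, sq, hrr]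
    rw [h1r] at hQ
    have h5 : 1 / r < Real.exp (-k) * Real.sqrt ‖Sh.q z‖ / Sh.μ k :=
      lt_of_pow_lt_pow_left₀ 2 (by positivity) hQ
    rw [div_lt_div_iff₀ hr0 hμk] at h5
    rw [div_le_iff₀ hr0]
    linarith
  have hε0 : ENNReal.ofReal (Sh.μ k / r) ≠ 0 := (ENNReal.ofReal_pos.2 (by positivity)).ne'
  calc ν {x | ∃ S ∈ s8K m, 1 / M1 < ‖Sh.s9Q k x S‖}
      ≤ ν {x | ENNReal.ofReal (Sh.μ k / r) ≤ ENNReal.ofReal (Sh.s8Tq A k x)} := measure_mono hsub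
    _ ≤ (∫⁻ x, ENNReal.ofReal (Sh.s8Tq A k x) ∂ν) / ENNReal.ofReal (Sh.μ k / r) :=
        meas_ge_le_lintegral_div ((Sh.s8_Tq_meas hH A k).ennreal_ofReal.aemeasurable) hε0
          ENNReal.ofReal_ne_top
    _ ≤ ENNReal.ofReal (CA * (1 + W) * (1 + U)) / ENNReal.ofReal (Sh.μ k / r) :=
        ENNReal.div_le_div_right hTq _
    _ = ENNReal.ofReal (CA * (1 + W) * (1 + U) / (Sh.μ k / r)) :=
        (ENNReal.ofReal_div_of_pos (by positivity)).symm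
    _ ≤ _ := by
        apply ENNReal.ofReal_le_ofReal
        have e1 : CA * (1 + W) * (1 + U) / (Sh.μ k / r) = r * (CA * (1 + W)) * (1 + U) / Sh.μ k := by
          field_simp
        rw [e1]
        refine div_le_div_of_nonneg_right ?_ hμk.le
        exact mul_le_mul_of_nonneg_right (le_max_right _ _) (by linarith)

/-- the field `coarse` of the term built in `s8_charge_term`. -/
theorem s8ct_coarse (hH : Sh.H ≠ ⊤) (m : ℕ) (CTm k s X : ℝ) (ν : Measure ℝ) (hν : IsProbabilityMeasure ν)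
    (hCT : 0 < CTm) (hT : ∀ j ≥ Sh.s9k0, ∀ x : ℝ, Sh.s8T ((m : ℝ) + 1) j x ≤ CTm * (1 + j) ^ 2)
    (hkX : k ≤ X) (hs : 3 ≤ s) (hB : 1 ≤ Sh.μ k)
    (hn3 : CTm * (1 + X) ^ 2 ≤ Real.exp (2 / ((m : ℝ) + 1) * (s - 3))) :
    ∀ β : ℝ, 2 / ((m : ℝ) + 1) ≤ β → β < 1 / 2 → ∀ A : ℝ, 1 ≤ A → A ≤ m →
      ∀ j ∈ Icc Sh.s9k0 (k - s + 3), Sh.s9TileL2 ν A j (1 * Sh.μ k * Real.exp (β * (k - j))) := by
  intro β hβ _ A hA hAm j hj
  have hk01 := (Sh.s8_k0 hH).1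
  have hM1 : 0 < (m : ℝ) + 1 := by positivity
  have hβ0 : 0 ≤ β := le_trans (by positivity) hβ
  rw [Sh.s8_tileL2_iff hH]
  have hpt : ∀ x : ℝ, Sh.s8T A j x ≤ 1 * Sh.μ k * Real.exp (β * (k - j)) := by
    intro x
    have h1 : Sh.s8T A j x ≤ Sh.s8T ((m : ℝ) + 1) j x :=
      Sh.s8_T_mono hH A _ j x (by linarith) (by linarith)
    have h2 := hT j hj.1 x
    have h3 : CTm * (1 + j) ^ 2 ≤ CTm * (1 + X) ^ 2 := by
      apply mul_le_mul_of_nonneg_left _ hCT.le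
      apply pow_le_pow_left₀ (by linarith [hj.1])
      linarith [hj.2]
    have h4 : Real.exp (2 / ((m : ℝ) + 1) * (s - 3)) ≤ Real.exp (β * (k - j)) := by
      apply Real.exp_le_exp.2
      calc 2 / ((m : ℝ) + 1) * (s - 3) ≤ β * (s - 3) :=
            mul_le_mul_of_nonneg_right hβ (by linarith)
        _ ≤ β * (k - j) := mul_le_mul_of_nonneg_left (by linarith [hj.2]) hβ0
    have h5 : Real.exp (β * (k - j)) ≤ 1 * Sh.μ k * Real.exp (β * (k - j)) := by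
      rw [one_mul]
      exact le_mul_of_one_le_left (Real.exp_pos _).le hB
    linarith
  calc Sh.s8T2 ν A j = ∫⁻ x, ENNReal.ofReal (Sh.s8T A j x) ^ 2 ∂ν := rfl
    _ ≤ ∫⁻ _x, ENNReal.ofReal ((1 * Sh.μ k * Real.exp (β * (k - j))) ^ 2) ∂ν := by
        apply lintegral_mono
        intro x
        show ENNReal.ofReal (Sh.s8T A j x) ^ 2 ≤ _
        rw [← ENNReal.ofReal_pow (Sh.s8_T_nonneg A j x)]
        exact ENNReal.ofReal_le_ofReal (pow_le_pow_left₀ (Sh.s8_T_nonneg A j x) (hpt x) 2)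
    _ = ENNReal.ofReal ((1 * Sh.μ k * Real.exp (β * (k - j))) ^ 2) := by
        rw [lintegral_const, measure_univ, mul_one]

/-- the field `anchor` of the term built in `s8_charge_term`. -/
theorem s8ct_anchor (m : ℕ) (Cp k s xa X : ℝ) (hka : 0 ≤ k - s) (hCp : 0 < Cp)
    (hP : ∀ x : ℝ, Real.exp (-(k - s)) * |Sh.s9P (Sh.s8pt x (Real.exp (-(k - s))))| ≤
      Cp * (1 + (k - s)) ^ 4)
    (hkX : k - s ≤ X) (hs : 0 ≤ s) (hB : 1 ≤ Sh.μ k)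
    (hn4 : Cp * (1 + X) ^ 4 ≤ Real.exp (4 / ((m : ℝ) + 1) * s)) :
    ∀ β : ℝ, 2 / ((m : ℝ) + 1) ≤ β → β < 1 / 2 →
      ∫⁻ x, ENNReal.ofReal |Sh.s9P ⟨x, Sh.Hr - Real.exp (-(k - s))⟩| ∂(Measure.dirac xa) ≤
        ENNReal.ofReal (1 * Sh.μ k ^ 2 * Real.exp (2 * β * s) / Real.exp (-(k - s))) := by
  intro β hβ _
  rw [lintegral_dirac]
  apply ENNReal.ofReal_le_ofReal
  rw [le_div_iff₀ (Real.exp_pos _)]
  have h1 := hP xa
  have h2 : Cp * (1 + (k - s)) ^ 4 ≤ Cp * (1 + X) ^ 4 := by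
    apply mul_le_mul_of_nonneg_left _ hCp.le
    exact pow_le_pow_left₀ (by linarith) (by linarith) 4
  have h3 : Real.exp (4 / ((m : ℝ) + 1) * s) ≤ Real.exp (2 * β * s) := by
    apply Real.exp_le_exp.2
    apply mul_le_mul_of_nonneg_right _ hs
    have : 4 / ((m : ℝ) + 1) = 2 * (2 / ((m : ℝ) + 1)) := by ring
    rw [this]; linarith
  have h4 : Real.exp (2 * β * s) ≤ 1 * Sh.μ k ^ 2 * Real.exp (2 * β * s) := by
    rw [one_mul]
    exact le_mul_of_one_le_left (Real.exp_pos _).le (one_le_pow₀ hB)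
  have h5 : |Sh.s9P ⟨xa, Sh.Hr - Real.exp (-(k - s))⟩| * Real.exp (-(k - s))
      = Real.exp (-(k - s)) * |Sh.s9P (Sh.s8pt xa (Real.exp (-(k - s))))| := mul_comm _ _
  rw [h5]
  linarith

/-- the field `qsmall` of the term built in `s8_charge_term`. -/
theorem s8ct_q (hH : Sh.H ≠ ⊤) (m : ℕ) (Cp Cm' Cm κ k s sh xa α : ℝ) (ν : Measure ℝ) (hCp : 1 ≤ Cp)
    (hrow : ∀ k ≥ Sh.s9k0, Real.exp (-k) * Sh.rowMax (Sh.Hr - Real.exp (-k)) ≤ Cp * (1 + k) ^ 2)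
    (hCm' : 1 ≤ Cm') (hCm : 1 ≤ Cm) (hCC : 2 * ((m : ℝ) + 1) * Cm' ≤ Cm)
    (hq : ∀ (G U : ℝ), Sh.s9k0 ≤ k - s → ((m : ℝ) + 1) ^ 2 + 2 ≤ s →
      0 < Sh.μ k →
      (∀ z : ℂ, 0 ≤ z.im → z.im ≤ Sh.Hr - Real.exp (-(k + ((m : ℝ) + 1) ^ 2 + 1)) → ‖Sh.f z‖ ≤ Real.exp G) →
      Sh.f (Sh.s8pt xa (Real.exp (-(k - s)))) ≠ 0 →
      S9Weight (Real.exp (-(k - s))) (1 / π) (1 / 2) (Measure.dirac xa) ν → 0 ≤ U →
      G - Real.log ‖Sh.f (Sh.s8pt xa (Real.exp (-(k - s))))‖ ≤ U →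
      Real.exp (-(k - s)) * (G - Sh.s8L0) ≤ 1 →
      ν {x | ∃ S ∈ s8K m, 1 / ((m : ℝ) + 1) < ‖Sh.s9Q k x S‖} ≤ ENNReal.ofReal (Cm' * (1 + U) / Sh.μ k))
    (hk1 : k ≤ κ + sh) (hk2 : κ - sh ≤ k) (hk : Sh.s9k0 ≤ k) (hka : Sh.s9k0 ≤ k - s)
    (n2 : ((m : ℝ) + 1) ^ 2 + 2 ≤ s)
    (n5 : sh + ((m : ℝ) + 1) ^ 2 + 1 ≤ Cm * Real.log κ) (n6 : sh + s ≤ Cm * Real.log κ)
    (n7 : Real.exp (-(κ - sh - s)) *
        (κ + sh + ((m : ℝ) + 1) ^ 2 + 1 + Real.log (Cp * (2 + κ + sh + ((m : ℝ) + 1) ^ 2) ^ 2) - Sh.s8L0) ≤ 1)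
    (n8 : 2 * ((m : ℝ) + 1) * Cm' ≤ κ ^ α) (n9 : Sh.s9k0 ≤ κ - Cm * Real.log κ)
    (hb : κ ^ α ≤ Sh.μf κ) (hbB : Sh.μf κ ≤ Sh.μ k)
    (hG : Sh.s8Gf (κ + Cm * Real.log κ) - Sh.s8Gf (κ - Cm * Real.log κ) ≤ Sh.μf κ / Cm)
    (hxa : Sh.f (Sh.s8pt xa (Real.exp (-(k - s)))) ≠ 0)
    (hxa' : Real.log ‖Sh.f (Sh.s8pt xa (Real.exp (-(k - s))))‖ = Sh.s8Gf (k - s))
    (hw : S9Weight (Real.exp (-(k - s))) (1 / π) (1 / 2) (Measure.dirac xa) ν) :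
    ν {x | ∃ S ∈ s8K m, 1 / ((m : ℝ) + 1) < ‖Sh.s9Q k x S‖} ≤ ENNReal.ofReal (1 / ((m : ℝ) + 1)) := by
  have hM1 : 0 < (m : ℝ) + 1 := by positivity
  have hk01 := (Sh.s8_k0 hH).1
  have hmono := Sh.s8_Gf_mono hH
  have hCm0 : 0 < Cm := by linarith
  have hCm'0 : 0 < Cm' := by linarith
  have hb0 : 0 < Sh.μf κ := by
    have : 0 < 2 * ((m : ℝ) + 1) * Cm' := by positivity
    linarith
  have hB0 : 0 < Sh.μ k := by linarith
  have hv : Sh.s9k0 ≤ k + ((m : ℝ) + 1) ^ 2 + 1 := by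
    have : 0 ≤ ((m : ℝ) + 1) ^ 2 := by positivity
    linarith
  have hU : Sh.s8Gf (k + ((m : ℝ) + 1) ^ 2 + 1)
      - Real.log ‖Sh.f (Sh.s8pt xa (Real.exp (-(k - s))))‖ ≤ Sh.μf κ / Cm := by
    rw [hxa']
    have h1 : Sh.s8Gf (k + ((m : ℝ) + 1) ^ 2 + 1) ≤ Sh.s8Gf (κ + Cm * Real.log κ) :=
      hmono (mem_Ici.2 hv) (mem_Ici.2 (by linarith)) (by linarith)
    have h2 : Sh.s8Gf (κ - Cm * Real.log κ) ≤ Sh.s8Gf (k - s) :=
      hmono (mem_Ici.2 n9) (mem_Ici.2 hka) (by linarith)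
    linarith
  have hda : Real.exp (-(k - s)) * (Sh.s8Gf (k + ((m : ℝ) + 1) ^ 2 + 1) - Sh.s8L0) ≤ 1 := by
    rcases le_or_gt (Sh.s8Gf (k + ((m : ℝ) + 1) ^ 2 + 1) - Sh.s8L0) 0 with hneg | hpos
    · have := mul_nonpos_of_nonneg_of_nonpos (Real.exp_pos (-(k - s))).le hneg
      linarith
    · have h1 := Sh.s8_Gf_le hH Cp hrow _ hv
      have h0 : 0 < 1 + (k + ((m : ℝ) + 1) ^ 2 + 1) := by
        have : 0 ≤ ((m : ℝ) + 1) ^ 2 := by positivity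
        linarith
      have h2 : Real.log (Cp * (1 + (k + ((m : ℝ) + 1) ^ 2 + 1)) ^ 2)
          ≤ Real.log (Cp * (2 + κ + sh + ((m : ℝ) + 1) ^ 2) ^ 2) := by
        apply Real.log_le_log (by positivity)
        apply mul_le_mul_of_nonneg_left _ (by linarith)
        exact pow_le_pow_left₀ h0.le (by linarith) 2
      have h3 : Real.exp (-(k - s)) ≤ Real.exp (-(κ - sh - s)) := Real.exp_le_exp.2 (by linarith)
      calc Real.exp (-(k - s)) * (Sh.s8Gf (k + ((m : ℝ) + 1) ^ 2 + 1) - Sh.s8L0)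
          ≤ Real.exp (-(κ - sh - s)) * (Sh.s8Gf (k + ((m : ℝ) + 1) ^ 2 + 1) - Sh.s8L0) :=
            mul_le_mul_of_nonneg_right h3 hpos.le
        _ ≤ Real.exp (-(κ - sh - s)) * (κ + sh + ((m : ℝ) + 1) ^ 2 + 1
              + Real.log (Cp * (2 + κ + sh + ((m : ℝ) + 1) ^ 2) ^ 2) - Sh.s8L0) :=
            mul_le_mul_of_nonneg_left (by linarith) (Real.exp_pos _).le
        _ ≤ 1 := n7
  refine (hq _ (Sh.μf κ / Cm) hka n2 hB0 (Sh.s8_f_le_Gf hH _ hv) hxa hw (by positivity) hU hda).trans ?_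
  apply ENNReal.ofReal_le_ofReal
  rw [div_le_div_iff₀ hB0 hM1, one_mul]
  -- `Cm' (1 + b/Cm) M1 ≤ B`
  have h1 : Cm' * ((m : ℝ) + 1) ≤ Sh.μ k / 2 := by nlinarith
  have h2 : Cm' * (Sh.μf κ / Cm) * ((m : ℝ) + 1) ≤ Sh.μ k / 2 := by
    have h3 : Cm' * (Sh.μf κ / Cm) * ((m : ℝ) + 1) = (2 * ((m : ℝ) + 1) * Cm') * Sh.μf κ / (2 * Cm) := by
      field_simp
    rw [h3, div_le_div_iff₀ (by positivity) (by norm_num)]
    have h4 : 2 * ((m : ℝ) + 1) * Cm' * Sh.μf κ ≤ Cm * Sh.μ k :=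
      mul_le_mul hCC hbB hb0.le hCm0.le
    nlinarith
  nlinarith

/-- **one term of a prohibited sequence from a failed growth charge.** -/
theorem s8_charge_term (hH : Sh.H ≠ ⊤) (ho : Sh.order = 1) (Cp α : ℝ) (hCp : 1 ≤ Cp) (hα : 0 < α)
    (hpoly : ∀ k ≥ Sh.s9k0, Sh.μ k ≤ Cp * (1 + k) ∧
      Real.exp (-k) * Sh.rowMax (Sh.Hr - Real.exp (-k)) ≤ Cp * (1 + k) ^ 2 ∧
      ∀ x : ℝ, Real.exp (-k) * |Sh.s9P (Sh.s8pt x (Real.exp (-k)))| ≤ Cp * (1 + k) ^ 4) (m : ℕ) :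
    ∃ Cm κm : ℝ, 1 ≤ Cm ∧ 3 ≤ κm ∧ (∀ κ ≥ κm, Sh.s9k0 ≤ κ - Cm * Real.log κ) ∧
      ∀ κ ≥ κm, κ ^ α ≤ Sh.μf κ →
      Sh.s8Gf (κ + Cm * Real.log κ) - Sh.s8Gf (κ - Cm * Real.log κ) ≤ Sh.μf κ / Cm →
      ∃ (k s : ℝ) (ω ν : Measure ℝ), S8Term Sh (1 / π) (1 / 2) 1 (fun _ => 1) (fun _ => 1) m k s ω ν := by
  have hm0 : (0 : ℝ) ≤ (m : ℝ) := Nat.cast_nonneg m
  have hM1 : 0 < (m : ℝ) + 1 := by positivity
  have hmsq : (m : ℝ) ≤ ((m : ℝ) + 1) ^ 2 := by nlinarith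
  have hsq1 : (1 : ℝ) ≤ ((m : ℝ) + 1) ^ 2 := one_le_pow₀ (by linarith)
  obtain ⟨hk01, hk02⟩ := Sh.s8_k0 hH
  obtain ⟨CTm, hCTm, hT⟩ := Sh.s8_T_poly hH Cp (fun k hk => (hpoly k hk).2.1) ((m : ℝ) + 1) hM1.le
  obtain ⟨Cm', hCm', hq⟩ := Sh.s8_charge_q hH m
  have hmC : (m : ℝ) ≤ 2 * ((m : ℝ) + 1) * Cm' := by nlinarith
  obtain ⟨Cm, κm, hCm, hκm, hCC, hnum⟩ :=
    s8_charge_num m Cp CTm Cm' α Sh.s8L0 (max (m : ℝ) Sh.s9k0) hCp hCTm hCm' hα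
  have hlow : ∀ κ ≥ κm, Sh.s9k0 ≤ κ - Cm * Real.log κ := by
    intro κ hκ
    have h1 : (1 : ℝ) ≤ 2 * ((m : ℝ) + 1) * Cp * (1 + κ) := by
      have a1 : (1 : ℝ) ≤ 2 * ((m : ℝ) + 1) := by linarith
      have a2 : (1 : ℝ) ≤ 1 + κ := by linarith
      exact one_le_mul_of_one_le_of_one_le (one_le_mul_of_one_le_of_one_le a1 hCp) a2
    have hlog := Real.log_nonneg h1
    obtain ⟨-, -, -, -, -, -, -, -, h9⟩ := hnum κ 0 hκ le_rfl (by positivity)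
    exact (le_max_right _ _).trans h9
  refine ⟨Cm, κm, hCm, hκm, hlow, ?_⟩
  intro κ hκ hb hG
  have hκ3 : 3 ≤ κ := hκm.trans hκ
  have hκ0 : 0 < κ := by linarith
  have hlogκ : 0 ≤ Real.log κ := Real.log_nonneg (by linarith)
  have hκk0 : Sh.s9k0 ≤ κ := by
    have h1 := hlow κ hκ
    have h2 : 0 ≤ Cm * Real.log κ := by positivity
    linarith
  have hb1 : 1 ≤ Sh.μf κ := (Real.one_le_rpow (by linarith) hα.le).trans hb
  obtain ⟨k, hk, hmax⟩ := Sh.s8_normal_level hH ho (1 / ((m : ℝ) + 1)) κ (by positivity) hκk0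
  have hμκ : Sh.μf κ ≤ Sh.μ κ := Sh.s8_muf_le_mu hH κ hκk0
  have hmaxκ : Sh.μ κ ≤ Sh.μ k * Real.exp (-(1 / ((m : ℝ) + 1) * |k - κ|)) := by
    have := hmax κ hκk0
    simpa using this
  have hsh := s8_charge_shift (1 / ((m : ℝ) + 1)) κ k Cp (Sh.μ κ) (Sh.μ k) (by positivity)
    (by rw [div_le_one hM1]; linarith) hκ0.le (by linarith) (by linarith) (hb1.trans hμκ) hmaxκ
    (hpoly k hk).1
  have h2e : 2 / (1 / ((m : ℝ) + 1)) = 2 * ((m : ℝ) + 1) := by field_simp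
  rw [h2e] at hsh
  obtain ⟨n1, n2, n3, n4, n5, n6, n7, n8, n9⟩ := hnum κ |k - κ| hκ (abs_nonneg _) hsh
  have hk1 : k ≤ κ + |k - κ| := by linarith [le_abs_self (k - κ)]
  have hk2 : κ - |k - κ| ≤ k := by linarith [neg_abs_le (k - κ)]
  obtain ⟨sh, hshd⟩ : ∃ sh : ℝ, sh = |k - κ| := ⟨_, rfl⟩
  obtain ⟨s, hsd⟩ : ∃ s : ℝ, s = 3 + 2 * ((m : ℝ) + 1) * Real.log κ := ⟨_, rfl⟩
  have hs3 : 2 * ((m : ℝ) + 1) * Real.log κ = s - 3 := by rw [hsd]; ring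
  rw [hs3] at n3
  rw [← hsd] at n1 n2 n4 n6 n7
  rw [← hshd] at n1 n3 n4 n5 n6 n7 hk1 hk2
  have hsh0 : 0 ≤ sh := hshd ▸ abs_nonneg _
  have hs3' : 3 ≤ s := by linarith
  have hsm : (m : ℝ) ≤ s := by linarith
  have hkaK : max (m : ℝ) Sh.s9k0 ≤ k - s := by linarith
  have hka : Sh.s9k0 ≤ k - s := (le_max_right _ _).trans hkaK
  have hkam : (m : ℝ) ≤ k - s := (le_max_left _ _).trans hkaK
  have hbB : Sh.μf κ ≤ Sh.μ k := by
    have h1 : Real.exp (-(1 / ((m : ℝ) + 1) * |k - κ|)) ≤ 1 := by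
      apply Real.exp_le_one_iff.2
      have : 0 ≤ 1 / ((m : ℝ) + 1) * |k - κ| := by positivity
      linarith
    have h2 := mul_le_mul_of_nonneg_left h1 (Sh.s8_mu_nonneg k)
    linarith
  have hB1 : 1 ≤ Sh.μ k := hb1.trans hbB
  obtain ⟨xa, hxaI, hxa, hxa'⟩ := Sh.s8_Gf_attained hH (k - s) hka
  have hda1 : Real.exp (-(k - s)) ≤ 1 := Real.exp_le_one_iff.2 (by linarith)
  obtain ⟨ν, hw, -⟩ := s8_mkWeight (Real.exp (-(k - s))) (Real.exp_pos _) hda1 (Measure.dirac xa)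
    inferInstance (by
      rw [Measure.dirac_apply' _ measurableSet_Ico.compl]
      simp [hxaI])
  refine ⟨k, s, Measure.dirac xa, ν, ?_⟩
  exact
    { k_ge := by linarith
      B_ge := by linarith
      normal := Sh.s8_normal_of_max (1 / ((m : ℝ) + 1)) κ k (by positivity) hmax
      ka_ge := hkam
      s_ge := hsm
      weight := hw
      coarse := Sh.s8ct_coarse hH m CTm k s (κ + sh) ν hw.ν_prob hCTm hT hk1 hs3' hB1
        (by rw [← add_assoc]; exact n3)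
      anchor := Sh.s8ct_anchor m Cp k s xa (κ + sh) (by linarith) (by linarith) (hpoly _ hka).2.2
        (by linarith) (by linarith) hB1 (by rw [← add_assoc]; exact n4)
      qsmall := Sh.s8ct_q hH m Cp Cm' Cm κ k s sh xa α ν hCp (fun k hk => (hpoly k hk).2.1) hCm' hCm hCC
        (fun G U => hq k s G xa U ν) hk1 hk2 hk hka n2 n5 n6 n7 n8 ((le_max_right _ _).trans n9) hb hbB hG
        hxa hxa' hw }

/-- **Lemma 8.11 (growth charge).** -/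
theorem s8_charge (hH : Sh.H ≠ ⊤) (ho : Sh.order = 1) (hno : IsEmpty (S9Prohibited Sh)) (Cp α : ℝ)
    (hCp : 1 ≤ Cp) (hα : 0 < α)
    (hpoly : ∀ k ≥ Sh.s9k0, Sh.μ k ≤ Cp * (1 + k) ∧
      Real.exp (-k) * Sh.rowMax (Sh.Hr - Real.exp (-k)) ≤ Cp * (1 + k) ^ 2 ∧
      ∀ x : ℝ, Real.exp (-k) * |Sh.s9P (Sh.s8pt x (Real.exp (-k)))| ≤ Cp * (1 + k) ^ 4) :
    ∃ C K₀ : ℝ, 1 ≤ C ∧ 3 ≤ K₀ ∧ (∀ κ ≥ K₀, Sh.s9k0 ≤ κ - C * Real.log κ) ∧
      ∀ κ ≥ K₀, κ ^ α ≤ Sh.μf κ →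
        Sh.μf κ / C < Sh.s8Gf (κ + C * Real.log κ) - Sh.s8Gf (κ - C * Real.log κ) := by
  obtain ⟨m, hm⟩ := s8_no_term Sh hno (1 / π) (1 / 2) 1 (fun _ => 1) (fun _ => 1) (by positivity)
  obtain ⟨Cm, κm, h1, h2, h3, h4⟩ := Sh.s8_charge_term hH ho Cp α hCp hα hpoly m
  refine ⟨Cm, κm, h1, h2, h3, ?_⟩
  intro κ hκ hb
  by_contra hcon
  obtain ⟨k, s, ω, ν, hT⟩ := h4 κ hκ hb (not_lt.mp hcon)
  exact hm k s ω ν hT

end Shape

end Claimed.Agent.R269
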