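-- KEEP
/-
Row 269, P1 Section 8.4: **Theorem 8.12 (conditional angle-budget reduction)** and the EXPORTS of Section 8.4 to Stage3.   Blueprint: helper48.
LEAF PACKAGES (fill IN PLACE):
  LF-S8-bud-shift : `s8_shift_int`      (HOST-FREE: integrals of a monotone function)
  LF-S8-bud-num   : `s8_budget_num`     (HOST-FREE real asymptotics)
  LF-S8-bud-main  : `s8_budget_of`      (Thm 8.12 from Prop 8.8, Cor 8.10, Lemma 8.11)
`s8_poly`, `s8_critical_poly`, `s8_critical_budget` are PROVED below from the contract.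
Black boxes: `Power.lean` (`s8_power`), `Term.lean` (`s8_poly_of_lin`), `Charge.lean` (`s8_charge`, `s8_Gf_mono`, `s8_Gf_le`), `BasicC.lean` (`s8_muf_cont`, `s8_muf_nonneg`).

PROOFS.
* `s8_shift_int`.  A monotone function is interval integrable (`Monotone.intervalIntegrable`).  `∫_a^b G(k+w) dk = ∫_{a+w}^{b+w} G`, `∫_a^b G(k-w) dk = ∫_{a-w}^{b-w} G` (`intervalIntegral.integral_comp_add_right`, `..sub_right`), and
  `∫_{a+w}^{b+w} G - ∫_{a-w}^{b-w} G = ∫_{b-w}^{b+w} G - ∫_{a-w}^{a+w} G` (additivity `intervalIntegral.integral_add_adjacent_intervals`, valid for any order of the end points) `≤ 2w G(b+w) - 2w G(a-w)`.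
* `s8_budget_num`: `ε = min (1/2) ε₁ / 2`.  `K^{3/2} ≤ K^{2-ε}`; `(1+K)^{1-ε₁} ≤ 2 K^{1-ε₁}`; the last factor is `≤ C K` and `log K ≤ C_δ K^{δ}` with `δ = ε₁/2` (`Real.log_le_rpow_div`/`Real.add_one_le_exp`): the product is `≤ C K^{2 - ε₁/2} ≤ C K^{2-ε}` (`K ≥ 3`).
* `s8_budget_of`.  `α = 1/4`.  `G̃ v = Gf (max v k₀)` is `Monotone` (`s8_Gf_mono`).  Fix `K ≥ K₀`, `w = Cch log K ≥ 0`.  POINTWISE for `k ∈ [K₀,K]`:
     `μ_f(k)² ≤ k^{1/2} + Cpw (1+K)^{1-ε₁} Cch (G̃(k+w) - G̃(k-w))`: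
  the bracket is `≥ 0`; if `μ_f k < k^{1/4}` then `μ_f(k)² ≤ k^{1/2}` (`μ_f ≥ 0`); otherwise `μ_f k ≤ Cch (Gf(k + Cch log k) - Gf(k - Cch log k)) ≤ Cch (G̃(k+w) - G̃(k-w))` (`log k ≤ log K`; `k - Cch log k ≥ k₀`, so `Gf(k - Cch log k) = G̃(k - Cch log k) ≥ G̃(k-w)`)
  and `μ_f k ≤ Cpw (1+k)^{1-ε₁} ≤ Cpw (1+K)^{1-ε₁}`.  Integrate (`μ_f²` continuous on `[K₀,K]`: `s8_muf_cont`; `intervalIntegral.integral_mono_on`): `∫_{K₀}^K k^{1/2} ≤ K · K^{1/2}`, `s8_shift_int`, `G̃(K₀-w) ≥ Gf k₀`, `G̃(K+w) = Gf(K+w) ≤ K + w + log (Cp (1+K+w)²)` (`s8_Gf_le`).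
  `s8_budget_num` with `Ca = Cpw Cch`, `Cw = Cch`, `g0 = Gf k₀`.   `k₀' = K₀' = max K₀ (threshold of num)`; `1 ≤ k₀'`, `e^{-k₀'} ≤ e^{-k₀} < Hr/10` (`s8_k0`, `K₀ ≥ k₀` because `k₀ ≤ K₀ - Cch log K₀ ≤ K₀`).
-/
import Claimed.Agent.R269.S8.Charge

set_option autoImplicit false

namespace Claimed.Agent.R269

open Complex ComplexConjugate Filter Topology MeasureTheory Set Metric
open scoped ENNReal Real

/-- HOST-FREE: the integral of the increments of a monotone function over windows of half width `w`. -/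
theorem s8_shift_int (G : ℝ → ℝ) (hG : Monotone G) (a b w : ℝ) (hab : a ≤ b) (hw : 0 ≤ w) :
    ∫ k in a..b, (G (k + w) - G (k - w)) ≤ 2 * w * (G (b + w) - G (a - w)) := by
  have hi : ∀ x y : ℝ, IntervalIntegrable G volume x y := fun x y => hG.intervalIntegrable
  have h1 : ∫ k in a..b, G (k + w) = ∫ k in (a + w)..(b + w), G k :=
    intervalIntegral.integral_comp_add_right G w
  have h2 : ∫ k in a..b, G (k - w) = ∫ k in (a - w)..(b - w), G k :=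
    intervalIntegral.integral_comp_sub_right G w
  have hi1 : IntervalIntegrable (fun k => G (k + w)) volume a b :=
    (hG.comp (monotone_id.add_const w)).intervalIntegrable
  have hi2 : IntervalIntegrable (fun k => G (k - w)) volume a b :=
    (Monotone.intervalIntegrable (fun x y hxy => hG (by linarith)))
  rw [intervalIntegral.integral_sub hi1 hi2, h1, h2]
  have h3 : ∫ k in (a + w)..(b + w), G k
      = (∫ k in (a + w)..(b - w), G k) + ∫ k in (b - w)..(b + w), G k :=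
    (intervalIntegral.integral_add_adjacent_intervals (hi _ _) (hi _ _)).symm
  have h4 : ∫ k in (a - w)..(b - w), G k
      = (∫ k in (a - w)..(a + w), G k) + ∫ k in (a + w)..(b - w), G k :=
    (intervalIntegral.integral_add_adjacent_intervals (hi _ _) (hi _ _)).symm
  have h5 : ∫ k in (b - w)..(b + w), G k ≤ ∫ _k in (b - w)..(b + w), G (b + w) :=
    intervalIntegral.integral_mono_on (by linarith) (hi _ _) intervalIntegrable_const
      (fun x hx => hG hx.2)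
  have h6 : ∫ _k in (a - w)..(a + w), G (a - w) ≤ ∫ k in (a - w)..(a + w), G k :=
    intervalIntegral.integral_mono_on (by linarith) intervalIntegrable_const (hi _ _)
      (fun x hx => hG hx.1)
  rw [intervalIntegral.integral_const, smul_eq_mul] at h5 h6
  rw [h3, h4]
  nlinarith

/-- HOST-FREE: the final power count. -/
theorem s8_budget_num (ε₁ Ca Cw Cp g0 : ℝ) (hε₁ : 0 < ε₁) (hε₁' : ε₁ < 1) (hCa : 0 ≤ Ca) (hCw : 0 ≤ Cw)
    (hCp : 1 ≤ Cp) :
    ∃ C K₁ : ℝ, 3 ≤ K₁ ∧ ∀ K ≥ K₁,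
      K * K ^ (1 / 2 : ℝ) + Ca * (1 + K) ^ (1 - ε₁) * (2 * (Cw * Real.log K) *
        (K + Cw * Real.log K + Real.log (Cp * (1 + (K + Cw * Real.log K)) ^ 2) - g0)) ≤
      C * K ^ (2 - min (1 / 2) ε₁ / 2) := by
  set e : ℝ := min (1 / 2) ε₁ / 2 with he
  have he1 : e ≤ 1 / 4 := by
    have := min_le_left (1 / 2 : ℝ) ε₁
    rw [he]; linarith
  have he2 : e ≤ ε₁ / 2 := by
    have := min_le_right (1 / 2 : ℝ) ε₁
    rw [he]; linarith
  have hlogCp : 0 ≤ Real.log Cp := Real.log_nonneg hCp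
  set CL : ℝ := 3 + 3 * Cw + Real.log Cp + |g0| with hCL
  have hCL0 : 0 ≤ CL := by positivity
  refine ⟨1 + 8 * Ca * Cw * CL / ε₁, 3, le_rfl, ?_⟩
  intro K hK
  have hK1 : 1 ≤ K := by linarith
  have hK0 : 0 < K := by linarith
  have hlog0 : 0 ≤ Real.log K := Real.log_nonneg hK1
  have hlogK : Real.log K ≤ K := (Real.log_le_sub_one_of_pos hK0).trans (by linarith)
  have hA : K * K ^ (1 / 2 : ℝ) ≤ K ^ (2 - e) := by
    calc K * K ^ (1 / 2 : ℝ) = K ^ (1 + 1 / 2 : ℝ) := by rw [Real.rpow_add hK0, Real.rpow_one]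
      _ ≤ K ^ (2 - e) := Real.rpow_le_rpow_of_exponent_le hK1 (by linarith)
  have hP1 : 0 < K ^ (1 - ε₁) := Real.rpow_pos_of_pos hK0 _
  have hP2 : 0 < K ^ (ε₁ / 2) := Real.rpow_pos_of_pos hK0 _
  have hB : (1 + K) ^ (1 - ε₁) ≤ 2 * K ^ (1 - ε₁) := by
    calc (1 + K) ^ (1 - ε₁) ≤ (2 * K) ^ (1 - ε₁) :=
          Real.rpow_le_rpow (by linarith) (by linarith) (by linarith)
      _ = 2 ^ (1 - ε₁) * K ^ (1 - ε₁) := Real.mul_rpow (by norm_num) hK0.le
      _ ≤ 2 * K ^ (1 - ε₁) := by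
        apply mul_le_mul_of_nonneg_right _ hP1.le
        calc (2 : ℝ) ^ (1 - ε₁) ≤ 2 ^ (1 : ℝ) :=
              Real.rpow_le_rpow_of_exponent_le (by norm_num) (by linarith)
          _ = 2 := Real.rpow_one _
  have hC : Real.log K ≤ K ^ (ε₁ / 2) / (ε₁ / 2) := Real.log_le_rpow_div hK0.le (by positivity)
  have hy : 0 ≤ K + Cw * Real.log K := by positivity
  have hL : K + Cw * Real.log K + Real.log (Cp * (1 + (K + Cw * Real.log K)) ^ 2) - g0 ≤ CL * K := by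
    have h1 : Real.log (Cp * (1 + (K + Cw * Real.log K)) ^ 2)
        = Real.log Cp + 2 * Real.log (1 + (K + Cw * Real.log K)) := by
      rw [Real.log_mul (by positivity) (by positivity), Real.log_pow]; norm_num
    have h2 : Real.log (1 + (K + Cw * Real.log K)) ≤ K + Cw * Real.log K := by
      have := Real.log_le_sub_one_of_pos (show 0 < 1 + (K + Cw * Real.log K) by positivity)
      linarith
    have h3 : Cw * Real.log K ≤ Cw * K := mul_le_mul_of_nonneg_left hlogK hCw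
    have h4 : -g0 ≤ |g0| := neg_le_abs g0
    have h5 : Real.log Cp ≤ Real.log Cp * K := le_mul_of_one_le_right hlogCp hK1
    have h6 : |g0| ≤ |g0| * K := le_mul_of_one_le_right (abs_nonneg _) hK1
    rw [h1, hCL]
    nlinarith
  have hpow : K ^ (1 - ε₁) * K ^ (ε₁ / 2) * K ≤ K ^ (2 - e) := by
    calc K ^ (1 - ε₁) * K ^ (ε₁ / 2) * K = K ^ (1 - ε₁ + ε₁ / 2 + 1) := by
          rw [Real.rpow_add hK0, Real.rpow_add hK0, Real.rpow_one]
      _ ≤ K ^ (2 - e) := Real.rpow_le_rpow_of_exponent_le hK1 (by linarith)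
  have hQ0 : 0 ≤ (1 + K) ^ (1 - ε₁) := Real.rpow_nonneg (by linarith) _
  have hmain : Ca * (1 + K) ^ (1 - ε₁) * (2 * (Cw * Real.log K) *
        (K + Cw * Real.log K + Real.log (Cp * (1 + (K + Cw * Real.log K)) ^ 2) - g0)) ≤
      8 * Ca * Cw * CL / ε₁ * K ^ (2 - e) := by
    calc Ca * (1 + K) ^ (1 - ε₁) * (2 * (Cw * Real.log K) *
        (K + Cw * Real.log K + Real.log (Cp * (1 + (K + Cw * Real.log K)) ^ 2) - g0))
        ≤ Ca * (1 + K) ^ (1 - ε₁) * (2 * (Cw * Real.log K) * (CL * K)) := by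
          apply mul_le_mul_of_nonneg_left _ (by positivity)
          exact mul_le_mul_of_nonneg_left hL (by positivity)
      _ ≤ Ca * (2 * K ^ (1 - ε₁)) * (2 * (Cw * (K ^ (ε₁ / 2) / (ε₁ / 2))) * (CL * K)) := by
          gcongr
      _ = 8 * Ca * Cw * CL / ε₁ * (K ^ (1 - ε₁) * K ^ (ε₁ / 2) * K) := by
          field_simp; ring
      _ ≤ 8 * Ca * Cw * CL / ε₁ * K ^ (2 - e) :=
          mul_le_mul_of_nonneg_left hpow (by positivity)
  calc _ ≤ K ^ (2 - e) + 8 * Ca * Cw * CL / ε₁ * K ^ (2 - e) := add_le_add hA hmain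
    _ = (1 + 8 * Ca * Cw * CL / ε₁) * K ^ (2 - e) := by ring

namespace Shape

variable (Sh : Shape)

/-- **Theorem 8.12** from the three conditional results. -/
theorem s8_budget_of (hH : Sh.H ≠ ⊤) (Cpw ε₁ Cp Cch K₀ : ℝ) (hCpw : 0 < Cpw) (hε₁ : 0 < ε₁) (hε₁' : ε₁ < 1)
    (hCp : 1 ≤ Cp) (hCch : 1 ≤ Cch) (hK₀ : 3 ≤ K₀)
    (hpw : ∀ k ≥ Sh.s9k0, Sh.μf k ≤ Cpw * (1 + k) ^ (1 - ε₁))
    (hrow : ∀ k ≥ Sh.s9k0, Real.exp (-k) * Sh.rowMax (Sh.Hr - Real.exp (-k)) ≤ Cp * (1 + k) ^ 2)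
    (hlow : ∀ κ ≥ K₀, Sh.s9k0 ≤ κ - Cch * Real.log κ)
    (hch : ∀ κ ≥ K₀, κ ^ (1 / 4 : ℝ) ≤ Sh.μf κ →
      Sh.μf κ / Cch < Sh.s8Gf (κ + Cch * Real.log κ) - Sh.s8Gf (κ - Cch * Real.log κ)) :
    ∃ (ε C k₀ : ℝ), 0 < ε ∧ 1 ≤ k₀ ∧ Real.exp (-k₀) < Sh.Hr ∧ ∀ K, k₀ ≤ K →
      ∫ k in k₀..K, Sh.μf k ^ 2 ≤ C * K ^ (2 - ε) := by
  have hCch0 : 0 < Cch := by linarith
  obtain ⟨C, K₁, hK₁, hnum⟩ := s8_budget_num ε₁ (Cpw * Cch) Cch Cp (Sh.s8Gf Sh.s9k0) hε₁ hε₁'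
    (by positivity) hCch0.le hCp
  have hmonoOn := Sh.s8_Gf_mono hH
  have hGle := Sh.s8_Gf_le hH Cp hrow
  obtain ⟨hk01, hk02⟩ := Sh.s8_k0 hH
  have hHr : 0 < Sh.Hr := by
    have := Real.exp_pos (-Sh.s9k0)
    linarith
  -- the monotone extension
  set Gt : ℝ → ℝ := fun v => Sh.s8Gf (max v Sh.s9k0) with hGt
  have hGtm : Monotone Gt := fun a b hab =>
    hmonoOn (mem_Ici.2 (le_max_right _ _)) (mem_Ici.2 (le_max_right _ _)) (max_le_max_right _ hab)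
  have hGt_eq : ∀ v, Sh.s9k0 ≤ v → Gt v = Sh.s8Gf v := fun v hv => by
    show Sh.s8Gf (max v Sh.s9k0) = _
    rw [max_eq_left hv]
  have hGt_low : ∀ v, Sh.s8Gf Sh.s9k0 ≤ Gt v := fun v =>
    hmonoOn (mem_Ici.2 le_rfl) (mem_Ici.2 (le_max_right _ _)) (le_max_right _ _)
  have hge : ∀ k, K₀ ≤ k → Sh.s9k0 ≤ k := by
    intro k hk
    have h1 := hlow k hk
    have h2 : 0 ≤ Real.log k := Real.log_nonneg (by linarith)
    have h3 : 0 ≤ Cch * Real.log k := by positivity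
    linarith
  refine ⟨min (1 / 2) ε₁ / 2, C, max K₀ K₁, by
    have : 0 < min (1 / 2 : ℝ) ε₁ := lt_min (by norm_num) hε₁
    positivity, (by linarith : (1 : ℝ) ≤ K₀).trans (le_max_left _ _), ?_, ?_⟩
  · have h1 : Real.exp (-(max K₀ K₁)) ≤ Real.exp (-Sh.s9k0) :=
      Real.exp_le_exp.2 (neg_le_neg ((hge K₀ le_rfl).trans (le_max_left _ _)))
    linarith
  intro K hK
  have hKK₀ : K₀ ≤ K := (le_max_left _ _).trans hK
  have hKK₁ : K₁ ≤ K := (le_max_right _ _).trans hK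
  have hK3 : 3 ≤ K := hK₀.trans hKK₀
  have hlogK : 0 ≤ Real.log K := Real.log_nonneg (by linarith)
  set w : ℝ := Cch * Real.log K with hw
  have hw0 : 0 ≤ w := by positivity
  set A : ℝ := Cpw * (1 + K) ^ (1 - ε₁) with hA
  have hA0 : 0 ≤ A := by
    have : 0 ≤ (1 + K) ^ (1 - ε₁) := Real.rpow_nonneg (by linarith) _
    positivity
  -- the pointwise bound
  have hpt : ∀ k ∈ Icc (max K₀ K₁) K,
      Sh.μf k ^ 2 ≤ K ^ (1 / 2 : ℝ) + A * Cch * (Gt (k + w) - Gt (k - w)) := by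
    intro k hk
    have hkK₀ : K₀ ≤ k := (le_max_left _ _).trans hk.1
    have hk3 : 3 ≤ k := hK₀.trans hkK₀
    have hk0 : 0 < k := by linarith
    have hbr : 0 ≤ Gt (k + w) - Gt (k - w) := sub_nonneg.2 (hGtm (by linarith))
    have hμ0 := Sh.s8_muf_nonneg k
    have hKh : 0 ≤ K ^ (1 / 2 : ℝ) := Real.rpow_nonneg (by linarith) _
    rcases lt_or_ge (Sh.μf k) (k ^ (1 / 4 : ℝ)) with hc | hc
    · have h1 : Sh.μf k ^ 2 ≤ (k ^ (1 / 4 : ℝ)) ^ 2 := pow_le_pow_left₀ hμ0 hc.le 2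
      have h2 : (k ^ (1 / 4 : ℝ)) ^ 2 = k ^ (1 / 2 : ℝ) := by
        rw [← Real.rpow_natCast, ← Real.rpow_mul hk0.le]; norm_num
      have h3 : k ^ (1 / 2 : ℝ) ≤ K ^ (1 / 2 : ℝ) := Real.rpow_le_rpow hk0.le hk.2 (by norm_num)
      have h4 : 0 ≤ A * Cch * (Gt (k + w) - Gt (k - w)) := by positivity
      linarith
    · have h1 := hch k hkK₀ hc
      rw [div_lt_iff₀ hCch0] at h1
      have hlogk : Real.log k ≤ Real.log K := Real.log_le_log hk0 hk.2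
      have hlk : Cch * Real.log k ≤ w := mul_le_mul_of_nonneg_left hlogk hCch0.le
      have hlogk0 : 0 ≤ Real.log k := Real.log_nonneg (by linarith)
      have h2 : Sh.s8Gf (k + Cch * Real.log k) ≤ Gt (k + w) := by
        rw [← hGt_eq _ (by
          have := hge k hkK₀
          have : 0 ≤ Cch * Real.log k := by positivity
          linarith)]
        exact hGtm (by linarith)
      have h3 : Gt (k - w) ≤ Sh.s8Gf (k - Cch * Real.log k) := by
        rw [← hGt_eq _ (hlow k hkK₀)]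
        exact hGtm (by linarith)
      have h4 : Sh.μf k ≤ Cch * (Gt (k + w) - Gt (k - w)) := by
        have : (Sh.s8Gf (k + Cch * Real.log k) - Sh.s8Gf (k - Cch * Real.log k)) * Cch
            ≤ (Gt (k + w) - Gt (k - w)) * Cch :=
          mul_le_mul_of_nonneg_right (by linarith) hCch0.le
        linarith
      have h5 : Sh.μf k ≤ A := by
        refine (hpw k (hge k hkK₀)).trans ?_
        apply mul_le_mul_of_nonneg_left _ hCpw.le
        exact Real.rpow_le_rpow (by linarith) (by linarith [hk.2]) (by linarith)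
      have h6 : Sh.μf k ^ 2 ≤ A * (Cch * (Gt (k + w) - Gt (k - w))) := by
        rw [sq]
        exact mul_le_mul h5 h4 hμ0 hA0
      linarith
  -- integrate
  have hi1 : IntervalIntegrable (fun k => Gt (k + w)) volume (max K₀ K₁) K :=
    (Monotone.intervalIntegrable (fun x y hxy => hGtm (by linarith)))
  have hi2 : IntervalIntegrable (fun k => Gt (k - w)) volume (max K₀ K₁) K :=
    (Monotone.intervalIntegrable (fun x y hxy => hGtm (by linarith)))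
  have hiR : IntervalIntegrable (fun k => K ^ (1 / 2 : ℝ) + A * Cch * (Gt (k + w) - Gt (k - w)))
      volume (max K₀ K₁) K :=
    intervalIntegrable_const.add ((hi1.sub hi2).const_mul _)
  have hiL : IntervalIntegrable (fun k => Sh.μf k ^ 2) volume (max K₀ K₁) K := by
    apply ContinuousOn.intervalIntegrable
    rw [uIcc_of_le hK]
    exact ((Sh.s8_muf_cont hH).mono (fun k hk => hge k ((le_max_left _ _).trans hk.1))).pow 2
  have hint := intervalIntegral.integral_mono_on hK hiL hiR hpt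
  have hsplit : ∫ k in (max K₀ K₁)..K, (K ^ (1 / 2 : ℝ) + A * Cch * (Gt (k + w) - Gt (k - w)))
      = (K - max K₀ K₁) * K ^ (1 / 2 : ℝ)
        + A * Cch * ∫ k in (max K₀ K₁)..K, (Gt (k + w) - Gt (k - w)) := by
    rw [intervalIntegral.integral_add intervalIntegrable_const ((hi1.sub hi2).const_mul _),
      intervalIntegral.integral_const, intervalIntegral.integral_const_mul, smul_eq_mul]
  have hshift := s8_shift_int Gt hGtm (max K₀ K₁) K w hK hw0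
  have hKh : 0 ≤ K ^ (1 / 2 : ℝ) := Real.rpow_nonneg (by linarith) _
  have h1 : (K - max K₀ K₁) * K ^ (1 / 2 : ℝ) ≤ K * K ^ (1 / 2 : ℝ) := by
    apply mul_le_mul_of_nonneg_right _ hKh
    have : 0 ≤ max K₀ K₁ := (by linarith : (0 : ℝ) ≤ K₀).trans (le_max_left _ _)
    linarith
  have hKw : Sh.s9k0 ≤ K + w := by
    have := hge K hKK₀
    linarith
  have h2 : Gt (K + w) - Gt (max K₀ K₁ - w)
      ≤ K + w + Real.log (Cp * (1 + (K + w)) ^ 2) - Sh.s8Gf Sh.s9k0 := by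
    have a1 := hGle (K + w) hKw
    rw [← hGt_eq _ hKw] at a1
    have a2 := hGt_low (max K₀ K₁ - w)
    linarith
  have h3 : A * Cch * ∫ k in (max K₀ K₁)..K, (Gt (k + w) - Gt (k - w))
      ≤ A * Cch * (2 * w * (K + w + Real.log (Cp * (1 + (K + w)) ^ 2) - Sh.s8Gf Sh.s9k0)) := by
    apply mul_le_mul_of_nonneg_left _ (by positivity)
    exact hshift.trans (mul_le_mul_of_nonneg_left h2 (by positivity))
  have hfin := hnum K hKK₁
  calc ∫ k in (max K₀ K₁)..K, Sh.μf k ^ 2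
      ≤ K * K ^ (1 / 2 : ℝ)
        + A * Cch * (2 * w * (K + w + Real.log (Cp * (1 + (K + w)) ^ 2) - Sh.s8Gf Sh.s9k0)) := by
        rw [hsplit] at hint
        linarith
    _ = K * K ^ (1 / 2 : ℝ) + Cpw * Cch * (1 + K) ^ (1 - ε₁) * (2 * (Cch * Real.log K) *
        (K + Cch * Real.log K + Real.log (Cp * (1 + (K + Cch * Real.log K)) ^ 2)
          - Sh.s8Gf Sh.s9k0)) := by
        rw [hA, hw]; ring
    _ ≤ _ := hfin

/-- **Corollary 8.10.** -/
theorem s8_poly (hH : Sh.H ≠ ⊤) (ho : Sh.order = 1) (hno : IsEmpty (S9Prohibited Sh)) :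
    ∃ C : ℝ, 1 ≤ C ∧ ∀ k ≥ Sh.s9k0, Sh.μ k ≤ C * (1 + k) ∧
      Real.exp (-k) * Sh.rowMax (Sh.Hr - Real.exp (-k)) ≤ C * (1 + k) ^ 2 ∧
      ∀ x : ℝ, Real.exp (-k) * |Sh.s9P (Sh.s8pt x (Real.exp (-k)))| ≤ C * (1 + k) ^ 4 := by
  obtain ⟨C, ε₁, hC, hε₁, hε₁', h⟩ := Sh.s8_power hH ho hno
  have hk0 := (Sh.s8_k0 hH).1
  obtain ⟨C', hC', h'⟩ := Sh.s8_poly_of_lin hH ho (max C 1) (le_max_right _ _) (by
    intro k hk
    have hk1 : (1 : ℝ) ≤ 1 + k := by linarith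
    calc Sh.μf k ≤ C * (1 + k) ^ (1 - ε₁) := h k hk
      _ ≤ C * (1 + k) ^ (1 : ℝ) :=
          mul_le_mul_of_nonneg_left (Real.rpow_le_rpow_of_exponent_le hk1 (by linarith)) hC.le
      _ = C * (1 + k) := by rw [Real.rpow_one]
      _ ≤ max C 1 * (1 + k) := by
          gcongr
          exact le_max_left _ _)
  refine ⟨max C' 1, le_max_right _ _, ?_⟩
  intro k hk
  have hk1 : (0 : ℝ) ≤ 1 + k := by linarith
  obtain ⟨h1, h2, h3⟩ := h' k hk
  have hle : C' ≤ max C' 1 := le_max_left _ _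
  refine ⟨h1.trans (by gcongr), h2.trans (by gcongr), fun x => (h3 x).trans (by gcongr)⟩

/-- EXPORT: `Shape.critical_poly` of Stage3.lean, from the exclusion of prohibited sequences (Theorem 9.1). -/
theorem s8_critical_poly (hH : Sh.H ≠ ⊤) (ho : Sh.order = 1) (hno : IsEmpty (S9Prohibited Sh)) :
    ∃ (C k₀ : ℝ), 1 ≤ k₀ ∧ ∀ k, k₀ ≤ k →
      Sh.μ k ≤ C * (1 + k) ∧ Real.exp (-k) * Sh.rowMax (Sh.Hr - Real.exp (-k)) ≤ C * (1 + k) ^ 2 := by
  obtain ⟨C, -, h⟩ := Sh.s8_poly hH ho hno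
  exact ⟨C, Sh.s9k0, (Sh.s8_k0 hH).1, fun k hk => ⟨(h k hk).1, (h k hk).2.1⟩⟩

/-- EXPORT: `Shape.critical_budget` of Stage3.lean, from the exclusion of prohibited sequences (Theorem 9.1). -/
theorem s8_critical_budget (hH : Sh.H ≠ ⊤) (ho : Sh.order = 1) (hno : IsEmpty (S9Prohibited Sh)) :
    ∃ (ε C k₀ : ℝ), 0 < ε ∧ 1 ≤ k₀ ∧ Real.exp (-k₀) < Sh.Hr ∧ ∀ K, k₀ ≤ K →
      ∫ k in k₀..K, Sh.μf k ^ 2 ≤ C * K ^ (2 - ε) := by
  obtain ⟨Cpw, ε₁, hCpw, hε₁, hε₁', hpw⟩ := Sh.s8_power hH ho hno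
  obtain ⟨Cp, hCp, hpoly⟩ := Sh.s8_poly hH ho hno
  obtain ⟨Cch, K₀, hCch, hK₀, hlow, hch⟩ :=
    Sh.s8_charge hH ho hno Cp (1 / 4) hCp (by norm_num) hpoly
  exact Sh.s8_budget_of hH Cpw ε₁ Cp Cch K₀ hCpw hε₁ hε₁' hCp hCch hK₀ hpw
    (fun k hk => (hpoly k hk).2.1) hlow hch

end Shape

end Claimed.Agent.R269
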